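import Crest.Agent.R240.Defs

/-!
# Row 240: parametric integrals, Hadamard's lemma, currying
-/

set_option autoImplicit false
set_option linter.unusedSectionVars false
set_option linter.unusedVariables false

open MeasureTheory Metric Set Filter Topology
open scoped ContDiff ENNReal

noncomputable section

namespace Crest.Agent.R240

section par
variable {P Y F : Type*} [NormedAddCommGroup P] [NormedSpace ℝ P] [FiniteDimensional ℝ P]
  [NormedAddCommGroup Y] [NormedSpace ℝ Y] [FiniteDimensional ℝ Y] [MeasurableSpace Y]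
  [BorelSpace Y] [NormedAddCommGroup F] [NormedSpace ℝ F] [CompleteSpace F]

/-- smooth functions whose support in the second variable is locally uniformly compact -/
structure LocC (Φ : P × Y → F) : Prop where
  smooth : ContDiff ℝ ∞ Φ
  supp : ∀ p₀, ∃ K, IsCompact K ∧ ∀ᶠ p in 𝓝 p₀, ∀ y, y ∉ K → Φ (p, y) = 0

/-- the same on a set `T` carrying the measure -/
structure LocT (T : Set Y) (Φ : P × Y → F) : Prop where
  smooth : ContDiff ℝ ∞ Φ
  supp : ∀ p₀, ∃ K, IsCompact K ∧ ∀ᶠ p in 𝓝 p₀, ∀ y ∈ T, y ∉ K → Φ (p, y) = 0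

namespace LocT
variable {T : Set Y} {Φ : P × Y → F} {μ : Measure Y} [IsFiniteMeasureOnCompacts μ]

theorem integrable (h : LocT T Φ) (hT : ∀ᵐ y ∂μ, y ∈ T) (p : P) :
    Integrable (fun y => Φ (p, y)) μ := by
  obtain ⟨K, hK, h1⟩ := h.supp p
  have h2 : Continuous fun y => Φ (p, y) := h.smooth.continuous.comp (by fun_prop)
  refine ((h2.continuousOn.integrableOn_compact hK).integrable_indicator hK.measurableSet).congr
    (hT.mono fun y hy => ?_)
  by_cases hy' : y ∈ K
  · exact indicator_of_mem hy' _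
  · exact (indicator_of_notMem hy' _).trans (h1.self_of_nhds y hy hy').symm

theorem hasFDerivAt_left (h : ContDiff ℝ ∞ Φ) (p : P) (y : Y) : HasFDerivAt (fun p => Φ (p, y))
    ((fderiv ℝ Φ (p, y)).comp (ContinuousLinearMap.inl ℝ P Y)) p :=
  (h.differentiable (by simp) (p, y)).hasFDerivAt.comp p (hasFDerivAt_prodMk_left p y)

theorem dP (h : LocT T Φ) :
    LocT T fun z => (fderiv ℝ Φ z).comp (ContinuousLinearMap.inl ℝ P Y) := by
  refine ⟨(h.smooth.fderiv_right (m := ∞) le_rfl).clm_comp contDiff_const, fun p₀ => ?_⟩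
  obtain ⟨K, hK, h1⟩ := h.supp p₀
  refine ⟨K, hK, h1.eventually_nhds.mono fun p hp y hy hy' => ?_⟩
  exact (hasFDerivAt_left h.smooth p y).unique
    ((hasFDerivAt_const (0 : F) p).congr_of_eventuallyEq (hp.mono fun q hq => hq y hy hy'))

theorem hasFDerivAt (h : LocT T Φ) (hT : ∀ᵐ y ∂μ, y ∈ T) (p : P) :
    HasFDerivAt (fun p => ∫ y, Φ (p, y) ∂μ)
      (∫ y, (fderiv ℝ Φ (p, y)).comp (ContinuousLinearMap.inl ℝ P Y) ∂μ) p := by
  obtain ⟨K, hK, h1⟩ := h.dP.supp p
  obtain ⟨C, hC⟩ := ((isCompact_closedBall p 1).prod hK).exists_bound_of_continuousOn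
    h.dP.smooth.continuous.continuousOn
  refine hasFDerivAt_integral_of_dominated_of_fderiv_le (bound := K.indicator fun _ => C)
    (F' := fun p y => (fderiv ℝ Φ (p, y)).comp (ContinuousLinearMap.inl ℝ P Y))
    (inter_mem h1 (closedBall_mem_nhds p one_pos))
    (Eventually.of_forall fun q => (h.integrable hT q).aestronglyMeasurable) (h.integrable hT p)
    (h.dP.integrable hT p).aestronglyMeasurable (hT.mono fun y hy q hq => ?_)
    ((continuousOn_const.integrableOn_compact hK).integrable_indicator hK.measurableSet)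
    (Eventually.of_forall fun y q _ => hasFDerivAt_left h.smooth q y)
  by_cases hy' : y ∈ K
  · rw [indicator_of_mem hy']
    exact hC (q, y) ⟨hq.2, hy'⟩
  · rw [indicator_of_notMem hy', hq.1 y hy hy', norm_zero]

theorem fderiv_integral (h : LocT T Φ) (hT : ∀ᵐ y ∂μ, y ∈ T) (p v : P) :
    fderiv ℝ (fun p => ∫ y, Φ (p, y) ∂μ) p v = ∫ y, fderiv ℝ Φ (p, y) (v, 0) ∂μ := by
  rw [(h.hasFDerivAt hT p).fderiv, ContinuousLinearMap.integral_apply (h.dP.integrable hT p)]
  rfl

theorem iter (h : LocT T Φ) (j : ℕ) :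
    LocT T fun z => iteratedFDeriv ℝ j (fun p => Φ (p, z.2)) z.1 := by
  refine ⟨?_, fun p₀ => ?_⟩
  · have e : (fun z : P × Y => iteratedFDeriv ℝ j (fun p => Φ (p, z.2)) z.1) = fun z =>
        ContinuousMultilinearMap.compContinuousLinearMapL
          (fun _ => ContinuousLinearMap.inl ℝ P Y) (iteratedFDeriv ℝ j Φ z) := by
      funext z
      have h1 := (ContinuousLinearMap.inl ℝ P Y).iteratedFDeriv_comp_right
        (f := fun w => Φ (w + (0, z.2))) (h.smooth.comp (contDiff_id.add contDiff_const)) z.1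
        (i := j) (by exact_mod_cast le_top)
      rw [iteratedFDeriv_comp_add_right] at h1
      simpa [Function.comp_def] using h1
    rw [e]
    exact (ContinuousLinearMap.contDiff _).comp
      (h.smooth.iteratedFDeriv_right (by exact_mod_cast le_top))
  · obtain ⟨K, hK, h1⟩ := h.supp p₀
    refine ⟨K, hK, h1.eventually_nhds.mono fun p hp y hy hy' => ?_⟩
    have h2 : (fun p => Φ (p, y)) =ᶠ[𝓝 p] fun _ => 0 := hp.mono fun q hq => hq y hy hy'
    simpa using (h2.iteratedFDeriv ℝ j).self_of_nhds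

theorem iteratedFDeriv_integral (h : LocT T Φ) (hT : ∀ᵐ y ∂μ, y ∈ T) (j : ℕ) :
    iteratedFDeriv ℝ j (fun p => ∫ y, Φ (p, y) ∂μ) =
      fun p => ∫ y, iteratedFDeriv ℝ j (fun p => Φ (p, y)) p ∂μ := by
  induction j with
  | zero =>
    funext p
    exact ((continuousMultilinearCurryFin0 ℝ P F).symm.toLinearIsometry.integral_comp_comm _).symm
  | succ j ih =>
    ext p m
    rw [iteratedFDeriv_succ_apply_left, ih, ((h.iter j).hasFDerivAt hT p).fderiv,
      ContinuousLinearMap.integral_apply ((h.iter j).dP.integrable hT p),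
      ContinuousMultilinearMap.integral_apply
        (((h.iter j).dP.integrable hT p).apply_continuousLinearMap _),
      ContinuousMultilinearMap.integral_apply ((h.iter (j + 1)).integrable hT p)]
    congr 1
    funext y
    rw [← (hasFDerivAt_left (h.iter j).smooth p y).fderiv]
    rfl

theorem contDiff_integral (h : LocT T Φ) (hT : ∀ᵐ y ∂μ, y ∈ T) :
    ContDiff ℝ ∞ fun p => ∫ y, Φ (p, y) ∂μ :=
  contDiff_of_differentiable_iteratedFDeriv fun j _ => by
    rw [h.iteratedFDeriv_integral hT]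
    exact fun p => ((h.iter j).hasFDerivAt hT p).differentiableAt

theorem Icc {Φ : P × ℝ → F} (h : ContDiff ℝ ∞ Φ) (a b : ℝ) : LocT (Icc a b) Φ :=
  ⟨h, fun _ => ⟨_, isCompact_Icc, Eventually.of_forall fun _ _ h1 h2 => absurd h1 h2⟩⟩

theorem ae_Icc (a b : ℝ) : ∀ᵐ t ∂volume.restrict (Ioc a b), t ∈ Set.Icc a b :=
  (ae_restrict_mem measurableSet_Ioc).mono fun _ h => Ioc_subset_Icc_self h

end LocT

theorem LocC.toT {Φ : P × Y → F} (h : LocC Φ) : LocT univ Φ :=
  ⟨h.smooth, fun p => (h.supp p).imp fun _ hK => ⟨hK.1, hK.2.mono fun _ hq y _ => hq y⟩⟩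

theorem LocC.integrable {Φ : P × Y → F} (h : LocC Φ) (μ : Measure Y)
    [IsFiniteMeasureOnCompacts μ] (p : P) : Integrable (fun y => Φ (p, y)) μ :=
  h.toT.integrable univ_mem p

theorem LocC.fderiv {Φ : P × Y → F} (h : LocC Φ) (v : P × Y) :
    LocC fun z => fderiv ℝ Φ z v := by
  refine ⟨(h.smooth.fderiv_right (m := ∞) le_rfl).clm_apply contDiff_const, fun p₀ => ?_⟩
  obtain ⟨K, hK, h1⟩ := h.supp p₀
  refine ⟨K, hK, h1.eventually_nhds.mono fun p hp y hy => ?_⟩
  have h2 : Φ =ᶠ[𝓝 (p, y)] fun _ => 0 :=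
    (hp.prod_nhds (hK.isClosed.isOpen_compl.mem_nhds hy)).mono fun z hz => hz.1 z.2 hz.2
  simp [h2.fderiv_eq]

theorem LocC.hasFDerivAt {Φ : P × Y → F} (h : LocC Φ) (μ : Measure Y)
    [IsFiniteMeasureOnCompacts μ] (p : P) :
    HasFDerivAt (fun p => ∫ y, Φ (p, y) ∂μ)
      (∫ y, (_root_.fderiv ℝ Φ (p, y)).comp (ContinuousLinearMap.inl ℝ P Y) ∂μ) p :=
  h.toT.hasFDerivAt univ_mem p

theorem LocC.fderiv_integral {Φ : P × Y → F} (h : LocC Φ) (μ : Measure Y)
    [IsFiniteMeasureOnCompacts μ] (p v : P) :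
    _root_.fderiv ℝ (fun p => ∫ y, Φ (p, y) ∂μ) p v = ∫ y, _root_.fderiv ℝ Φ (p, y) (v, 0) ∂μ :=
  h.toT.fderiv_integral univ_mem p v

theorem LocC.contDiff_integral {Φ : P × Y → F} (h : LocC Φ) (μ : Measure Y)
    [IsFiniteMeasureOnCompacts μ] : ContDiff ℝ ∞ fun p => ∫ y, Φ (p, y) ∂μ :=
  h.toT.contDiff_integral univ_mem

theorem LocC.iteratedFDeriv_integral {Φ : P × Y → F} (h : LocC Φ) (μ : Measure Y)
    [IsFiniteMeasureOnCompacts μ] (j : ℕ) (p : P) :
    Integrable (fun y => iteratedFDeriv ℝ j (fun p => Φ (p, y)) p) μ ∧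
    iteratedFDeriv ℝ j (fun p => ∫ y, Φ (p, y) ∂μ) p
      = ∫ y, iteratedFDeriv ℝ j (fun p => Φ (p, y)) p ∂μ :=
  ⟨(h.toT.iter j).integrable univ_mem p, congrFun (h.toT.iteratedFDeriv_integral univ_mem j) p⟩

/-- integrals over a bounded interval -/
theorem contDiff_intervalIntegral {Φ : P × ℝ → F} (h : ContDiff ℝ ∞ Φ) (a b : ℝ) :
    ContDiff ℝ ∞ fun p => ∫ t in a..b, Φ (p, t) :=
  ((LocT.Icc h a b).contDiff_integral (LocT.ae_Icc a b)).sub
    ((LocT.Icc h b a).contDiff_integral (LocT.ae_Icc b a))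

theorem fderiv_intervalIntegral {Φ : P × ℝ → F} (h : ContDiff ℝ ∞ Φ) (a b : ℝ) (p v : P) :
    fderiv ℝ (fun p => ∫ t in a..b, Φ (p, t)) p v = ∫ t in a..b, fderiv ℝ Φ (p, t) (v, 0) := by
  simp only [intervalIntegral]
  rw [fderiv_fun_sub ((LocT.Icc h a b).hasFDerivAt (LocT.ae_Icc a b) p).differentiableAt
    ((LocT.Icc h b a).hasFDerivAt (LocT.ae_Icc b a) p).differentiableAt, sub_apply,
    (LocT.Icc h a b).fderiv_integral (LocT.ae_Icc a b),
    (LocT.Icc h b a).fderiv_integral (LocT.ae_Icc b a)]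

theorem norm_iteratedFDeriv_intervalIntegral_le {Φ : P × ℝ → F} (h : ContDiff ℝ ∞ Φ) {a b : ℝ}
    (hab : a ≤ b) (j : ℕ) (p : P) {c : ℝ}
    (hc : ∀ t ∈ Icc a b, ‖iteratedFDeriv ℝ j (fun p => Φ (p, t)) p‖ ≤ c) :
    ‖iteratedFDeriv ℝ j (fun p => ∫ t in a..b, Φ (p, t)) p‖ ≤ c * (b - a) := by
  simp only [intervalIntegral.integral_of_le hab]
  rw [(LocT.Icc h a b).iteratedFDeriv_integral (LocT.ae_Icc a b)]
  refine (norm_setIntegral_le_of_norm_le_const measure_Ioc_lt_top fun t ht =>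
    hc t (Ioc_subset_Icc_self ht)).trans_eq ?_
  rw [Real.volume_real_Ioc_of_le hab]

/-- Hadamard's lemma -/
theorem hadamard {f : P × ℝ → F} (h : ContDiff ℝ ∞ f) :
    ∃ g : P × ℝ → F, ContDiff ℝ ∞ g ∧ (∀ p t, f (p, t) = f (p, 0) + t • g (p, t)) ∧
      (∀ p, g (p, 0) = fderiv ℝ f (p, 0) (0, 1)) ∧
      ∀ p, (∀ t, f (p, t) = 0) → ∀ t, g (p, t) = 0 := by
  have hd : ∀ p t, HasDerivAt (fun t => f (p, t)) (fderiv ℝ f (p, t) (0, 1)) t := fun p t =>
    (h.differentiable (by simp) (p, t)).hasFDerivAt.comp_hasDerivAt t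
      ((hasDerivAt_const t p).prodMk (hasDerivAt_id t))
  have hc : ContDiff ℝ ∞ fun z : (P × ℝ) × ℝ => fderiv ℝ f (z.1.1, z.2 * z.1.2) (0, 1) :=
    ((h.fderiv_right (m := ∞) le_rfl).comp (by fun_prop)).clm_apply contDiff_const
  refine ⟨fun z => ∫ s in (0 : ℝ)..1, fderiv ℝ f (z.1, s * z.2) (0, 1),
    contDiff_intervalIntegral hc 0 1, fun p t => ?_, fun p => by simp, fun p hp t => ?_⟩
  · have h1 := intervalIntegral.integral_eq_sub_of_hasDerivAt (a := 0) (b := 1)
      (f := fun s => f (p, s * t)) (f' := fun s => t • fderiv ℝ f (p, s * t) (0, 1))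
      (fun s _ => HasDerivAt.scomp (g₁ := fun t => f (p, t)) s (hd p (s * t))
        (hasDerivAt_mul_const t))
      (((hc.continuous.comp (f := fun s : ℝ => ((p, t), s)) (by fun_prop)).const_smul
        t).intervalIntegrable 0 1)
    rw [intervalIntegral.integral_smul] at h1
    simp [h1]
  · have h1 : ∀ s, fderiv ℝ f (p, s) (0, 1) = 0 := fun s =>
      (hd p s).unique (by simpa only [hp] using hasDerivAt_const s (0 : F))
    simp [h1]

/-- the integral of a derivative vanishes -/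
theorem integral_fderiv_eq_zero {f : E → F} (h : ContDiff ℝ ∞ f) (hs : HasCompactSupport f)
    (v : E) : ∫ x, fderiv ℝ f x v = 0 := by
  have h1 : Integrable fun x => fderiv ℝ f x v :=
    ((h.continuous_fderiv (by simp)).clm_apply continuous_const).integrable_of_hasCompactSupport
      (hs.fderiv_apply ℝ v)
  simpa using integral_smul_fderiv_eq_neg_fderiv_smul_of_integrable (μ := volume)
    (f := fun _ : E => (1 : ℝ)) (g := f) (v := v) (by simp) (by simpa using h1)
    (by simpa using h.continuous.integrable_of_hasCompactSupport hs)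
    (fun _ _ => differentiableAt_const _) fun x _ => h.differentiable (by simp) x

end par

end Crest.Agent.R240

end
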