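import Crest.Agent.R240.Defs

/-!
# Row 240: pointwise linear algebra on `ℝ⁴`
-/

set_option autoImplicit false
set_option linter.unusedSectionVars false
set_option linter.unusedVariables false

open MeasureTheory Metric Set Filter Topology
open scoped ContDiff ENNReal

noncomputable section

namespace Crest.Agent.R240

/-! ### evaluation lemmas -/

@[simp] theorem e_apply (a b : Fin 4) : e a b = if b = a then 1 else 0 := by
  simp [e]

@[simp] theorem dx_apply (a : Fin 4) (v : E) : dx a v = v a := by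
  rfl

theorem norm_e (a : Fin 4) : ‖e a‖ = 1 := by
  simp [e]

theorem sum_e (v : E) : ∑ a, v a • e a = v := by
  ext i
  fin_cases i <;> simp [Fin.sum_univ_four]

@[simp] theorem J0_0 (v : E) : J0 v 0 = -v 1 := by
  simp [J0]
@[simp] theorem J0_1 (v : E) : J0 v 1 = v 0 := by
  simp [J0]
@[simp] theorem J0_2 (v : E) : J0 v 2 = -v 3 := by
  simp [J0]
@[simp] theorem J0_3 (v : E) : J0 v 3 = v 2 := by
  simp [J0]

theorem J0_J0 (v : E) : J0 (J0 v) = -v := by
  ext i
  fin_cases i <;> simp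

theorem norm_J0 (v : E) : ‖J0 v‖ = ‖v‖ := by
  simp only [EuclideanSpace.norm_eq, Fin.sum_univ_four, J0_0, J0_1, J0_2, J0_3, norm_neg]
  congr 1
  ring

theorem inner_J0 (u v : E) : inner ℝ (J0 u) v = -inner ℝ u (J0 v) := by
  simp [PiLp.inner_apply, Fin.sum_univ_four]
  ring

theorem inner_eq (u v : E) : inner ℝ u v = u 0 * v 0 + u 1 * v 1 + u 2 * v 2 + u 3 * v 3 := by
  simp [PiLp.inner_apply, Fin.sum_univ_four]
  ring

theorem norm_sq_eq (u : E) : ‖u‖ ^ 2 = u 0 ^ 2 + u 1 ^ 2 + u 2 ^ 2 + u 3 ^ 2 := by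
  simp [EuclideanSpace.norm_sq_eq, Fin.sum_univ_four]

@[simp] theorem pb_apply (β : Bil) (A : End) (u v : E) : pb β A u v = β (A u) (A v) := by
  rfl

@[simp] theorem wedge_apply (φ ψ : Cov) (u v : E) : wedge φ ψ u v = φ u * ψ v - ψ u * φ v := by
  simp [wedge]

theorem cov_apply (c : Fin 4 → ℝ) (v : E) : cov c v = ∑ a, c a * v a := by
  simp [cov]

theorem cov_self (φ : Cov) : cov (fun a => φ (e a)) = φ := by
  ext v
  rw [cov_apply]
  conv_rhs => rw [← sum_e v]
  simp [mul_comm]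

theorem ofCoef_apply (c : Fin 4 → Fin 4 → ℝ) (u v : E) :
    ofCoef c u v = ∑ a, ∑ b, c a b * (u a * v b) := by
  simp [ofCoef]

@[simp] theorem ofCoef_e (c : Fin 4 → Fin 4 → ℝ) (a b : Fin 4) : ofCoef c (e a) (e b) = c a b := by
  simp [ofCoef_apply, mul_ite]

theorem ofCoef_self (β : Bil) : ofCoef (fun a b => β (e a) (e b)) = β := by
  ext u v
  rw [ofCoef_apply]
  conv_rhs => rw [← sum_e u, ← sum_e v]
  simp only [map_sum, map_smul, sum_apply, smul_apply, smul_eq_mul]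
  simp only [Fin.sum_univ_four]
  ring

theorem bil_apply (β : Bil) (u v : E) : β u v = ∑ a, ∑ b, β (e a) (e b) * (u a * v b) := by
  rw [← ofCoef_apply, ofCoef_self]

theorem bil_ext {β γ : Bil} (h : ∀ a b, β (e a) (e b) = γ (e a) (e b)) : β = γ := by
  ext u v
  rw [bil_apply β, bil_apply γ]
  simp only [h]

theorem amJ_apply (J : End) (β : Bil) (u v : E) :
    amJ J β u v = (1 / 2 : ℝ) * (β u v - β (J u) (J v)) := by
  simp [amJ, mul_sub]

theorem om_apply (u v : E) : om u v = inner ℝ (J0 u) v := by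
  rw [inner_eq]
  simp [om]
  ring

theorem qv_apply (k : Quad) (X Y v w : E) :
    qv k X Y v w = ∑ a, ∑ b, X a * Y b * k a b v w := by
  simp [qv]

@[simp] theorem qv_e (k : Quad) (a b : Fin 4) : qv k (e a) (e b) = k a b := by
  simp [qv, mul_ite]

theorem qv_pbQ (k : Quad) (A B : End) (X Y v w : E) :
    qv (pbQ k A B) X Y v w = qv k (A X) (A Y) (B v) (B w) := by
  have h : ∀ (A : End) (X : E) (c : Fin 4), A X c = ∑ a, X a * A (e a) c := fun A X c => by
    conv_lhs => rw [← sum_e X]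
    simp
  simp only [qv_apply, pbQ, pb_apply]
  simp only [h A X, h A Y, Fin.sum_univ_four]
  ring

theorem qv_qswap (k : Quad) (X Y v w : E) : qv (qswap k) v w X Y = qv k X Y v w := by
  simp only [qv_apply, qswap, ofCoef_apply, bil_apply _ v w, Fin.sum_univ_four]
  ring

theorem qv_vol (u v w z : E) : qv vol u v w z = det4 u v w z := by
  simp [qv_apply, vol, star, det4, Fin.sum_univ_four]
  ring

theorem quad_ext {k k' : Quad} (h : ∀ X Y v w, qv k X Y v w = qv k' X Y v w) : k = k' := by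
  funext a b
  ext v w
  simpa using h (e a) (e b) v w

theorem qv_add (k k' : Quad) (X Y : E) : qv (k + k') X Y = qv k X Y + qv k' X Y := by
  simp [qv, Finset.sum_add_distrib]

theorem qv_smul (c : ℝ) (k : Quad) (X Y : E) : qv (c • k) X Y = c • qv k X Y := by
  ext v w
  simp only [qv_apply, Pi.smul_apply, smul_apply, smul_eq_mul, Fin.sum_univ_four]
  ring

theorem qv_sum {ι : Type*} (s : Finset ι) (k : ι → Quad) (X Y : E) :
    qv (∑ j ∈ s, k j) X Y = ∑ j ∈ s, qv (k j) X Y := by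
  classical
  induction s using Finset.induction_on with
  | empty => simp [qv]
  | insert j s hj ih => rw [Finset.sum_insert hj, Finset.sum_insert hj, qv_add, ih]

theorem qv_add_left (k : Quad) (X X' Y : E) : qv k (X + X') Y = qv k X Y + qv k X' Y := by
  simp [qv, add_mul, add_smul, Finset.sum_add_distrib]

theorem qv_add_right (k : Quad) (X Y Y' : E) : qv k X (Y + Y') = qv k X Y + qv k X Y' := by
  simp [qv, mul_add, add_smul, Finset.sum_add_distrib]

theorem qv_smul_left (k : Quad) (c : ℝ) (X Y : E) : qv k (c • X) Y = c • qv k X Y := by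
  ext v w
  simp only [qv_apply, PiLp.smul_apply, smul_apply, smul_eq_mul,
    Fin.sum_univ_four]
  ring

theorem qv_smul_right (k : Quad) (c : ℝ) (X Y : E) : qv k X (c • Y) = c • qv k X Y := by
  ext v w
  simp only [qv_apply, PiLp.smul_apply, smul_apply, smul_eq_mul,
    Fin.sum_univ_four]
  ring

theorem contr_apply (k : Quad) (φ : Bil) (X Y : E) : contr k φ X Y = wp (qv k X Y) φ := by
  simp only [contr, ofCoef_apply, wp, qv_apply, Fin.sum_univ_four]
  ring

/-! ### linear maps -/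

/-- `pb · A` as a continuous linear map -/
def pbL (A : End) : Bil →L[ℝ] Bil := LinearMap.toContinuousLinearMap
  { toFun := fun β => pb β A
    map_add' := by
      intro β γ
      ext u v
      simp
    map_smul' := by
      intro c β
      ext u v
      simp }

@[simp] theorem pbL_apply (A : End) (β : Bil) : pbL A β = pb β A := rfl

/-- `amJ J` as a continuous linear map -/
def amL (J : End) : Bil →L[ℝ] Bil := LinearMap.toContinuousLinearMap
  { toFun := fun β => amJ J β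
    map_add' := by
      intro β γ
      ext u v
      simp [amJ_apply]
      ring
    map_smul' := by
      intro c β
      ext u v
      simp [amJ_apply]
      ring }

@[simp] theorem amL_apply (J : End) (β : Bil) : amL J β = amJ J β := rfl

/-- `star` as a continuous linear map -/
def starL : Bil →L[ℝ] Bil := LinearMap.toContinuousLinearMap
  { toFun := star
    map_add' := by
      intro β γ
      ext u v
      simp [star]
      ring
    map_smul' := by
      intro c β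
      ext u v
      simp [star]
      ring }

@[simp] theorem starL_apply (β : Bil) : starL β = star β := rfl

/-- the alternating part -/
def altL : Bil →L[ℝ] Bil := LinearMap.toContinuousLinearMap
  { toFun := fun β => (1 / 2 : ℝ) • (β - β.flip)
    map_add' := by
      intro β γ
      ext u v
      simp
      ring
    map_smul' := by
      intro c β
      ext u v
      simp
      ring }

theorem altL_apply (β : Bil) (u v : E) : altL β u v = (1 / 2 : ℝ) * (β u v - β v u) := by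
  simp [altL, mul_sub]

/-- `wp β` as a continuous linear map -/
def wpL (β : Bil) : Bil →L[ℝ] ℝ := LinearMap.toContinuousLinearMap
  { toFun := wp β
    map_add' := by
      intro γ δ
      simp [wp]
      ring
    map_smul' := by
      intro c γ
      simp [wp]
      ring }

@[simp] theorem wpL_apply (β γ : Bil) : wpL β γ = wp β γ := rfl

/-- `contr k` as a continuous linear map -/
def contrL (k : Quad) : Bil →L[ℝ] Bil := LinearMap.toContinuousLinearMap
  { toFun := contr k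
    map_add' := by
      intro β γ
      ext u v
      simp [contr_apply, ← wpL_apply]
    map_smul' := by
      intro c β
      ext u v
      simp [contr_apply, ← wpL_apply] }

@[simp] theorem contrL_apply (k : Quad) (φ : Bil) : contrL k φ = contr k φ := rfl

/-- `pbQ · A B` as a continuous linear map -/
def pbQL (A B : End) : Quad →L[ℝ] Quad := LinearMap.toContinuousLinearMap
  { toFun := fun k => pbQ k A B
    map_add' := by
      intro k k'
      refine quad_ext fun X Y v w => ?_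
      simp [qv_pbQ, qv_add]
    map_smul' := by
      intro c k
      refine quad_ext fun X Y v w => ?_
      simp [qv_pbQ, qv_smul] }

@[simp] theorem pbQL_apply (A B : End) (k : Quad) : pbQL A B k = pbQ k A B := rfl

theorem pb_add (β γ : Bil) (A : End) : pb (β + γ) A = pb β A + pb γ A := (pbL A).map_add β γ
theorem pb_sub (β γ : Bil) (A : End) : pb (β - γ) A = pb β A - pb γ A := (pbL A).map_sub β γ
theorem pb_smul (c : ℝ) (β : Bil) (A : End) : pb (c • β) A = c • pb β A := (pbL A).map_smul c β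
@[simp] theorem pb_zero (A : End) : pb 0 A = 0 := (pbL A).map_zero
theorem pb_pb (β : Bil) (A B : End) : pb (pb β A) B = pb β (A.comp B) := by
  rfl
theorem pb_of_id (β : Bil) {A : End} (h : ∀ v, A v = v) : pb β A = β := by
  ext u v
  simp [h]
theorem pbQ_pbQ (k : Quad) (A B A' B' : End) :
    pbQ (pbQ k A B) A' B' = pbQ k (A.comp A') (B.comp B') := by
  refine quad_ext fun X Y v w => ?_
  simp [qv_pbQ]
theorem pbQ_of_id (k : Quad) {A B : End} (hA : ∀ v, A v = v) (hB : ∀ v, B v = v) :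
    pbQ k A B = k := by
  refine quad_ext fun X Y v w => ?_
  simp [qv_pbQ, hA, hB]
theorem AlgAux.abs_coord_le (v : E) (a : Fin 4) : |v a| ≤ ‖v‖ := PiLp.norm_apply_le v a

theorem AlgAux.norm_dx_le (a : Fin 4) : ‖dx a‖ ≤ 1 :=
  ContinuousLinearMap.opNorm_le_bound _ zero_le_one fun v => by
    simpa using AlgAux.abs_coord_le v a

theorem AlgAux.norm_J0_le : ‖J0‖ ≤ 1 :=
  ContinuousLinearMap.opNorm_le_bound _ zero_le_one fun v => by simp [norm_J0]

theorem AlgAux.sum44_le {f : Fin 4 → Fin 4 → ℝ} {B : ℝ} (h : ∀ a b, f a b ≤ B) :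
    ∑ a, ∑ b, f a b ≤ 16 * B := by
  calc ∑ a, ∑ b, f a b ≤ ∑ a : Fin 4, ∑ b : Fin 4, B :=
        Finset.sum_le_sum fun a _ => Finset.sum_le_sum fun b _ => h a b
    _ = 16 * B := by simp; ring

theorem norm_pb_le (β : Bil) (A : End) : ‖pb β A‖ ≤ ‖β‖ * ‖A‖ ^ 2 := by
  refine ContinuousLinearMap.opNorm_le_bound₂ _ (by positivity) fun u v => ?_
  calc ‖pb β A u v‖ ≤ ‖β‖ * ‖A u‖ * ‖A v‖ := β.le_opNorm₂ _ _
    _ ≤ ‖β‖ * (‖A‖ * ‖u‖) * (‖A‖ * ‖v‖) := by gcongr <;> exact A.le_opNorm _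
    _ = _ := by ring
theorem abs_apply_le (β : Bil) (u v : E) : |β u v| ≤ ‖β‖ * ‖u‖ * ‖v‖ := by
  exact β.le_opNorm₂ u v
theorem AlgAux.abs_coef_le (β : Bil) (a b : Fin 4) : |β (e a) (e b)| ≤ ‖β‖ := by
  simpa [norm_e] using abs_apply_le β (e a) (e b)

theorem norm_ofCoef_le (c : Fin 4 → Fin 4 → ℝ) {B : ℝ} (h : ∀ a b, |c a b| ≤ B) :
    ‖ofCoef c‖ ≤ 16 * B := by
  have hB : 0 ≤ B := (abs_nonneg _).trans (h 0 0)
  refine ContinuousLinearMap.opNorm_le_bound₂ _ (by positivity) fun u v => ?_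
  rw [ofCoef_apply, mul_assoc, mul_assoc]
  refine (Finset.abs_sum_le_sum_abs _ _).trans ((Finset.sum_le_sum fun a _ =>
    Finset.abs_sum_le_sum_abs _ _).trans (AlgAux.sum44_le fun a b => ?_))
  rw [abs_mul, abs_mul]
  gcongr
  exacts [h a b, AlgAux.abs_coord_le _ _, AlgAux.abs_coord_le _ _]
theorem norm_qv_le (k : Quad) (X Y : E) : ‖qv k X Y‖ ≤ 16 * ‖k‖ * ‖X‖ * ‖Y‖ := by
  rw [mul_assoc, mul_assoc]
  refine (norm_sum_le _ _).trans ((Finset.sum_le_sum fun a _ =>
    norm_sum_le _ _).trans (AlgAux.sum44_le fun a b => ?_))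
  rw [norm_smul, Real.norm_eq_abs, abs_mul, mul_comm]
  gcongr
  exacts [(norm_le_pi_norm (k a) b).trans (norm_le_pi_norm k a), AlgAux.abs_coord_le _ _, AlgAux.abs_coord_le _ _]
theorem norm_pbQ_le (k : Quad) (A B : End) : ‖pbQ k A B‖ ≤ 16 * ‖k‖ * ‖A‖ ^ 2 * ‖B‖ ^ 2 := by
  refine (pi_norm_le_iff_of_nonneg (by positivity)).2 fun a =>
    (pi_norm_le_iff_of_nonneg (by positivity)).2 fun b => (norm_pb_le _ _).trans ?_
  have h : ∀ c, ‖A (e c)‖ ≤ ‖A‖ := fun c => by simpa [norm_e] using A.le_opNorm (e c)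
  calc ‖qv k (A (e a)) (A (e b))‖ * ‖B‖ ^ 2 ≤ 16 * ‖k‖ * ‖A (e a)‖ * ‖A (e b)‖ * ‖B‖ ^ 2 := by
        gcongr; exact norm_qv_le _ _ _
    _ ≤ 16 * ‖k‖ * ‖A‖ * ‖A‖ * ‖B‖ ^ 2 := by gcongr <;> exact h _
    _ = _ := by ring
theorem norm_qswap_le (k : Quad) : ‖qswap k‖ ≤ 16 * ‖k‖ := by
  refine (pi_norm_le_iff_of_nonneg (by positivity)).2 fun c =>
    (pi_norm_le_iff_of_nonneg (by positivity)).2 fun d => norm_ofCoef_le _ fun a b => ?_
  exact (AlgAux.abs_coef_le _ _ _).trans ((norm_le_pi_norm (k a) b).trans (norm_le_pi_norm k a))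
theorem abs_wp_le (β γ : Bil) : |wp β γ| ≤ 6 * ‖β‖ * ‖γ‖ := by
  have h : ∀ a b c d, |β (e a) (e b) * γ (e c) (e d)| ≤ ‖β‖ * ‖γ‖ := fun a b c d => by
    rw [abs_mul]
    gcongr <;> exact AlgAux.abs_coef_le _ _ _
  have h1 := abs_le.1 (h 0 1 2 3)
  have h2 := abs_le.1 (h 0 2 1 3)
  have h3 := abs_le.1 (h 0 3 1 2)
  have h4 := abs_le.1 (h 1 2 0 3)
  have h5 := abs_le.1 (h 1 3 0 2)
  have h6 := abs_le.1 (h 2 3 0 1)
  rw [wp, abs_le]
  constructor <;> linarith
theorem norm_contr_le (k : Quad) (φ : Bil) : ‖contr k φ‖ ≤ 96 * ‖k‖ * ‖φ‖ := by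
  have h : ∀ a b, |wp (k a b) φ| ≤ 6 * ‖k‖ * ‖φ‖ := fun a b => (abs_wp_le _ _).trans (by
    gcongr
    exact (norm_le_pi_norm (k a) b).trans (norm_le_pi_norm k a))
  exact (norm_ofCoef_le _ h).trans_eq (by ring)
theorem norm_wedge_le (φ ψ : Cov) : ‖wedge φ ψ‖ ≤ 2 * ‖φ‖ * ‖ψ‖ := by
  have h := norm_sub_le (φ.smulRight ψ) (ψ.smulRight φ)
  rw [ContinuousLinearMap.norm_smulRight_apply, ContinuousLinearMap.norm_smulRight_apply] at h
  exact h.trans_eq (by ring)
theorem norm_star_le (β : Bil) : ‖star β‖ ≤ 12 * ‖β‖ := by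
  have h : ∀ a b c d, ‖β (e a) (e b) • wedge (dx c) (dx d)‖ ≤ ‖β‖ * 2 := fun a b c d => by
    rw [norm_smul]
    refine mul_le_mul (AlgAux.abs_coef_le _ _ _) ((norm_wedge_le _ _).trans ?_) (norm_nonneg _)
      (norm_nonneg _)
    calc 2 * ‖dx c‖ * ‖dx d‖ ≤ 2 * 1 * 1 := by gcongr <;> exact AlgAux.norm_dx_le _
      _ = 2 := by ring
  refine (norm_add_le_of_le (norm_sub_le_of_le (norm_add_le_of_le (norm_add_le_of_le
    (norm_sub_le_of_le (h 0 1 2 3) (h 0 2 1 3)) (h 0 3 1 2)) (h 1 2 0 3)) (h 1 3 0 2))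
    (h 2 3 0 1)).trans_eq (by ring)
theorem AlgAux.norm_pb_J0_le (β : Bil) : ‖pb β J0‖ ≤ ‖β‖ := by
  calc ‖pb β J0‖ ≤ ‖β‖ * ‖J0‖ ^ 2 := norm_pb_le _ _
    _ ≤ ‖β‖ * 1 ^ 2 := by gcongr; exact AlgAux.norm_J0_le
    _ = ‖β‖ := by ring

theorem norm_am_le (β : Bil) : ‖am β‖ ≤ ‖β‖ := by
  have h := norm_sub_le_of_le (le_refl ‖β‖) (AlgAux.norm_pb_J0_le β)
  rw [am, amJ, norm_smul, Real.norm_of_nonneg (by norm_num)]
  linarith
theorem norm_ip_le (β : Bil) : ‖ip β‖ ≤ ‖β‖ := by
  have h := norm_add_le_of_le (le_refl ‖β‖) (AlgAux.norm_pb_J0_le β)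
  have h1 : ip β = (1 / 2 : ℝ) • (β + pb β J0) := by
    rw [ip, am, amJ]
    module
  rw [h1, norm_smul, Real.norm_of_nonneg (by norm_num)]
  linarith
theorem abs_det4_le (u v w z : E) : |det4 u v w z| ≤ ‖u‖ * ‖v‖ * ‖w‖ * ‖z‖ * 24 := by
  have h : ∀ (u v : E) a b, |u a * v b - u b * v a| ≤ 2 * (‖u‖ * ‖v‖) := fun u v a b => by
    have h0 : ∀ a b, |u a * v b| ≤ ‖u‖ * ‖v‖ := fun a b => by
      rw [abs_mul]
      gcongr <;> exact AlgAux.abs_coord_le _ _
    linarith [abs_sub (u a * v b) (u b * v a), h0 a b, h0 b a]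
  have h' : ∀ a b c d, |(u a * v b - u b * v a) * (w c * z d - w d * z c)| ≤
      2 * (‖u‖ * ‖v‖) * (2 * (‖w‖ * ‖z‖)) := fun a b c d => by
    rw [abs_mul]
    gcongr <;> exact h _ _ _ _
  have h1 := abs_le.1 (h' 0 1 2 3)
  have h2 := abs_le.1 (h' 0 2 1 3)
  have h3 := abs_le.1 (h' 0 3 1 2)
  have h4 := abs_le.1 (h' 1 2 0 3)
  have h5 := abs_le.1 (h' 1 3 0 2)
  have h6 := abs_le.1 (h' 2 3 0 1)
  rw [det4, abs_le]
  constructor <;> linarith

/-! ### smoothness in all arguments -/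

section smooth
variable {X : Type*} [NormedAddCommGroup X] [NormedSpace ℝ X] {n : WithTop ℕ∞} {x : X}

theorem AlgAux.contDiffAt_clm {D F : Type*} [NormedAddCommGroup D] [NormedSpace ℝ D]
    [FiniteDimensional ℝ D] [NormedAddCommGroup F] [NormedSpace ℝ F] {f : X → D →L[ℝ] F}
    (h : ∀ y, ContDiffAt ℝ n (fun x => f x y) x) : ContDiffAt ℝ n f x := by
  let d := Module.finrank ℝ D
  have hd : d = Module.finrank ℝ (Fin d → ℝ) := (Module.finrank_fin_fun ℝ).symm
  let e₁ := ContinuousLinearEquiv.ofFinrankEq hd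
  let e₂ := (e₁.arrowCongr (1 : F ≃L[ℝ] F)).trans (ContinuousLinearEquiv.piRing (Fin d))
  rw [← Function.id_comp f, ← e₂.symm_comp_self]
  exact e₂.symm.contDiff.contDiffAt.comp x (contDiffAt_pi.mpr fun i => h _)

theorem AlgAux.contDiffAt_coord {u : X → E} (hu : ContDiffAt ℝ n u x) (a : Fin 4) :
    ContDiffAt ℝ n (fun y => u y a) x := (dx a).contDiff.contDiffAt.comp x hu

theorem AlgAux.contDiffAt_coef {β : X → Bil} (hβ : ContDiffAt ℝ n β x) (u v : E) :
    ContDiffAt ℝ n (fun y => β y u v) x :=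
  (hβ.clm_apply contDiffAt_const).clm_apply contDiffAt_const

theorem AlgAux.contDiffAt_quad {k : X → Quad} (hk : ContDiffAt ℝ n k x) (a b : Fin 4) :
    ContDiffAt ℝ n (fun y => k y a b) x := contDiffAt_pi.1 (contDiffAt_pi.1 hk a) b

theorem ContDiffAt.pb {β : X → Bil} {A : X → End} (hβ : ContDiffAt ℝ n β x)
    (hA : ContDiffAt ℝ n A x) : ContDiffAt ℝ n (fun y => pb (β y) (A y)) x := by
  exact AlgAux.contDiffAt_clm fun u => AlgAux.contDiffAt_clm fun v =>
    (hβ.clm_apply (hA.clm_apply contDiffAt_const)).clm_apply (hA.clm_apply contDiffAt_const)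

theorem ContDiffAt.ofCoef {c : X → Fin 4 → Fin 4 → ℝ}
    (hc : ∀ a b, ContDiffAt ℝ n (fun y => c y a b) x) :
    ContDiffAt ℝ n (fun y => ofCoef (c y)) x := by
  exact ContDiffAt.sum fun a _ => ContDiffAt.sum fun b _ => (hc a b).smul contDiffAt_const

theorem ContDiffAt.cov {c : X → Fin 4 → ℝ} (hc : ∀ a, ContDiffAt ℝ n (fun y => c y a) x) :
    ContDiffAt ℝ n (fun y => cov (c y)) x := by
  exact ContDiffAt.sum fun a _ => (hc a).smul contDiffAt_const

theorem contDiffAt_bil {β : X → Bil} (h : ∀ a b, ContDiffAt ℝ n (fun y => β y (e a) (e b)) x) :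
    ContDiffAt ℝ n β x := by
  simpa only [ofCoef_self] using ContDiffAt.ofCoef (c := fun y a b => β y (e a) (e b)) h

theorem ContDiffAt.amJ {β : X → Bil} {J : X → End} (hβ : ContDiffAt ℝ n β x)
    (hJ : ContDiffAt ℝ n J x) : ContDiffAt ℝ n (fun y => amJ (J y) (β y)) x := by
  exact (hβ.sub (ContDiffAt.pb hβ hJ)).const_smul (1 / 2 : ℝ)

theorem ContDiffAt.wedge {φ ψ : X → Cov} (hφ : ContDiffAt ℝ n φ x) (hψ : ContDiffAt ℝ n ψ x) :
    ContDiffAt ℝ n (fun y => wedge (φ y) (ψ y)) x := by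
  exact (hφ.smulRight hψ).sub (hψ.smulRight hφ)

theorem ContDiffAt.wp {β γ : X → Bil} (hβ : ContDiffAt ℝ n β x) (hγ : ContDiffAt ℝ n γ x) :
    ContDiffAt ℝ n (fun y => wp (β y) (γ y)) x := by
  have h := fun a b c d => (AlgAux.contDiffAt_coef hβ (e a) (e b)).mul (AlgAux.contDiffAt_coef hγ (e c) (e d))
  exact (((((h 0 1 2 3).sub (h 0 2 1 3)).add (h 0 3 1 2)).add (h 1 2 0 3)).sub (h 1 3 0 2)).add
    (h 2 3 0 1)

theorem ContDiffAt.qv {k : X → Quad} {u v : X → E} (hk : ContDiffAt ℝ n k x)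
    (hu : ContDiffAt ℝ n u x) (hv : ContDiffAt ℝ n v x) :
    ContDiffAt ℝ n (fun y => qv (k y) (u y) (v y)) x := by
  exact ContDiffAt.sum fun a _ => ContDiffAt.sum fun b _ =>
    ((AlgAux.contDiffAt_coord hu a).mul (AlgAux.contDiffAt_coord hv b)).smul (AlgAux.contDiffAt_quad hk a b)

theorem ContDiffAt.pbQ {k : X → Quad} {A B : X → End} (hk : ContDiffAt ℝ n k x)
    (hA : ContDiffAt ℝ n A x) (hB : ContDiffAt ℝ n B x) :
    ContDiffAt ℝ n (fun y => pbQ (k y) (A y) (B y)) x := by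
  exact contDiffAt_pi.2 fun a => contDiffAt_pi.2 fun b => ContDiffAt.pb
    (ContDiffAt.qv hk (hA.clm_apply contDiffAt_const) (hA.clm_apply contDiffAt_const)) hB

theorem ContDiffAt.qswap {k : X → Quad} (hk : ContDiffAt ℝ n k x) :
    ContDiffAt ℝ n (fun y => qswap (k y)) x := by
  exact contDiffAt_pi.2 fun c => contDiffAt_pi.2 fun d => ContDiffAt.ofCoef fun a b =>
    AlgAux.contDiffAt_coef (AlgAux.contDiffAt_quad hk a b) _ _

theorem ContDiffAt.contr {k : X → Quad} {φ : X → Bil} (hk : ContDiffAt ℝ n k x)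
    (hφ : ContDiffAt ℝ n φ x) : ContDiffAt ℝ n (fun y => contr (k y) (φ y)) x := by
  exact ContDiffAt.ofCoef fun a b => ContDiffAt.wp (AlgAux.contDiffAt_quad hk a b) hφ

theorem ContDiffAt.Th {θ : X → End} (hθ : ContDiffAt ℝ n θ x) :
    ContDiffAt ℝ n (fun y => Th (θ y)) x := by
  exact starL.contDiff.contDiffAt.comp x (ContDiffAt.ofCoef fun a b =>
    AlgAux.contDiffAt_coord (hθ.clm_apply contDiffAt_const) b)

theorem ContDiffAt.det4 {u v w z : X → E} (hu : ContDiffAt ℝ n u x) (hv : ContDiffAt ℝ n v x)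
    (hw : ContDiffAt ℝ n w x) (hz : ContDiffAt ℝ n z x) :
    ContDiffAt ℝ n (fun y => det4 (u y) (v y) (w y) (z y)) x := by
  have h := fun a b c d => (((AlgAux.contDiffAt_coord hu a).mul (AlgAux.contDiffAt_coord hv b)).sub
    ((AlgAux.contDiffAt_coord hu b).mul (AlgAux.contDiffAt_coord hv a))).mul
    (((AlgAux.contDiffAt_coord hw c).mul (AlgAux.contDiffAt_coord hz d)).sub
    ((AlgAux.contDiffAt_coord hw d).mul (AlgAux.contDiffAt_coord hz c)))
  exact (((((h 0 1 2 3).sub (h 0 2 1 3)).add (h 0 3 1 2)).add (h 1 2 0 3)).sub (h 1 3 0 2)).add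
    (h 2 3 0 1)

theorem AlgAux.det_eq_det4_cols (A : End) : A.det = det4 (A (e 0)) (A (e 1)) (A (e 2)) (A (e 3)) := by
  have h : ∀ i j, LinearMap.toMatrix (EuclideanSpace.basisFun (Fin 4) ℝ).toBasis
      (EuclideanSpace.basisFun (Fin 4) ℝ).toBasis (A : E →ₗ[ℝ] E) i j = A (e j) i := fun i j => by
    simp [LinearMap.toMatrix_apply, e]
  rw [ContinuousLinearMap.det, ← LinearMap.det_toMatrix (EuclideanSpace.basisFun (Fin 4) ℝ).toBasis,
    Matrix.det_succ_row_zero]
  simp only [Fin.sum_univ_four, Matrix.det_fin_three, Matrix.submatrix_apply, h, det4]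
  simp [Fin.succAbove]
  ring

theorem ContDiffAt.det {A : X → End} (hA : ContDiffAt ℝ n A x) :
    ContDiffAt ℝ n (fun y => (A y).det) x := by
  simp only [AlgAux.det_eq_det4_cols]
  exact ContDiffAt.det4 (hA.clm_apply contDiffAt_const) (hA.clm_apply contDiffAt_const)
    (hA.clm_apply contDiffAt_const) (hA.clm_apply contDiffAt_const)

theorem ContDiffAt.pbL {A : X → End} (hA : ContDiffAt ℝ n A x) :
    ContDiffAt ℝ n (fun y => pbL (A y)) x := by
  exact AlgAux.contDiffAt_clm fun β => ContDiffAt.pb contDiffAt_const hA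

theorem ContDiffAt.amL {J : X → End} (hJ : ContDiffAt ℝ n J x) :
    ContDiffAt ℝ n (fun y => amL (J y)) x := by
  exact AlgAux.contDiffAt_clm fun β => ContDiffAt.amJ contDiffAt_const hJ

theorem ContDiffAt.contrL {k : X → Quad} (hk : ContDiffAt ℝ n k x) :
    ContDiffAt ℝ n (fun y => contrL (k y)) x := by
  exact AlgAux.contDiffAt_clm fun β => ContDiffAt.contr hk contDiffAt_const

end smooth

theorem continuous_ang : Continuous fun z : E × E => ang z.1 z.2 := by
  have h : ContDiff ℝ 0 fun z : E × E => ang z.1 z.2 := contDiff_iff_contDiffAt.2 fun z =>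
    ContDiffAt.det4 contDiffAt_fst (J0.contDiff.contDiffAt.comp z contDiffAt_fst) contDiffAt_snd
      (J0.contDiff.contDiffAt.comp z contDiffAt_snd)
  exact h.continuous

theorem Frame.J_smooth (Fr : Frame) : ContDiff ℝ ∞ Fr.J := by
  exact Fr.smooth'.clm_comp (contDiff_const.clm_comp Fr.smooth)

theorem Frame.J_J (Fr : Frame) (x v : E) : Fr.J x (Fr.J x v) = -v := by
  simp [Frame.J, Fr.mul, J0_J0, Fr.mul']

theorem Frame.J_A' (Fr : Frame) (x v : E) : Fr.J x (Fr.A' x v) = Fr.A' x (J0 v) := by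
  simp [Frame.J, Fr.mul]

theorem Frame.A_J (Fr : Frame) (x v : E) : Fr.A x (Fr.J x v) = J0 (Fr.A x v) := by
  simp [Frame.J, Fr.mul]

theorem Frame.amJ_eq (Fr : Frame) (x : E) (β : Bil) :
    amJ (Fr.J x) β = pb (am (pb β (Fr.A' x))) (Fr.A x) := by
  ext u v
  simp [am, amJ_apply, Frame.J, Fr.mul']

end Crest.Agent.R240

end
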