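import Crest.Agent.R240.Alg

/-!
# Row 240: alternating forms, unitary invariance, signature and positivity
-/

set_option autoImplicit false
set_option linter.unusedSectionVars false
set_option linter.unusedVariables false

open MeasureTheory Metric Set Filter Topology
open scoped ContDiff ENNReal

noncomputable section

namespace Crest.Agent.R240

namespace Alg2Aux

theorem J_e0 : J0 (e 0) = e 1 := by
  ext i; fin_cases i <;> simp
theorem J_e1 : J0 (e 1) = -e 0 := by
  ext i; fin_cases i <;> simp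
theorem J_e2 : J0 (e 2) = e 3 := by
  ext i; fin_cases i <;> simp
theorem J_e3 : J0 (e 3) = -e 2 := by
  ext i; fin_cases i <;> simp

/-- an alternating form through its coefficients above the diagonal -/
theorem alt_apply {β : Bil} (hβ : Alt β) (u v : E) :
    β u v = β (e 0) (e 1) * (u 0 * v 1 - u 1 * v 0) + β (e 0) (e 2) * (u 0 * v 2 - u 2 * v 0)
      + β (e 0) (e 3) * (u 0 * v 3 - u 3 * v 0) + β (e 1) (e 2) * (u 1 * v 2 - u 2 * v 1)
      + β (e 1) (e 3) * (u 1 * v 3 - u 3 * v 1) + β (e 2) (e 3) * (u 2 * v 3 - u 3 * v 2) := by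
  have h0 : ∀ a, β (e a) (e a) = 0 := fun a => by have := hβ (e a) (e a); linarith
  rw [bil_apply β u v]
  simp only [Fin.sum_univ_four, h0]
  rw [hβ (e 1) (e 0), hβ (e 2) (e 0), hβ (e 3) (e 0), hβ (e 2) (e 1), hβ (e 3) (e 1),
    hβ (e 3) (e 2)]
  ring

theorem alt_ext {β γ : Bil} (hβ : Alt β) (hγ : Alt γ) (h01 : β (e 0) (e 1) = γ (e 0) (e 1))
    (h02 : β (e 0) (e 2) = γ (e 0) (e 2)) (h03 : β (e 0) (e 3) = γ (e 0) (e 3))
    (h12 : β (e 1) (e 2) = γ (e 1) (e 2)) (h13 : β (e 1) (e 3) = γ (e 1) (e 3))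
    (h23 : β (e 2) (e 3) = γ (e 2) (e 3)) : β = γ := by
  ext u v
  rw [alt_apply hβ, alt_apply hγ, h01, h02, h03, h12, h13, h23]

theorem star01 (β : Bil) : star β (e 0) (e 1) = β (e 2) (e 3) := by simp [star]
theorem star02 (β : Bil) : star β (e 0) (e 2) = -β (e 1) (e 3) := by simp [star]
theorem star03 (β : Bil) : star β (e 0) (e 3) = β (e 1) (e 2) := by simp [star]
theorem star12 (β : Bil) : star β (e 1) (e 2) = β (e 0) (e 3) := by simp [star]
theorem star13 (β : Bil) : star β (e 1) (e 3) = -β (e 0) (e 2) := by simp [star]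
theorem star23 (β : Bil) : star β (e 2) (e 3) = β (e 0) (e 1) := by simp [star]

theorem am01 {β : Bil} (hβ : Alt β) : am β (e 0) (e 1) = 0 := by
  simp only [am, amJ_apply, J_e0, J_e1, map_neg]
  rw [hβ (e 1) (e 0)]; ring
theorem am02 (β : Bil) : am β (e 0) (e 2) = (β (e 0) (e 2) - β (e 1) (e 3)) / 2 := by
  simp only [am, amJ_apply, J_e0, J_e2]
  ring
theorem am03 (β : Bil) : am β (e 0) (e 3) = (β (e 0) (e 3) + β (e 1) (e 2)) / 2 := by
  simp only [am, amJ_apply, J_e0, J_e3, map_neg]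
  ring
theorem am12 (β : Bil) : am β (e 1) (e 2) = (β (e 0) (e 3) + β (e 1) (e 2)) / 2 := by
  simp only [am, amJ_apply, J_e1, J_e2, map_neg, _root_.neg_apply]
  ring
theorem am13 (β : Bil) : am β (e 1) (e 3) = (β (e 1) (e 3) - β (e 0) (e 2)) / 2 := by
  simp only [am, amJ_apply, J_e1, J_e3, map_neg, _root_.neg_apply]
  ring
theorem am23 {β : Bil} (hβ : Alt β) : am β (e 2) (e 3) = 0 := by
  simp only [am, amJ_apply, J_e2, J_e3, map_neg]
  rw [hβ (e 3) (e 2)]; ring

theorem ip_apply (β : Bil) (u v : E) : ip β u v = β u v - am β u v := rfl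

theorem anti01 {β : Bil} (h : Anti J0 β) (ha : Alt β) : β (e 0) (e 1) = 0 := by
  have h1 := h (e 0) (e 1)
  rw [J_e0, J_e1, map_neg, ha (e 1) (e 0)] at h1
  linarith
theorem anti23 {β : Bil} (h : Anti J0 β) (ha : Alt β) : β (e 2) (e 3) = 0 := by
  have h1 := h (e 2) (e 3)
  rw [J_e2, J_e3, map_neg, ha (e 3) (e 2)] at h1
  linarith
theorem anti13 {β : Bil} (h : Anti J0 β) : β (e 1) (e 3) = -β (e 0) (e 2) := by
  have h1 := h (e 0) (e 2)
  rwa [J_e0, J_e2] at h1
theorem anti12 {β : Bil} (h : Anti J0 β) : β (e 1) (e 2) = β (e 0) (e 3) := by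
  have h1 := h (e 0) (e 3)
  rw [J_e0, J_e3, map_neg] at h1
  linarith

/-- a bound for the norm of a bilinear form from a bound for the squares -/
theorem norm_sq_le_of {β : Bil} {c : ℝ} (hc : 0 ≤ c)
    (h : ∀ u v, (β u v) ^ 2 ≤ c * (‖u‖ ^ 2 * ‖v‖ ^ 2)) : ‖β‖ ^ 2 ≤ c := by
  have h1 : ‖β‖ ≤ Real.sqrt c := by
    refine ContinuousLinearMap.opNorm_le_bound₂ β (Real.sqrt_nonneg c) fun u v => ?_
    rw [Real.norm_eq_abs]
    refine abs_le_of_sq_le_sq' ?_ (by positivity) |> fun h => abs_le.2 h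
    rw [mul_pow, mul_pow, Real.sq_sqrt hc, mul_assoc]
    exact h u v
  calc ‖β‖ ^ 2 ≤ Real.sqrt c ^ 2 := by gcongr
    _ = c := Real.sq_sqrt hc

theorem det4_eq (u v w z : E) :
    det4 u v w z = (Matrix.of ![fun i => u i, fun i => v i, fun i => w i, fun i => z i]).det := by
  simp [det4, Matrix.det_succ_row_zero, Fin.sum_univ_succ, Fin.succAbove]
  ring

theorem map_apply (A : End) (u : E) (i : Fin 4) : A u i = ∑ a, u a * A (e a) i := by
  conv_lhs => rw [← sum_e u]
  simp [map_sum]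

end Alg2Aux

open Alg2Aux

/-! ### alternating and anti-invariant forms -/

theorem Alt.zero : Alt 0 := by
  intro u v; simp
theorem Alt.add {β γ : Bil} (hβ : Alt β) (hγ : Alt γ) : Alt (β + γ) := by
  intro u v
  simp only [_root_.add_apply]
  rw [hβ u v, hγ u v]; ring
theorem Alt.sub {β γ : Bil} (hβ : Alt β) (hγ : Alt γ) : Alt (β - γ) := by
  intro u v
  simp only [_root_.sub_apply]
  rw [hβ u v, hγ u v]; ring
theorem Alt.smul {β : Bil} (hβ : Alt β) (c : ℝ) : Alt (c • β) := by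
  intro u v
  simp only [_root_.smul_apply, smul_eq_mul]
  rw [hβ u v]; ring
theorem Alt.sum {ι : Type*} {s : Finset ι} {β : ι → Bil} (h : ∀ j ∈ s, Alt (β j)) :
    Alt (∑ j ∈ s, β j) :=
  Finset.sum_induction β Alt (fun _ _ => Alt.add) Alt.zero h
theorem Alt.pb {β : Bil} (hβ : Alt β) (A : End) : Alt (R240.pb β A) := by
  intro u v
  simp only [pb_apply]
  exact hβ _ _
theorem Alt.amJ {β : Bil} (hβ : Alt β) (J : End) : Alt (R240.amJ J β) := by
  intro u v
  rw [amJ_apply, amJ_apply, hβ u v, hβ (J u) (J v)]; ring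
theorem Alt.self {β : Bil} (hβ : Alt β) (v : E) : β v v = 0 := by
  have := hβ v v; linarith
theorem alt_of_self {β : Bil} (h : ∀ v, β v v = 0) : Alt β := by
  intro u v
  have h1 := h (u + v)
  simp only [map_add, _root_.add_apply, h] at h1
  linarith
theorem alt_of_coef {β : Bil} (h : ∀ a b, β (e a) (e b) = -β (e b) (e a)) : Alt β := by
  intro u v
  rw [bil_apply β u v, bil_apply β v u, Finset.sum_comm, ← Finset.sum_neg_distrib]
  refine Finset.sum_congr rfl fun a _ => ?_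
  rw [← Finset.sum_neg_distrib]
  refine Finset.sum_congr rfl fun b _ => ?_
  rw [h b a]; ring
theorem alt_wedge (φ ψ : Cov) : Alt (wedge φ ψ) := by
  intro u v
  simp only [wedge_apply]; ring
theorem alt_star (β : Bil) : Alt (star β) := by
  unfold star
  exact ((((((alt_wedge _ _).smul _).sub ((alt_wedge _ _).smul _)).add
    ((alt_wedge _ _).smul _)).add ((alt_wedge _ _).smul _)).sub ((alt_wedge _ _).smul _)).add
    ((alt_wedge _ _).smul _)
theorem alt_altL (β : Bil) : Alt (altL β) := by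
  intro u v
  rw [altL_apply, altL_apply]; ring
theorem Alt.altL {β : Bil} (hβ : Alt β) : R240.altL β = β := by
  ext u v
  rw [altL_apply, hβ v u]; ring
theorem isClosed_alt : IsClosed {β : Bil | Alt β} := by
  have : {β : Bil | Alt β} = ⋂ u, ⋂ v, {β : Bil | β u v = -β v u} := by
    ext β; simp [Alt]
  rw [this]
  refine isClosed_iInter fun u => isClosed_iInter fun v => isClosed_eq ?_ ?_ <;> fun_prop

theorem Anti.zero (J : End) : Anti J 0 := by
  intro u v; simp
theorem Anti.add {J : End} {β γ : Bil} (hβ : Anti J β) (hγ : Anti J γ) : Anti J (β + γ) := by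
  intro u v
  simp only [_root_.add_apply]
  rw [hβ u v, hγ u v]; ring
theorem Anti.sub {J : End} {β γ : Bil} (hβ : Anti J β) (hγ : Anti J γ) : Anti J (β - γ) := by
  intro u v
  simp only [_root_.sub_apply]
  rw [hβ u v, hγ u v]; ring
theorem Anti.smul {J : End} {β : Bil} (hβ : Anti J β) (c : ℝ) : Anti J (c • β) := by
  intro u v
  simp only [_root_.smul_apply, smul_eq_mul]
  rw [hβ u v]; ring
theorem Anti.sum {ι : Type*} {J : End} {s : Finset ι} {β : ι → Bil} (h : ∀ j ∈ s, Anti J (β j)) :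
    Anti J (∑ j ∈ s, β j) :=
  Finset.sum_induction β (Anti J) (fun _ _ => Anti.add) (Anti.zero J) h
theorem isClosed_anti (J : End) : IsClosed {β : Bil | Anti J β} := by
  have : {β : Bil | Anti J β} = ⋂ u, ⋂ v, {β : Bil | β (J u) (J v) = -β u v} := by
    ext β; simp [Anti]
  rw [this]
  refine isClosed_iInter fun u => isClosed_iInter fun v => isClosed_eq ?_ ?_ <;> fun_prop
theorem anti_amJ {J : End} (hJ : ∀ v, J (J v) = -v) (β : Bil) : Anti J (amJ J β) := by
  intro u v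
  rw [amJ_apply, amJ_apply, hJ, hJ]
  simp only [map_neg, _root_.neg_apply, neg_neg]
  ring
theorem Anti.amJ {J : End} {β : Bil} (h : Anti J β) : R240.amJ J β = β := by
  ext u v
  rw [amJ_apply, h u v]; ring
theorem anti_iff_amJ {J : End} (hJ : ∀ v, J (J v) = -v) (β : Bil) : Anti J β ↔ amJ J β = β :=
  ⟨fun h => h.amJ, fun h => h ▸ anti_amJ hJ β⟩
theorem amJ_eq_zero_iff (J : End) (β : Bil) : amJ J β = 0 ↔ ∀ u v, β (J u) (J v) = β u v := by
  constructor
  · intro h u v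
    have h1 : amJ J β u v = 0 := by rw [h]; simp
    rw [amJ_apply] at h1
    linarith
  · intro h
    ext u v
    rw [amJ_apply, h u v]; simp
theorem anti_am (β : Bil) : Anti J0 (am β) := anti_amJ J0_J0 β
theorem am_am (β : Bil) : am (am β) = am β := (anti_am β).amJ
theorem am_ip (β : Bil) : am (ip β) = 0 := by
  have h : am (β - am β) = am β - am (am β) := (amL J0).map_sub β (am β)
  rw [ip, h, am_am, sub_self]
theorem am_add (β γ : Bil) : am (β + γ) = am β + am γ := (amL J0).map_add β γ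
theorem am_sub (β γ : Bil) : am (β - γ) = am β - am γ := (amL J0).map_sub β γ
theorem am_smul (c : ℝ) (β : Bil) : am (c • β) = c • am β := (amL J0).map_smul c β
/-- an anti-invariant alternating form vanishes on complex lines -/
theorem Anti.line {β : Bil} (h : Anti J0 β) (ha : Alt β) (v : E) : β v (J0 v) = 0 := by
  have h1 := h v (J0 v)
  rw [J0_J0, map_neg, ha (J0 v) v] at h1
  linarith

/-- the two basic anti-invariant forms -/
def Om1 : Bil := wedge (dx 0) (dx 2) - wedge (dx 1) (dx 3)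
def Om2 : Bil := wedge (dx 0) (dx 3) + wedge (dx 1) (dx 2)
theorem Om_apply (x y : ℝ) (u v : E) : (x • Om1 + y • Om2) u v =
    x * (u 0 * v 2 - u 2 * v 0 - (u 1 * v 3 - u 3 * v 1))
      + y * (u 0 * v 3 - u 3 * v 0 + (u 1 * v 2 - u 2 * v 1)) := by
  simp only [Om1, Om2, _root_.add_apply, _root_.sub_apply,
    _root_.smul_apply, smul_eq_mul, wedge_apply, dx_apply]
theorem Om_spec (x y : ℝ) : Alt (x • Om1 + y • Om2) ∧ Anti J0 (x • Om1 + y • Om2) := by
  constructor
  · intro u v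
    rw [Om_apply, Om_apply]; ring
  · intro u v
    rw [Om_apply, Om_apply]
    simp only [J0_0, J0_1, J0_2, J0_3]; ring
theorem Anti.eq_Om {β : Bil} (h : Anti J0 β) (ha : Alt β) :
    β = β (e 0) (e 2) • Om1 + β (e 0) (e 3) • Om2 := by
  ext u v
  rw [Om_apply, alt_apply ha u v, anti01 h ha, anti23 h ha, anti13 h, anti12 h]; ring
theorem wp_Om (x y x' y' : ℝ) :
    wp (x • Om1 + y • Om2) (x' • Om1 + y' • Om2) = 2 * (x * x' + y * y') := by
  simp only [wp, Om_apply]
  simp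
  ring
theorem norm_Om_sq (x y : ℝ) : ‖x • Om1 + y • Om2‖ ^ 2 = x ^ 2 + y ^ 2 := by
  apply le_antisymm
  · refine norm_sq_le_of (by positivity) fun u v => ?_
    rw [Om_apply, norm_sq_eq, norm_sq_eq]
    have key : ∀ a0 a1 a2 a3 b0 b1 b2 b3 : ℝ, (a0 * b0 + a1 * b1 + a2 * b2 + a3 * b3) ^ 2 ≤
        (a0 ^ 2 + a1 ^ 2 + a2 ^ 2 + a3 ^ 2) * (b0 ^ 2 + b1 ^ 2 + b2 ^ 2 + b3 ^ 2) := by
      intro a0 a1 a2 a3 b0 b1 b2 b3
      nlinarith [sq_nonneg (a0 * b1 - a1 * b0), sq_nonneg (a0 * b2 - a2 * b0),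
        sq_nonneg (a0 * b3 - a3 * b0), sq_nonneg (a1 * b2 - a2 * b1),
        sq_nonneg (a1 * b3 - a3 * b1), sq_nonneg (a2 * b3 - a3 * b2)]
    have h := key (-x * u 2 - y * u 3) (x * u 3 - y * u 2) (x * u 0 + y * u 1)
      (-x * u 1 + y * u 0) (v 0) (v 1) (v 2) (v 3)
    convert h using 1 <;> ring
  · set β := x • Om1 + y • Om2 with hβ
    set v : E := x • e 2 + y • e 3 with hv
    have h1 : β (e 0) v = x ^ 2 + y ^ 2 := by
      rw [hβ, Om_apply]; simp [hv]; ring
    have h2 : ‖v‖ ^ 2 = x ^ 2 + y ^ 2 := by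
      rw [norm_sq_eq]; simp [hv]
    have h3 := abs_apply_le β (e 0) v
    rw [h1, norm_e, mul_one, ← h2, abs_of_nonneg (by positivity)] at h3
    rw [← h2]
    rcases (norm_nonneg v).eq_or_lt with h0 | h0
    · rw [← h0]; simp
    · have h4 : ‖v‖ ≤ ‖β‖ := by nlinarith
      gcongr

/-! ### the wedge pairing -/

theorem wp_comm (β γ : Bil) : wp β γ = wp γ β := by
  unfold wp; ring
theorem wp_add_left (β β' γ : Bil) : wp (β + β') γ = wp β γ + wp β' γ := by
  simp only [wp, _root_.add_apply]; ring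
theorem wp_sub_left (β β' γ : Bil) : wp (β - β') γ = wp β γ - wp β' γ := by
  simp only [wp, _root_.sub_apply]; ring
theorem wp_smul_left (c : ℝ) (β γ : Bil) : wp (c • β) γ = c * wp β γ := by
  simp only [wp, _root_.smul_apply, smul_eq_mul]; ring
theorem wp_add_right (β γ γ' : Bil) : wp β (γ + γ') = wp β γ + wp β γ' := by
  simp only [wp, _root_.add_apply]; ring
theorem wp_sub_right (β γ γ' : Bil) : wp β (γ - γ') = wp β γ - wp β γ' := by
  simp only [wp, _root_.sub_apply]; ring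
theorem wp_smul_right (c : ℝ) (β γ : Bil) : wp β (c • γ) = c * wp β γ := by
  simp only [wp, _root_.smul_apply, smul_eq_mul]; ring
@[simp] theorem wp_zero_left (γ : Bil) : wp 0 γ = 0 := by
  simp [wp]
@[simp] theorem wp_zero_right (β : Bil) : wp β 0 = 0 := by
  simp [wp]
theorem Alg2Aux.det_eq (A : End) : A.det = (Matrix.of fun a i : Fin 4 => A (e a) i).det := by
  rw [ContinuousLinearMap.det,
    ← LinearMap.det_toMatrix (EuclideanSpace.basisFun (Fin 4) ℝ).toBasis, ← Matrix.det_transpose]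
  congr 1
theorem det4_map (A : End) (u v w z : E) :
    det4 (A u) (A v) (A w) (A z) = A.det * det4 u v w z := by
  rw [det4_eq, det4_eq, Alg2Aux.det_eq, mul_comm, ← Matrix.det_mul]
  congr 1
  ext r i
  fin_cases r <;> simp [Matrix.mul_apply] <;> exact map_apply A _ i
theorem det_eq_det4 (A : End) : A.det = det4 (A (e 0)) (A (e 1)) (A (e 2)) (A (e 3)) := by
  rw [det4_map]
  simp [det4]
theorem wp_pb {β γ : Bil} (hβ : Alt β) (hγ : Alt γ) (A : End) :
    wp (pb β A) (pb γ A) = A.det * wp β γ := by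
  rw [det_eq_det4]
  simp only [wp, pb_apply]
  rw [alt_apply hβ (A (e 0)) (A (e 1)), alt_apply hβ (A (e 0)) (A (e 2)),
    alt_apply hβ (A (e 0)) (A (e 3)), alt_apply hβ (A (e 1)) (A (e 2)),
    alt_apply hβ (A (e 1)) (A (e 3)), alt_apply hβ (A (e 2)) (A (e 3)),
    alt_apply hγ (A (e 0)) (A (e 1)), alt_apply hγ (A (e 0)) (A (e 2)),
    alt_apply hγ (A (e 0)) (A (e 3)), alt_apply hγ (A (e 1)) (A (e 2)),
    alt_apply hγ (A (e 1)) (A (e 3)), alt_apply hγ (A (e 2)) (A (e 3))]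
  unfold det4
  ring
theorem pbQ_vol (A : End) : pbQ vol A A = A.det • vol := by
  refine quad_ext fun X Y v w => ?_
  rw [qv_pbQ, qv_vol, qv_smul, det4_map]
  simp only [_root_.smul_apply, smul_eq_mul, qv_vol]
theorem contr_vol {φ : Bil} (hφ : Alt φ) : contr vol φ = φ := by
  ext u v
  rw [contr_apply, alt_apply hφ u v]
  simp only [wp, qv_vol, det4, e_apply]
  simp
  ring
/-- change of variables in `contr` -/
theorem contr_pbQ {k : Quad} (hk : ∀ a b, Alt (k a b)) {φ : Bil} (hφ : Alt φ) (A B : End) :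
    contr (pbQ k A B) (pb φ B) = B.det • pb (contr k φ) A := by
  refine bil_ext fun a b => ?_
  have hq : Alt (qv k (A (e a)) (A (e b))) :=
    Alt.sum fun a' _ => Alt.sum fun b' _ => (hk a' b').smul _
  simp only [_root_.smul_apply, smul_eq_mul, pb_apply, contr_apply, qv_e]
  exact wp_pb hq hφ B
theorem wp_am_left {β γ : Bil} (hβ : Alt β) (hγ : Alt γ) (h : Anti J0 γ) :
    wp (am β) γ = wp β γ := by
  simp only [wp, am01 hβ, am02, am03, am12, am13, am23 hβ, anti01 h hγ, anti23 h hγ, anti13 h,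
    anti12 h]
  ring
theorem wp_ip_am {β γ : Bil} (hβ : Alt β) (hγ : Alt γ) : wp (ip β) (am γ) = 0 := by
  have hg : Alt (am γ) := hγ.amJ J0
  rw [ip, wp_sub_left, wp_am_left hβ hg (anti_am γ), sub_self]
theorem wp_self_anti {β : Bil} (hβ : Alt β) (h : Anti J0 β) : wp β β = 2 * ‖β‖ ^ 2 := by
  obtain ⟨x, y, hxy⟩ : ∃ x y : ℝ, β = x • Om1 + y • Om2 := ⟨_, _, h.eq_Om hβ⟩
  rw [hxy, wp_Om, norm_Om_sq]; ring
theorem wp_split {β : Bil} (hβ : Alt β) :
    wp β β = wp (ip β) (ip β) + 2 * ‖am β‖ ^ 2 := by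
  have h1 : β = ip β + am β := by rw [ip, sub_add_cancel]
  have h2 := wp_ip_am hβ hβ
  rw [← wp_self_anti (β := am β) (hβ.amJ J0) (anti_am β)]
  conv_lhs => rw [h1]
  rw [wp_add_left, wp_add_right, wp_add_right, wp_comm (am β) (ip β), h2]; ring
/-- `wp β (star β)` is the Frobenius norm -/
theorem norm_sq_le_wp_star {β : Bil} (hβ : Alt β) : ‖β‖ ^ 2 ≤ 2 * wp β (star β) := by
  have hs : 2 * wp β (star β) = ∑ p : Fin 4 × Fin 4, β (e p.1) (e p.2) ^ 2 := by
    rw [Fintype.sum_prod_type]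
    simp only [wp, star01, star02, star03, star12, star13, star23, Fin.sum_univ_four, hβ.self]
    rw [hβ (e 1) (e 0), hβ (e 2) (e 0), hβ (e 3) (e 0), hβ (e 2) (e 1), hβ (e 3) (e 1),
      hβ (e 3) (e 2)]
    ring
  rw [hs]
  refine norm_sq_le_of (by positivity) fun u v => ?_
  have h1 : β u v = ∑ p : Fin 4 × Fin 4, β (e p.1) (e p.2) * (u p.1 * v p.2) := by
    rw [Fintype.sum_prod_type, bil_apply β u v]
  have h2 : ‖u‖ ^ 2 * ‖v‖ ^ 2 = ∑ p : Fin 4 × Fin 4, (u p.1 * v p.2) ^ 2 := by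
    rw [Fintype.sum_prod_type, norm_sq_eq, norm_sq_eq]
    simp only [Fin.sum_univ_four]; ring
  rw [h1, h2]
  exact Finset.sum_mul_sq_le_sq_mul_sq _ _ _
theorem am_star {β : Bil} (hβ : Alt β) : am (star β) = star (am β) := by
  have hs := alt_star β
  refine alt_ext (hs.amJ J0) (alt_star _) ?_ ?_ ?_ ?_ ?_ ?_ <;>
    simp only [star01, star02, star03, star12, star13, star23, am01 hβ, am01 hs, am02, am03, am12,
      am13, am23 hβ, am23 hs] <;> ring
/-- almost positive `(1,1)`-forms have almost nonnegative square -/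
theorem wp_ip_ge {β : Bil} (hβ : Alt β) {δ : ℝ} (hδ : 0 ≤ δ)
    (h : ∀ v, ‖v‖ = 1 → -δ ≤ β v (J0 v)) :
    -(4 * δ * ‖β‖ + 2 * δ ^ 2) ≤ wp (ip β) (ip β) := by
  have h' : ∀ v : E, 0 ≤ β v (J0 v) + δ * ‖v‖ ^ 2 := by
    intro v
    rcases eq_or_ne v 0 with rfl | hv
    · simp
    · have hn : 0 < ‖v‖ := norm_pos_iff.2 hv
      have h1 := h (‖v‖⁻¹ • v) (by rw [norm_smul, norm_inv, norm_norm, inv_mul_cancel₀ hn.ne'])
      simp only [map_smul, _root_.smul_apply, smul_eq_mul] at h1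
      have h2 : β v (J0 v) = ‖v‖ ^ 2 * (‖v‖⁻¹ * (‖v‖⁻¹ * β v (J0 v))) := by
        field_simp
      rw [h2]
      nlinarith [sq_nonneg ‖v‖]
  set a := β (e 0) (e 1) with ha
  set d := β (e 2) (e 3) with hd
  set u := (β (e 0) (e 2) + β (e 1) (e 3)) / 2 with hu
  set w := (β (e 0) (e 3) - β (e 1) (e 2)) / 2 with hw
  have hq : ∀ s p q : ℝ, 0 ≤ (a + δ) * s ^ 2 + (d + δ) * (p ^ 2 + q ^ 2) + 2 * s * (w * p - u * q) := by
    intro s p q
    have h1 := h' (s • e 0 + p • e 2 + q • e 3)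
    rw [alt_apply hβ, norm_sq_eq] at h1
    simp only [J0_0, J0_1, J0_2, J0_3] at h1
    simp at h1
    rw [hu, hw]
    nlinarith [h1]
  have hwp : wp (ip β) (ip β) = 2 * (a * d - (u ^ 2 + w ^ 2)) := by
    simp only [wp, ip_apply, am01 hβ, am02, am03, am12, am13, am23 hβ]
    rw [hu, hw]; ring
  have ha0 : 0 ≤ a + δ := by simpa using hq 1 0 0
  have hd0 : 0 ≤ d + δ := by simpa using hq 0 1 0
  have hr : u ^ 2 + w ^ 2 ≤ (a + δ) * (d + δ) := by
    have hdisc : discrim (a + δ) (-2 * (u ^ 2 + w ^ 2)) ((d + δ) * (u ^ 2 + w ^ 2)) ≤ 0 := by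
      refine discrim_le_zero fun s => ?_
      have h1 := hq s (-w) u
      nlinarith [h1]
    rw [discrim] at hdisc
    rcases (show 0 ≤ u ^ 2 + w ^ 2 by positivity).eq_or_lt with h0 | h0
    · rw [← h0]; positivity
    · by_contra hlt
      push Not at hlt
      nlinarith [mul_pos h0 (sub_pos.2 hlt)]
  have ha1 : a ≤ ‖β‖ := by
    have := abs_apply_le β (e 0) (e 1)
    rw [norm_e, norm_e, mul_one, mul_one] at this
    exact (le_abs_self _).trans this
  have hd1 : d ≤ ‖β‖ := by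
    have := abs_apply_le β (e 2) (e 3)
    rw [norm_e, norm_e, mul_one, mul_one] at this
    exact (le_abs_self _).trans this
  rw [hwp]
  nlinarith [mul_le_mul_of_nonneg_left ha1 hδ, mul_le_mul_of_nonneg_left hd1 hδ]

end Crest.Agent.R240

end
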