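import Crest.Agent.R240.Alg2

/-!
# Row 240: unitary maps, the complex angle, kernel identities
-/

set_option autoImplicit false
set_option linter.unusedSectionVars false
set_option linter.unusedVariables false

open MeasureTheory Metric Set Filter Topology
open scoped ContDiff ENNReal

noncomputable section

namespace Crest.Agent.R240

/-! ### auxiliary coordinate formulas -/

namespace Alg3

/-- real part of the complex determinant -/
def cP (v w : E) : ℝ := v 0 * w 2 - v 1 * w 3 - v 2 * w 0 + v 3 * w 1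
/-- imaginary part of the complex determinant -/
def cQ (v w : E) : ℝ := v 0 * w 3 + v 1 * w 2 - v 2 * w 1 - v 3 * w 0

theorem ang_PQ (v w : E) : ang v w = cP v w ^ 2 + cQ v w ^ 2 := by
  simp only [ang, det4, cP, cQ, J0_0, J0_1, J0_2, J0_3]; ring

theorem ang_eq' (v w : E) :
    ang v w = ‖v‖ ^ 2 * ‖w‖ ^ 2 - inner ℝ v w ^ 2 - inner ℝ (J0 v) w ^ 2 := by
  rw [norm_sq_eq, norm_sq_eq, inner_eq, inner_eq]
  simp only [ang, det4, J0_0, J0_1, J0_2, J0_3]; ring

theorem ang_le' (v w : E) : ang v w ≤ ‖v‖ ^ 2 * ‖w‖ ^ 2 := by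
  rw [ang_eq']; nlinarith [sq_nonneg (inner ℝ v w), sq_nonneg (inner ℝ (J0 v) w)]

theorem sqrt_ang_le_mul (v w : E) : √(ang v w) ≤ ‖v‖ * ‖w‖ := by
  rw [Real.sqrt_le_left (by positivity), mul_pow]; exact ang_le' v w

theorem abs_pair_le (a b c d : ℝ) : |a * c + b * d| ≤ √(a ^ 2 + b ^ 2) * √(c ^ 2 + d ^ 2) := by
  rw [← Real.sqrt_mul (by positivity)]
  apply Real.abs_le_sqrt
  nlinarith [sq_nonneg (a * d - b * c)]

theorem abs_cross_le (a b c d : ℝ) : |a * d - b * c| ≤ √(a ^ 2 + b ^ 2) * √(c ^ 2 + d ^ 2) := by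
  rw [← Real.sqrt_mul (by positivity)]
  apply Real.abs_le_sqrt
  nlinarith [sq_nonneg (a * c + b * d)]

/-- the complex determinant -/
def cdet (v w : E) : ℂ := ⟨cP v w, cQ v w⟩

theorem norm_cdet (v w : E) : ‖cdet v w‖ = √(ang v w) := by
  rw [ang_PQ, Complex.norm_eq_sqrt_sq_add_sq]; rfl

theorem cdet_split (v w v' w' : E) :
    cdet v w = cdet v' w' + cdet (v - v') w + cdet v' (w - w') := by
  apply Complex.ext <;> simp [cdet, cP, cQ] <;> ring

theorem star_apply (β : Bil) (u v : E) : star β u v =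
    β (e 0) (e 1) * (u 2 * v 3 - u 3 * v 2) - β (e 0) (e 2) * (u 1 * v 3 - u 3 * v 1)
      + β (e 0) (e 3) * (u 1 * v 2 - u 2 * v 1) + β (e 1) (e 2) * (u 0 * v 3 - u 3 * v 0)
      - β (e 1) (e 3) * (u 0 * v 2 - u 2 * v 0) + β (e 2) (e 3) * (u 0 * v 1 - u 1 * v 0) := by
  simp only [star, add_apply, sub_apply,
    smul_apply, wedge_apply, dx_apply, smul_eq_mul]

theorem inner_e (u : E) (a : Fin 4) : inner ℝ u (e a) = u a := by
  rw [inner_eq]; fin_cases a <;> simp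

theorem star_eq_wp (β : Bil) (u v : E) :
    star β u v = wp β (wedge (innerSL ℝ u) (innerSL ℝ v)) := by
  rw [star_apply]
  simp only [wp, wedge_apply, innerSL_apply_apply, inner_e]
  ring

theorem Th_apply (θ : End) (u v : E) : Th θ u v =
    θ (e 0) 1 * (u 2 * v 3 - u 3 * v 2) - θ (e 0) 2 * (u 1 * v 3 - u 3 * v 1)
      + θ (e 0) 3 * (u 1 * v 2 - u 2 * v 1) + θ (e 1) 2 * (u 0 * v 3 - u 3 * v 0)
      - θ (e 1) 3 * (u 0 * v 2 - u 2 * v 0) + θ (e 2) 3 * (u 0 * v 1 - u 1 * v 0) := by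
  rw [Th, star_apply]; simp only [ofCoef_e]

theorem end_apply (θ : End) (z : E) (b : Fin 4) :
    θ z b = z 0 * θ (e 0) b + z 1 * θ (e 1) b + z 2 * θ (e 2) b + z 3 * θ (e 3) b := by
  conv_lhs => rw [← sum_e z]
  simp [Fin.sum_univ_four]

theorem J0_e0 : J0 (e 0) = e 1 := by
  ext i; fin_cases i <;> simp

theorem J0_e2 : J0 (e 2) = e 3 := by
  ext i; fin_cases i <;> simp

theorem uni_inj {U : End} (hU : Uni U) : Function.Injective U := by
  intro a b hab
  have h := hU.1 (a - b)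
  rw [map_sub, hab, sub_self, norm_zero] at h
  exact sub_eq_zero.1 (norm_eq_zero.1 h.symm)

end Alg3

open Alg3

/-! ### unitary maps -/

theorem uni_id : Uni (ContinuousLinearMap.id ℝ E) := ⟨fun _ => rfl, fun _ => rfl⟩
theorem Uni.comp {U W : End} (hU : Uni U) (hW : Uni W) : Uni (U.comp W) :=
  ⟨fun v => by rw [ContinuousLinearMap.comp_apply, hU.1, hW.1],
    fun v => by rw [ContinuousLinearMap.comp_apply, ContinuousLinearMap.comp_apply, hW.2, hU.2]⟩
theorem Uni.inv {U W : End} (hU : Uni U) (h : ∀ v, U (W v) = v) : Uni W :=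
  ⟨fun v => by rw [← hU.1 (W v), h], fun v => uni_inj hU (by rw [h, hU.2, h])⟩
theorem Uni.inner {U : End} (hU : Uni U) (u v : E) : inner ℝ (U u) (U v) = inner ℝ u v :=
  LinearIsometry.inner_map_map (⟨U.toLinearMap, hU.1⟩ : E →ₗᵢ[ℝ] E) u v
theorem Uni.surj {U : End} (hU : Uni U) : Function.Surjective U :=
  (LinearMap.injective_iff_surjective (f := U.toLinearMap)).1 (uni_inj hU)
theorem Uni.norm_le {U : End} (hU : Uni U) : ‖U‖ ≤ 1 :=
  ContinuousLinearMap.opNorm_le_bound _ zero_le_one fun v => by rw [hU.1, one_mul]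
theorem Uni.det {U : End} (hU : Uni U) : U.det = 1 := by
  rw [det_eq_det4, ← J0_e0, ← J0_e2, hU.2, hU.2]
  change R240.ang (U (e 0)) (U (e 2)) = 1
  rw [ang_eq', ← hU.2, hU.inner, hU.inner, hU.1, hU.1, norm_e, norm_e, inner_e, inner_e]
  simp
theorem Uni.det4 {U : End} (hU : Uni U) (u v w z : E) :
    det4 (U u) (U v) (U w) (U z) = det4 u v w z := by
  rw [det4_map, hU.det, one_mul]
theorem Uni.ang {U : End} (hU : Uni U) (v w : E) : ang (U v) (U w) = ang v w := by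
  unfold R240.ang
  rw [← hU.2, ← hU.2, hU.det4]
theorem Uni.exists_inv {U : End} (hU : Uni U) : ∃ W : End, ∀ v, U (W v) = v := by
  let eq : E ≃ₗ[ℝ] E := LinearEquiv.ofBijective U.toLinearMap ⟨uni_inj hU, hU.surj⟩
  exact ⟨LinearMap.toContinuousLinearMap eq.symm.toLinearMap, fun v => eq.apply_symm_apply v⟩
theorem Uni.norm_pb_le {U : End} (hU : Uni U) (β : Bil) : ‖pb β U‖ ≤ ‖β‖ := by
  refine (R240.norm_pb_le β U).trans ?_
  have h1 : ‖U‖ ^ 2 ≤ 1 := pow_le_one₀ (norm_nonneg _) hU.norm_le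
  exact mul_le_of_le_one_right (norm_nonneg _) h1
theorem Uni.norm_pb {U : End} (hU : Uni U) (β : Bil) : ‖pb β U‖ = ‖β‖ := by
  refine le_antisymm (hU.norm_pb_le β) ?_
  obtain ⟨W, hW⟩ := hU.exists_inv
  have h1 : pb (pb β U) W = β := by rw [pb_pb]; exact pb_of_id β hW
  calc ‖β‖ = ‖pb (pb β U) W‖ := by rw [h1]
    _ ≤ ‖pb β U‖ := (hU.inv hW).norm_pb_le _
theorem Uni.am_pb {U : End} (hU : Uni U) (β : Bil) : am (pb β U) = pb (am β) U := by
  ext u v
  simp only [am, amJ_apply, pb_apply, hU.2]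
theorem Uni.star_pb {U : End} (hU : Uni U) {β : Bil} (hβ : Alt β) :
    star (pb β U) = pb (star β) U := by
  ext u v
  have h1 : wedge (innerSL ℝ u) (innerSL ℝ v)
      = pb (wedge (innerSL ℝ (U u)) (innerSL ℝ (U v))) U := by
    ext x y
    simp only [pb_apply, wedge_apply, innerSL_apply_apply, hU.inner]
  rw [pb_apply, star_eq_wp, star_eq_wp, h1, wp_pb hβ (alt_wedge _ _), hU.det, one_mul]
theorem altL_pb (U : End) (β : Bil) : altL (pb β U) = pb (altL β) U := by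
  ext u v
  simp only [altL_apply, pb_apply]
theorem Uni.anti_pb {U : End} (hU : Uni U) {β : Bil} (h : Anti J0 β) : Anti J0 (pb β U) := by
  intro u v
  rw [pb_apply, pb_apply, hU.2, hU.2, h]

/-! ### the complex angle -/

theorem ang_eq (v w : E) :
    ang v w = ‖v‖ ^ 2 * ‖w‖ ^ 2 - inner ℝ v w ^ 2 - inner ℝ (J0 v) w ^ 2 := ang_eq' v w
theorem ang_nonneg (v w : E) : 0 ≤ ang v w := by rw [ang_PQ]; positivity
theorem ang_le (v w : E) : ang v w ≤ ‖v‖ ^ 2 * ‖w‖ ^ 2 := ang_le' v w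
theorem ang_comm (v w : E) : ang v w = ang w v := by
  simp only [ang_PQ, cP, cQ]; ring
theorem ang_J0 (v w : E) : ang v (J0 w) = ang v w := by
  simp only [ang_PQ, cP, cQ, J0_0, J0_1, J0_2, J0_3]; ring
theorem ang_neg (v w : E) : ang v (-w) = ang v w := by
  simp only [ang_PQ, cP, cQ, PiLp.neg_apply]; ring
/-- `√ang` is the modulus of the complex determinant -/
theorem sqrt_ang_le (v w v' w' : E) :
    √(ang v w) ≤ √(ang v' w') + ‖v - v'‖ * ‖w‖ + ‖v'‖ * ‖w - w'‖ := by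
  have h1 := sqrt_ang_le_mul (v - v') w
  have h2 := sqrt_ang_le_mul v' (w - w')
  rw [← norm_cdet] at h1 h2
  rw [← norm_cdet, ← norm_cdet, cdet_split v w v' w']
  exact (norm_add₃_le).trans (by linarith)
/-- the components orthogonal to the complex line of the unit vector `v` -/
theorem inner_perp_le {v : E} (hv : ‖v‖ = 1) (z b : E) :
    |inner ℝ z b - (inner ℝ z v * inner ℝ b v + inner ℝ z (J0 v) * inner ℝ b (J0 v))|
      ≤ √(ang v z) * √(ang v b) := by
  have hv2 : v 0 ^ 2 + v 1 ^ 2 + v 2 ^ 2 + v 3 ^ 2 = 1 := by rw [← norm_sq_eq, hv, one_pow]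
  have h1 : inner ℝ z b - (inner ℝ z v * inner ℝ b v + inner ℝ z (J0 v) * inner ℝ b (J0 v))
      = cP v z * cP v b + cQ v z * cQ v b := by
    simp only [inner_eq, cP, cQ, J0_0, J0_1, J0_2, J0_3]
    linear_combination (-(z 0 * b 0 + z 1 * b 1 + z 2 * b 2 + z 3 * b 3)) * hv2
  rw [h1, ang_PQ, ang_PQ]
  exact abs_pair_le _ _ _ _
/-- almost complex planes intersect almost positively -/
theorem det4_ge (p q d d' : E) :
    (1 / 2) * ang p q - (1 / 2) * (‖d‖ * ‖q‖ + ‖d'‖ * ‖p‖) ^ 2 - 24 * (‖p‖ * ‖q‖ * ‖d‖ * ‖d'‖)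
      ≤ det4 p (J0 p + d) q (J0 q + d') := by
  have h0 : det4 p (J0 p + d) q (J0 q + d') = ang p q + (cP p q * cQ d q - cQ p q * cP d q)
      + (cP p q * cQ p d' - cQ p q * cP p d') + det4 p d q d' := by
    simp only [ang, det4, cP, cQ, PiLp.add_apply, J0_0, J0_1, J0_2, J0_3]; ring
  have h1 := abs_cross_le (cP p q) (cQ p q) (cP d q) (cQ d q)
  have h2 := abs_cross_le (cP p q) (cQ p q) (cP p d') (cQ p d')
  rw [← ang_PQ, ← ang_PQ] at h1 h2
  have h3 := abs_det4_le p d q d'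
  have h4 := sqrt_ang_le_mul d q
  have h5 := sqrt_ang_le_mul p d'
  have hx : 0 ≤ √(ang p q) := Real.sqrt_nonneg _
  have hx2 : √(ang p q) ^ 2 = ang p q := Real.sq_sqrt (ang_nonneg p q)
  have h6 := mul_le_mul_of_nonneg_left h4 hx
  have h7 := mul_le_mul_of_nonneg_left h5 hx
  have h1' := (abs_le.1 (h1.trans h6)).1
  have h2' := (abs_le.1 (h2.trans h7)).1
  have h3' := (abs_le.1 h3).1
  rw [h0]
  nlinarith [sq_nonneg (√(ang p q) - (‖d‖ * ‖q‖ + ‖d'‖ * ‖p‖))]

/-! ### identities for the kernel and the parametrix -/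

/-- five vectors in `ℝ⁴` -/
theorem det4_five (z a b c d f : E) :
    inner ℝ z a * det4 b c d f - inner ℝ z b * det4 a c d f + inner ℝ z c * det4 a b d f
      - inner ℝ z d * det4 a b c f + inner ℝ z f * det4 a b c d = 0 := by
  simp only [inner_eq, det4]; ring
theorem alt_Th (θ : End) : Alt (Th θ) := alt_star _
theorem Th_cov (θ : E →L[ℝ] End) (X Y v : E) :
    cov (fun c => Th (θ (e c)) X Y) v = Th (θ v) X Y := by
  have h : ∀ a b : Fin 4, θ v (e a) b = v 0 * θ (e 0) (e a) b + v 1 * θ (e 1) (e a) b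
      + v 2 * θ (e 2) (e a) b + v 3 * θ (e 3) (e a) b := by
    intro a b
    conv_lhs => rw [← sum_e v]
    simp [Fin.sum_univ_four]
  rw [cov_apply, Fin.sum_univ_four]
  simp only [Th_apply, h]
  ring
theorem Th_cyc {θ : End} (h : ∀ a b, inner ℝ (θ a) b = -inner ℝ a (θ b)) (z P Q R : E) :
    inner ℝ z P * Th θ Q R + inner ℝ z Q * Th θ R P + inner ℝ z R * Th θ P Q
      = det4 P Q R (θ z) := by
  have hs : ∀ a b : Fin 4, θ (e a) b = -θ (e b) a := by
    intro a b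
    have := h (e a) (e b)
    rwa [inner_e, real_inner_comm, inner_e] at this
  have hd : ∀ a : Fin 4, θ (e a) a = 0 := fun a => by linarith [hs a a]
  simp only [inner_eq, Th_apply, det4, end_apply θ z, hd, hs 1 0, hs 2 0, hs 3 0, hs 2 1, hs 3 1,
    hs 3 2]
  ring
theorem norm_Th_le (θ : End) : ‖Th θ‖ ≤ 192 * ‖θ‖ := by
  have h1 : ‖ofCoef fun a b => θ (e a) b‖ ≤ 16 * ‖θ‖ := by
    refine norm_ofCoef_le _ fun a b => ?_
    have h2 : ‖θ (e a) b‖ ≤ ‖θ (e a)‖ := PiLp.norm_apply_le _ _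
    have h3 := θ.le_opNorm (e a)
    rw [norm_e, mul_one] at h3
    exact (Real.norm_eq_abs _ ▸ h2).trans h3
  have := norm_star_le (ofCoef fun a b => θ (e a) b)
  unfold Th
  linarith
/-- the symbol of the parametrix -/
theorem am_wedge_anti {β : Bil} (hβ : Alt β) (h : Anti J0 β) (z : E) :
    am (wedge (innerSL ℝ z) (β z)) = ((1 / 2) * ‖z‖ ^ 2) • β := by
  have hb := Anti.eq_Om h hβ
  generalize β (e 0) (e 2) = x at hb
  generalize β (e 0) (e 3) = y at hb
  subst hb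
  ext u v
  simp only [am, amJ_apply, Om1, Om2, wedge_apply, innerSL_apply_apply, inner_eq, norm_sq_eq,
    add_apply, sub_apply, smul_apply,
    dx_apply, smul_eq_mul, J0_0, J0_1, J0_2, J0_3]
  ring

end Crest.Agent.R240

end
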