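import Crest.Agent.R240.Alg

/-!
# Row 240: the profile functions `bp`, `ap`
-/

set_option autoImplicit false
set_option linter.unusedSectionVars false
set_option linter.unusedVariables false

open MeasureTheory Metric Set Filter Topology
open scoped ContDiff ENNReal

noncomputable section

namespace Crest.Agent.R240

namespace Prof

/-- minus the derivative of `b0` -/
def a0 (s : ℝ) : ℝ := (1 - s)⁻¹ ^ 2 * expNegInvGlue (1 - s)

theorem hasDerivAt_glue (x : ℝ) : HasDerivAt expNegInvGlue (x⁻¹ ^ 2 * expNegInvGlue x) x := by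
  simpa using expNegInvGlue.hasDerivAt_polynomial_eval_inv_mul 1 x

theorem hasDerivAt_b0 (s : ℝ) : HasDerivAt b0 (-a0 s) s := by
  have h := (hasDerivAt_glue (1 - s)).comp s ((hasDerivAt_id s).const_sub 1)
  rw [mul_neg_one] at h
  exact h

theorem deriv_b0 (s : ℝ) : deriv b0 s = -a0 s := (hasDerivAt_b0 s).deriv

theorem b0_smooth : ContDiff ℝ ∞ b0 :=
  expNegInvGlue.contDiff.comp (contDiff_const.sub contDiff_id)

theorem a0_nonneg (s : ℝ) : 0 ≤ a0 s := mul_nonneg (sq_nonneg _) (expNegInvGlue.nonneg _)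

theorem a0_pos {s : ℝ} (hs : s < 1) : 0 < a0 s :=
  mul_pos (pow_pos (inv_pos.2 (sub_pos.2 hs)) 2) (expNegInvGlue.pos_of_pos (sub_pos.2 hs))

theorem a0_zero {s : ℝ} (hs : 1 ≤ s) : a0 s = 0 := by
  rw [a0, expNegInvGlue.zero_of_nonpos (sub_nonpos.2 hs), mul_zero]

theorem a0_cont : Continuous a0 := by
  have h : a0 = fun s => -deriv b0 s := funext fun s => by rw [deriv_b0, neg_neg]
  rw [h]
  exact (b0_smooth.continuous_deriv (by simp)).neg

/-- the normalising integral -/
def I : ℝ := ∫ w : E, -2 * deriv b0 (‖w‖ ^ 2)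

theorem I_pos : 0 < I := by
  have h : (fun w : E => -2 * deriv b0 (‖w‖ ^ 2)) = fun w : E => 2 * a0 (‖w‖ ^ 2) :=
    funext fun w => by rw [deriv_b0]; ring
  rw [I, h]
  refine Continuous.integral_pos_of_hasCompactSupport_nonneg_nonzero (x := 0)
    (continuous_const.mul (a0_cont.comp (continuous_norm.pow 2))) ?_
    (fun w => mul_nonneg zero_le_two (a0_nonneg _)) ?_
  · refine HasCompactSupport.intro (isCompact_closedBall 0 1) fun w hw => ?_
    rw [mem_closedBall_zero_iff, not_le] at hw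
    rw [a0_zero (one_le_pow₀ hw.le), mul_zero]
  · exact (mul_pos two_pos (a0_pos (by simp))).ne'

theorem bp_eq (s : ℝ) : bp s = I⁻¹ * b0 s := rfl

theorem ap_eq (s : ℝ) : ap s = I⁻¹ * (2 * a0 s) := by
  have h : HasDerivAt bp (I⁻¹ * -a0 s) s := (hasDerivAt_b0 s).const_mul I⁻¹
  rw [ap, h.deriv]; ring

end Prof

open Prof

theorem bp_smooth : ContDiff ℝ ∞ bp := contDiff_const.mul b0_smooth
theorem ap_smooth : ContDiff ℝ ∞ ap :=
  contDiff_const.mul (contDiff_infty_iff_deriv.1 bp_smooth).2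
theorem hasDerivAt_bp (s : ℝ) : HasDerivAt bp (-(1 / 2) * ap s) s := by
  have h : HasDerivAt bp (I⁻¹ * -a0 s) s := (hasDerivAt_b0 s).const_mul I⁻¹
  rw [ap_eq]
  convert h using 1
  ring
theorem bp_nonneg (s : ℝ) : 0 ≤ bp s :=
  mul_nonneg (inv_pos.2 I_pos).le (expNegInvGlue.nonneg _)
theorem ap_nonneg (s : ℝ) : 0 ≤ ap s := by
  rw [ap_eq]; exact mul_nonneg (inv_pos.2 I_pos).le (mul_nonneg zero_le_two (a0_nonneg s))
theorem bp_pos {s : ℝ} (hs : s < 1) : 0 < bp s :=
  mul_pos (inv_pos.2 I_pos) (expNegInvGlue.pos_of_pos (sub_pos.2 hs))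
theorem ap_pos {s : ℝ} (hs : s < 1) : 0 < ap s := by
  rw [ap_eq]; exact mul_pos (inv_pos.2 I_pos) (mul_pos two_pos (a0_pos hs))
theorem bp_zero {s : ℝ} (hs : 1 ≤ s) : bp s = 0 := by
  rw [bp_eq, b0, expNegInvGlue.zero_of_nonpos (sub_nonpos.2 hs), mul_zero]
theorem ap_zero {s : ℝ} (hs : 1 ≤ s) : ap s = 0 := by
  rw [ap_eq, a0_zero hs, mul_zero, mul_zero]
theorem deriv_ap_zero {s : ℝ} (hs : 1 ≤ s) : deriv ap s = 0 := by
  refine IsLocalMin.deriv_eq_zero (Eventually.of_forall fun t => ?_)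
  rw [ap_zero hs]
  exact ap_nonneg t
theorem bp_antitone : Antitone bp := fun s t hst =>
  mul_le_mul_of_nonneg_left (expNegInvGlue.monotone (sub_le_sub_left hst 1)) (inv_pos.2 I_pos).le
theorem integral_ap : ∫ w : E, ap (‖w‖ ^ 2) = 1 := by
  have h : (fun w : E => ap (‖w‖ ^ 2)) = fun w : E => I⁻¹ * (-2 * deriv b0 (‖w‖ ^ 2)) :=
    funext fun w => by rw [ap_eq, deriv_b0]; ring
  rw [h, integral_const_mul]
  exact inv_mul_cancel₀ I_pos.ne'
theorem prof_bdd : ∃ C : ℝ, 0 < C ∧ ∀ s, 0 ≤ s → bp s ≤ C ∧ ap s ≤ C ∧ |deriv ap s| ≤ C := by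
  have hc : Continuous fun s => bp s + ap s + |deriv ap s| :=
    (bp_smooth.continuous.add ap_smooth.continuous).add
      (ap_smooth.continuous_deriv (by simp)).abs
  obtain ⟨C, hC⟩ := (isCompact_Icc (a := (0 : ℝ)) (b := 1)).bddAbove_image hc.continuousOn
  refine ⟨max C 1, lt_max_of_lt_right one_pos, fun s hs => ?_⟩
  have h1 : bp s + ap s + |deriv ap s| ≤ max C 1 := by
    rcases le_total s 1 with h | h
    · exact (hC ⟨s, ⟨hs, h⟩, rfl⟩).trans (le_max_left _ _)
    · rw [bp_zero h, ap_zero h, deriv_ap_zero h]; simp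
  have h2 := bp_nonneg s
  have h3 := ap_nonneg s
  have h4 := abs_nonneg (deriv ap s)
  exact ⟨by linarith, by linarith, by linarith⟩
theorem prof_lower : ∃ c : ℝ, 0 < c ∧ ∀ s, 0 ≤ s → s ≤ 1 / 4 → c ≤ bp s ∧ c ≤ ap s := by
  have hc : Continuous fun s => min (bp s) (ap s) := bp_smooth.continuous.min ap_smooth.continuous
  obtain ⟨t, ht, hmin⟩ := (isCompact_Icc (a := (0 : ℝ)) (b := 1 / 4)).exists_isMinOn
    ⟨0, le_rfl, by norm_num⟩ hc.continuousOn
  have ht1 : t < 1 := by linarith [ht.2]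
  exact ⟨min (bp t) (ap t), lt_min (bp_pos ht1) (ap_pos ht1),
    fun s h0 h1 => le_min_iff.1 (hmin ⟨h0, h1⟩)⟩
/-- change of variables by an invertible matrix -/
theorem integral_comp_end {F : Type*} [NormedAddCommGroup F] [NormedSpace ℝ F] (A : End)
    (hA : 0 < A.det) (f : E → F) : ∫ w, A.det • f (A w) = ∫ w, f w := by
  have hb : Function.Bijective A := (A.toContinuousLinearEquivOfDetNeZero hA.ne').bijective
  have h := integral_image_eq_integral_abs_det_fderiv_smul (volume : Measure E) MeasurableSet.univ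
    (f := A) (f' := fun _ => A) (fun x _ => A.hasFDerivWithinAt) hb.1.injOn f
  rw [image_univ, hb.2.range_eq, Measure.restrict_univ, abs_of_pos hA] at h
  exact h.symm
theorem bump_one {x : E} (hx : ‖x‖ ≤ 5 / 2) : bump x = 1 :=
  bump.one_of_mem_closedBall (mem_closedBall_zero_iff.2 hx)
theorem bump_zero {x : E} (hx : 11 / 4 ≤ ‖x‖) : bump x = 0 :=
  bump.zero_of_le_dist (by rw [dist_zero_right]; exact hx)
theorem bump_eventually_one {x : E} (hx : ‖x‖ < 5 / 2) : (fun y => bump y) =ᶠ[𝓝 x] fun _ => 1 :=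
  bump.eventuallyEq_one_of_mem_ball (mem_ball_zero_iff.2 hx)
/-- a function smooth on `ball 0 3` and vanishing off a smaller ball is smooth once extended by `0` -/
theorem contDiff_indicator_ball {X F : Type*} [NormedAddCommGroup X] [NormedSpace ℝ X]
    [NormedAddCommGroup F] [NormedSpace ℝ F] {f : X → F} {O K : Set X} (hO : IsOpen O)
    (hK : IsClosed K) (hKO : K ⊆ O) (hf : ContDiffOn ℝ ∞ f O) (h0 : ∀ x ∈ O, x ∉ K → f x = 0) :
    ContDiff ℝ ∞ (O.indicator f) := by
  refine contDiff_iff_contDiffAt.2 fun x => ?_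
  by_cases hx : x ∈ O
  · refine (hf.contDiffAt (hO.mem_nhds hx)).congr_of_eventuallyEq ?_
    filter_upwards [hO.mem_nhds hx] with y hy using indicator_of_mem hy f
  · refine (contDiffAt_const (c := (0 : F))).congr_of_eventuallyEq ?_
    filter_upwards [hK.isOpen_compl.mem_nhds fun h => hx (hKO h)] with y hy
    by_cases hyO : y ∈ O
    · rw [indicator_of_mem hyO, h0 y hyO hy]
    · exact indicator_of_notMem hyO f
/-- cutting off with `bump` -/
theorem contDiff_bump_smul {F : Type*} [NormedAddCommGroup F] [NormedSpace ℝ F] {f : E → F}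
    (hf : ContDiffOn ℝ ∞ f (ball 0 3)) : ContDiff ℝ ∞ fun x => bump x • f x := by
  have h := contDiff_indicator_ball (f := fun x => bump x • f x) (O := ball (0 : E) 3)
    (K := closedBall 0 (11 / 4)) isOpen_ball isClosed_closedBall
    (closedBall_subset_ball (by norm_num)) (bump.contDiff.contDiffOn.smul hf)
    (fun x _ hx => by
      rw [mem_closedBall_zero_iff, not_le] at hx
      rw [bump_zero hx.le, zero_smul])
  convert h using 1
  funext x
  by_cases hx : x ∈ ball (0 : E) 3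
  · rw [indicator_of_mem hx]
  · rw [indicator_of_notMem hx]
    rw [mem_ball_zero_iff, not_lt] at hx
    rw [bump_zero (by linarith), zero_smul]
/-- volume of balls -/
theorem volume_closedBall_real : ∃ c : ℝ, 0 < c ∧ ∀ (x : E) (r : ℝ), 0 ≤ r →
    (volume : Measure E).real (closedBall x r) = c * r ^ 4 := by
  refine ⟨(volume : Measure E).real (ball 0 1), ?_, fun x r hr => ?_⟩
  · exact ENNReal.toReal_pos (measure_ball_pos _ _ one_pos).ne' measure_ball_lt_top.ne
  · rw [Measure.addHaar_real_closedBall _ x hr, finrank_euclideanSpace_fin, mul_comm]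

end Crest.Agent.R240

end
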