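import Crest.Agent.R240.Par

/-!
# Row 240: currying and bounds for iterated derivatives
-/

set_option autoImplicit false
set_option linter.unusedSectionVars false
set_option linter.unusedVariables false

open MeasureTheory Metric Set Filter Topology
open scoped ContDiff ENNReal

noncomputable section

namespace Crest.Agent.R240

section curry
variable {P Y F : Type*} [NormedAddCommGroup P] [NormedSpace ℝ P] [FiniteDimensional ℝ P]
  [NormedAddCommGroup Y] [NormedSpace ℝ Y] [NormedAddCommGroup F] [NormedSpace ℝ F]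

theorem Par2_continuousOn_curry {G : Type*} [TopologicalSpace G] [Zero G] {Ψ : P × Y → G}
    {O : Set P} {W : Set Y} (h : ContinuousOn Ψ (O ×ˢ W)) {K : Type*} [TopologicalSpace K]
    {ι : K → Y} (hι : Continuous ι) (hK : ∀ k, ι k ∈ W) :
    ContinuousOn (fun p => (ContinuousMap.mkD (fun k => Ψ (p, ι k)) 0 : C(K, G))) O := by
  refine ContinuousMap.continuousOn_mkD_of_uncurry (fun p k => Ψ (p, ι k)) 0 ?_
  have hc : Continuous fun z : P × K => (z.1, ι z.2) := by fun_prop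
  exact h.comp hc.continuousOn fun z hz => ⟨hz.1, hK z.2⟩

theorem Par2_continuous_slice {G : Type*} [TopologicalSpace G] {Ψ : P × Y → G}
    {O : Set P} {W : Set Y} (h : ContinuousOn Ψ (O ×ˢ W)) {K : Type*} [TopologicalSpace K]
    {ι : K → Y} (hι : Continuous ι) (hK : ∀ k, ι k ∈ W) {p : P} (hp : p ∈ O) :
    Continuous fun k => Ψ (p, ι k) :=
  h.comp_continuous (by fun_prop) fun k => ⟨hp, hK k⟩

theorem Par2_eventually_le {G : Type*} [NormedAddCommGroup G] {K : Type*} [TopologicalSpace K]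
    [CompactSpace K] {D : P → C(K, G)} {p : P} (hD : ContinuousAt D p) {ε : ℝ} (hε : 0 < ε) :
    ∀ᶠ q in 𝓝 p, ∀ k, ‖D q k - D p k‖ ≤ ε := by
  filter_upwards [Metric.tendsto_nhds.1 hD ε hε] with q hq k
  have h3 := ContinuousMap.dist_apply_le_dist (f := D q) (g := D p) k
  rw [dist_eq_norm] at h3
  exact h3.trans hq.le

/-- a continuous family of linear maps as a linear map into continuous functions -/
def Par2_flip {K : Type*} [TopologicalSpace K] [CompactSpace K] (u : C(K, P →L[ℝ] F)) :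
    P →L[ℝ] C(K, F) :=
  LinearMap.toContinuousLinearMap
    { toFun := fun v => ⟨fun k => u k v, u.continuous.clm_apply continuous_const⟩
      map_add' := fun v w => by ext k; simp
      map_smul' := fun c v => by ext k; simp }

theorem Par2_flip_apply {K : Type*} [TopologicalSpace K] [CompactSpace K] (u : C(K, P →L[ℝ] F))
    (v : P) (k : K) : Par2_flip u v k = u k v := rfl

theorem Par2_hasFDerivAt_curry {Φ : P × Y → F} {O : Set P} {W : Set Y} (hO : IsOpen O)
    (hW : IsOpen W) (h : ContDiffOn ℝ 1 Φ (O ×ˢ W)) {K : Type*} [TopologicalSpace K]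
    [CompactSpace K] {ι : K → Y} (hι : Continuous ι) (hK : ∀ k, ι k ∈ W) {p : P} (hp : p ∈ O) :
    ∃ L : P →L[ℝ] C(K, F),
      HasFDerivAt (fun p => (ContinuousMap.mkD (fun k => Φ (p, ι k)) 0 : C(K, F))) L p ∧
      ∀ v k, L v k = fderiv ℝ Φ (p, ι k) (v, 0) := by
  have hOW : IsOpen (O ×ˢ W) := hO.prod hW
  let Ψ : P × Y → P →L[ℝ] F := fun z => (fderiv ℝ Φ z).comp (ContinuousLinearMap.inl ℝ P Y)
  have hΨ : ContinuousOn Ψ (O ×ˢ W) :=
    (h.continuousOn_fderiv_of_isOpen hOW le_rfl).clm_comp continuousOn_const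
  let D : P → C(K, P →L[ℝ] F) := fun q => ContinuousMap.mkD (fun k => Ψ (q, ι k)) 0
  have hD : ContinuousOn D O := Par2_continuousOn_curry hΨ hι hK
  have hDa : ∀ q ∈ O, ∀ k, D q k = Ψ (q, ι k) := fun q hq k =>
    ContinuousMap.mkD_apply_of_continuous (Par2_continuous_slice hΨ hι hK hq)
  have hCa : ∀ q ∈ O, ∀ k,
      (ContinuousMap.mkD (fun k => Φ (q, ι k)) 0 : C(K, F)) k = Φ (q, ι k) := fun q hq k =>
    ContinuousMap.mkD_apply_of_continuous (Par2_continuous_slice h.continuousOn hι hK hq)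
  have hder : ∀ q ∈ O, ∀ k, HasFDerivAt (fun q => Φ (q, ι k)) (D q k) q := by
    intro q hq k
    rw [hDa q hq k]
    have h1 : DifferentiableAt ℝ Φ (q, ι k) :=
      (h.differentiableOn one_ne_zero).differentiableAt (hOW.mem_nhds ⟨hq, hK k⟩)
    exact h1.hasFDerivAt.comp q (hasFDerivAt_prodMk_left q (ι k))
  refine ⟨Par2_flip (D p), ?_, fun v k => ?_⟩
  · rw [hasFDerivAt_iff_isLittleO, Asymptotics.isLittleO_iff]
    intro ε hε
    have h1 : ∀ᶠ q in 𝓝 p, q ∈ O ∧ ∀ k, ‖D q k - D p k‖ ≤ ε :=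
      Filter.Eventually.and (hO.mem_nhds hp)
        (Par2_eventually_le (G := P →L[ℝ] F) (hD.continuousAt (hO.mem_nhds hp)) hε)
    obtain ⟨δ, hδ, hball⟩ := Metric.eventually_nhds_iff_ball.1 h1
    filter_upwards [ball_mem_nhds p hδ] with q hq
    rw [ContinuousMap.norm_le _ (by positivity)]
    intro k
    have h2 := (convex_ball p δ).norm_image_sub_le_of_norm_hasFDerivWithin_le'
      (𝕜 := ℝ) (f := fun q => Φ (q, ι k)) (f' := fun q => D q k) (φ := D p k) (C := ε)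
      (fun x hx => (hder x (hball x hx).1 k).hasFDerivWithinAt)
      (fun x hx => (hball x hx).2 k)
      (mem_ball_self hδ) hq
    simpa only [ContinuousMap.sub_apply, hCa q (hball q hq).1 k, hCa p hp k, Par2_flip_apply]
      using h2
  · rw [Par2_flip_apply, hDa p hp k]
    rfl

theorem Par2_contDiffOn_curry_nat {O : Set P} {W : Set Y} (hO : IsOpen O) (hW : IsOpen W)
    {K : Type*} [TopologicalSpace K] [CompactSpace K] {ι : K → Y} (hι : Continuous ι)
    (hK : ∀ k, ι k ∈ W) (n : ℕ) : ∀ Φ : P × Y → F, ContDiffOn ℝ ∞ Φ (O ×ˢ W) →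
      ContDiffOn ℝ n (fun p => (ContinuousMap.mkD (fun k => Φ (p, ι k)) 0 : C(K, F))) O := by
  have hOW : IsOpen (O ×ˢ W) := hO.prod hW
  induction n with
  | zero =>
    intro Φ h
    exact contDiffOn_zero.2 (Par2_continuousOn_curry h.continuousOn hι hK)
  | succ n ih =>
    intro Φ h
    have h1 : ContDiffOn ℝ 1 Φ (O ×ˢ W) := h.of_le (by exact_mod_cast le_top)
    rw [Nat.cast_succ, contDiffOn_succ_iff_fderiv_of_isOpen hO]
    refine ⟨fun p hp => ?_, by simp, ?_⟩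
    · obtain ⟨L, hL, -⟩ := Par2_hasFDerivAt_curry hO hW h1 hι hK hp
      exact hL.differentiableAt.differentiableWithinAt
    · rw [contDiffOn_clm_apply]
      intro v
      have h2 : ContDiffOn ℝ ∞ (fun z => fderiv ℝ Φ z (v, 0)) (O ×ˢ W) :=
        (h.fderiv_of_isOpen hOW (by simp)).clm_apply contDiffOn_const
      refine (ih _ h2).congr fun p hp => ?_
      obtain ⟨L, hL, hL'⟩ := Par2_hasFDerivAt_curry hO hW h1 hι hK hp
      ext k
      rw [hL.fderiv, hL', ContinuousMap.mkD_apply_of_continuous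
        (Par2_continuous_slice h2.continuousOn hι hK hp)]

/-- a jointly smooth function is a smooth map into the continuous functions on a compact set -/
theorem contDiffOn_curry {Φ : P × Y → F} {O : Set P} {W : Set Y} (hO : IsOpen O) (hW : IsOpen W)
    (h : ContDiffOn ℝ ∞ Φ (O ×ˢ W)) {K : Type*} [TopologicalSpace K] [CompactSpace K]
    {ι : K → Y} (hι : Continuous ι) (hK : ∀ k, ι k ∈ W) :
    ContDiffOn ℝ ∞ (fun p => (ContinuousMap.mkD (fun k => Φ (p, ι k)) 0 : C(K, F))) O ∧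
    ∀ p ∈ O, ∀ v k,
      fderiv ℝ (fun p => (ContinuousMap.mkD (fun k => Φ (p, ι k)) 0 : C(K, F))) p v k
        = fderiv ℝ Φ (p, ι k) (v, 0) := by
  refine ⟨contDiffOn_infty.2 fun n => Par2_contDiffOn_curry_nat hO hW hι hK n Φ h,
    fun p hp v k => ?_⟩
  obtain ⟨L, hL, hL'⟩ := Par2_hasFDerivAt_curry hO hW (h.of_le (by exact_mod_cast le_top)) hι hK hp
  rw [hL.fderiv, hL']

end curry

section jets
variable {X F F' : Type*} [NormedAddCommGroup X] [NormedSpace ℝ X] [FiniteDimensional ℝ X]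
  [NormedAddCommGroup F] [NormedSpace ℝ F] [NormedAddCommGroup F'] [NormedSpace ℝ F']

theorem Par2_exists_open {X F : Type*} [NormedAddCommGroup X] [NormedSpace ℝ X]
    [NormedAddCommGroup F] [NormedSpace ℝ F] {f : X → F} {x : X} (hf : ContDiffAt ℝ ∞ f x)
    (n : ℕ) : ∃ u : Set X, IsOpen u ∧ x ∈ u ∧ ContDiffOn ℝ n f u := by
  obtain ⟨u, hu, h⟩ := hf.contDiffOn (m := n) (by exact_mod_cast le_top) (by simp)
  exact ⟨interior u, isOpen_interior, mem_interior_iff_mem_nhds.2 hu, h.mono interior_subset⟩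

/-- derivatives of a smooth function are bounded on compact sets -/
theorem exists_bound_iteratedFDeriv {f : X → F} {K : Set X} (hK : IsCompact K)
    (hf : ∀ x ∈ K, ContDiffAt ℝ ∞ f x) (s : ℕ) :
    ∃ C : ℝ, 0 ≤ C ∧ ∀ x ∈ K, ∀ j ≤ s, ‖iteratedFDeriv ℝ j f x‖ ≤ C := by
  have h1 : ∀ j : ℕ, ∃ C : ℝ, ∀ x ∈ K, ‖iteratedFDeriv ℝ j f x‖ ≤ C := fun j =>
    hK.exists_bound_of_continuousOn fun x hx =>
      ((hf x hx).continuousAt_iteratedFDeriv (by exact_mod_cast le_top)).continuousWithinAt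
  choose C hC using h1
  refine ⟨∑ j ∈ Finset.range (s + 1), |C j|, Finset.sum_nonneg fun _ _ => abs_nonneg _,
    fun x hx j hj => ((hC j x hx).trans (le_abs_self _)).trans ?_⟩
  exact Finset.single_le_sum (f := fun j => |C j|) (fun _ _ => abs_nonneg _)
    (Finset.mem_range.2 (Nat.lt_succ_of_le hj))

/-- local Leibniz bound -/
theorem norm_iteratedFDeriv_apply_le {A : X → F →L[ℝ] F'} {g : X → F} {x : X}
    (hA : ContDiffAt ℝ ∞ A x) (hg : ContDiffAt ℝ ∞ g x) {s : ℕ} {a c : ℝ}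
    (ha : ∀ j ≤ s, ‖iteratedFDeriv ℝ j A x‖ ≤ a) (hc : ∀ j ≤ s, ‖iteratedFDeriv ℝ j g x‖ ≤ c) :
    ∀ j ≤ s, ‖iteratedFDeriv ℝ j (fun y => A y (g y)) x‖ ≤ 2 ^ s * a * c := by
  intro j hj
  obtain ⟨u, hu, hxu, hAu⟩ := Par2_exists_open hA j
  obtain ⟨w, hw, hxw, hgw⟩ := Par2_exists_open hg j
  have ho : IsOpen (u ∩ w) := hu.inter hw
  have hx : x ∈ u ∩ w := ⟨hxu, hxw⟩
  have ha0 : 0 ≤ a := (norm_nonneg _).trans (ha 0 (Nat.zero_le _))
  have hc0 : 0 ≤ c := (norm_nonneg _).trans (hc 0 (Nat.zero_le _))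
  have h1 := norm_iteratedFDerivWithin_clm_apply (hAu.mono inter_subset_left)
    (hgw.mono inter_subset_right) ho.uniqueDiffOn hx (n := j) le_rfl
  simp only [iteratedFDerivWithin_of_isOpen _ ho hx] at h1
  refine h1.trans ?_
  calc ∑ i ∈ Finset.range (j + 1), (j.choose i : ℝ) * ‖iteratedFDeriv ℝ i A x‖ *
        ‖iteratedFDeriv ℝ (j - i) g x‖
      ≤ ∑ i ∈ Finset.range (j + 1), (j.choose i : ℝ) * a * c := by
        refine Finset.sum_le_sum fun i hi => ?_
        have hi' : i ≤ s := (Nat.lt_succ_iff.1 (Finset.mem_range.1 hi)).trans hj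
        have h2 := ha i hi'
        have h3 := hc (j - i) ((Nat.sub_le _ _).trans hj)
        gcongr
    _ = 2 ^ j * a * c := by
        rw [← Finset.sum_mul, ← Finset.sum_mul, ← Nat.cast_sum, Nat.sum_range_choose]
        push_cast
        rfl
    _ ≤ 2 ^ s * a * c := by
        gcongr
        norm_num

/-- local chain rule bound -/
theorem norm_iteratedFDeriv_comp_le' {Y : Type*} [NormedAddCommGroup Y] [NormedSpace ℝ Y]
    [FiniteDimensional ℝ Y] {φ : X → Y} {g : Y → F} {x : X}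
    (hφ : ContDiffAt ℝ ∞ φ x) (hg : ContDiffAt ℝ ∞ g (φ x)) {s : ℕ} {D c : ℝ} (hD1 : 1 ≤ D)
    (hD : ∀ j, 1 ≤ j → j ≤ s → ‖iteratedFDeriv ℝ j φ x‖ ≤ D)
    (hc : ∀ j ≤ s, ‖iteratedFDeriv ℝ j g (φ x)‖ ≤ c) :
    ∀ j ≤ s, ‖iteratedFDeriv ℝ j (fun y => g (φ y)) x‖ ≤ s.factorial * D ^ s * c := by
  intro j hj
  obtain ⟨t, ht, hxt, hgt⟩ := Par2_exists_open hg j
  obtain ⟨u, hu, hxu, hφu⟩ := Par2_exists_open hφ j
  have ho : IsOpen (u ∩ φ ⁻¹' t) := hφu.continuousOn.isOpen_inter_preimage hu ht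
  have hx : x ∈ u ∩ φ ⁻¹' t := ⟨hxu, hxt⟩
  have hc0 : 0 ≤ c := (norm_nonneg _).trans (hc 0 (Nat.zero_le _))
  have h1 := norm_iteratedFDerivWithin_comp_le hgt (hφu.mono inter_subset_left) (n := j) le_rfl
    ht.uniqueDiffOn ho.uniqueDiffOn (fun y hy => hy.2) hx (C := c) (D := D)
    (fun i hi => by
      rw [iteratedFDerivWithin_of_isOpen _ ht hxt]
      exact hc i (hi.trans hj))
    (fun i hi1 hi => by
      rw [iteratedFDerivWithin_of_isOpen _ ho hx]
      exact (hD i hi1 (hi.trans hj)).trans (le_self_pow₀ hD1 (by omega)))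
  rw [iteratedFDerivWithin_of_isOpen _ ho hx] at h1
  refine h1.trans ?_
  have h2 : (j.factorial : ℝ) ≤ s.factorial := by exact_mod_cast Nat.factorial_le hj
  have h3 : D ^ j ≤ D ^ s := pow_le_pow_right₀ hD1 hj
  have hD0 : 0 ≤ D := zero_le_one.trans hD1
  calc (j.factorial : ℝ) * c * D ^ j ≤ s.factorial * c * D ^ s := by gcongr
    _ = s.factorial * D ^ s * c := by ring

/-- derivatives of a partial map -/
theorem norm_iteratedFDeriv_slice_le {Y : Type*} [NormedAddCommGroup Y] [NormedSpace ℝ Y]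
    [FiniteDimensional ℝ Y] {Φ : X × Y → F} {x : X} {y : Y} (h : ContDiffAt ℝ ∞ Φ (x, y)) (j : ℕ) :
    ‖iteratedFDeriv ℝ j (fun x => Φ (x, y)) x‖ ≤ ‖iteratedFDeriv ℝ j Φ (x, y)‖ := by
  let Ψ : X × Y → F := fun z => Φ (z + (0, y))
  have hxy : ((x, 0) : X × Y) + (0, y) = (x, y) := by simp
  have hΨ : ContDiffAt ℝ ∞ Ψ (x, 0) := by
    refine ContDiffAt.comp (x, (0 : Y)) (g := Φ) (f := fun z => z + (0, y)) ?_ ?_
    · rw [hxy]; exact h
    · exact contDiffAt_id.add contDiffAt_const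
  obtain ⟨u, hu, hxu, hΨu⟩ := Par2_exists_open hΨ j
  have ho : IsOpen ((ContinuousLinearMap.inl ℝ X Y) ⁻¹' u) :=
    hu.preimage (ContinuousLinearMap.inl ℝ X Y).continuous
  have hx : ContinuousLinearMap.inl ℝ X Y x ∈ u := hxu
  have h1 := (ContinuousLinearMap.inl ℝ X Y).iteratedFDerivWithin_comp_right hΨu hu.uniqueDiffOn
    ho.uniqueDiffOn hx (i := j) le_rfl
  rw [iteratedFDerivWithin_of_isOpen _ ho hx, iteratedFDerivWithin_of_isOpen _ hu hx] at h1
  have e1 : (fun x => Φ (x, y)) = Ψ ∘ ContinuousLinearMap.inl ℝ X Y := by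
    funext x
    simp [Ψ]
  have e2 : iteratedFDeriv ℝ j Ψ (ContinuousLinearMap.inl ℝ X Y x) =
      iteratedFDeriv ℝ j Φ (x, y) := by
    rw [← hxy]
    exact iteratedFDeriv_comp_add_right j (0, y) (x, 0)
  rw [e1, h1, e2]
  refine (ContinuousMultilinearMap.norm_compContinuousLinearMap_le _ _).trans ?_
  refine mul_le_of_le_one_right (norm_nonneg _) ?_
  exact Finset.prod_le_one (fun _ _ => norm_nonneg _)
    fun _ _ => ContinuousLinearMap.norm_inl_le_one ℝ X Y

end jets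

end Crest.Agent.R240

end
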