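import Crest.Agent.R240.Alg3
import Crest.Agent.R240.Par2

/-!
# Row 240: exterior calculus on `ℝ⁴`
-/

set_option autoImplicit false
set_option linter.unusedSectionVars false
set_option linter.unusedVariables false

open MeasureTheory Metric Set Filter Topology
open scoped ContDiff ENNReal

noncomputable section

namespace Crest.Agent.R240

theorem d1_apply (γ : E → Cov) (x u v : E) :
    d1 γ x u v = fderiv ℝ γ x u v - fderiv ℝ γ x v u := by
  simp [d1]

theorem alt_d1 (γ : E → Cov) (x : E) : Alt (d1 γ x) := by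
  intro u v
  rw [d1_apply, d1_apply]
  ring

theorem Pull_fderiv_clm {X Y F : Type*} [NormedAddCommGroup X] [NormedSpace ℝ X]
    [NormedAddCommGroup Y] [NormedSpace ℝ Y] [NormedAddCommGroup F] [NormedSpace ℝ F]
    {c : X → Y →L[ℝ] F} {x : X} (h : DifferentiableAt ℝ c x) (u : X) (v : Y) :
    fderiv ℝ c x u v = fderiv ℝ (fun y => c y v) x u := by
  rw [fderiv_clm_apply h (differentiableAt_const v)]
  simp

theorem fderiv_cov_apply {X : Type*} [NormedAddCommGroup X] [NormedSpace ℝ X] {γ : X → Cov} {x : X}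
    (h : DifferentiableAt ℝ γ x) (u : X) (v : E) :
    fderiv ℝ γ x u v = fderiv ℝ (fun y => γ y v) x u := by
  exact Pull_fderiv_clm h u v

theorem fderiv_bil_apply {X : Type*} [NormedAddCommGroup X] [NormedSpace ℝ X] {η : X → Bil} {x : X}
    (h : DifferentiableAt ℝ η x) (u : X) (v w : E) :
    fderiv ℝ η x u v w = fderiv ℝ (fun y => η y v w) x u := by
  rw [Pull_fderiv_clm h u v, Pull_fderiv_clm (h.clm_apply (differentiableAt_const v)) u w]

theorem d1_congr {γ γ' : E → Cov} {x : E} (h : γ =ᶠ[𝓝 x] γ') : d1 γ x = d1 γ' x := by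
  simp only [d1, h.fderiv_eq]

theorem d2_congr {η η' : E → Bil} {x : E} (h : η =ᶠ[𝓝 x] η') (u v w : E) :
    d2 η x u v w = d2 η' x u v w := by
  simp only [d2, h.fderiv_eq]

theorem ContDiffAt.d1 {γ : E → Cov} {x : E} (h : ContDiffAt ℝ ∞ γ x) :
    ContDiffAt ℝ ∞ (d1 γ) x := by
  have h' : ContDiffAt ℝ ∞ (fderiv ℝ γ) x := h.fderiv_right (by simp)
  refine contDiffAt_bil fun a b => ?_
  simp only [d1_apply]
  exact ((h'.clm_apply contDiffAt_const).clm_apply contDiffAt_const).sub
    ((h'.clm_apply contDiffAt_const).clm_apply contDiffAt_const)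

theorem d1_add {γ γ' : E → Cov} {x : E} (h : DifferentiableAt ℝ γ x) (h' : DifferentiableAt ℝ γ' x) :
    d1 (fun y => γ y + γ' y) x = d1 γ x + d1 γ' x := by
  ext u v
  simp only [d1_apply, fderiv_fun_add h h', add_apply]
  ring

theorem d1_const_smul {γ : E → Cov} {x : E} (h : DifferentiableAt ℝ γ x) (c : ℝ) :
    d1 (fun y => c • γ y) x = c • d1 γ x := by
  ext u v
  simp only [d1_apply, fderiv_fun_const_smul h, smul_apply, smul_eq_mul]
  ring

theorem d1_sum {ι : Type*} {s : Finset ι} {γ : ι → E → Cov} {x : E}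
    (h : ∀ j ∈ s, DifferentiableAt ℝ (γ j) x) :
    d1 (fun y => ∑ j ∈ s, γ j y) x = ∑ j ∈ s, d1 (γ j) x := by
  ext u v
  simp only [d1_apply, fderiv_fun_sum h, sum_apply, Finset.sum_sub_distrib]

theorem d1_smul {φ : E → ℝ} {γ : E → Cov} {x : E} (hφ : DifferentiableAt ℝ φ x)
    (h : DifferentiableAt ℝ γ x) :
    d1 (fun y => φ y • γ y) x = wedge (fderiv ℝ φ x) (γ x) + φ x • d1 γ x := by
  ext u v
  simp only [d1_apply, fderiv_fun_smul hφ h, add_apply,
    smul_apply, ContinuousLinearMap.smulRight_apply, smul_eq_mul, wedge_apply]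
  ring

theorem norm_d1_le (γ : E → Cov) (x : E) : ‖d1 γ x‖ ≤ 2 * ‖fderiv ℝ γ x‖ := by
  refine (norm_sub_le _ _).trans (le_of_eq ?_)
  rw [ContinuousLinearMap.opNorm_flip, two_mul]

theorem d2_add {η η' : E → Bil} {x : E} (h : DifferentiableAt ℝ η x) (h' : DifferentiableAt ℝ η' x)
    (u v w : E) : d2 (fun y => η y + η' y) x u v w = d2 η x u v w + d2 η' x u v w := by
  simp only [d2, fderiv_fun_add h h', add_apply]
  ring

theorem d2_const_smul {η : E → Bil} {x : E} (h : DifferentiableAt ℝ η x) (c : ℝ) (u v w : E) :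
    d2 (fun y => c • η y) x u v w = c * d2 η x u v w := by
  simp only [d2, fderiv_fun_const_smul h, smul_apply, smul_eq_mul]
  ring

theorem d2_sum {ι : Type*} {s : Finset ι} {η : ι → E → Bil} {x : E}
    (h : ∀ j ∈ s, DifferentiableAt ℝ (η j) x) (u v w : E) :
    d2 (fun y => ∑ j ∈ s, η j y) x u v w = ∑ j ∈ s, d2 (η j) x u v w := by
  simp only [d2, fderiv_fun_sum h, sum_apply, Finset.sum_add_distrib]

theorem d2_d1 {γ : E → Cov} {x : E} (h : ContDiffAt ℝ ∞ γ x) (u v w : E) :
    d2 (d1 γ) x u v w = 0 := by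
  have h' : DifferentiableAt ℝ (fderiv ℝ γ) x :=
    (h.fderiv_right (m := ∞) (by simp)).differentiableAt (by simp)
  have hd : DifferentiableAt ℝ (d1 γ) x := (ContDiffAt.d1 h).differentiableAt (by simp)
  have hs := h.isSymmSndFDerivAt (by
    rw [minSmoothness_of_isRCLikeNormedField]; exact WithTop.coe_le_coe.2 (le_top : (2 : ℕ∞) ≤ ⊤))
  have key : ∀ u v w, fderiv ℝ (d1 γ) x u v w =
      fderiv ℝ (fderiv ℝ γ) x u v w - fderiv ℝ (fderiv ℝ γ) x u w v := by
    intro u v w
    rw [fderiv_bil_apply hd, fderiv_bil_apply h', fderiv_bil_apply h']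
    simp only [d1_apply]
    rw [fderiv_fun_sub
      ((h'.clm_apply (differentiableAt_const _)).clm_apply (differentiableAt_const _))
      ((h'.clm_apply (differentiableAt_const _)).clm_apply (differentiableAt_const _))]
    rfl
  rw [d2, key, key, key, hs.eq u v, hs.eq v w, hs.eq w u]
  ring

/-- symmetry of the second derivative in the form used below -/
theorem fderiv_fderiv_symm {X F : Type*} [NormedAddCommGroup X] [NormedSpace ℝ X]
    [NormedAddCommGroup F] [NormedSpace ℝ F] {φ : X → F} {x : X} (h : ContDiffAt ℝ ∞ φ x)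
    (u v : X) :
    fderiv ℝ (fun y => fderiv ℝ φ y v) x u = fderiv ℝ (fun y => fderiv ℝ φ y u) x v := by
  have h' : DifferentiableAt ℝ (fderiv ℝ φ) x :=
    (h.fderiv_right (m := ∞) (by simp)).differentiableAt (by simp)
  have hs := h.isSymmSndFDerivAt (by
    rw [minSmoothness_of_isRCLikeNormedField]; exact WithTop.coe_le_coe.2 (le_top : (2 : ℕ∞) ≤ ⊤))
  rw [← Pull_fderiv_clm h', ← Pull_fderiv_clm h', hs.eq u v]

/-- naturality of `d1` -/
theorem d1_pull {γ : E → Cov} {φ : E → E} {x : E} (hφ : ContDiffAt ℝ ∞ φ x)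
    (hγ : DifferentiableAt ℝ γ (φ x)) :
    d1 (fun y => (γ (φ y)).comp (fderiv ℝ φ y)) x = pb (d1 γ (φ x)) (fderiv ℝ φ x) := by
  have h' : DifferentiableAt ℝ (fderiv ℝ φ) x :=
    (hφ.fderiv_right (m := ∞) (by simp)).differentiableAt (by simp)
  have h0 : DifferentiableAt ℝ φ x := hφ.differentiableAt (by simp)
  have h1 : HasFDerivAt (fun y => γ (φ y)) ((fderiv ℝ γ (φ x)).comp (fderiv ℝ φ x)) x :=
    hγ.hasFDerivAt.comp x h0.hasFDerivAt
  have h2 : ∀ v, HasFDerivAt (fun y => fderiv ℝ φ y v) (fderiv ℝ (fun y => fderiv ℝ φ y v) x) x :=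
    fun v => (h'.clm_apply (differentiableAt_const v)).hasFDerivAt
  have key : ∀ u v, fderiv ℝ (fun y => (γ (φ y)).comp (fderiv ℝ φ y)) x u v =
      γ (φ x) (fderiv ℝ (fun y => fderiv ℝ φ y v) x u) +
        fderiv ℝ γ (φ x) (fderiv ℝ φ x u) (fderiv ℝ φ x v) := by
    intro u v
    rw [fderiv_cov_apply (h1.differentiableAt.clm_comp h')]
    simp only [ContinuousLinearMap.comp_apply]
    rw [(h1.clm_apply (h2 v)).fderiv]
    simp
  ext u v
  rw [d1_apply, key, key, pb_apply, d1_apply, fderiv_fderiv_symm hφ u v]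
  ring

theorem Pull_differentiableAt_bil {β : E → Bil} {x : E}
    (h : ∀ a b, DifferentiableAt ℝ (fun y => β y (e a) (e b)) x) : DifferentiableAt ℝ β x := by
  have : β = fun y => ∑ a, ∑ b, β y (e a) (e b) • (dx a).smulRight (dx b) :=
    funext fun y => (ofCoef_self (β y)).symm
  rw [this]
  exact DifferentiableAt.fun_sum fun a _ => DifferentiableAt.fun_sum fun b _ =>
    (h a b).smul_const _

/-- naturality of `d2` -/
theorem d2_pull {η : E → Bil} {φ : E → E} {x : E} (hφ : ContDiffAt ℝ ∞ φ x)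
    (hη : DifferentiableAt ℝ η (φ x)) (ha : Alt (η (φ x))) (u v w : E) :
    d2 (fun y => pb (η (φ y)) (fderiv ℝ φ y)) x u v w
      = d2 η (φ x) (fderiv ℝ φ x u) (fderiv ℝ φ x v) (fderiv ℝ φ x w) := by
  have h' : DifferentiableAt ℝ (fderiv ℝ φ) x :=
    (hφ.fderiv_right (m := ∞) (by simp)).differentiableAt (by simp)
  have h0 : DifferentiableAt ℝ φ x := hφ.differentiableAt (by simp)
  have h1 : HasFDerivAt (fun y => η (φ y)) ((fderiv ℝ η (φ x)).comp (fderiv ℝ φ x)) x :=
    hη.hasFDerivAt.comp x h0.hasFDerivAt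
  have h2 : ∀ v, HasFDerivAt (fun y => fderiv ℝ φ y v) (fderiv ℝ (fun y => fderiv ℝ φ y v) x) x :=
    fun v => (h'.clm_apply (differentiableAt_const v)).hasFDerivAt
  have h3 := fun v w => (h1.clm_apply (h2 v)).clm_apply (h2 w)
  have h4 : DifferentiableAt ℝ (fun y => pb (η (φ y)) (fderiv ℝ φ y)) x :=
    Pull_differentiableAt_bil fun a b => by
      simp only [pb_apply]
      exact (h3 _ _).differentiableAt
  have key : ∀ u v w, fderiv ℝ (fun y => pb (η (φ y)) (fderiv ℝ φ y)) x u v w =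
      η (φ x) (fderiv ℝ φ x v) (fderiv ℝ (fun y => fderiv ℝ φ y w) x u) +
        (η (φ x) (fderiv ℝ (fun y => fderiv ℝ φ y v) x u) (fderiv ℝ φ x w) +
          fderiv ℝ η (φ x) (fderiv ℝ φ x u) (fderiv ℝ φ x v) (fderiv ℝ φ x w)) := by
    intro u v w
    rw [fderiv_bil_apply h4]
    simp only [pb_apply]
    rw [(h3 v w).fderiv]
    simp
  rw [d2, key, key, key, d2, fderiv_fderiv_symm hφ u v, fderiv_fderiv_symm hφ v w,
    fderiv_fderiv_symm hφ w u, ha (fderiv ℝ φ x u), ha (fderiv ℝ φ x v), ha (fderiv ℝ φ x w)]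
  ring

theorem Pull_fderiv_alt {η : E → Bil} {x : E} (hη : DifferentiableAt ℝ η x)
    (ha : ∀ᶠ y in 𝓝 x, Alt (η y)) (u v w : E) :
    fderiv ℝ η x u v w = -fderiv ℝ η x u w v := by
  have : (fun y => η y v w) =ᶠ[𝓝 x] fun y => -η y w v := ha.mono fun y hy => hy v w
  rw [fderiv_bil_apply hη, fderiv_bil_apply hη, this.fderiv_eq, fderiv_fun_neg]
  rfl

/-- it is enough to test closedness on increasing triples of basis vectors -/
theorem d2_eq_zero_of_basis {η : E → Bil} {x : E} (hη : DifferentiableAt ℝ η x)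
    (ha : ∀ᶠ y in 𝓝 x, Alt (η y)) (h123 : d2 η x (e 1) (e 2) (e 3) = 0)
    (h023 : d2 η x (e 0) (e 2) (e 3) = 0) (h013 : d2 η x (e 0) (e 1) (e 3) = 0)
    (h012 : d2 η x (e 0) (e 1) (e 2) = 0) (u v w : E) : d2 η x u v w = 0 := by
  have cyc : ∀ {u v w}, d2 η x u v w = 0 → d2 η x v w u = 0 := by
    intro u v w h
    rw [← h, d2, d2]
    ring
  have anti : ∀ u v w, d2 η x u v w = -d2 η x u w v := by
    intro u v w
    rw [d2, d2, Pull_fderiv_alt hη ha u v w, Pull_fderiv_alt hη ha v w u,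
      Pull_fderiv_alt hη ha w u v]
    ring
  have swap : ∀ {u v w}, d2 η x u v w = 0 → d2 η x u w v = 0 := by
    intro u v w h
    rw [anti, h, neg_zero]
  have diag : ∀ u v, d2 η x u v v = 0 := fun u v => by linarith [anti u v v]
  have lin : ∀ {v w}, (∀ a, d2 η x (e a) v w = 0) → ∀ u, d2 η x u v w = 0 := by
    intro v w h u
    have : d2 η x (∑ a, u a • e a) v w = ∑ a, u a * d2 η x (e a) v w := by
      simp only [d2, map_sum, map_smul, sum_apply,
        smul_apply, smul_eq_mul, mul_add, Finset.sum_add_distrib]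
    rw [sum_e] at this
    simp [this, h]
  have key : ∀ a b c : Fin 4, a ≤ b → b ≤ c → d2 η x (e a) (e b) (e c) = 0 := by
    intro a b c hab hbc
    rcases hab.eq_or_lt with rfl | hab
    · exact cyc (diag _ _)
    rcases hbc.eq_or_lt with rfl | hbc
    · exact diag _ _
    have : (a = 1 ∧ b = 2 ∧ c = 3) ∨ (a = 0 ∧ b = 2 ∧ c = 3) ∨ (a = 0 ∧ b = 1 ∧ c = 3) ∨
        (a = 0 ∧ b = 1 ∧ c = 2) := by omega
    rcases this with ⟨rfl, rfl, rfl⟩ | ⟨rfl, rfl, rfl⟩ | ⟨rfl, rfl, rfl⟩ | ⟨rfl, rfl, rfl⟩ <;>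
      assumption
  have all : ∀ a b c : Fin 4, d2 η x (e a) (e b) (e c) = 0 := by
    intro a b c
    rcases le_total a b with hab | hab <;> rcases le_total b c with hbc | hbc <;>
      rcases le_total a c with hac | hac
    · exact key a b c hab hbc
    · exact key a b c hab hbc
    · exact swap (key a c b hac hbc)
    · exact cyc (key c a b hac hab)
    · exact cyc (cyc (swap (key b a c hab hac)))
    · exact cyc (cyc (key b c a hbc hac))
    · exact cyc (swap (key c b a hbc hab))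
    · exact cyc (swap (key c b a hbc hab))
  exact lin (fun a => cyc (cyc (lin (fun b => cyc (cyc (lin (fun c => all c a b) w))) v))) u

/-- `γ ∧ dη / vol` -/
def w13 (γ : Cov) (η : E → Bil) (x : E) : ℝ :=
  γ (e 0) * d2 η x (e 1) (e 2) (e 3) - γ (e 1) * d2 η x (e 0) (e 2) (e 3)
    + γ (e 2) * d2 η x (e 0) (e 1) (e 3) - γ (e 3) * d2 η x (e 0) (e 1) (e 2)

theorem Pull_continuous_w13 {γ : E → Cov} {η : E → Bil} (hγ : Continuous γ) (hη : ContDiff ℝ ∞ η) :
    Continuous fun x => w13 (γ x) η x := by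
  have h := hη.continuous_fderiv (by simp)
  unfold w13 d2
  fun_prop

/-- Stokes: `∫ dγ ∧ η = ∫ γ ∧ dη` -/
theorem stokes_euclid {γ : E → Cov} {η : E → Bil} (hγ : ContDiff ℝ ∞ γ) (hs : HasCompactSupport γ)
    (hη : ContDiff ℝ ∞ η) (ha : ∀ x, Alt (η x)) :
    ∫ x, wp (d1 γ x) (η x) = ∫ x, w13 (γ x) η x := by
  let G : Fin 4 → Fin 4 → Fin 4 → E → ℝ := fun b c d y =>
    γ y (e b) * η y (e c) (e d) - γ y (e c) * η y (e b) (e d) + γ y (e d) * η y (e b) (e c)
  have hf : ∀ a b c, ContDiff ℝ ∞ fun y => γ y (e a) * η y (e b) (e c) := fun a b c =>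
    (hγ.clm_apply contDiff_const).mul ((hη.clm_apply contDiff_const).clm_apply contDiff_const)
  have hG : ∀ b c d, ContDiff ℝ ∞ (G b c d) := fun b c d =>
    ((hf _ _ _).sub (hf _ _ _)).add (hf _ _ _)
  have hGs : ∀ b c d, HasCompactSupport (G b c d) := fun b c d =>
    hs.mono fun y hy h0 => hy (by simp [G, h0])
  have hint : ∀ b c d v, Integrable fun x => fderiv ℝ (G b c d) x v := fun b c d v =>
    (((hG b c d).continuous_fderiv (by simp)).clm_apply continuous_const).integrable_of_hasCompactSupport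
      ((hGs b c d).fderiv_apply ℝ v)
  have hd : ∀ a b c x, HasFDerivAt (fun y => γ y (e a) * η y (e b) (e c))
      (γ x (e a) • fderiv ℝ (fun y => η y (e b) (e c)) x +
        η x (e b) (e c) • fderiv ℝ (fun y => γ y (e a)) x) x := fun a b c x =>
    ((hγ.clm_apply contDiff_const).differentiable (by simp) x).hasFDerivAt.mul
      (((hη.clm_apply contDiff_const).clm_apply contDiff_const).differentiable (by simp)
        x).hasFDerivAt
  have hGd : ∀ b c d x v, fderiv ℝ (G b c d) x v =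
      γ x (e b) * fderiv ℝ η x v (e c) (e d) + η x (e c) (e d) * fderiv ℝ γ x v (e b) -
        (γ x (e c) * fderiv ℝ η x v (e b) (e d) + η x (e b) (e d) * fderiv ℝ γ x v (e c)) +
        (γ x (e d) * fderiv ℝ η x v (e b) (e c) + η x (e b) (e c) * fderiv ℝ γ x v (e d)) := by
    intro b c d x v
    have h1 : HasFDerivAt (G b c d) _ x := ((hd b c d x).sub (hd c b d x)).add (hd d b c x)
    rw [h1.fderiv]
    simp only [fderiv_bil_apply (hη.differentiable (by simp) x),
      fderiv_cov_apply (hγ.differentiable (by simp) x), add_apply,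
      sub_apply, smul_apply, smul_eq_mul]
  have hpt : ∀ x, wp (d1 γ x) (η x) = w13 (γ x) η x + (fderiv ℝ (G 1 2 3) x (e 0) -
      fderiv ℝ (G 0 2 3) x (e 1) + fderiv ℝ (G 0 1 3) x (e 2) - fderiv ℝ (G 0 1 2) x (e 3)) := by
    intro x
    have hA := Pull_fderiv_alt (hη.differentiable (by simp) x) (Eventually.of_forall ha)
    simp only [hGd, wp, w13, d2, d1_apply]
    rw [hA (e 2) (e 3) (e 1), hA (e 2) (e 3) (e 0), hA (e 1) (e 3) (e 0), hA (e 1) (e 2) (e 0)]
    ring
  have hw : Integrable fun x => w13 (γ x) η x :=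
    (Pull_continuous_w13 hγ.continuous hη).integrable_of_hasCompactSupport
      (hs.mono fun y hy h0 => hy (by simp [w13, h0]))
  simp only [hpt]
  rw [integral_add hw, integral_sub _ (hint _ _ _ _), integral_add _ (hint _ _ _ _),
    integral_sub (hint _ _ _ _) (hint _ _ _ _)]
  · simp only [integral_fderiv_eq_zero (hG _ _ _) (hGs _ _ _)]
    simp
  · exact (hint _ _ _ _).sub (hint _ _ _ _)
  · exact ((hint _ _ _ _).sub (hint _ _ _ _)).add (hint _ _ _ _)
  · exact (((hint _ _ _ _).sub (hint _ _ _ _)).add (hint _ _ _ _)).sub (hint _ _ _ _)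

/-- weakly closed smooth forms are closed -/
theorem d2_eq_zero_of_weak {η : E → Bil} (hη : ContDiff ℝ ∞ η) (ha : ∀ x, Alt (η x)) {O : Set E}
    (hO : IsOpen O)
    (h : ∀ γ : E → Cov, ContDiff ℝ ∞ γ → HasCompactSupport γ → tsupport γ ⊆ O →
      ∫ x, wp (d1 γ x) (η x) = 0) :
    ∀ x ∈ O, ∀ u v w, d2 η x u v w = 0 := by
  have key : ∀ a, ∀ x ∈ O, w13 (dx a) η x = 0 := by
    intro a
    have hc : Continuous fun x => w13 (dx a) η x := Pull_continuous_w13 continuous_const hη
    have h1 := hO.ae_eq_zero_of_integral_contDiff_smul_eq_zero (μ := volume)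
      (hc.locallyIntegrable.locallyIntegrableOn O) fun g hg hgs hgO => by
        have h2 : ContDiff ℝ ∞ fun y => g y • dx a := hg.smul contDiff_const
        have h3 : HasCompactSupport fun y => g y • dx a :=
          hgs.mono fun y hy h0 => hy (by simp [h0])
        have h4 := h _ h2 h3 ((tsupport_smul_subset_left _ _).trans hgO)
        rw [stokes_euclid h2 h3 hη ha] at h4
        rw [← h4]
        refine integral_congr_ae (Eventually.of_forall fun y => ?_)
        simp only [w13, smul_apply, smul_eq_mul]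
        ring
    exact Measure.eqOn_open_of_ae_eq (μ := volume) (g := fun _ => 0)
      ((ae_restrict_iff' hO.measurableSet).2 h1) hO hc.continuousOn continuousOn_const
  intro x hx
  refine d2_eq_zero_of_basis (hη.differentiable (by simp) x) (Eventually.of_forall ha) ?_ ?_ ?_ ?_
  · simpa [w13] using key 0 x hx
  · simpa [w13] using key 1 x hx
  · simpa [w13] using key 2 x hx
  · simpa [w13] using key 3 x hx

end Crest.Agent.R240

end
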