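import Crest.Prelude.Def_ManifoldTwoForm
import Crest.Agent.R240.Pull
import Crest.Agent.R240.Prof

/-!
# Row 240: forms on a manifold read in charts of the maximal atlas
-/

set_option autoImplicit false
set_option linter.unusedSectionVars false
set_option linter.unusedVariables false

open MeasureTheory Metric Set Filter Topology
open scoped ContDiff ENNReal

noncomputable section

namespace Crest.Agent.R240

open scoped Manifold
open Crest.GeometryTopology.TwoForm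

variable {M : Type*} [TopologicalSpace M] [ChartedSpace E M] [IsManifold (𝓡 4) ∞ M]

/-- the derivative of the inverse chart -/
def mD (κ : OpenPartialHomeomorph M E) (x : E) : End := mfderiv (𝓡 4) (𝓡 4) κ.symm x

/-- the derivative of the chart -/
def mDi (κ : OpenPartialHomeomorph M E) (p : M) : End := mfderiv (𝓡 4) (𝓡 4) κ p

/-- a two-tensor in a chart -/
def lrep (κ : OpenPartialHomeomorph M E)
    (α : Π x : M, TangentSpace (𝓡 4) x →L[ℝ] TangentSpace (𝓡 4) x →L[ℝ] ℝ) (x : E) : Bil :=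
  pb (α (κ.symm x)) (mD κ x)

/-- an endomorphism field in a chart -/
def jrep (κ : OpenPartialHomeomorph M E)
    (J : Π x : M, TangentSpace (𝓡 4) x →L[ℝ] TangentSpace (𝓡 4) x) (x : E) : End :=
  (mDi κ (κ.symm x)).comp ((show End from J (κ.symm x)).comp (mD κ x))

/-- a vector field in a chart -/
def vrep (κ : OpenPartialHomeomorph M E) (X : Π x : M, TangentSpace (𝓡 4) x) (x : E) : E :=
  mDi κ (κ.symm x) (X (κ.symm x))

variable {κ κ' : OpenPartialHomeomorph M E}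

theorem Bridge_anchor : True := by
  have := @mD.eq_1.{0}; have := @mD.eq_def.{0}; have := @mDi.eq_1.{0}; have := @mDi.eq_def.{0}
  have := @lrep.eq_1.{0}; have := @lrep.eq_def.{0}; have := @jrep.eq_1.{0}
  have := @jrep.eq_def.{0}; have := @vrep.eq_1.{0}; have := @vrep.eq_def.{0}
  trivial

theorem lrep_apply (α : Π x : M, TangentSpace (𝓡 4) x →L[ℝ] TangentSpace (𝓡 4) x →L[ℝ] ℝ)
    (x u v : E) : lrep κ α x u v = α (κ.symm x) (mD κ x u) (mD κ x v) := pb_apply _ _ _ _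

theorem jrep_apply (J : Π x : M, TangentSpace (𝓡 4) x →L[ℝ] TangentSpace (𝓡 4) x) (x v : E) :
    jrep κ J x v = mDi κ (κ.symm x) (J (κ.symm x) (mD κ x v)) := rfl

theorem vrep_apply (X : Π x : M, TangentSpace (𝓡 4) x) (x : E) :
    vrep κ X x = mDi κ (κ.symm x) (X (κ.symm x)) := rfl

theorem lrep_self {p : M} (hp : p ∈ κ.source)
    (α : Π x : M, TangentSpace (𝓡 4) x →L[ℝ] TangentSpace (𝓡 4) x →L[ℝ] ℝ) (u v : E) :
    lrep κ α (κ p) u v = α p (mD κ (κ p) u) (mD κ (κ p) v) :=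
  (lrep_apply α _ u v).trans (congrArg (fun q : M => (show Bil from α q) (mD κ (κ p) u)
    (mD κ (κ p) v)) (κ.left_inv hp))

theorem jrep_self {p : M} (hp : p ∈ κ.source)
    (J : Π x : M, TangentSpace (𝓡 4) x →L[ℝ] TangentSpace (𝓡 4) x) (v : E) :
    jrep κ J (κ p) v = mDi κ p (J p (mD κ (κ p) v)) :=
  congrArg (fun q : M => mDi κ q ((show End from J q) (mD κ (κ p) v))) (κ.left_inv hp)

theorem vrep_self {p : M} (hp : p ∈ κ.source) (X : Π x : M, TangentSpace (𝓡 4) x) :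
    vrep κ X (κ p) = mDi κ p (X p) :=
  congrArg (fun q : M => mDi κ q (X q)) (κ.left_inv hp)

theorem mdiff_of_mem (hκ : κ ∈ IsManifold.maximalAtlas (𝓡 4) ∞ M) :
    κ.MDifferentiable (𝓡 4) (𝓡 4) :=
  ⟨(contMDiffOn_of_mem_maximalAtlas hκ).mdifferentiableOn (by simp),
    (contMDiffOn_symm_of_mem_maximalAtlas hκ).mdifferentiableOn (by simp)⟩

theorem mD_mDi (hκ : κ ∈ IsManifold.maximalAtlas (𝓡 4) ∞ M) {p : M} (hp : p ∈ κ.source) (v : E) :
    mD κ (κ p) (mDi κ p v) = v := by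
  exact congrArg (fun A : End => A v) ((mdiff_of_mem hκ).symm_comp_deriv hp)

theorem mDi_mD (hκ : κ ∈ IsManifold.maximalAtlas (𝓡 4) ∞ M) {p : M} (hp : p ∈ κ.source) (v : E) :
    mDi κ p (mD κ (κ p) v) = v := by
  have h := congrArg (fun A : End => A v) ((mdiff_of_mem hκ).comp_symm_deriv (κ.map_source hp))
  exact (congrArg (fun q : M => mDi κ q (mD κ (κ p) v)) (κ.left_inv hp)).symm.trans h

theorem mD_mDi' (hκ : κ ∈ IsManifold.maximalAtlas (𝓡 4) ∞ M) {x : E} (hx : x ∈ κ.target) (v : E) :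
    mD κ x (mDi κ (κ.symm x) v) = v := by
  have h := mD_mDi hκ (κ.map_target hx) v
  rwa [κ.right_inv hx] at h

theorem mDi_mD' (hκ : κ ∈ IsManifold.maximalAtlas (𝓡 4) ∞ M) {x : E} (hx : x ∈ κ.target) (v : E) :
    mDi κ (κ.symm x) (mD κ x v) = v := by
  have h := mDi_mD hκ (κ.map_target hx) v
  rwa [κ.right_inv hx] at h

/-- a function on `M` is smooth iff it is smooth in a chart -/
theorem contDiffAt_of_contMDiffAt {F : Type*} [NormedAddCommGroup F] [NormedSpace ℝ F]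
    (hκ : κ ∈ IsManifold.maximalAtlas (𝓡 4) ∞ M) {p : M} (hp : p ∈ κ.source) {f : M → F}
    (hf : ContMDiffAt (𝓡 4) 𝓘(ℝ, F) ∞ f p) : ContDiffAt ℝ ∞ (fun x => f (κ.symm x)) (κ p) := by
  rw [← contMDiffAt_iff_contDiffAt]
  exact hf.comp_of_eq (contMDiffAt_symm_of_mem_maximalAtlas hκ (κ.map_source hp)) (κ.left_inv hp)

theorem contMDiffAt_chart_iff {F : Type*} [NormedAddCommGroup F] [NormedSpace ℝ F]
    (hκ : κ ∈ IsManifold.maximalAtlas (𝓡 4) ∞ M) {p : M} (hp : p ∈ κ.source) {f : E → F} :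
    ContMDiffAt (𝓡 4) 𝓘(ℝ, F) ∞ (fun q => f (κ q)) p ↔ ContDiffAt ℝ ∞ f (κ p) := by
  refine ⟨fun h => (contDiffAt_of_contMDiffAt hκ hp h).congr_of_eventuallyEq ?_, fun h =>
    (contMDiffAt_iff_contDiffAt.2 h).comp p (contMDiffAt_of_mem_maximalAtlas hκ hp)⟩
  filter_upwards [κ.open_target.mem_nhds (κ.map_source hp)] with x hx
  rw [κ.right_inv hx]

theorem eventually_tr {p : M} (hp : p ∈ κ.source) (hp' : p ∈ κ'.source) :
    ∀ᶠ x in 𝓝 (κ p), ∃ q ∈ κ.source ∩ κ'.source, κ q = x := by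
  have h1 : κ.symm ⁻¹' κ'.source ∈ 𝓝 (κ p) := by
    refine κ.continuousAt_symm (κ.map_source hp) ?_
    rw [κ.left_inv hp]
    exact κ'.open_source.mem_nhds hp'
  filter_upwards [κ.open_target.mem_nhds (κ.map_source hp), h1] with x hx hx'
  exact ⟨κ.symm x, ⟨κ.map_target hx, hx'⟩, κ.right_inv hx⟩

theorem tr_contDiffAt' (hκ : κ ∈ IsManifold.maximalAtlas (𝓡 4) ∞ M)
    (hκ' : κ' ∈ IsManifold.maximalAtlas (𝓡 4) ∞ M) {p : M} (hp : p ∈ κ.source)
    (hp' : p ∈ κ'.source) : ContDiffAt ℝ ∞ (fun x => κ' (κ.symm x)) (κ p) := by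
  exact contDiffAt_of_contMDiffAt hκ hp (contMDiffAt_of_mem_maximalAtlas hκ' hp')

theorem fderiv_tr (hκ : κ ∈ IsManifold.maximalAtlas (𝓡 4) ∞ M)
    (hκ' : κ' ∈ IsManifold.maximalAtlas (𝓡 4) ∞ M) {p : M} (hp : p ∈ κ.source)
    (hp' : p ∈ κ'.source) (v : E) :
    fderiv ℝ (fun x => κ' (κ.symm x)) (κ p) v = mDi κ' p (mD κ (κ p) v) := by
  have h := mfderiv_comp_of_eq ((mdiff_of_mem hκ').mdifferentiableAt hp')
    ((mdiff_of_mem hκ).mdifferentiableAt_symm (κ.map_source hp)) (κ.left_inv hp)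
  rw [mfderiv_eq_fderiv] at h
  exact (congrArg (fun A : End => A v) h).trans
    (congrArg (fun q : M => mDi κ' q (mD κ (κ p) v)) (κ.left_inv hp))

theorem lrep_tr (hκ : κ ∈ IsManifold.maximalAtlas (𝓡 4) ∞ M)
    (hκ' : κ' ∈ IsManifold.maximalAtlas (𝓡 4) ∞ M) {p : M} (hp : p ∈ κ.source)
    (hp' : p ∈ κ'.source)
    (α : Π x : M, TangentSpace (𝓡 4) x →L[ℝ] TangentSpace (𝓡 4) x →L[ℝ] ℝ) :
    lrep κ α (κ p) = pb (lrep κ' α (κ' p)) (fderiv ℝ (fun x => κ' (κ.symm x)) (κ p)) := by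
  ext u v
  rw [pb_apply, lrep_self hp, lrep_self hp', fderiv_tr hκ hκ' hp hp', fderiv_tr hκ hκ' hp hp',
    mD_mDi hκ' hp', mD_mDi hκ' hp']

theorem jrep_tr (hκ : κ ∈ IsManifold.maximalAtlas (𝓡 4) ∞ M)
    (hκ' : κ' ∈ IsManifold.maximalAtlas (𝓡 4) ∞ M) {p : M} (hp : p ∈ κ.source)
    (hp' : p ∈ κ'.source) (J : Π x : M, TangentSpace (𝓡 4) x →L[ℝ] TangentSpace (𝓡 4) x) (v : E) :
    fderiv ℝ (fun x => κ' (κ.symm x)) (κ p) (jrep κ J (κ p) v)
      = jrep κ' J (κ' p) (fderiv ℝ (fun x => κ' (κ.symm x)) (κ p) v) := by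
  rw [fderiv_tr hκ hκ' hp hp', fderiv_tr hκ hκ' hp hp', jrep_self hp', mD_mDi hκ' hp',
    jrep_self hp]
  exact congrArg (mDi κ' p) (mD_mDi hκ hp _)

theorem vrep_tr (hκ : κ ∈ IsManifold.maximalAtlas (𝓡 4) ∞ M)
    (hκ' : κ' ∈ IsManifold.maximalAtlas (𝓡 4) ∞ M) {p : M} (hp : p ∈ κ.source)
    (hp' : p ∈ κ'.source) (X : Π x : M, TangentSpace (𝓡 4) x) :
    fderiv ℝ (fun x => κ' (κ.symm x)) (κ p) (vrep κ X (κ p)) = vrep κ' X (κ' p) := by
  rw [fderiv_tr hκ hκ' hp hp', vrep_self hp, vrep_self hp']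
  exact congrArg (mDi κ' p) (mD_mDi hκ hp _)

theorem tr_fderiv_contDiffAt (hκ : κ ∈ IsManifold.maximalAtlas (𝓡 4) ∞ M)
    (hκ' : κ' ∈ IsManifold.maximalAtlas (𝓡 4) ∞ M) {p : M} (hp : p ∈ κ.source)
    (hp' : p ∈ κ'.source) : ContDiffAt ℝ ∞ (fderiv ℝ fun x => κ' (κ.symm x)) (κ p) :=
  (tr_contDiffAt' hκ hκ' hp hp').fderiv_right (by simp)

theorem ContDiffAt.comp_tr {F : Type*} [NormedAddCommGroup F] [NormedSpace ℝ F] {f : E → F}
    (hκ : κ ∈ IsManifold.maximalAtlas (𝓡 4) ∞ M)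
    (hκ' : κ' ∈ IsManifold.maximalAtlas (𝓡 4) ∞ M) {p : M} (hp : p ∈ κ.source)
    (hp' : p ∈ κ'.source) (h : ContDiffAt ℝ ∞ f (κ' p)) :
    ContDiffAt ℝ ∞ (fun x => f (κ' (κ.symm x))) (κ p) :=
  contDiffAt_of_contMDiffAt hκ hp ((contMDiffAt_chart_iff hκ' hp').2 h)

theorem lrep_transfer (hκ : κ ∈ IsManifold.maximalAtlas (𝓡 4) ∞ M)
    (hκ' : κ' ∈ IsManifold.maximalAtlas (𝓡 4) ∞ M) {p : M} (hp : p ∈ κ.source)
    (hp' : p ∈ κ'.source)
    {α : Π x : M, TangentSpace (𝓡 4) x →L[ℝ] TangentSpace (𝓡 4) x →L[ℝ] ℝ}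
    (h : ContDiffAt ℝ ∞ (lrep κ' α) (κ' p)) : ContDiffAt ℝ ∞ (lrep κ α) (κ p) := by
  refine (ContDiffAt.pb (ContDiffAt.comp_tr hκ hκ' hp hp' h)
    (tr_fderiv_contDiffAt hκ hκ' hp hp')).congr_of_eventuallyEq ?_
  filter_upwards [eventually_tr hp hp'] with x ⟨q, hq, e⟩
  rw [← e, κ.left_inv hq.1]
  exact lrep_tr hκ hκ' hq.1 hq.2 α

theorem jrep_transfer (hκ : κ ∈ IsManifold.maximalAtlas (𝓡 4) ∞ M)
    (hκ' : κ' ∈ IsManifold.maximalAtlas (𝓡 4) ∞ M) {p : M} (hp : p ∈ κ.source)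
    (hp' : p ∈ κ'.source) {J : Π x : M, TangentSpace (𝓡 4) x →L[ℝ] TangentSpace (𝓡 4) x}
    (h : ContDiffAt ℝ ∞ (jrep κ' J) (κ' p)) : ContDiffAt ℝ ∞ (jrep κ J) (κ p) := by
  refine ((ContDiffAt.comp_tr hκ hκ' hp hp' (tr_fderiv_contDiffAt hκ' hκ hp' hp)).clm_comp
    ((ContDiffAt.comp_tr hκ hκ' hp hp' h).clm_comp
      (tr_fderiv_contDiffAt hκ hκ' hp hp'))).congr_of_eventuallyEq ?_
  filter_upwards [eventually_tr hp hp'] with x ⟨q, hq, e⟩
  rw [← e, κ.left_inv hq.1]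
  ext1 v
  rw [ContinuousLinearMap.comp_apply, ContinuousLinearMap.comp_apply,
    ← jrep_tr hκ hκ' hq.1 hq.2, fderiv_tr hκ hκ' hq.1 hq.2, fderiv_tr hκ' hκ hq.2 hq.1,
    mD_mDi hκ' hq.2, mDi_mD hκ hq.1]

theorem vrep_transfer (hκ : κ ∈ IsManifold.maximalAtlas (𝓡 4) ∞ M)
    (hκ' : κ' ∈ IsManifold.maximalAtlas (𝓡 4) ∞ M) {p : M} (hp : p ∈ κ.source)
    (hp' : p ∈ κ'.source) {X : Π x : M, TangentSpace (𝓡 4) x}
    (h : ContDiffAt ℝ ∞ (vrep κ' X) (κ' p)) : ContDiffAt ℝ ∞ (vrep κ X) (κ p) := by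
  refine ((ContDiffAt.comp_tr hκ hκ' hp hp' (tr_fderiv_contDiffAt hκ' hκ hp' hp)).clm_apply
    (ContDiffAt.comp_tr hκ hκ' hp hp' h)).congr_of_eventuallyEq ?_
  filter_upwards [eventually_tr hp hp'] with x ⟨q, hq, e⟩
  rw [← e, κ.left_inv hq.1]
  exact (vrep_tr hκ' hκ hq.2 hq.1 X).symm

theorem triv_clm {p q : M} (hq : q ∈ (chartAt E p).source) :
    (trivializationAt E (TangentSpace (𝓡 4)) p).continuousLinearMapAt ℝ q = mDi (chartAt E p) q :=
  TangentBundle.continuousLinearMapAt_trivializationAt hq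

theorem triv_symmL {p q : M} (hq : q ∈ (chartAt E p).source) :
    (trivializationAt E (TangentSpace (𝓡 4)) p).symmL ℝ q = mD (chartAt E p) (chartAt E p q) := by
  refine (TangentBundle.symmL_trivializationAt hq).trans ?_
  rw [ModelWithCorners.range_eq_univ, mfderivWithin_univ]
  rfl

theorem contMDiffAt_form_iff
    {α : Π x : M, TangentSpace (𝓡 4) x →L[ℝ] TangentSpace (𝓡 4) x →L[ℝ] ℝ} {p : M} :
    ContMDiffAt (𝓡 4) ((𝓡 4).prod 𝓘(ℝ, E →L[ℝ] E →L[ℝ] ℝ)) ∞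
      (fun x => Bundle.TotalSpace.mk' (E →L[ℝ] E →L[ℝ] ℝ) x (α x)) p ↔
      ContDiffAt ℝ ∞ (lrep (chartAt E p) α) (chartAt E p p) := by
  rw [← contMDiffAt_chart_iff (IsManifold.chart_mem_maximalAtlas p) (mem_chart_source E p),
    contMDiffAt_hom_bundle]
  refine (and_iff_right contMDiffAt_id).trans (Filter.EventuallyEq.contMDiffAt_iff ?_)
  filter_upwards [(chartAt E p).open_source.mem_nhds (mem_chart_source E p)] with q hq
  ext u v
  have h1 : ∀ w : E, (trivializationAt E (TangentSpace (𝓡 4)) p).symm q w =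
      mD (chartAt E p) (chartAt E p q) w := fun w =>
    (Bundle.Trivialization.symmL_apply (R := ℝ) _ hq w).symm.trans
      (congrArg (fun A : End => A w) (triv_symmL hq))
  rw [inCoordinates_apply_eq₂ hq hq (mem_univ _), lrep_self hq, h1, h1]
  simp

theorem contMDiffAt_end_iff
    {J : Π x : M, TangentSpace (𝓡 4) x →L[ℝ] TangentSpace (𝓡 4) x} {p : M} :
    ContMDiffAt (𝓡 4) ((𝓡 4).prod 𝓘(ℝ, E →L[ℝ] E)) ∞
      (fun x => Bundle.TotalSpace.mk' (E →L[ℝ] E) x (J x)) p ↔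
      ContDiffAt ℝ ∞ (jrep (chartAt E p) J) (chartAt E p p) := by
  rw [← contMDiffAt_chart_iff (IsManifold.chart_mem_maximalAtlas p) (mem_chart_source E p),
    contMDiffAt_hom_bundle]
  refine (and_iff_right contMDiffAt_id).trans (Filter.EventuallyEq.contMDiffAt_iff ?_)
  filter_upwards [(chartAt E p).open_source.mem_nhds (mem_chart_source E p)] with q hq
  ext1 v
  rw [jrep_self hq, ← triv_symmL hq, ← triv_clm hq]
  rfl

theorem contMDiffAt_vec_iff {X : Π x : M, TangentSpace (𝓡 4) x} {p : M} :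
    ContMDiffAt (𝓡 4) (𝓡 4).tangent ∞ (fun x => (X x : TangentBundle (𝓡 4) M)) p ↔
      ContDiffAt ℝ ∞ (vrep (chartAt E p) X) (chartAt E p p) := by
  rw [← contMDiffAt_chart_iff (IsManifold.chart_mem_maximalAtlas p) (mem_chart_source E p)]
  refine (Bundle.contMDiffAt_section p).trans (Filter.EventuallyEq.contMDiffAt_iff ?_)
  filter_upwards [(chartAt E p).open_source.mem_nhds (mem_chart_source E p)] with q hq
  rw [vrep_self hq, ← triv_clm hq]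
  exact (Bundle.Trivialization.continuousLinearMapAt_apply_of_mem ℝ _ hq _).symm

/-- (M1) -/
theorem lrep_contDiffOn (hκ : κ ∈ IsManifold.maximalAtlas (𝓡 4) ∞ M)
    {α : Π x : M, TangentSpace (𝓡 4) x →L[ℝ] TangentSpace (𝓡 4) x →L[ℝ] ℝ}
    (hα : IsSmoothTwoForm (𝓡 4) M α) : ContDiffOn ℝ ∞ (lrep κ α) κ.target := by
  intro x hx
  have h := lrep_transfer hκ (IsManifold.chart_mem_maximalAtlas _) (κ.map_target hx)
    (mem_chart_source E _) (contMDiffAt_form_iff.1 (hα.contMDiff (κ.symm x)))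
  rw [κ.right_inv hx] at h
  exact h.contDiffWithinAt

/-- (M2) -/
theorem isSmoothTwoForm_of_lrep
    {α : Π x : M, TangentSpace (𝓡 4) x →L[ℝ] TangentSpace (𝓡 4) x →L[ℝ] ℝ}
    (ha : ∀ p v, α p v v = 0)
    (h : ∀ p, ∃ κ ∈ IsManifold.maximalAtlas (𝓡 4) ∞ M, p ∈ κ.source ∧
      ContDiffAt ℝ ∞ (lrep κ α) (κ p)) : IsSmoothTwoForm (𝓡 4) M α := by
  refine ⟨ha, fun p => ?_⟩
  obtain ⟨κ, hκ, hp, h⟩ := h p
  exact contMDiffAt_form_iff.2
    (lrep_transfer (IsManifold.chart_mem_maximalAtlas p) hκ (mem_chart_source E p) hp h)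

/-- (M3) -/
theorem jrep_contDiffOn (hκ : κ ∈ IsManifold.maximalAtlas (𝓡 4) ∞ M)
    {J : Π x : M, TangentSpace (𝓡 4) x →L[ℝ] TangentSpace (𝓡 4) x}
    (hJ : IsAlmostComplexStructure (𝓡 4) M J) : ContDiffOn ℝ ∞ (jrep κ J) κ.target := by
  intro x hx
  have h := jrep_transfer hκ (IsManifold.chart_mem_maximalAtlas _) (κ.map_target hx)
    (mem_chart_source E _) (contMDiffAt_end_iff.1 (hJ.contMDiff (κ.symm x)))
  rw [κ.right_inv hx] at h
  exact h.contDiffWithinAt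

theorem jrep_sq (hκ : κ ∈ IsManifold.maximalAtlas (𝓡 4) ∞ M)
    {J : Π x : M, TangentSpace (𝓡 4) x →L[ℝ] TangentSpace (𝓡 4) x}
    (hJ : IsAlmostComplexStructure (𝓡 4) M J) {x : E} (hx : x ∈ κ.target) (v : E) :
    jrep κ J x (jrep κ J x v) = -v := by
  refine (congrArg (fun w : E => mDi κ (κ.symm x) (J (κ.symm x) w)) (mD_mDi' hκ hx _)).trans ?_
  refine (congrArg (mDi κ (κ.symm x)) (hJ.sq_eq_neg (κ.symm x) (mD κ x v))).trans ?_
  exact ((mDi κ (κ.symm x)).map_neg _).trans (congrArg Neg.neg (mDi_mD' hκ hx v))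

theorem mD_jrep (hκ : κ ∈ IsManifold.maximalAtlas (𝓡 4) ∞ M)
    (J : Π x : M, TangentSpace (𝓡 4) x →L[ℝ] TangentSpace (𝓡 4) x) {x : E} (hx : x ∈ κ.target)
    (v : E) : mD κ x (jrep κ J x v) = J (κ.symm x) (mD κ x v) := by
  exact mD_mDi' hκ hx _

theorem lrep_alt {α : Π x : M, TangentSpace (𝓡 4) x →L[ℝ] TangentSpace (𝓡 4) x →L[ℝ] ℝ}
    (hα : IsSmoothTwoForm (𝓡 4) M α) (x : E) : Alt (lrep κ α x) := by
  intro u v
  have h := hα.alternating (κ.symm x) (mD κ x (u + v))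
  have hu := hα.alternating (κ.symm x) (mD κ x u)
  have hv := hα.alternating (κ.symm x) (mD κ x v)
  rw [← lrep_apply] at h hu hv
  simp only [map_add, add_apply] at h
  linarith

theorem lrep_tames (hκ : κ ∈ IsManifold.maximalAtlas (𝓡 4) ∞ M)
    {α : Π x : M, TangentSpace (𝓡 4) x →L[ℝ] TangentSpace (𝓡 4) x →L[ℝ] ℝ}
    {J : Π x : M, TangentSpace (𝓡 4) x →L[ℝ] TangentSpace (𝓡 4) x} (h : Tames (𝓡 4) M α J)
    {x : E} (hx : x ∈ κ.target) {v : E} (hv : v ≠ 0) : 0 < lrep κ α x v (jrep κ J x v) := by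
  rw [lrep_apply, mD_jrep hκ J hx]
  refine h _ _ fun h0 => hv ?_
  rw [← mDi_mD' hκ hx v]
  exact (congrArg (mDi κ (κ.symm x)) h0).trans (map_zero _)

theorem vrep_contDiffOn (hκ : κ ∈ IsManifold.maximalAtlas (𝓡 4) ∞ M)
    {X : Π x : M, TangentSpace (𝓡 4) x} (hX : IsSmoothVectorField (𝓡 4) M X) :
    ContDiffOn ℝ ∞ (vrep κ X) κ.target := by
  intro x hx
  have h := vrep_transfer hκ (IsManifold.chart_mem_maximalAtlas _) (κ.map_target hx)
    (mem_chart_source E _) (contMDiffAt_vec_iff.1 (hX (κ.symm x)))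
  rw [κ.right_inv hx] at h
  exact h.contDiffWithinAt

end Crest.Agent.R240

end
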