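import Crest.Agent.R240.Bridge

/-!
# Row 240: closedness in charts
-/

set_option autoImplicit false
set_option linter.unusedSectionVars false
set_option linter.unusedVariables false

open MeasureTheory Metric Set Filter Topology
open scoped ContDiff ENNReal

noncomputable section

namespace Crest.Agent.R240

open scoped Manifold
open Crest.GeometryTopology.TwoForm

variable {M : Type*} [TopologicalSpace M] [ChartedSpace E M] [IsManifold (𝓡 4) ∞ M]

variable {κ : OpenPartialHomeomorph M E}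

theorem BridgeD_fderiv_apply {η : E → Bil} {Y Z : E → E} {x : E} (hη : DifferentiableAt ℝ η x)
    (hY : DifferentiableAt ℝ Y x) (hZ : DifferentiableAt ℝ Z x) (v : E) :
    fderiv ℝ (fun y => η y (Y y) (Z y)) x v =
      fderiv ℝ η x v (Y x) (Z x) + η x (fderiv ℝ Y x v) (Z x) + η x (Y x) (fderiv ℝ Z x v) := by
  rw [((hη.hasFDerivAt.clm_apply hY.hasFDerivAt).clm_apply hZ.hasFDerivAt).fderiv]
  simp only [add_apply, ContinuousLinearMap.comp_apply,
    ContinuousLinearMap.flip_apply]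
  ring

theorem BridgeD_fderiv_alt {η : E → Bil} {x : E} (hη : DifferentiableAt ℝ η x)
    (ha : ∀ᶠ y in 𝓝 x, Alt (η y)) (u v w : E) :
    fderiv ℝ η x u v w = -fderiv ℝ η x u w v := by
  have h1 := BridgeD_fderiv_apply hη (differentiableAt_const v) (differentiableAt_const w) u
  have h2 := BridgeD_fderiv_apply hη (differentiableAt_const w) (differentiableAt_const v) u
  have h3 : (fun y => η y v w) =ᶠ[𝓝 x] fun y => -η y w v := ha.mono fun y hy => hy v w
  rw [h3.fderiv_eq, fderiv_fun_neg, neg_apply, h2] at h1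
  simpa using h1.symm

/-- the invariant formula in `ℝ⁴` -/
theorem d2_fields {η : E → Bil} {X Y Z : E → E} {x : E} (hη : DifferentiableAt ℝ η x)
    (ha : ∀ᶠ y in 𝓝 x, Alt (η y)) (hX : DifferentiableAt ℝ X x) (hY : DifferentiableAt ℝ Y x)
    (hZ : DifferentiableAt ℝ Z x) :
    fderiv ℝ (fun y => η y (Y y) (Z y)) x (X x) - fderiv ℝ (fun y => η y (X y) (Z y)) x (Y x)
      + fderiv ℝ (fun y => η y (X y) (Y y)) x (Z x)
      - η x (VectorField.lieBracket ℝ X Y x) (Z x) + η x (VectorField.lieBracket ℝ X Z x) (Y x)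
      - η x (VectorField.lieBracket ℝ Y Z x) (X x) = d2 η x (X x) (Y x) (Z x) := by
  have hx : Alt (η x) := ha.self_of_nhds
  rw [BridgeD_fderiv_apply hη hY hZ, BridgeD_fderiv_apply hη hX hZ, BridgeD_fderiv_apply hη hX hY]
  simp only [VectorField.lieBracket, map_sub, sub_apply, d2]
  rw [BridgeD_fderiv_alt hη ha (Y x) (X x) (Z x), hx (Y x) (fderiv ℝ Z x (X x)),
    hx (X x) (fderiv ℝ Z x (Y x)), hx (X x) (fderiv ℝ Y x (Z x))]
  ring

theorem lieDerivFun_chart (hκ : κ ∈ IsManifold.maximalAtlas (𝓡 4) ∞ M) {p : M} (hp : p ∈ κ.source)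
    (X : Π x : M, TangentSpace (𝓡 4) x) {f : M → ℝ}
    (hf : DifferentiableAt ℝ (fun x => f (κ.symm x)) (κ p)) :
    lieDerivFun (𝓡 4) M X f p = fderiv ℝ (fun x => f (κ.symm x)) (κ p) (vrep κ X (κ p)) := by
  have h1 : MDifferentiableAt (𝓡 4) (𝓡 4) κ p :=
    (contMDiffAt_of_mem_maximalAtlas hκ hp).mdifferentiableAt (by simp)
  have h2 : f =ᶠ[𝓝 p] (fun x => f (κ.symm x)) ∘ κ := by
    filter_upwards [κ.open_source.mem_nhds hp] with q hq
    simp [κ.left_inv hq]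
  have h3 : HasMFDerivAt (𝓡 4) 𝓘(ℝ, ℝ) ((fun x => f (κ.symm x)) ∘ κ) p
      ((fderiv ℝ (fun x => f (κ.symm x)) (κ p)).comp (mDi κ p)) :=
    HasMFDerivAt.comp p hf.hasFDerivAt.hasMFDerivAt h1.hasMFDerivAt
  have h4 := (h3.congr_of_eventuallyEq h2).mfderiv
  have h5 : vrep κ X (κ p) = mDi κ p (X p) := by
    unfold vrep
    rw [κ.left_inv hp]
  unfold lieDerivFun
  rw [h4, h5]
  rfl

theorem BridgeD_mpullback (hκ : κ ∈ IsManifold.maximalAtlas (𝓡 4) ∞ M) {x : E}
    (hx : x ∈ κ.target) (X : Π x : M, TangentSpace (𝓡 4) x) :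
    VectorField.mpullback (𝓡 4) (𝓡 4) κ.symm X x = vrep κ X x := by
  have hp : κ.symm x ∈ κ.source := κ.map_target hx
  have h1 : (mD κ x).inverse = mDi κ (κ.symm x) := by
    refine ContinuousLinearMap.inverse_eq ?_ ?_
    · ext1 v
      have := mD_mDi hκ hp v
      rwa [κ.right_inv hx] at this
    · ext1 v
      have := mDi_mD hκ hp v
      rwa [κ.right_inv hx] at this
  change (mD κ x).inverse (X (κ.symm x)) = _
  rw [h1]
  rfl

theorem mlieBracket_chart (hκ : κ ∈ IsManifold.maximalAtlas (𝓡 4) ∞ M) {p : M} (hp : p ∈ κ.source)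
    {X Y : Π x : M, TangentSpace (𝓡 4) x} (hX : IsSmoothVectorField (𝓡 4) M X)
    (hY : IsSmoothVectorField (𝓡 4) M Y) :
    mDi κ p (VectorField.mlieBracket (𝓡 4) X Y p)
      = VectorField.lieBracket ℝ (vrep κ X) (vrep κ Y) (κ p) := by
  have hx : κ p ∈ κ.target := κ.map_source hp
  have : IsManifold (𝓡 4) (minSmoothness ℝ 2) M := by
    rw [minSmoothness_of_isRCLikeNormedField]
    infer_instance
  have : IsManifold (𝓡 4) (minSmoothness ℝ 2) E := by
    rw [minSmoothness_of_isRCLikeNormedField]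
    infer_instance
  have h1 := VectorField.mpullback_mlieBracket (I := 𝓡 4) (I' := 𝓡 4) (f := κ.symm) (V := X)
    (W := Y) (x₀ := κ p) (n := ∞) ((hX _).mdifferentiableAt (by simp))
    ((hY _).mdifferentiableAt (by simp)) (contMDiffAt_symm_of_mem_maximalAtlas hκ hx)
    (by rw [minSmoothness_of_isRCLikeNormedField]; exact ENat.LEInfty.out)
  rw [BridgeD_mpullback hκ hx] at h1
  have h2 : ∀ Z : Π x : M, TangentSpace (𝓡 4) x,
      VectorField.mpullback (𝓡 4) (𝓡 4) κ.symm Z =ᶠ[𝓝 (κ p)] vrep κ Z := fun Z => by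
    filter_upwards [κ.open_target.mem_nhds hx] with y hy
    exact BridgeD_mpullback hκ hy Z
  rw [← VectorField.mlieBracketWithin_univ (V := VectorField.mpullback (𝓡 4) (𝓡 4) κ.symm X),
    VectorField.mlieBracketWithin_eq_lieBracketWithin, VectorField.lieBracketWithin_univ] at h1
  have h3 := Filter.EventuallyEq.lieBracket_vectorField_eq (𝕜 := ℝ) (h2 X) (h2 Y)
  rw [← h3, ← h1]
  unfold vrep
  rw [κ.left_inv hp]

theorem BridgeD_lrep_vrep (hκ : κ ∈ IsManifold.maximalAtlas (𝓡 4) ∞ M) {x : E}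
    (hx : x ∈ κ.target) (α : Π x : M, TangentSpace (𝓡 4) x →L[ℝ] TangentSpace (𝓡 4) x →L[ℝ] ℝ)
    (X Y : Π x : M, TangentSpace (𝓡 4) x) :
    lrep κ α x (vrep κ X x) (vrep κ Y x) = α (κ.symm x) (X (κ.symm x)) (Y (κ.symm x)) := by
  have hp : κ.symm x ∈ κ.source := κ.map_target hx
  have h1 : ∀ v : E, mD κ x (mDi κ (κ.symm x) v) = v := fun v => by
    have := mD_mDi hκ hp v
    rwa [κ.right_inv hx] at this
  change α (κ.symm x) (mD κ x (mDi κ (κ.symm x) (X (κ.symm x))))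
    (mD κ x (mDi κ (κ.symm x) (Y (κ.symm x)))) = _
  rw [h1, h1]

theorem extDeriv_chart (hκ : κ ∈ IsManifold.maximalAtlas (𝓡 4) ∞ M) {p : M} (hp : p ∈ κ.source)
    {α : Π x : M, TangentSpace (𝓡 4) x →L[ℝ] TangentSpace (𝓡 4) x →L[ℝ] ℝ}
    (hα : IsSmoothTwoForm (𝓡 4) M α) {X Y Z : Π x : M, TangentSpace (𝓡 4) x}
    (hX : IsSmoothVectorField (𝓡 4) M X) (hY : IsSmoothVectorField (𝓡 4) M Y)
    (hZ : IsSmoothVectorField (𝓡 4) M Z) :
    extDerivOnFields (𝓡 4) M α X Y Z p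
      = d2 (lrep κ α) (κ p) (vrep κ X (κ p)) (vrep κ Y (κ p)) (vrep κ Z (κ p)) := by
  have hx : κ p ∈ κ.target := κ.map_source hp
  have hn := κ.open_target.mem_nhds hx
  have hη : DifferentiableAt ℝ (lrep κ α) (κ p) :=
    ((lrep_contDiffOn hκ hα).contDiffAt hn).differentiableAt (by simp)
  have hv : ∀ {V : Π x : M, TangentSpace (𝓡 4) x}, IsSmoothVectorField (𝓡 4) M V →
      DifferentiableAt ℝ (vrep κ V) (κ p) := fun hV =>
    ((vrep_contDiffOn hκ hV).contDiffAt hn).differentiableAt (by simp)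
  have h1 : ∀ {U V W : Π x : M, TangentSpace (𝓡 4) x}, IsSmoothVectorField (𝓡 4) M V →
      IsSmoothVectorField (𝓡 4) M W →
      lieDerivFun (𝓡 4) M U (fun y => α y (V y) (W y)) p =
        fderiv ℝ (fun y => lrep κ α y (vrep κ V y) (vrep κ W y)) (κ p) (vrep κ U (κ p)) := by
    intro U V W hV hW
    have e : (fun x => (fun y => α y (V y) (W y)) (κ.symm x)) =ᶠ[𝓝 (κ p)]
        fun y => lrep κ α y (vrep κ V y) (vrep κ W y) := by
      filter_upwards [hn] with y hy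
      exact (BridgeD_lrep_vrep hκ hy α V W).symm
    have hd : DifferentiableAt ℝ (fun y => lrep κ α y (vrep κ V y) (vrep κ W y)) (κ p) :=
      (hη.clm_apply (hv hV)).clm_apply (hv hW)
    rw [lieDerivFun_chart hκ hp U (hd.congr_of_eventuallyEq e), e.fderiv_eq]
  have h2 : ∀ {U V W : Π x : M, TangentSpace (𝓡 4) x}, IsSmoothVectorField (𝓡 4) M U →
      IsSmoothVectorField (𝓡 4) M V →
      α p (VectorField.mlieBracket (𝓡 4) U V p) (W p) =
        lrep κ α (κ p) (VectorField.lieBracket ℝ (vrep κ U) (vrep κ V) (κ p)) (vrep κ W (κ p)) := by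
    intro U V W hU hV
    have e1 := BridgeD_lrep_vrep hκ hx α (VectorField.mlieBracket (𝓡 4) U V) W
    have e2 : vrep κ (VectorField.mlieBracket (𝓡 4) U V) (κ p) =
        mDi κ p (VectorField.mlieBracket (𝓡 4) U V p) := by
      unfold vrep
      rw [κ.left_inv hp]
    rw [e2, mlieBracket_chart hκ hp hU hV, κ.left_inv hp] at e1
    exact e1.symm
  unfold extDerivOnFields
  rw [h1 hY hZ, h1 hX hZ, h1 hX hY, h2 hX hY, h2 hX hZ, h2 hY hZ]
  exact d2_fields hη (Eventually.of_forall fun y => lrep_alt hα y) (hv hX) (hv hY) (hv hZ)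

/-- global smooth fields through a given tangent vector -/
theorem exists_field [T2Space M] (p : M) (v : TangentSpace (𝓡 4) p) :
    ∃ X : Π x : M, TangentSpace (𝓡 4) x, IsSmoothVectorField (𝓡 4) M X ∧ X p = v := by
  obtain ⟨s, hs, hsm⟩ := FiberBundle.exists_contMDiffOn_extend (k := ∞) (𝓡 4) E
    (V := fun x : M => TangentSpace (𝓡 4) x) v
  obtain ⟨f, -, hf⟩ := (SmoothBumpFunction.nhds_basis_tsupport (I := 𝓡 4) p).mem_iff.1
    (interior_mem_nhds.2 hs)
  refine ⟨(f : M → ℝ) • FiberBundle.extend E v, ?_, ?_⟩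
  · exact ContMDiffOn.smul_section_of_tsupport f.contMDiff.contMDiffOn isOpen_interior hf
      (hsm.mono interior_subset)
  · change f p • FiberBundle.extend E v p = v
    rw [f.eq_one, one_smul, FiberBundle.extend_apply_self]

/-- (M4) -/
theorem d2_lrep [T2Space M] (hκ : κ ∈ IsManifold.maximalAtlas (𝓡 4) ∞ M)
    {α : Π x : M, TangentSpace (𝓡 4) x →L[ℝ] TangentSpace (𝓡 4) x →L[ℝ] ℝ}
    (hα : IsSmoothTwoForm (𝓡 4) M α) (hc : IsClosedTwoForm (𝓡 4) M α) {x : E} (hx : x ∈ κ.target)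
    (u v w : E) : d2 (lrep κ α) x u v w = 0 := by
  have hp : κ.symm x ∈ κ.source := κ.map_target hx
  have h1 : ∀ t : E, ∃ X : Π x : M, TangentSpace (𝓡 4) x, IsSmoothVectorField (𝓡 4) M X ∧
      vrep κ X x = t := fun t => by
    obtain ⟨X, hX, hXp⟩ := exists_field (κ.symm x) (mD κ x t)
    refine ⟨X, hX, ?_⟩
    have := mDi_mD hκ hp t
    rw [κ.right_inv hx] at this
    unfold vrep
    rw [hXp]
    exact this
  obtain ⟨X, hX, rfl⟩ := h1 u
  obtain ⟨Y, hY, rfl⟩ := h1 v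
  obtain ⟨Z, hZ, rfl⟩ := h1 w
  have h2 := extDeriv_chart hκ hp hα hX hY hZ
  rw [κ.right_inv hx] at h2
  rw [← h2]
  exact hc X Y Z hX hY hZ _

/-- (M5) -/
theorem isClosed_of_lrep {α : Π x : M, TangentSpace (𝓡 4) x →L[ℝ] TangentSpace (𝓡 4) x →L[ℝ] ℝ}
    (hα : IsSmoothTwoForm (𝓡 4) M α)
    (h : ∀ p, ∃ κ ∈ IsManifold.maximalAtlas (𝓡 4) ∞ M, p ∈ κ.source ∧
      ∀ u v w, d2 (lrep κ α) (κ p) u v w = 0) : IsClosedTwoForm (𝓡 4) M α := by
  intro X Y Z hX hY hZ p
  obtain ⟨κ, hκ, hp, h0⟩ := h p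
  rw [extDeriv_chart hκ hp hα hX hY hZ, h0]

end Crest.Agent.R240

end
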