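import Crest.Agent.R240.Alg3
import Crest.Agent.R240.Prof

/-!
# Row 240: charts, local representatives, smoothness classes
-/

set_option autoImplicit false
set_option linter.unusedSectionVars false
set_option linter.unusedVariables false

open MeasureTheory Metric Set Filter Topology
open scoped ContDiff ENNReal

noncomputable section

namespace Crest.Agent.R240

namespace Geo

variable {M : Type*} [MetricSpace M] [CompactSpace M] [MeasurableSpace M] [BorelSpace M]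
  {G : Geo M}

variable {F : Type*} [NormedAddCommGroup F] [NormedSpace ℝ F]

/-! ### points and charts -/

theorem map_mem {i : Fin G.n} {p : M} (hp : p ∈ (G.κ i).source) : G.κ i p ∈ ball (0 : E) 3 := by
  rw [← G.tgt i]; exact (G.κ i).map_source hp
theorem symm_mem {i : Fin G.n} {x : E} (hx : x ∈ ball (0 : E) 3) :
    (G.κ i).symm x ∈ (G.κ i).source := by
  exact (G.κ i).map_target (by rwa [G.tgt i])
theorem map_symm {i : Fin G.n} {x : E} (hx : x ∈ ball (0 : E) 3) :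
    G.κ i ((G.κ i).symm x) = x := by
  exact (G.κ i).right_inv (by rwa [G.tgt i])
theorem symm_map {i : Fin G.n} {p : M} (hp : p ∈ (G.κ i).source) :
    (G.κ i).symm (G.κ i p) = p := by
  exact (G.κ i).left_inv hp
theorem ch_source (G : Geo M) (p : M) : p ∈ (G.κ (G.ch p)).source := by
  exact (G.cover p).choose_spec.1
theorem ch_lt (G : Geo M) (p : M) : ‖G.κ (G.ch p) p‖ < 1 := by
  exact (G.cover p).choose_spec.2
theorem mem_K_ch (G : Geo M) (p : M) : p ∈ G.K (G.ch p) 1 := by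
  exact ⟨G.ch_source p, (G.ch_lt p).le⟩
theorem K_mono (i : Fin G.n) {r r' : ℝ} (h : r ≤ r') : G.K i r ⊆ G.K i r' := by
  exact fun p hp => ⟨hp.1, hp.2.trans h⟩
theorem symm_mem_K {i : Fin G.n} {x : E} {r : ℝ} (hr : r < 3) (hx : ‖x‖ ≤ r) :
    (G.κ i).symm x ∈ G.K i r := by
  have hx' : x ∈ ball (0 : E) 3 := mem_ball_zero_iff.2 (hx.trans_lt hr)
  exact ⟨symm_mem hx', by rwa [map_symm hx']⟩
theorem K_eq_image (i : Fin G.n) {r : ℝ} (hr : r < 3) :
    G.K i r = (G.κ i).symm '' closedBall 0 r := by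
  ext p
  constructor
  · intro hp
    exact ⟨G.κ i p, mem_closedBall_zero_iff.2 hp.2, symm_map hp.1⟩
  · rintro ⟨x, hx, rfl⟩
    exact symm_mem_K hr (mem_closedBall_zero_iff.1 hx)
theorem isCompact_K (i : Fin G.n) {r : ℝ} (hr : r < 3) : IsCompact (G.K i r) := by
  rw [K_eq_image i hr]
  refine (isCompact_closedBall 0 r).image_of_continuousOn ((G.κ i).continuousOn_symm.mono ?_)
  rw [G.tgt i]
  exact closedBall_subset_ball hr
theorem measurableSet_K (i : Fin G.n) (r : ℝ) : MeasurableSet (G.K i r) := by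
  have h : G.K i r = (G.κ i).source \ ((G.κ i).source ∩ G.κ i ⁻¹' (closedBall 0 r)ᶜ) := by
    ext p
    simp only [K, mem_ofPred_eq, Set.mem_sdiff, mem_inter_iff, mem_preimage, mem_compl_iff,
      mem_closedBall_zero_iff]
    tauto
  rw [h]
  exact (G.κ i).open_source.measurableSet.diff
    ((G.κ i).isOpen_inter_preimage isClosed_closedBall.isOpen_compl).measurableSet
/-- points close to `K i r` lie in `K i r'` -/
theorem near_K (G : Geo M) {r r' : ℝ} (h : r < r') (hr : r < 3) :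
    ∃ δ > 0, ∀ i, ∀ p ∈ G.K i r, ∀ q, dist p q ≤ δ → q ∈ G.K i r' := by
  have key : ∀ i, ∃ δ > 0, ∀ p ∈ G.K i r, ∀ q, dist p q ≤ δ → q ∈ G.K i r' := by
    intro i
    obtain ⟨δ, hδ, hsub⟩ := (isCompact_K i hr).exists_cthickening_subset_open
      ((G.κ i).isOpen_inter_preimage (isOpen_ball (x := (0 : E)) (ε := r')))
      (fun p hp => ⟨hp.1, mem_ball_zero_iff.2 (hp.2.trans_lt h)⟩)
    refine ⟨δ, hδ, fun p hp q hq => ?_⟩
    have := hsub (mem_cthickening_of_dist_le q p δ _ hp (by rwa [dist_comm]))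
    exact ⟨this.1, (mem_ball_zero_iff.1 this.2).le⟩
  choose δ hδ H using key
  have hev : ∀ᶠ d in 𝓝[>] (0 : ℝ), ∀ i, d ≤ δ i :=
    eventually_all.2 fun i => nhdsWithin_le_nhds (ge_mem_nhds (hδ i))
  obtain ⟨δ0, H0, hδ0⟩ := (hev.and self_mem_nhdsWithin).exists
  exact ⟨δ0, hδ0, fun i p hp q hq => H i p hp q (hq.trans (H0 i))⟩
theorem exists_lip (G : Geo M) : ∃ L : ℝ, 1 ≤ L ∧ ∀ i, ∀ p ∈ G.K i (5 / 2), ∀ q ∈ G.K i (5 / 2),
    dist p q ≤ L * ‖G.κ i p - G.κ i q‖ ∧ ‖G.κ i p - G.κ i q‖ ≤ L * dist p q := by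
  obtain ⟨C, hC⟩ := G.lip
  refine ⟨max C 1, le_max_right _ _, fun i p hp q hq => ?_⟩
  have := hC i _ (mem_closedBall_zero_iff.2 hp.2) _ (mem_closedBall_zero_iff.2 hq.2)
  rw [symm_map hp.1, symm_map hq.1] at this
  exact ⟨this.1.trans (mul_le_mul_of_nonneg_right (le_max_left _ _) (norm_nonneg _)),
    this.2.trans (mul_le_mul_of_nonneg_right (le_max_left _ _) dist_nonneg)⟩
theorem measurable_ext0 {Y : Type*} [NormedAddCommGroup Y] [MeasurableSpace Y] (i : Fin G.n)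
    {φ : E → Y} (hφ : Measurable φ) : Measurable (G.ext0 i φ) := by
  classical
  have hs := (G.κ i).open_source.measurableSet
  have h1 : Measurable ((G.κ i).source.piecewise (G.κ i) fun _ => 0) :=
    (G.κ i).continuousOn.measurable_piecewise continuousOn_const hs
  have h2 : G.ext0 i φ = fun p => if p ∈ (G.κ i).source then
      φ ((G.κ i).source.piecewise (G.κ i) (fun _ => 0) p) else 0 := by
    funext p
    by_cases hp : p ∈ (G.κ i).source <;> simp [ext0, hp]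
  rw [h2]
  exact Measurable.ite hs (hφ.comp h1) measurable_const

/-! ### transition maps and frames -/

theorem isOpen_dom (i j : Fin G.n) :
    IsOpen {x : E | x ∈ ball (0 : E) 3 ∧ (G.κ i).symm x ∈ (G.κ j).source} := by
  have := (G.κ i).isOpen_inter_preimage_symm (G.κ j).open_source
  rwa [G.tgt i] at this
theorem eventually_dom {i j : Fin G.n} {p : M} (hi : p ∈ (G.κ i).source) (hj : p ∈ (G.κ j).source) :
    ∀ᶠ x in 𝓝 (G.κ i p), x ∈ ball (0 : E) 3 ∧ (G.κ i).symm x ∈ (G.κ j).source := by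
  exact (isOpen_dom i j).mem_nhds ⟨map_mem hi, by rwa [symm_map hi]⟩
theorem tr_map {i j : Fin G.n} {p : M} (hi : p ∈ (G.κ i).source) : G.tr i j (G.κ i p) = G.κ j p := by
  rw [tr, symm_map hi]
theorem tr_contDiffAt {i j : Fin G.n} {p : M} (hi : p ∈ (G.κ i).source) (hj : p ∈ (G.κ j).source) :
    ContDiffAt ℝ ∞ (G.tr i j) (G.κ i p) := G.smooth_tr i j p hi hj
theorem T_tr' {i j : Fin G.n} {p : M} (hi : p ∈ (G.κ i).source) (hj : p ∈ (G.κ j).source) (v : E) :
    G.T j p (fderiv ℝ (G.tr i j) (G.κ i p) v) = G.T i p v := by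
  exact DFunLike.congr_fun (G.T_tr i j p hi hj) v
theorem T_tr_symm {i j : Fin G.n} {x : E} (hx : x ∈ ball (0 : E) 3)
    (hj : (G.κ i).symm x ∈ (G.κ j).source) :
    (G.T j ((G.κ i).symm x)).comp (fderiv ℝ (G.tr i j) x) = G.T i ((G.κ i).symm x) := by
  have := G.T_tr i j _ (symm_mem hx) hj
  rwa [map_symm hx] at this
theorem Ti_tr {i j : Fin G.n} {p : M} (hi : p ∈ (G.κ i).source) (hj : p ∈ (G.κ j).source) (v : E) :
    fderiv ℝ (G.tr i j) (G.κ i p) (G.Ti i p v) = G.Ti j p v := by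
  rw [← G.Ti_T j p (fderiv ℝ (G.tr i j) (G.κ i p) (G.Ti i p v)), T_tr' hi hj, G.T_Ti]
theorem U_uni {i : Fin G.n} {p : M} (hp : p ∈ (G.κ i).source) : Uni (G.U i p) := G.uni i p hp
theorem U_A (i : Fin G.n) (p : M) (v : E) :
    G.U i p ((G.fr i).A (G.κ i p) v) = G.T i p v := by
  simp only [U, ContinuousLinearMap.comp_apply, (G.fr i).mul']
theorem U_A_Ti (i : Fin G.n) (p : M) (v : E) :
    G.U i p ((G.fr i).A (G.κ i p) (G.Ti i p v)) = v := by
  rw [U_A, G.T_Ti]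
theorem A_Ti_U (i : Fin G.n) (p : M) (v : E) :
    (G.fr i).A (G.κ i p) (G.Ti i p (G.U i p v)) = v := by
  simp only [U, ContinuousLinearMap.comp_apply, G.Ti_T, (G.fr i).mul]
theorem Ti_U (i : Fin G.n) (p : M) (v : E) :
    G.Ti i p (G.U i p v) = (G.fr i).A' (G.κ i p) v := by
  simp only [U, ContinuousLinearMap.comp_apply, G.Ti_T]
theorem uni_A_Ti {i : Fin G.n} {p : M} (hp : p ∈ (G.κ i).source) :
    Uni (((G.fr i).A (G.κ i p)).comp (G.Ti i p)) := by
  exact (U_uni hp).inv fun v => U_A_Ti i p v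
theorem T_J {i : Fin G.n} {p : M} (hp : p ∈ (G.κ i).source) (v : E) :
    G.T i p ((G.fr i).J (G.κ i p) v) = J0 (G.T i p v) := by
  rw [← U_A, Frame.A_J, (U_uni hp).2, U_A]
theorem Ti_J {i : Fin G.n} {p : M} (hp : p ∈ (G.κ i).source) (v : E) :
    G.Ti i p (J0 v) = (G.fr i).J (G.κ i p) (G.Ti i p v) := by
  rw [← G.Ti_T i p ((G.fr i).J (G.κ i p) (G.Ti i p v)), T_J hp, G.T_Ti]
theorem det_T {i : Fin G.n} {p : M} (hp : p ∈ (G.κ i).source) :
    (G.T i p).det = ((G.fr i).A (G.κ i p)).det := by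
  have h : G.T i p = (G.U i p).comp ((G.fr i).A (G.κ i p)) :=
    ContinuousLinearMap.ext fun v => (U_A i p v).symm
  have h1 := (U_uni hp).det
  rw [h, ← one_mul ((G.fr i).A (G.κ i p)).det, ← h1]
  exact LinearMap.det_comp (G.U i p).toLinearMap ((G.fr i).A (G.κ i p)).toLinearMap
theorem exists_T_bound (G : Geo M) : ∃ C : ℝ, 1 ≤ C ∧ ∀ i, ∀ p ∈ (G.κ i).source,
    ‖G.T i p‖ ≤ C ∧ ‖G.Ti i p‖ ≤ C := by
  choose C hC using fun i => (G.fr i).bdd
  obtain ⟨B, hB⟩ := (Set.finite_range C).bddAbove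
  refine ⟨max B 1, le_max_right _ _, fun i p hp => ?_⟩
  have hCB : C i ≤ max B 1 := (hB ⟨i, rfl⟩).trans (le_max_left _ _)
  have h1 : G.T i p = (G.U i p).comp ((G.fr i).A (G.κ i p)) :=
    ContinuousLinearMap.ext fun v => (U_A i p v).symm
  have h2 : G.Ti i p = ((G.fr i).A' (G.κ i p)).comp (((G.fr i).A (G.κ i p)).comp (G.Ti i p)) :=
    ContinuousLinearMap.ext fun v => ((G.fr i).mul' _ _).symm
  constructor
  · rw [h1]
    refine (ContinuousLinearMap.opNorm_comp_le _ _).trans ?_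
    exact (mul_le_of_le_one_left (norm_nonneg _) (U_uni hp).norm_le).trans
      ((hC i _).1.trans hCB)
  · rw [h2]
    refine (ContinuousLinearMap.opNorm_comp_le _ _).trans ?_
    exact (mul_le_of_le_one_right (norm_nonneg _) (uni_A_Ti hp).norm_le).trans
      ((hC i _).2.trans hCB)

/-! ### transformation laws -/

theorem loc0_map {i : Fin G.n} {p : M} (hp : p ∈ (G.κ i).source) (φ : M → F) :
    G.loc0 i φ (G.κ i p) = φ p := by
  rw [loc0, symm_map hp]
theorem loc1_map {i : Fin G.n} {p : M} (hp : p ∈ (G.κ i).source) (γ : M → Cov) :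
    (G.loc1 i γ (G.κ i p)).comp (G.Ti i p) = γ p := by
  rw [loc1, symm_map hp]
  exact ContinuousLinearMap.ext fun v => by simp only [ContinuousLinearMap.comp_apply, G.T_Ti]
theorem loc2_map {i : Fin G.n} {p : M} (hp : p ∈ (G.κ i).source) (η : M → Bil) :
    pb (G.loc2 i η (G.κ i p)) (G.Ti i p) = η p := by
  rw [loc2, symm_map hp, pb_pb]
  exact pb_of_id _ fun v => G.T_Ti i p v
theorem locQ_map {i j : Fin G.n} {p q : M} (hp : p ∈ (G.κ i).source) (hq : q ∈ (G.κ j).source)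
    (k : M → M → Quad) :
    pbQ (G.locQ i j k (G.κ i p, G.κ j q)) (G.Ti i p) (G.Ti j q) = k p q := by
  rw [locQ, pbQ_pbQ]
  simp only [symm_map hp, symm_map hq]
  exact pbQ_of_id _ (fun v => G.T_Ti i p v) fun v => G.T_Ti j q v
theorem loc0_tr {i j : Fin G.n} {p : M} (hi : p ∈ (G.κ i).source) (hj : p ∈ (G.κ j).source)
    (φ : M → F) : G.loc0 i φ =ᶠ[𝓝 (G.κ i p)] fun x => G.loc0 j φ (G.tr i j x) := by
  filter_upwards [eventually_dom hi hj] with x hx
  rw [loc0, loc0, tr, symm_map hx.2]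
theorem loc1_tr {i j : Fin G.n} {p : M} (hi : p ∈ (G.κ i).source) (hj : p ∈ (G.κ j).source)
    (γ : M → Cov) : G.loc1 i γ =ᶠ[𝓝 (G.κ i p)]
      fun x => (G.loc1 j γ (G.tr i j x)).comp (fderiv ℝ (G.tr i j) x) := by
  filter_upwards [eventually_dom hi hj] with x hx
  rw [loc1, loc1, tr, symm_map hx.2, ContinuousLinearMap.comp_assoc, T_tr_symm hx.1 hx.2]
theorem loc2_tr {i j : Fin G.n} {p : M} (hi : p ∈ (G.κ i).source) (hj : p ∈ (G.κ j).source)
    (η : M → Bil) : G.loc2 i η =ᶠ[𝓝 (G.κ i p)]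
      fun x => pb (G.loc2 j η (G.tr i j x)) (fderiv ℝ (G.tr i j) x) := by
  filter_upwards [eventually_dom hi hj] with x hx
  rw [loc2, loc2, tr, symm_map hx.2, pb_pb, T_tr_symm hx.1 hx.2]
/-- the norm of a form is the norm of its representative in the unitary frame -/
theorem norm_eq_loc {i : Fin G.n} {p : M} (hp : p ∈ (G.κ i).source) (η : M → Bil) :
    ‖η p‖ = ‖pb (G.loc2 i η (G.κ i p)) ((G.fr i).A' (G.κ i p))‖ := by
  rw [loc2, symm_map hp, pb_pb]
  exact ((U_uni hp).norm_pb _).symm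
theorem wp_loc {i : Fin G.n} {x : E} (hx : x ∈ ball (0 : E) 3) {η ζ : M → Bil}
    (hη : Alt (η ((G.κ i).symm x))) (hζ : Alt (ζ ((G.κ i).symm x))) :
    wp (G.loc2 i η x) (G.loc2 i ζ x)
      = ((G.fr i).A x).det * wp (η ((G.κ i).symm x)) (ζ ((G.κ i).symm x)) := by
  rw [loc2, loc2, wp_pb hη hζ, det_T (symm_mem hx), map_symm hx]
theorem loc2_am {i : Fin G.n} {x : E} (hx : x ∈ ball (0 : E) 3) (η : M → Bil) :
    G.loc2 i (fun p => am (η p)) x = amJ ((G.fr i).J x) (G.loc2 i η x) := by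
  have h := fun v => T_J (symm_mem (i := i) hx) v
  rw [map_symm hx] at h
  refine ContinuousLinearMap.ext fun u => ContinuousLinearMap.ext fun v => ?_
  simp only [loc2, am, pb_apply, amJ_apply, h]
theorem loc2_star {i : Fin G.n} {x : E} (hx : x ∈ ball (0 : E) 3) {η : M → Bil}
    (hη : ∀ p, Alt (η p)) : G.loc2 i (fun p => star (η p)) x
      = pb (star (pb (G.loc2 i η x) ((G.fr i).A' x))) ((G.fr i).A x) := by
  have h1 := U_uni (symm_mem (i := i) hx)
  have h2 : G.T i ((G.κ i).symm x) =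
      (G.U i ((G.κ i).symm x)).comp ((G.fr i).A (G.κ i ((G.κ i).symm x))) :=
    ContinuousLinearMap.ext fun v => (U_A i _ v).symm
  have h3 : (G.T i ((G.κ i).symm x)).comp ((G.fr i).A' x) = G.U i ((G.κ i).symm x) := by
    rw [U, map_symm hx]
  rw [map_symm hx] at h2
  rw [loc2, loc2, pb_pb, h3, h1.star_pb (hη _), pb_pb, ← h2]
theorem anti_loc2 {i : Fin G.n} {x : E} (hx : x ∈ ball (0 : E) 3) {η : M → Bil}
    (h : Anti J0 (η ((G.κ i).symm x))) : Anti ((G.fr i).J x) (G.loc2 i η x) := by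
  have h1 := fun v => T_J (symm_mem (i := i) hx) v
  rw [map_symm hx] at h1
  intro u v
  simp only [loc2, pb_apply, h1]
  exact h _ _

/-! ### local criteria -/

theorem S0.at {φ : M → F} (h : G.S0 φ) {i : Fin G.n} {x : E} (hx : x ∈ ball (0 : E) 3) :
    ContDiffAt ℝ ∞ (G.loc0 i φ) x := (h i).contDiffAt (isOpen_ball.mem_nhds hx)
theorem S1.at {γ : M → Cov} (h : G.S1 γ) {i : Fin G.n} {x : E} (hx : x ∈ ball (0 : E) 3) :
    ContDiffAt ℝ ∞ (G.loc1 i γ) x := (h i).contDiffAt (isOpen_ball.mem_nhds hx)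
theorem S2.at {η : M → Bil} (h : G.S2 η) {i : Fin G.n} {x : E} (hx : x ∈ ball (0 : E) 3) :
    ContDiffAt ℝ ∞ (G.loc2 i η) x := (h i).contDiffAt (isOpen_ball.mem_nhds hx)
theorem S0_of_loc {φ : M → F}
    (h : ∀ p, ∃ i, p ∈ (G.κ i).source ∧ ContDiffAt ℝ ∞ (G.loc0 i φ) (G.κ i p)) : G.S0 φ := by
  intro i x hx
  obtain ⟨j, hj, H⟩ := h ((G.κ i).symm x)
  have hi := symm_mem (i := i) hx
  have h1 := tr_contDiffAt hi hj
  rw [← tr_map hi] at H
  have h2 := (H.comp _ h1).congr_of_eventuallyEq (loc0_tr hi hj φ)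
  rw [map_symm hx] at h2
  exact h2.contDiffWithinAt
theorem S1_of_loc {γ : M → Cov}
    (h : ∀ p, ∃ i, p ∈ (G.κ i).source ∧ ContDiffAt ℝ ∞ (G.loc1 i γ) (G.κ i p)) : G.S1 γ := by
  intro i x hx
  obtain ⟨j, hj, H⟩ := h ((G.κ i).symm x)
  have hi := symm_mem (i := i) hx
  have h1 := tr_contDiffAt hi hj
  rw [← tr_map hi] at H
  have h2 := ((H.comp _ h1).clm_comp (h1.fderiv_right (m := ∞) (by simp))).congr_of_eventuallyEq
    (loc1_tr hi hj γ)
  rw [map_symm hx] at h2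
  exact h2.contDiffWithinAt
theorem S2_of_loc {η : M → Bil}
    (h : ∀ p, ∃ i, p ∈ (G.κ i).source ∧ ContDiffAt ℝ ∞ (G.loc2 i η) (G.κ i p)) : G.S2 η := by
  intro i x hx
  obtain ⟨j, hj, H⟩ := h ((G.κ i).symm x)
  have hi := symm_mem (i := i) hx
  have h1 := tr_contDiffAt hi hj
  rw [← tr_map hi] at H
  have h2 := (ContDiffAt.pb (H.comp _ h1)
    (h1.fderiv_right (m := ∞) (by simp))).congr_of_eventuallyEq (loc2_tr hi hj η)
  rw [map_symm hx] at h2
  exact h2.contDiffWithinAt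
theorem SK_of_loc {k : M → M → Quad}
    (h : ∀ p q, ∃ i j, p ∈ (G.κ i).source ∧ q ∈ (G.κ j).source ∧
      ContDiffAt ℝ ∞ (G.locQ i j k) (G.κ i p, G.κ j q)) : G.SK k := by
  rintro i j ⟨x, y⟩ ⟨hx, hy⟩
  obtain ⟨i', j', hi', hj', H⟩ := h ((G.κ i).symm x) ((G.κ j).symm y)
  have hi := symm_mem (i := i) hx
  have hj := symm_mem (i := j) hy
  have h1 := tr_contDiffAt hi hi'
  have h2 := tr_contDiffAt hj hj'
  have e1 := eventually_dom hi hi'
  have e2 := eventually_dom hj hj'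
  rw [← tr_map hi, ← tr_map hj] at H
  rw [map_symm hx] at h1 e1 H
  rw [map_symm hy] at h2 e2 H
  have h1' : ContDiffAt ℝ ∞ (fun z : E × E => G.tr i i' z.1) (x, y) := h1.comp (x, y) contDiffAt_fst
  have h2' : ContDiffAt ℝ ∞ (fun z : E × E => G.tr j j' z.2) (x, y) := h2.comp (x, y) contDiffAt_snd
  have d1 : ContDiffAt ℝ ∞ (fun z : E × E => fderiv ℝ (G.tr i i') z.1) (x, y) :=
    (h1.fderiv_right (m := ∞) (by simp)).comp (x, y) contDiffAt_fst
  have d2 : ContDiffAt ℝ ∞ (fun z : E × E => fderiv ℝ (G.tr j j') z.2) (x, y) :=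
    (h2.fderiv_right (m := ∞) (by simp)).comp (x, y) contDiffAt_snd
  have h3 := ContDiffAt.pbQ (ContDiffAt.comp (x, y) (g := G.locQ i' j' k) H (h1'.prodMk h2')) d1 d2
  refine (h3.congr_of_eventuallyEq ?_).contDiffWithinAt
  filter_upwards [(e1.prod_nhds e2 :)] with z hz
  simp only [Function.comp_apply, locQ, tr, symm_map hz.1.2, symm_map hz.2.2, pbQ_pbQ]
  rw [← T_tr_symm hz.1.1 hz.1.2, ← T_tr_symm hz.2.1 hz.2.2]
theorem SP_of_loc {P : Type*} [NormedAddCommGroup P] [NormedSpace ℝ P] {O : Set P}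
    {η : P → M → Bil} (h : ∀ z ∈ O, ∀ p, ∃ i, p ∈ (G.κ i).source ∧
      ContDiffAt ℝ ∞ (fun y : P × E => G.loc2 i (η y.1) y.2) (z, G.κ i p)) : G.SP O η := by
  rintro i ⟨z, x⟩ ⟨hz, hx⟩
  obtain ⟨j, hj, H⟩ := h z hz ((G.κ i).symm x)
  have hi := symm_mem (i := i) hx
  have h1 := tr_contDiffAt hi hj
  have e1 := eventually_dom hi hj
  rw [← tr_map hi] at H
  rw [map_symm hx] at h1 e1 H
  have h1' : ContDiffAt ℝ ∞ (fun y : P × E => G.tr i j y.2) (z, x) := h1.comp (z, x) contDiffAt_snd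
  have d1 : ContDiffAt ℝ ∞ (fun y : P × E => fderiv ℝ (G.tr i j) y.2) (z, x) :=
    (h1.fderiv_right (m := ∞) (by simp)).comp (z, x) contDiffAt_snd
  have h3 := ContDiffAt.pb (ContDiffAt.comp (z, x)
    (g := fun y : P × E => G.loc2 j (η y.1) y.2) H (contDiffAt_fst.prodMk h1')) d1
  refine (h3.congr_of_eventuallyEq ?_).contDiffWithinAt
  filter_upwards [(continuous_snd.tendsto (z, x)).eventually e1] with y hy
  simp only [Function.comp_apply, loc2, tr, symm_map hy.2, pb_pb]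
  rw [← T_tr_symm hy.1 hy.2]
theorem S0.continuous {φ : M → F} (h : G.S0 φ) : Continuous φ := by
  refine continuous_iff_continuousAt.2 fun p => ?_
  have hp := G.ch_source p
  have h1 := (h.at (i := G.ch p) (map_mem hp)).continuousAt.comp ((G.κ (G.ch p)).continuousAt hp)
  refine h1.congr ?_
  filter_upwards [(G.κ (G.ch p)).open_source.mem_nhds hp] with q hq
  exact loc0_map hq φ

end Geo

end Crest.Agent.R240

end
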