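import Crest.Agent.R240.Chart

/-!
# Row 240: closure properties, extension by zero, partition of unity
-/

set_option autoImplicit false
set_option linter.unusedSectionVars false
set_option linter.unusedVariables false

open MeasureTheory Metric Set Filter Topology
open scoped ContDiff ENNReal

noncomputable section

namespace Crest.Agent.R240

namespace Geo

variable {M : Type*} [MetricSpace M] [CompactSpace M] [MeasurableSpace M] [BorelSpace M]
  {G : Geo M}

variable {F : Type*} [NormedAddCommGroup F] [NormedSpace ℝ F]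

/-! ### closure properties -/

theorem S0.const (c : F) : G.S0 fun _ => c := fun _ => contDiffOn_const
theorem S0.mul {φ ψ : M → ℝ} (hφ : G.S0 φ) (hψ : G.S0 ψ) : G.S0 fun p => φ p * ψ p := fun i => (hφ i).mul (hψ i)
theorem S1.zero : G.S1 (0 : M → Cov) := fun i => by
  have : G.loc1 i (0 : M → Cov) = fun _ => 0 := by funext x; simp [loc1]
  rw [this]; exact contDiffOn_const
theorem S1.add {γ γ' : M → Cov} (h : G.S1 γ) (h' : G.S1 γ') : G.S1 (γ + γ') := fun i => by
  have : G.loc1 i (γ + γ') = fun x => G.loc1 i γ x + G.loc1 i γ' x := by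
    funext x; simp [loc1, ContinuousLinearMap.add_comp]
  rw [this]; exact (h i).add (h' i)
theorem S1.smul {γ : M → Cov} (h : G.S1 γ) (c : ℝ) : G.S1 (c • γ) := fun i => by
  have : G.loc1 i (c • γ) = fun x => c • G.loc1 i γ x := by
    funext x; simp [loc1, ContinuousLinearMap.smul_comp]
  rw [this]; exact (h i).const_smul c
theorem S1.sum {ι : Type*} {s : Finset ι} {γ : ι → M → Cov} (h : ∀ j ∈ s, G.S1 (γ j)) :
    G.S1 (∑ j ∈ s, γ j) := 
  Finset.sum_induction γ G.S1 (fun _ _ => S1.add) S1.zero h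
theorem S1.fsmul {φ : M → ℝ} {γ : M → Cov} (hφ : G.S0 φ) (h : G.S1 γ) :
    G.S1 fun p => φ p • γ p := fun i => by
  have : G.loc1 i (fun p => φ p • γ p) = fun x => G.loc0 i φ x • G.loc1 i γ x := by
    funext x; simp [loc1, loc0, ContinuousLinearMap.smul_comp]
  rw [this]; exact (hφ i).smul (h i)
theorem loc2_add (i : Fin G.n) (η ζ : M → Bil) :
    G.loc2 i (η + ζ) = fun x => G.loc2 i η x + G.loc2 i ζ x := funext fun _ => pb_add _ _ _
theorem loc2_sub (i : Fin G.n) (η ζ : M → Bil) :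
    G.loc2 i (η - ζ) = fun x => G.loc2 i η x - G.loc2 i ζ x := funext fun _ => pb_sub _ _ _
theorem loc2_smul (i : Fin G.n) (c : ℝ) (η : M → Bil) :
    G.loc2 i (c • η) = fun x => c • G.loc2 i η x := funext fun _ => pb_smul _ _ _
theorem loc2_fsmul (i : Fin G.n) (φ : M → ℝ) (η : M → Bil) :
    G.loc2 i (fun p => φ p • η p) = fun x => G.loc0 i φ x • G.loc2 i η x := funext fun _ => pb_smul _ _ _
theorem S2.zero : G.S2 (0 : M → Bil) := fun i => by
  have : G.loc2 i (0 : M → Bil) = fun _ => 0 := funext fun _ => pb_zero _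
  rw [this]; exact contDiffOn_const
theorem S2.add {η ζ : M → Bil} (h : G.S2 η) (h' : G.S2 ζ) : G.S2 (η + ζ) := fun i => by
  rw [loc2_add]; exact (h i).add (h' i)
theorem S2.sub {η ζ : M → Bil} (h : G.S2 η) (h' : G.S2 ζ) : G.S2 (η - ζ) := fun i => by
  rw [loc2_sub]; exact (h i).sub (h' i)
theorem S2.smul {η : M → Bil} (h : G.S2 η) (c : ℝ) : G.S2 (c • η) := fun i => by
  rw [loc2_smul]; exact (h i).const_smul c
theorem S2.sum {ι : Type*} {s : Finset ι} {η : ι → M → Bil} (h : ∀ j ∈ s, G.S2 (η j)) :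
    G.S2 (∑ j ∈ s, η j) := 
  Finset.sum_induction η G.S2 (fun _ _ => S2.add) S2.zero h
theorem S2.fsmul {φ : M → ℝ} {η : M → Bil} (hφ : G.S0 φ) (h : G.S2 η) :
    G.S2 fun p => φ p • η p := fun i => by
  rw [loc2_fsmul]; exact (hφ i).smul (h i)
theorem S2.am {η : M → Bil} (h : G.S2 η) : G.S2 fun p => am (η p) := fun i =>
  ContDiffOn.congr (f := fun x => amJ ((G.fr i).J x) (G.loc2 i η x))
    (fun x hx => (ContDiffAt.amJ (h.at hx) (G.fr i).J_smooth.contDiffAt).contDiffWithinAt)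
    fun x hx => loc2_am hx η
theorem S2.ip {η : M → Bil} (h : G.S2 η) : G.S2 fun p => ip (η p) := h.sub h.am
theorem S2.star {η : M → Bil} (h : G.S2 η) (ha : ∀ p, Alt (η p)) : G.S2 fun p => star (η p) := fun i =>
  ContDiffOn.congr
    (f := fun x => pb (starL (pb (G.loc2 i η x) ((G.fr i).A' x))) ((G.fr i).A x))
    (fun x hx => (ContDiffAt.pb (starL.contDiff.contDiffAt.comp x
      (ContDiffAt.pb (h.at hx) (G.fr i).smooth'.contDiffAt))
        (G.fr i).smooth.contDiffAt).contDiffWithinAt)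
    fun x hx => loc2_star hx ha
theorem S2.wedge {γ γ' : M → Cov} (h : G.S1 γ) (h' : G.S1 γ') :
    G.S2 fun p => wedge (γ p) (γ' p) := fun i =>
  ContDiffOn.congr (f := fun x => R240.wedge (G.loc1 i γ x) (G.loc1 i γ' x))
    (fun x hx => (ContDiffAt.wedge (h.at hx) (h'.at hx)).contDiffWithinAt)
    fun x _ => by ext u v; simp [loc2, loc1]
theorem S2.wp {η ζ : M → Bil} (h : G.S2 η) (h' : G.S2 ζ) (ha : ∀ p, Alt (η p))
    (ha' : ∀ p, Alt (ζ p)) : G.S0 fun p => wp (η p) (ζ p) := fun i =>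
  ContDiffOn.congr (f := fun x => R240.wp (G.loc2 i η x) (G.loc2 i ζ x) / ((G.fr i).A x).det)
    (fun x hx => ((ContDiffAt.wp (h.at hx) (h'.at hx)).div
      (ContDiffAt.det (G.fr i).smooth.contDiffAt) ((G.fr i).det_pos x).ne').contDiffWithinAt)
    fun x hx => by
      rw [wp_loc hx (ha _) (ha' _), mul_div_cancel_left₀ _ ((G.fr i).det_pos x).ne']; rfl
theorem S2.continuous_norm {η : M → Bil} (h : G.S2 η) : Continuous fun p => ‖η p‖ := by
  refine continuous_iff_continuousAt.2 fun p => ?_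
  have hp := G.ch_source p
  have h1 : ContinuousAt (fun x => ‖pb (G.loc2 (G.ch p) η x) ((G.fr (G.ch p)).A' x)‖)
      (G.κ (G.ch p) p) :=
    (ContDiffAt.pb (h.at (map_mem hp)) (G.fr _).smooth'.contDiffAt).continuousAt.norm
  refine (h1.comp ((G.κ _).continuousAt hp)).congr ?_
  filter_upwards [(G.κ (G.ch p)).open_source.mem_nhds hp] with q hq
  exact (norm_eq_loc hq η).symm
theorem S2.bdd {η : M → Bil} (h : G.S2 η) : ∃ C : ℝ, 0 ≤ C ∧ ∀ p, ‖η p‖ ≤ C := by
  obtain ⟨C, hC⟩ := isCompact_univ.exists_bound_of_continuousOn h.continuous_norm.continuousOn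
  exact ⟨max C 0, le_max_right _ _, fun p =>
    le_max_of_le_left (by simpa using hC p (mem_univ p))⟩
theorem Chart2.measurable_pb {X : Type*} [MeasurableSpace X] {f : X → Bil} {A : X → End}
    (hf : Measurable f) (hA : Measurable A) : Measurable fun x => pb (f x) (A x) := by
  have hc : Continuous fun z : Bil × End => pb z.1 z.2 :=
    continuous_iff_continuousAt.2 fun z =>
      (ContDiffAt.pb (n := 0) contDiffAt_fst contDiffAt_snd).continuousAt
  have hm : Measurable fun z : Bil × End => pb z.1 z.2 := hc.measurable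
  have := hm.comp (hf.prodMk hA)
  simpa only [Function.comp_def] using this
theorem Chart2.measurable_pbQ {X : Type*} [MeasurableSpace X] {f : X → Quad} {A B : X → End}
    (hf : Measurable f) (hA : Measurable A) (hB : Measurable B) :
    Measurable fun x => pbQ (f x) (A x) (B x) := by
  have hc : Continuous fun z : Quad × End × End => pbQ z.1 z.2.1 z.2.2 :=
    continuous_iff_continuousAt.2 fun z =>
      (ContDiffAt.pbQ (n := 0) contDiffAt_fst contDiffAt_snd.fst contDiffAt_snd.snd).continuousAt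
  have hm : Measurable fun z : Quad × End × End => pbQ z.1 z.2.1 z.2.2 := hc.measurable
  have := hm.comp (hf.prodMk (hA.prodMk hB))
  simpa only [Function.comp_def] using this
theorem Chart2.measurable_of_cover {X Y ι : Type*} [MeasurableSpace X] [MeasurableSpace Y]
    [Countable ι] {f : X → Y} (s : ι → Set X) (hs : ∀ i, MeasurableSet (s i))
    (hc : ∀ x, ∃ i, x ∈ s i) (g : ι → X → Y) (hg : ∀ i, Measurable (g i))
    (h : ∀ i, ∀ x ∈ s i, f x = g i x) : Measurable f := by
  intro t ht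
  have : f ⁻¹' t = ⋃ i, s i ∩ g i ⁻¹' t := by
    ext x
    simp only [mem_preimage, mem_iUnion, mem_inter_iff]
    constructor
    · intro hx
      obtain ⟨i, hi⟩ := hc x
      exact ⟨i, hi, h i x hi ▸ hx⟩
    · rintro ⟨i, hi, hx⟩
      exact (h i x hi).symm ▸ hx
  rw [this]
  exact MeasurableSet.iUnion fun i => (hs i).inter (hg i ht)
theorem S2.measurable {η : M → Bil} (h : G.S2 η) : Measurable η := by
  classical
  refine Chart2.measurable_of_cover (fun i => (G.κ i).source)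
    (fun i => (G.κ i).open_source.measurableSet) (fun p => ⟨_, G.ch_source p⟩)
    (fun i p => pb ((G.κ i).source.piecewise (fun p => G.loc2 i η (G.κ i p)) (fun _ => 0) p)
      (G.Ti i p)) (fun i => ?_) fun i p hp => ?_
  · have h1 : ContinuousOn (fun p => G.loc2 i η (G.κ i p)) (G.κ i).source :=
      (h i).continuousOn.comp (G.κ i).continuousOn fun p hp => map_mem hp
    exact Chart2.measurable_pb (ContinuousOn.measurable_piecewise h1 continuousOn_const
      (G.κ i).open_source.measurableSet) (G.Ti_meas i)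
  · simp only [piecewise_eq_of_mem _ _ _ hp, loc2_map hp]
theorem S2.rep2 {η : M → Bil} (h : G.S2 η) (i : Fin G.n) : ContDiff ℝ ∞ (G.rep2 i η) := contDiff_bump_smul (h i)
theorem rep2_eq (i : Fin G.n) (η : M → Bil) {x : E} (hx : ‖x‖ ≤ 5 / 2) :
    G.rep2 i η x = G.loc2 i η x := by
  rw [Geo.rep2, bump_one hx, one_smul]
theorem rep2_eventuallyEq (i : Fin G.n) (η : M → Bil) {x : E} (hx : ‖x‖ < 5 / 2) :
    G.rep2 i η =ᶠ[𝓝 x] G.loc2 i η := by
  filter_upwards [bump_eventually_one hx] with y hy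
  rw [Geo.rep2, hy, one_smul]
theorem SP.slice {P : Type*} [NormedAddCommGroup P] [NormedSpace ℝ P] {O : Set P}
    {η : P → M → Bil} (h : G.SP O η) {z : P} (hz : z ∈ O) : G.S2 (η z) := fun i =>
  (h i).comp (f := fun x : E => (z, x)) (contDiff_const.prodMk contDiff_id).contDiffOn
    fun x hx => ⟨hz, hx⟩
theorem SK.measurable {k : M → M → Quad} (h : G.SK k) : Measurable fun z : M × M => k z.1 z.2 := by
  classical
  have ho : ∀ i : Fin G.n × Fin G.n, IsOpen ((G.κ i.1).source ×ˢ (G.κ i.2).source) := fun i =>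
    (G.κ i.1).open_source.prod (G.κ i.2).open_source
  refine Chart2.measurable_of_cover
    (fun i : Fin G.n × Fin G.n => (G.κ i.1).source ×ˢ (G.κ i.2).source)
    (fun i => (ho i).measurableSet)
    (fun z => ⟨(G.ch z.1, G.ch z.2), G.ch_source _, G.ch_source _⟩)
    (fun i z => pbQ (((G.κ i.1).source ×ˢ (G.κ i.2).source).piecewise
      (fun z => G.locQ i.1 i.2 k (G.κ i.1 z.1, G.κ i.2 z.2)) (fun _ => 0) z)
      (G.Ti i.1 z.1) (G.Ti i.2 z.2)) (fun i => ?_) fun i z hz => ?_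
  · have h0 : ContinuousOn (fun z : M × M => (G.κ i.1 z.1, G.κ i.2 z.2))
        ((G.κ i.1).source ×ˢ (G.κ i.2).source) :=
      (G.κ i.1).continuousOn.prodMap (G.κ i.2).continuousOn
    have h1 : ContinuousOn (fun z : M × M => G.locQ i.1 i.2 k (G.κ i.1 z.1, G.κ i.2 z.2))
        ((G.κ i.1).source ×ˢ (G.κ i.2).source) :=
      ContinuousOn.comp (g := G.locQ i.1 i.2 k) (h i.1 i.2).continuousOn h0
        fun z hz => ⟨map_mem hz.1, map_mem hz.2⟩
    have h2 : Measurable fun z : M × M => G.Ti i.1 z.1 := (G.Ti_meas i.1).comp measurable_fst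
    have h3 : Measurable fun z : M × M => G.Ti i.2 z.2 := (G.Ti_meas i.2).comp measurable_snd
    exact Chart2.measurable_pbQ (ContinuousOn.measurable_piecewise h1 continuousOn_const
      (ho i).measurableSet) h2 h3
  · simp only [piecewise_eq_of_mem _ _ _ hz, locQ_map hz.1 hz.2]
theorem SK.bdd {k : M → M → Quad} (h : G.SK k) : ∃ C : ℝ, 0 ≤ C ∧ ∀ p q, ‖k p q‖ ≤ C := by
  obtain ⟨C, hC1, hC⟩ := G.exists_T_bound
  have hsub : closedBall (0 : E) 1 ⊆ ball 0 3 := closedBall_subset_ball (by norm_num)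
  choose B hB using fun i : Fin G.n × Fin G.n =>
    ((isCompact_closedBall (0 : E) 1).prod (isCompact_closedBall (0 : E) 1)).exists_bound_of_continuousOn
      ((h i.1 i.2).continuousOn.mono (prod_mono hsub hsub))
  refine ⟨16 * (∑ i, |B i|) * C ^ 2 * C ^ 2, by positivity, fun p q => ?_⟩
  have hp := G.ch_source p
  have hq := G.ch_source q
  have h1 := hB (G.ch p, G.ch q) (G.κ (G.ch p) p, G.κ (G.ch q) q)
    ⟨mem_closedBall_zero_iff.2 (G.ch_lt p).le, mem_closedBall_zero_iff.2 (G.ch_lt q).le⟩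
  have h2 : |B (G.ch p, G.ch q)| ≤ ∑ i, |B i| :=
    Finset.single_le_sum (f := fun i => |B i|) (fun _ _ => abs_nonneg _) (Finset.mem_univ _)
  have h3 := h1.trans ((le_abs_self _).trans h2)
  have h4 := (hC _ p hp).2
  have h5 := (hC _ q hq).2
  rw [← locQ_map hp hq k]
  refine (norm_pbQ_le _ _ _).trans ?_
  gcongr
theorem SK.ktr {k : M → M → Quad} (h : G.SK k) : G.SK (ktr k) := fun i j => by
  have e : G.locQ i j (Geo.ktr k) = fun z : E × E => qswap (G.locQ j i k (z.2, z.1)) :=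
    funext fun z => quad_ext fun X Y v w => by
      simp only [locQ, Geo.ktr, qv_pbQ, qv_qswap]
  rw [e]
  intro z hz
  have h1 : ContDiffAt ℝ ∞ (G.locQ j i k) (z.2, z.1) :=
    (h j i).contDiffAt ((isOpen_ball.prod isOpen_ball).mem_nhds ⟨hz.2, hz.1⟩)
  have h2 : ContDiffAt ℝ ∞ (fun y : E × E => G.locQ j i k (y.2, y.1)) z :=
    ContDiffAt.comp (f := fun y : E × E => (y.2, y.1)) z h1 (contDiffAt_snd.prodMk contDiffAt_fst)
  exact (ContDiffAt.qswap h2).contDiffWithinAt
theorem SK.sum {ι : Type*} {s : Finset ι} {k : ι → M → M → Quad} (h : ∀ j ∈ s, G.SK (k j)) :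
    G.SK fun p q => ∑ j ∈ s, k j p q := fun i i' => by
  have : G.locQ i i' (fun p q => ∑ j ∈ s, k j p q) = fun z => ∑ j ∈ s, G.locQ i i' (k j) z :=
    funext fun z => map_sum (pbQL _ _) _ _
  rw [this]
  exact ContDiffOn.sum fun j hj => h j hj i i'
/-- the second variable of a kernel, the first one being a parameter in chart `i` -/
theorem SK.sp {k : M → M → Quad} (h : G.SK k) (i : Fin G.n) (u v : E) :
    G.SP (ball 0 3) fun (x : E) q =>
      qv (k ((G.κ i).symm x) q) (G.T i ((G.κ i).symm x) u) (G.T i ((G.κ i).symm x) v) := fun j =>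
  ContDiffOn.congr (f := fun z : E × E => qv (G.locQ i j k z) u v)
    (fun z hz => (ContDiffAt.qv ((h i j).contDiffAt ((isOpen_ball.prod isOpen_ball).mem_nhds hz))
      contDiffAt_const contDiffAt_const).contDiffWithinAt)
    fun z _ => by ext a b; simp only [loc2, locQ, pb_apply, qv_pbQ]
theorem SK.snd {k : M → M → Quad} (h : G.SK k) (p : M) (X Y : E) :
    G.S2 fun q => qv (k p q) X Y := by
  have hp := G.ch_source p
  have := (h.sp (G.ch p) (G.Ti (G.ch p) p X) (G.Ti (G.ch p) p Y)).slice (map_mem hp)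
  simpa only [symm_map hp, G.T_Ti] using this
theorem SK.fst {k : M → M → Quad} (h : G.SK k) (q : M) (v w : E) :
    G.S2 fun p => qv (qswap (k p q)) v w := h.ktr.snd q v w

theorem Am.zero : G.Am (0 : M → Bil) := ⟨S2.zero, fun _ => Alt.zero, fun _ => Anti.zero _⟩
theorem Am.add {g g' : M → Bil} (h : G.Am g) (h' : G.Am g') : G.Am (g + g') := 
  ⟨h.smooth.add h'.smooth, fun p => (h.alt p).add (h'.alt p), fun p => (h.anti p).add (h'.anti p)⟩
theorem Am.sub {g g' : M → Bil} (h : G.Am g) (h' : G.Am g') : G.Am (g - g') := 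
  ⟨h.smooth.sub h'.smooth, fun p => (h.alt p).sub (h'.alt p), fun p => (h.anti p).sub (h'.anti p)⟩
theorem Am.smul {g : M → Bil} (h : G.Am g) (c : ℝ) : G.Am (c • g) := 
  ⟨h.smooth.smul c, fun p => (h.alt p).smul c, fun p => (h.anti p).smul c⟩
theorem Am.of_am {η : M → Bil} (h : G.S2 η) (ha : ∀ p, Alt (η p)) : G.Am fun p => am (η p) := 
  ⟨h.am, fun p => (ha p).amJ J0, fun p => anti_am _⟩
theorem Am.am_eq {g : M → Bil} (h : G.Am g) (p : M) : am (g p) = g p := (h.anti p).amJ

/-- smooth anti-invariant forms as a vector space -/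
def AmS (G : Geo M) : Submodule ℝ (M → Bil) where
  carrier := {g | G.Am g}
  add_mem' := Am.add
  zero_mem' := Am.zero
  smul_mem' := fun c _ h => Am.smul h c

/-! ### extension by zero -/

theorem loc0_ext0 {i : Fin G.n} {x : E} (hx : x ∈ ball (0 : E) 3) (φ : E → F) :
    G.loc0 i (G.ext0 i φ) x = φ x := by
  simp only [loc0, ext0, if_pos (symm_mem (G := G) (i := i) hx), map_symm hx]
theorem loc1_ext1 {i : Fin G.n} {x : E} (hx : x ∈ ball (0 : E) 3) (γ : E → Cov) :
    G.loc1 i (G.ext1 i γ) x = γ x := by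
  simp only [loc1, ext1, if_pos (symm_mem (G := G) (i := i) hx), map_symm hx]
  ext v
  simp [G.Ti_T]
theorem loc2_ext2 {i : Fin G.n} {x : E} (hx : x ∈ ball (0 : E) 3) (η : E → Bil) :
    G.loc2 i (G.ext2 i η) x = η x := by
  simp only [loc2, ext2, if_pos (symm_mem (G := G) (i := i) hx), map_symm hx, pb_pb]
  exact pb_of_id _ fun v => G.Ti_T _ _ v
theorem locQ_extQ {i : Fin G.n} {x y : E} (hx : x ∈ ball (0 : E) 3) (hy : y ∈ ball (0 : E) 3)
    (k : E × E → Quad) : G.locQ i i (G.extQ i k) (x, y) = k (x, y) := by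
  simp only [locQ, extQ, if_pos (And.intro (symm_mem (G := G) (i := i) hx)
    (symm_mem (G := G) (i := i) hy)), map_symm hx, map_symm hy, pbQ_pbQ]
  exact pbQ_of_id _ (fun v => G.Ti_T _ _ v) fun v => G.Ti_T _ _ v
theorem Chart2.eventually_not_K {i j : Fin G.n} {r : ℝ} (hr : r < 3) {p : M}
    (hp : p ∉ (G.κ i).source) (hj : p ∈ (G.κ j).source) :
    ∀ᶠ x in 𝓝 (G.κ j p), (G.κ j).symm x ∈ (G.κ i).source →
      G.κ i ((G.κ j).symm x) ∈ ball (0 : E) 3 ∧ r < ‖G.κ i ((G.κ j).symm x)‖ := by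
  have h1 : (G.K i r)ᶜ ∈ 𝓝 ((G.κ j).symm (G.κ j p)) := by
    rw [symm_map hj]
    exact (isCompact_K i hr).isClosed.isOpen_compl.mem_nhds fun h => hp h.1
  filter_upwards [(G.κ j).continuousAt_symm ((G.κ j).map_source hj) h1] with x hx hs
  exact ⟨map_mem hs, not_le.1 fun h => hx ⟨hs, h⟩⟩
theorem S0_ext0 (i : Fin G.n) {φ : E → F} (h : ContDiffOn ℝ ∞ φ (ball 0 3)) {r : ℝ} (hr : r < 3)
    (h0 : ∀ x ∈ ball (0 : E) 3, r < ‖x‖ → φ x = 0) : G.S0 (G.ext0 i φ) := by
  refine S0_of_loc fun p => ?_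
  by_cases hp : p ∈ (G.κ i).source
  · have hb := isOpen_ball.mem_nhds (map_mem hp)
    refine ⟨i, hp, (h.contDiffAt hb).congr_of_eventuallyEq ?_⟩
    filter_upwards [hb] with x hx using loc0_ext0 hx φ
  · refine ⟨_, G.ch_source p, (contDiffAt_const (c := 0)).congr_of_eventuallyEq ?_⟩
    filter_upwards [Chart2.eventually_not_K hr hp (G.ch_source p)] with x hx
    simp only [loc0, ext0]
    split_ifs with hs
    · simp [h0 _ (hx hs).1 (hx hs).2]
    · simp
theorem S1_ext1 (i : Fin G.n) {γ : E → Cov} (h : ContDiffOn ℝ ∞ γ (ball 0 3)) {r : ℝ} (hr : r < 3)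
    (h0 : ∀ x ∈ ball (0 : E) 3, r < ‖x‖ → γ x = 0) : G.S1 (G.ext1 i γ) := by
  refine S1_of_loc fun p => ?_
  by_cases hp : p ∈ (G.κ i).source
  · have hb := isOpen_ball.mem_nhds (map_mem hp)
    refine ⟨i, hp, (h.contDiffAt hb).congr_of_eventuallyEq ?_⟩
    filter_upwards [hb] with x hx using loc1_ext1 hx γ
  · refine ⟨_, G.ch_source p, (contDiffAt_const (c := 0)).congr_of_eventuallyEq ?_⟩
    filter_upwards [Chart2.eventually_not_K hr hp (G.ch_source p)] with x hx
    simp only [loc1, ext1]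
    split_ifs with hs
    · simp [h0 _ (hx hs).1 (hx hs).2]
    · simp
theorem S2_ext2 (i : Fin G.n) {η : E → Bil} (h : ContDiffOn ℝ ∞ η (ball 0 3)) {r : ℝ} (hr : r < 3)
    (h0 : ∀ x ∈ ball (0 : E) 3, r < ‖x‖ → η x = 0) : G.S2 (G.ext2 i η) := by
  refine S2_of_loc fun p => ?_
  by_cases hp : p ∈ (G.κ i).source
  · have hb := isOpen_ball.mem_nhds (map_mem hp)
    refine ⟨i, hp, (h.contDiffAt hb).congr_of_eventuallyEq ?_⟩
    filter_upwards [hb] with x hx using loc2_ext2 hx η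
  · refine ⟨_, G.ch_source p, (contDiffAt_const (c := 0)).congr_of_eventuallyEq ?_⟩
    filter_upwards [Chart2.eventually_not_K hr hp (G.ch_source p)] with x hx
    simp only [loc2, ext2]
    split_ifs with hs
    · simp [h0 _ (hx hs).1 (hx hs).2]
    · simp
theorem SK_extQ (i : Fin G.n) {k : E × E → Quad} (h : ContDiffOn ℝ ∞ k (ball 0 3 ×ˢ ball 0 3))
    {r : ℝ} (hr : r < 3)
    (h0 : ∀ x ∈ ball (0 : E) 3, ∀ y ∈ ball (0 : E) 3, r < ‖x‖ ∨ r < ‖y‖ → k (x, y) = 0) :
    G.SK (G.extQ i k) := by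
  refine SK_of_loc fun p q => ?_
  by_cases hpq : p ∈ (G.κ i).source ∧ q ∈ (G.κ i).source
  · have hb := (isOpen_ball.prod isOpen_ball).mem_nhds
      (show (G.κ i p, G.κ i q) ∈ ball (0 : E) 3 ×ˢ ball (0 : E) 3 from
        ⟨map_mem hpq.1, map_mem hpq.2⟩)
    refine ⟨i, i, hpq.1, hpq.2, (h.contDiffAt hb).congr_of_eventuallyEq ?_⟩
    filter_upwards [hb] with z hz using locQ_extQ hz.1 hz.2 k
  · refine ⟨_, _, G.ch_source p, G.ch_source q,
      (contDiffAt_const (c := 0)).congr_of_eventuallyEq ?_⟩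
    have hz : ∀ A B : End, pbQ 0 A B = 0 := fun A B => (pbQL A B).map_zero
    rcases not_and_or.1 hpq with hp | hq
    · filter_upwards [(continuous_fst.continuousAt (x := (G.κ (G.ch p) p, G.κ (G.ch q) q))).eventually
        (Chart2.eventually_not_K hr hp (G.ch_source p))] with z hx
      simp only [locQ, extQ]
      split_ifs with hs
      · rw [h0 _ (hx hs.1).1 _ (map_mem hs.2) (Or.inl (hx hs.1).2), hz, hz]
      · exact hz _ _
    · filter_upwards [(continuous_snd.continuousAt (x := (G.κ (G.ch p) p, G.κ (G.ch q) q))).eventually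
        (Chart2.eventually_not_K hr hq (G.ch_source q))] with z hx
      simp only [locQ, extQ]
      split_ifs with hs
      · rw [h0 _ (map_mem hs.1) _ (hx hs.2).1 (Or.inr (hx hs.2).2), hz, hz]
      · exact hz _ _
theorem alt_ext2 (i : Fin G.n) {η : E → Bil} (h : ∀ x ∈ ball (0 : E) 3, Alt (η x)) (p : M) :
    Alt (G.ext2 i η p) := by
  unfold ext2
  split_ifs with hp
  · exact (h _ (map_mem hp)).pb _
  · exact Alt.zero
theorem anti_ext2 (i : Fin G.n) {η : E → Bil}
    (h : ∀ x ∈ ball (0 : E) 3, Anti ((G.fr i).J x) (η x)) (p : M) : Anti J0 (G.ext2 i η p) := by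
  unfold ext2
  split_ifs with hp
  · intro u v
    rw [pb_apply, pb_apply, Ti_J hp, Ti_J hp, h _ (map_mem hp)]
  · exact Anti.zero _
theorem am_ext2 (i : Fin G.n) (η : E → Bil) (p : M) :
    am (G.ext2 i η p) = G.ext2 i (fun x => amJ ((G.fr i).J x) (η x)) p := by
  unfold ext2
  split_ifs with hp
  · ext u v
    simp only [am, amJ_apply, pb_apply, Ti_J hp]
  · exact (amL J0).map_zero
theorem ext1_loc1 {i : Fin G.n} {γ : M → Cov} (h : ∀ p, p ∉ (G.κ i).source → γ p = 0) :
    G.ext1 i (G.loc1 i γ) = γ := by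
  funext p
  unfold ext1
  split_ifs with hp
  · exact loc1_map hp γ
  · exact (h p hp).symm
theorem ext2_loc2 {i : Fin G.n} {η : M → Bil} (h : ∀ p, p ∉ (G.κ i).source → η p = 0) :
    G.ext2 i (G.loc2 i η) = η := by
  funext p
  unfold ext2
  split_ifs with hp
  · exact loc2_map hp η
  · exact (h p hp).symm

/-! ### the partition of unity -/

theorem Chart2.rho0_S0 (G : Geo M) (i : Fin G.n) : G.S0 (G.rho0 i) := by
  refine S0_ext0 i (expNegInvGlue.contDiff.comp
    (contDiff_const.sub (contDiff_norm_sq ℝ))).contDiffOn (r := 1) (by norm_num) fun x _ hx => ?_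
  exact expNegInvGlue.zero_of_nonpos (by nlinarith)
theorem Chart2.rho0_nonneg (G : Geo M) (i : Fin G.n) (p : M) : 0 ≤ G.rho0 i p := by
  unfold rho0 ext0
  split_ifs
  · exact expNegInvGlue.nonneg _
  · exact le_rfl
theorem Chart2.sum_pos (G : Geo M) (p : M) : 0 < ∑ j, G.rho0 j p := by
  refine Finset.sum_pos' (fun j _ => Chart2.rho0_nonneg G j p) ⟨G.ch p, Finset.mem_univ _, ?_⟩
  have h1 := G.ch_lt p
  have h2 := norm_nonneg (G.κ (G.ch p) p)
  unfold rho0 ext0
  rw [if_pos (G.ch_source p)]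
  exact expNegInvGlue.pos_of_pos (by nlinarith)
theorem rho_S0 (G : Geo M) (i : Fin G.n) : G.S0 (G.rho i) := fun j =>
  (Chart2.rho0_S0 G i j).div (ContDiffOn.sum fun l _ => Chart2.rho0_S0 G l j)
    fun x _ => (Chart2.sum_pos G _).ne'
theorem rho_nonneg (G : Geo M) (i : Fin G.n) (p : M) : 0 ≤ G.rho i p := 
  div_nonneg (Chart2.rho0_nonneg G i p) (Chart2.sum_pos G p).le
theorem rho_le_one (G : Geo M) (i : Fin G.n) (p : M) : G.rho i p ≤ 1 := 
  div_le_one_of_le₀ (Finset.single_le_sum (f := fun j => G.rho0 j p)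
    (fun j _ => Chart2.rho0_nonneg G j p) (Finset.mem_univ i)) (Chart2.sum_pos G p).le
theorem sum_rho (G : Geo M) (p : M) : ∑ i, G.rho i p = 1 := by
  simp only [rho]
  rw [← Finset.sum_div, div_self (Chart2.sum_pos G p).ne']
theorem rho_ne_zero {i : Fin G.n} {p : M} (h : G.rho i p ≠ 0) :
    p ∈ (G.κ i).source ∧ ‖G.κ i p‖ < 1 := by
  have h1 : G.rho0 i p ≠ 0 := fun e => h (by rw [rho, e, zero_div])
  unfold rho0 ext0 at h1
  split_ifs at h1 with hp
  · refine ⟨hp, not_le.1 fun hc => h1 (expNegInvGlue.zero_of_nonpos (by nlinarith))⟩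
  · exact absurd rfl h1
theorem rho_eq_zero {i : Fin G.n} {p : M} (h : p ∉ G.K i 1) : G.rho i p = 0 := by
  by_contra hc
  exact h ⟨(rho_ne_zero hc).1, (rho_ne_zero hc).2.le⟩
theorem loc0_rho_zero (i : Fin G.n) {x : E} (hx : x ∈ ball (0 : E) 3) (h : 1 ≤ ‖x‖) :
    G.loc0 i (G.rho i) x = 0 := by
  by_contra hc
  have := (rho_ne_zero hc).2
  rw [map_symm hx] at this
  exact absurd h (not_le.2 this)
theorem fderiv_loc0_rho_zero (i : Fin G.n) {x : E} (hx : x ∈ ball (0 : E) 3) (h : 1 ≤ ‖x‖) :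
    fderiv ℝ (G.loc0 i (G.rho i)) x = 0 := by
  refine IsLocalMin.fderiv_eq_zero (Eventually.of_forall fun y => ?_)
  rw [loc0_rho_zero i hx h]
  exact G.rho_nonneg i _

end Geo

end Crest.Agent.R240

end
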