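import Crest.Agent.R240.Chart2
import Crest.Agent.R240.Pull

/-!
# Row 240: the exterior derivative on the model
-/

set_option autoImplicit false
set_option linter.unusedSectionVars false
set_option linter.unusedVariables false

open MeasureTheory Metric Set Filter Topology
open scoped ContDiff ENNReal

noncomputable section

namespace Crest.Agent.R240

namespace Geo

variable {M : Type*} [MetricSpace M] [CompactSpace M] [MeasurableSpace M] [BorelSpace M]
  {G : Geo M}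

variable {F : Type*} [NormedAddCommGroup F] [NormedSpace ℝ F]

theorem D0_eq {φ : M → F} {i : Fin G.n} {p : M} (hp : p ∈ (G.κ i).source)
    (h : DifferentiableAt ℝ (G.loc0 i φ) (G.κ i p)) :
    G.D0 φ p = (fderiv ℝ (G.loc0 i φ) (G.κ i p)).comp (G.Ti i p) := by
  have hj := G.ch_source p
  have htr := (tr_contDiffAt hj hp).differentiableAt (by simp)
  have hm : G.tr (G.ch p) i (G.κ (G.ch p) p) = G.κ i p := tr_map hj
  have h' : DifferentiableAt ℝ (G.loc0 i φ) (G.tr (G.ch p) i (G.κ (G.ch p) p)) := by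
    rw [hm]; exact h
  unfold D0
  rw [(loc0_tr hj hp φ).fderiv_eq]
  have hc := fderiv_comp (G.κ (G.ch p) p) h' htr
  rw [show (fun x => G.loc0 i φ (G.tr (G.ch p) i x)) = G.loc0 i φ ∘ G.tr (G.ch p) i from rfl,
    hc, hm]
  ext v
  simp only [ContinuousLinearMap.comp_apply]
  rw [Ti_tr hj hp]

theorem D1_eq {γ : M → Cov} {i : Fin G.n} {p : M} (hp : p ∈ (G.κ i).source)
    (h : DifferentiableAt ℝ (G.loc1 i γ) (G.κ i p)) :
    G.D1 γ p = pb (d1 (G.loc1 i γ) (G.κ i p)) (G.Ti i p) := by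
  have hj := G.ch_source p
  have htr := tr_contDiffAt hj hp
  have hm : G.tr (G.ch p) i (G.κ (G.ch p) p) = G.κ i p := tr_map hj
  have h' : DifferentiableAt ℝ (G.loc1 i γ) (G.tr (G.ch p) i (G.κ (G.ch p) p)) := by
    rw [hm]; exact h
  unfold D1
  rw [d1_congr (loc1_tr hj hp γ), d1_pull htr h', hm]
  ext u v
  simp only [pb_apply]
  rw [Ti_tr hj hp, Ti_tr hj hp]

theorem D2_eq {η : M → Bil} {i : Fin G.n} {p : M} (hp : p ∈ (G.κ i).source)
    (h : DifferentiableAt ℝ (G.loc2 i η) (G.κ i p)) (ha : Alt (η p)) (u v w : E) :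
    G.D2 η p u v w
      = d2 (G.loc2 i η) (G.κ i p) (G.Ti i p u) (G.Ti i p v) (G.Ti i p w) := by
  have hj := G.ch_source p
  have htr := tr_contDiffAt hj hp
  have hm : G.tr (G.ch p) i (G.κ (G.ch p) p) = G.κ i p := tr_map hj
  have h' : DifferentiableAt ℝ (G.loc2 i η) (G.tr (G.ch p) i (G.κ (G.ch p) p)) := by
    rw [hm]; exact h
  have ha' : Alt (G.loc2 i η (G.tr (G.ch p) i (G.κ (G.ch p) p))) := by
    rw [hm]
    unfold loc2
    rw [symm_map hp]
    exact ha.pb _
  unfold D2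
  rw [d2_congr (loc2_tr hj hp η), d2_pull htr h' ha', hm, Ti_tr hj hp, Ti_tr hj hp, Ti_tr hj hp]

/-- the inverse chart tends to `p` at `κ i p` -/
theorem tendsto_symm_cD {i : Fin G.n} {p : M} (hp : p ∈ (G.κ i).source) :
    Tendsto (G.κ i).symm (𝓝 (G.κ i p)) (𝓝 p) := by
  have h := (G.κ i).continuousAt_symm ((G.κ i).map_source hp)
  rw [ContinuousAt, (G.κ i).left_inv hp] at h
  exact h

theorem loc0_congr_cD {φ φ' : M → F} {i : Fin G.n} {p : M} (hp : p ∈ (G.κ i).source)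
    (h : φ =ᶠ[𝓝 p] φ') : G.loc0 i φ =ᶠ[𝓝 (G.κ i p)] G.loc0 i φ' := by
  filter_upwards [(tendsto_symm_cD hp).eventually h] with x hx
  simp only [loc0, hx]

theorem loc1_congr_cD {γ γ' : M → Cov} {i : Fin G.n} {p : M} (hp : p ∈ (G.κ i).source)
    (h : γ =ᶠ[𝓝 p] γ') : G.loc1 i γ =ᶠ[𝓝 (G.κ i p)] G.loc1 i γ' := by
  filter_upwards [(tendsto_symm_cD hp).eventually h] with x hx
  simp only [loc1, hx]

theorem loc2_congr_cD {η η' : M → Bil} {i : Fin G.n} {p : M} (hp : p ∈ (G.κ i).source)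
    (h : η =ᶠ[𝓝 p] η') : G.loc2 i η =ᶠ[𝓝 (G.κ i p)] G.loc2 i η' := by
  filter_upwards [(tendsto_symm_cD hp).eventually h] with x hx
  simp only [loc2, hx]

theorem D0_congr {φ φ' : M → F} {p : M} (h : φ =ᶠ[𝓝 p] φ') : G.D0 φ p = G.D0 φ' p := by
  unfold D0
  rw [(loc0_congr_cD (G.ch_source p) h).fderiv_eq]
theorem D1_congr {γ γ' : M → Cov} {p : M} (h : γ =ᶠ[𝓝 p] γ') : G.D1 γ p = G.D1 γ' p := by
  unfold D1
  rw [d1_congr (loc1_congr_cD (G.ch_source p) h)]
theorem D2_congr {η η' : M → Bil} {p : M} (h : η =ᶠ[𝓝 p] η') (u v w : E) :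
    G.D2 η p u v w = G.D2 η' p u v w := by
  unfold D2
  rw [d2_congr (loc2_congr_cD (G.ch_source p) h)]
theorem D0_const (c : F) (p : M) : G.D0 (fun _ => c) p = 0 := by
  unfold D0
  have : G.loc0 (G.ch p) (fun _ => c) = fun _ => c := rfl
  rw [this]
  simp
theorem loc1_zero_cD (i : Fin G.n) : G.loc1 i 0 = fun _ => 0 := by
  funext x
  simp [loc1]
theorem loc2_zero_cD (i : Fin G.n) : G.loc2 i 0 = fun _ => 0 := by
  funext x
  simp [loc2]
theorem D1_zero (p : M) : G.D1 0 p = 0 := by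
  unfold D1
  rw [loc1_zero_cD]
  ext u v
  simp [d1_apply]
theorem D2_zero (p : M) (u v w : E) : G.D2 0 p u v w = 0 := by
  unfold D2
  rw [loc2_zero_cD]
  simp [d2]

theorem loc1_D0 {φ : M → ℝ} (h : G.S0 φ) {i : Fin G.n} {x : E} (hx : x ∈ ball (0 : E) 3) :
    G.loc1 i (G.D0 φ) x = fderiv ℝ (G.loc0 i φ) x := by
  have hp := symm_mem (G := G) (i := i) hx
  have hm := map_symm (G := G) (i := i) hx
  have hd : DifferentiableAt ℝ (G.loc0 i φ) (G.κ i ((G.κ i).symm x)) := by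
    rw [hm]; exact (h.at hx).differentiableAt (by simp)
  unfold loc1
  rw [D0_eq hp hd, hm]
  ext v
  simp only [ContinuousLinearMap.comp_apply, G.Ti_T]
theorem loc2_D1 {γ : M → Cov} (h : G.S1 γ) {i : Fin G.n} {x : E} (hx : x ∈ ball (0 : E) 3) :
    G.loc2 i (G.D1 γ) x = d1 (G.loc1 i γ) x := by
  have hp := symm_mem (G := G) (i := i) hx
  have hm := map_symm (G := G) (i := i) hx
  have hd : DifferentiableAt ℝ (G.loc1 i γ) (G.κ i ((G.κ i).symm x)) := by
    rw [hm]; exact (h.at hx).differentiableAt (by simp)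
  unfold loc2
  rw [D1_eq hp hd, hm]
  ext u v
  simp only [pb_apply, G.Ti_T]
theorem S0.D0 {φ : M → ℝ} (h : G.S0 φ) : G.S1 (G.D0 φ) := by
  intro i
  have h1 : ContDiffOn ℝ ∞ (fderiv ℝ (G.loc0 i φ)) (ball 0 3) := fun x hx =>
    ((h.at hx).fderiv_right (m := ∞) (by simp)).contDiffWithinAt
  exact h1.congr fun x hx => loc1_D0 h hx
theorem D0_sum {ι : Type*} {s : Finset ι} {φ : ι → M → F} (h : ∀ j ∈ s, G.S0 (φ j)) (p : M) :
    G.D0 (fun q => ∑ j ∈ s, φ j q) p = ∑ j ∈ s, G.D0 (φ j) p := by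
  have hx := map_mem (G.ch_source p)
  unfold D0
  have : G.loc0 (G.ch p) (fun q => ∑ j ∈ s, φ j q)
      = fun x => ∑ j ∈ s, G.loc0 (G.ch p) (φ j) x := rfl
  rw [this, fderiv_fun_sum fun j hj => ((h j hj).at hx).differentiableAt (by simp),
    ContinuousLinearMap.finsetSum_comp]
theorem sum_D0_rho (G : Geo M) (p : M) : ∑ i, G.D0 (G.rho i) p = 0 := by
  rw [← D0_sum fun j _ => G.rho_S0 j]
  simp only [sum_rho]
  exact D0_const _ _
theorem alt_D1 (γ : M → Cov) (p : M) : Alt (G.D1 γ p) := (alt_d1 _ _).pb _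
theorem S1.Z {γ : M → Cov} (h : G.S1 γ) : G.Z (G.D1 γ) := by
  refine ⟨fun i => ?_, alt_D1 γ, fun p u v w => ?_⟩
  · have h1 : ContDiffOn ℝ ∞ (d1 (G.loc1 i γ)) (ball 0 3) := fun x hx =>
      (ContDiffAt.d1 (h.at hx)).contDiffWithinAt
    exact h1.congr fun x hx => loc2_D1 h hx
  · have hx := map_mem (G.ch_source p)
    unfold D2
    have he : G.loc2 (G.ch p) (G.D1 γ) =ᶠ[𝓝 (G.κ (G.ch p) p)] d1 (G.loc1 (G.ch p) γ) := by
      filter_upwards [isOpen_ball.mem_nhds hx] with y hy using loc2_D1 h hy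
    rw [d2_congr he, d2_d1 (h.at hx)]
theorem loc1_add_cD (i : Fin G.n) (γ γ' : M → Cov) :
    G.loc1 i (γ + γ') = fun x => G.loc1 i γ x + G.loc1 i γ' x := by
  funext x
  simp [loc1, ContinuousLinearMap.add_comp]
theorem loc1_smul_cD (i : Fin G.n) (c : ℝ) (γ : M → Cov) :
    G.loc1 i (c • γ) = fun x => c • G.loc1 i γ x := by
  funext x
  simp [loc1, ContinuousLinearMap.smul_comp]
theorem loc1_fsmul_cD (i : Fin G.n) (φ : M → ℝ) (γ : M → Cov) :
    G.loc1 i (fun q => φ q • γ q) = fun x => G.loc0 i φ x • G.loc1 i γ x := by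
  funext x
  simp [loc1, loc0, ContinuousLinearMap.smul_comp]
theorem loc1_sum_cD {ι : Type*} (s : Finset ι) (i : Fin G.n) (γ : ι → M → Cov) :
    G.loc1 i (∑ j ∈ s, γ j) = fun x => ∑ j ∈ s, G.loc1 i (γ j) x := by
  funext x
  simp [loc1, ContinuousLinearMap.finsetSum_comp]
theorem loc2_sum_cD {ι : Type*} (s : Finset ι) (i : Fin G.n) (η : ι → M → Bil) :
    G.loc2 i (∑ j ∈ s, η j) = fun x => ∑ j ∈ s, G.loc2 i (η j) x := by
  funext x
  simp only [loc2, Finset.sum_apply]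
  exact map_sum (pbL _) _ _
theorem D1_add {γ γ' : M → Cov} (h : G.S1 γ) (h' : G.S1 γ') :
    G.D1 (γ + γ') = G.D1 γ + G.D1 γ' := by
  funext p
  have hx := map_mem (G.ch_source p)
  simp only [Pi.add_apply, D1]
  rw [loc1_add_cD, d1_add ((h.at hx).differentiableAt (by simp))
    ((h'.at hx).differentiableAt (by simp)), pb_add]
theorem D1_smul {γ : M → Cov} (h : G.S1 γ) (c : ℝ) : G.D1 (c • γ) = c • G.D1 γ := by
  funext p
  have hx := map_mem (G.ch_source p)
  simp only [Pi.smul_apply, D1]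
  rw [loc1_smul_cD, d1_const_smul ((h.at hx).differentiableAt (by simp)), pb_smul]
theorem D1_sum {ι : Type*} {s : Finset ι} {γ : ι → M → Cov} (h : ∀ j ∈ s, G.S1 (γ j)) :
    G.D1 (∑ j ∈ s, γ j) = ∑ j ∈ s, G.D1 (γ j) := by
  funext p
  have hx := map_mem (G.ch_source p)
  simp only [Finset.sum_apply, D1]
  rw [loc1_sum_cD, d1_sum fun j hj => ((h j hj).at hx).differentiableAt (by simp)]
  exact map_sum (pbL _) _ _
theorem D1_fsmul {φ : M → ℝ} {γ : M → Cov} (hφ : G.S0 φ) (h : G.S1 γ) (p : M) :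
    G.D1 (fun q => φ q • γ q) p = wedge (G.D0 φ p) (γ p) + φ p • G.D1 γ p := by
  have hp := G.ch_source p
  have hx := map_mem hp
  simp only [D1, D0]
  rw [loc1_fsmul_cD, d1_smul ((hφ.at hx).differentiableAt (by simp))
    ((h.at hx).differentiableAt (by simp)), pb_add, pb_smul, loc0_map hp]
  congr 1
  ext u v
  rw [← loc1_map hp γ]
  simp only [pb_apply, wedge_apply, ContinuousLinearMap.comp_apply]
theorem D1_ext1 (i : Fin G.n) {γ : E → Cov} (h : ContDiffOn ℝ ∞ γ (ball 0 3)) {r : ℝ} (hr : r < 3)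
    (h0 : ∀ x ∈ ball (0 : E) 3, r < ‖x‖ → γ x = 0) :
    G.D1 (G.ext1 i γ) = G.ext2 i (d1 γ) := by
  funext p
  by_cases hp : p ∈ (G.κ i).source
  · have hx := map_mem hp
    have he : G.loc1 i (G.ext1 i γ) =ᶠ[𝓝 (G.κ i p)] γ := by
      filter_upwards [isOpen_ball.mem_nhds hx] with y hy using loc1_ext1 hy γ
    have hd : DifferentiableAt ℝ γ (G.κ i p) :=
      (h.contDiffAt (isOpen_ball.mem_nhds hx)).differentiableAt (by simp)
    rw [D1_eq hp (he.differentiableAt_iff.2 hd), d1_congr he]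
    simp only [ext2, if_pos hp]
  · have hK : IsClosed (G.K i r) := (isCompact_K i hr).isClosed
    have hpK : p ∈ (G.K i r)ᶜ := fun hh => hp hh.1
    have he : G.ext1 i γ =ᶠ[𝓝 p] 0 := by
      filter_upwards [hK.isOpen_compl.mem_nhds hpK] with q hq
      by_cases hq' : q ∈ (G.κ i).source
      · have : r < ‖G.κ i q‖ := by
          by_contra hc
          exact hq ⟨hq', not_lt.1 hc⟩
        simp [ext1, h0 _ (map_mem hq') this]
      · simp [ext1, hq']
    rw [D1_congr he, D1_zero]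
    simp only [ext2, if_neg hp]
theorem D2_add {η ζ : M → Bil} (h : G.S2 η) (h' : G.S2 ζ) (p : M) (u v w : E) :
    G.D2 (η + ζ) p u v w = G.D2 η p u v w + G.D2 ζ p u v w := by
  have hx := map_mem (G.ch_source p)
  unfold D2
  rw [loc2_add, d2_add ((h.at hx).differentiableAt (by simp))
    ((h'.at hx).differentiableAt (by simp))]
theorem D2_smul {η : M → Bil} (h : G.S2 η) (c : ℝ) (p : M) (u v w : E) :
    G.D2 (c • η) p u v w = c * G.D2 η p u v w := by
  have hx := map_mem (G.ch_source p)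
  unfold D2
  rw [loc2_smul, d2_const_smul ((h.at hx).differentiableAt (by simp))]
theorem D2_sum {ι : Type*} {s : Finset ι} {η : ι → M → Bil} (h : ∀ j ∈ s, G.S2 (η j)) (p : M)
    (u v w : E) : G.D2 (∑ j ∈ s, η j) p u v w = ∑ j ∈ s, G.D2 (η j) p u v w := by
  have hx := map_mem (G.ch_source p)
  unfold D2
  rw [loc2_sum_cD, d2_sum fun j hj => ((h j hj).at hx).differentiableAt (by simp)]

theorem Z.zero : G.Z (0 : M → Bil) := ⟨S2.zero, fun _ => Alt.zero, D2_zero⟩
theorem Z.add {η ζ : M → Bil} (h : G.Z η) (h' : G.Z ζ) : G.Z (η + ζ) :=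
  ⟨h.smooth.add h'.smooth, fun p => (h.alt p).add (h'.alt p), fun p u v w => by
    rw [D2_add h.smooth h'.smooth, h.closed, h'.closed, add_zero]⟩
theorem Z.smul {η : M → Bil} (h : G.Z η) (c : ℝ) : G.Z (c • η) :=
  ⟨h.smooth.smul c, fun p => (h.alt p).smul c, fun p u v w => by
    rw [D2_smul h.smooth, h.closed, mul_zero]⟩
theorem Z.sub {η ζ : M → Bil} (h : G.Z η) (h' : G.Z ζ) : G.Z (η - ζ) := by
  have := h.add (h'.smul (-1))
  rwa [neg_one_smul, ← sub_eq_add_neg] at this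
theorem Z.d2_loc {η : M → Bil} (h : G.Z η) (i : Fin G.n) {x : E} (hx : x ∈ ball (0 : E) 3)
    (u v w : E) : d2 (G.loc2 i η) x u v w = 0 := by
  have hp := symm_mem (G := G) (i := i) hx
  have hm := map_symm (G := G) (i := i) hx
  have hd : DifferentiableAt ℝ (G.loc2 i η) (G.κ i ((G.κ i).symm x)) := by
    rw [hm]; exact (h.smooth.at hx).differentiableAt (by simp)
  have := D2_eq hp hd (h.alt _) (G.T i ((G.κ i).symm x) u) (G.T i ((G.κ i).symm x) v)
    (G.T i ((G.κ i).symm x) w)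
  rw [h.closed, hm, G.Ti_T, G.Ti_T, G.Ti_T] at this
  exact this.symm
theorem Z_of_loc {η : M → Bil} (h : G.S2 η) (ha : ∀ p, Alt (η p))
    (hc : ∀ i, ∀ x ∈ ball (0 : E) 1, ∀ u v w, d2 (G.loc2 i η) x u v w = 0) : G.Z η :=
  ⟨h, ha, fun p u v w => hc _ _ (mem_ball_zero_iff.2 (G.ch_lt p)) _ _ _⟩

/-- smooth closed two-forms as a vector space -/
def ZS (G : Geo M) : Submodule ℝ (M → Bil) where
  carrier := {η | G.Z η}
  add_mem' := Z.add
  zero_mem' := Z.zero
  smul_mem' := fun c _ h => Z.smul h c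

/-- every smooth one-form is a sum of forms supported in the unit balls of the charts -/
theorem S1.decomp {γ : M → Cov} (h : G.S1 γ) : ∃ γ' : Fin G.n → E → Cov,
    (∀ i, ContDiff ℝ ∞ (γ' i) ∧ tsupport (γ' i) ⊆ closedBall 0 1) ∧ γ = ∑ i, G.ext1 i (γ' i) := by
  have hz : ∀ i, ∀ x ∈ ball (0 : E) 3, x ∉ closedBall (0 : E) 1 →
      G.loc1 i (fun q => G.rho i q • γ q) x = 0 := by
    intro i x hx hx1
    have h1 : 1 ≤ ‖x‖ := by
      rw [mem_closedBall_zero_iff, not_le] at hx1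
      exact hx1.le
    rw [loc1_fsmul_cD]
    simp only [loc0_rho_zero i hx h1, zero_smul]
  refine ⟨fun i => (ball (0 : E) 3).indicator (G.loc1 i fun q => G.rho i q • γ q),
    fun i => ⟨?_, ?_⟩, ?_⟩
  · exact contDiff_indicator_ball isOpen_ball isClosed_closedBall
      (closedBall_subset_ball (by norm_num)) ((S1.fsmul (G.rho_S0 i) h) i) (hz i)
  · refine closure_minimal (fun x hx => ?_) isClosed_closedBall
    by_contra hx1
    apply hx
    beta_reduce
    by_cases hx3 : x ∈ ball (0 : E) 3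
    · rw [indicator_of_mem hx3, hz i x hx3 hx1]
    · rw [indicator_of_notMem hx3]
  · have he : ∀ i, G.ext1 i ((ball (0 : E) 3).indicator (G.loc1 i fun q => G.rho i q • γ q))
        = fun q => G.rho i q • γ q := by
      intro i
      have h1 : G.ext1 i (G.loc1 i fun q => G.rho i q • γ q) = fun q => G.rho i q • γ q :=
        ext1_loc1 fun p hp => by
          have : G.rho i p = 0 := by
            by_contra hne
            exact hp (rho_ne_zero hne).1
          rw [this, zero_smul]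
      rw [← h1]
      funext p
      by_cases hp : p ∈ (G.κ i).source
      · simp only [ext1, if_pos hp, h1]
        rw [indicator_of_mem (map_mem hp)]
      · simp only [ext1, if_neg hp]
    funext p
    simp only [he, Finset.sum_apply]
    rw [← Finset.sum_smul, sum_rho, one_smul]

end Geo

end Crest.Agent.R240

end
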