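import Crest.Agent.R240.Frames

/-!
# Row 240: the finite atlas with unitary frames
-/

set_option autoImplicit false
set_option linter.unusedSectionVars false
set_option linter.unusedVariables false

open MeasureTheory Metric Set Filter Topology
open scoped ContDiff ENNReal

noncomputable section

namespace Crest.Agent.R240

open scoped Manifold
open Crest.GeometryTopology.TwoForm

variable {M : Type*} [TopologicalSpace M] [ChartedSpace E M] [IsManifold (𝓡 4) ∞ M]

/-- rescaled charts: `x ↦ L (c x - c p)` restricted to the preimage of `ball 0 R` -/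
theorem exists_chart {c : OpenPartialHomeomorph M E} (hc : c ∈ IsManifold.maximalAtlas (𝓡 4) ∞ M)
    (L : E ≃L[ℝ] E) (x₀ : E) {R : ℝ} (hR : ∀ y ∈ ball (0 : E) R, x₀ + L.symm y ∈ c.target) :
    ∃ κ ∈ IsManifold.maximalAtlas (𝓡 4) ∞ M, κ.target = ball 0 R ∧ κ.source ⊆ c.source ∧
      (∀ q, κ q = L (c q - x₀)) ∧ (∀ y, κ.symm y = c.symm (x₀ + L.symm y)) ∧
      ∀ q ∈ c.source, L (c q - x₀) ∈ ball (0 : E) R → q ∈ κ.source := by
  have hA : ContDiff ℝ ∞ fun x : E => L (x - x₀) := L.contDiff.comp (contDiff_id.sub contDiff_const)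
  have hB : ContDiff ℝ ∞ fun y : E => x₀ + L.symm y := contDiff_const.add L.symm.contDiff
  let κ : OpenPartialHomeomorph M E :=
    { toFun := fun q => L (c q - x₀)
      invFun := fun y => c.symm (x₀ + L.symm y)
      source := c.source ∩ c ⁻¹' ((fun x => L (x - x₀)) ⁻¹' ball 0 R)
      target := ball 0 R
      map_source' := fun q hq => hq.2
      map_target' := fun y hy => ⟨c.map_target (hR y hy), by
        simp only [mem_preimage, c.right_inv (hR y hy), add_sub_cancel_left, L.apply_symm_apply]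
        exact hy⟩
      left_inv' := fun q hq => by
        simp only [L.symm_apply_apply, add_sub_cancel, c.left_inv hq.1]
      right_inv' := fun y hy => by
        simp only [c.right_inv (hR y hy), add_sub_cancel_left, L.apply_symm_apply]
      open_source := c.continuousOn.isOpen_inter_preimage c.open_source
        (isOpen_ball.preimage hA.continuous)
      open_target := isOpen_ball
      continuousOn_toFun := hA.continuous.comp_continuousOn (c.continuousOn.mono inter_subset_left)
      continuousOn_invFun := c.continuousOn_symm.comp hB.continuous.continuousOn hR }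
  refine ⟨κ, ?_, rfl, inter_subset_left, fun _ => rfl, fun _ => rfl, fun q hq h => ⟨hq, h⟩⟩
  refine κ.mem_maximalAtlas_of_contMDiffOn ?_ ?_
  · exact hA.contMDiff.comp_contMDiffOn ((contMDiffOn_of_mem_maximalAtlas hc).mono inter_subset_left)
  · exact (contMDiffOn_symm_of_mem_maximalAtlas hc).comp hB.contMDiff.contMDiffOn hR

/-- the symmetrised metric -/
def gsym (β : Bil) (J : End) : Bil := (1 / 2 : ℝ) • ((β.flip.comp J).flip + β.flip.comp J)

theorem gsym_apply (β : Bil) (J : End) (u v : E) :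
    gsym β J u v = (1 / 2 : ℝ) * (β u (J v) + β v (J u)) := by
  simp [gsym, mul_add]

theorem Charts_det_comp (A B : End) : (A.comp B).det = A.det * B.det :=
  LinearMap.det_comp (A : E →ₗ[ℝ] E) (B : E →ₗ[ℝ] E)

theorem exists_chart_frame
    {α : Π x : M, TangentSpace (𝓡 4) x →L[ℝ] TangentSpace (𝓡 4) x →L[ℝ] ℝ}
    {J : Π x : M, TangentSpace (𝓡 4) x →L[ℝ] TangentSpace (𝓡 4) x}
    (hJ : IsAlmostComplexStructure (𝓡 4) M J) (hα : IsSmoothTwoForm (𝓡 4) M α)
    (ht : Tames (𝓡 4) M α J) (p : M) :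
    ∃ κ ∈ IsManifold.maximalAtlas (𝓡 4) ∞ M, ∃ Fr : Frame, κ.target = ball 0 3 ∧ p ∈ κ.source ∧
      κ p = 0 ∧ ∀ x ∈ ball (0 : E) 3, Fr.J x = jrep κ J x ∧
        ∀ u v, inner ℝ (Fr.A x u) (Fr.A x v) = gsym (lrep κ α x) (jrep κ J x) u v := by
  have hc : chartAt E p ∈ IsManifold.maximalAtlas (𝓡 4) ∞ M := IsManifold.chart_mem_maximalAtlas p
  have hp : p ∈ (chartAt E p).source := mem_chart_source E p
  generalize chartAt E p = c at hc hp
  have hl := lrep_contDiffOn hc hα
  have hj := jrep_contDiffOn hc hJ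
  obtain ⟨r, B, B', hr, hrO, hB, hB', H⟩ := exists_local_frame (J := jrep c J)
    (g := fun x => gsym (lrep c α x) (jrep c J x)) (x₀ := c p) c.open_target (c.map_source hp) hj
    (fun x hx => by
      have h1 := hl.contDiffAt (c.open_target.mem_nhds hx)
      have h2 := hj.contDiffAt (c.open_target.mem_nhds hx)
      refine (contDiffAt_bil fun a b => ?_).contDiffWithinAt
      simp only [gsym_apply]
      exact contDiffAt_const.mul
        (((h1.clm_apply contDiffAt_const).clm_apply (h2.clm_apply contDiffAt_const)).add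
          ((h1.clm_apply contDiffAt_const).clm_apply (h2.clm_apply contDiffAt_const))))
    (fun x hx v => jrep_sq hc hJ hx v)
    (fun x _ u v => by simp only [gsym_apply]; ring)
    (fun x hx v hv => by
      have := lrep_tames hc ht hx hv
      simp only [gsym_apply]; linarith)
    (fun x hx u v => by
      simp only [gsym_apply, jrep_sq hc hJ hx, map_neg]
      rw [lrep_alt hα x (jrep c J x u) v, lrep_alt hα x (jrep c J x v) u]
      ring)
  obtain ⟨b1, b2, -, -, -⟩ := H (c p) (mem_ball_self hr)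
  obtain ⟨t, ht0, htr⟩ : ∃ t : ℝ, 0 < t ∧ t⁻¹ * (‖B' (c p)‖ * 4) < r := by
    refine ⟨(‖B' (c p)‖ * 4 + 1) / r, by positivity, ?_⟩
    rw [inv_div, div_mul_eq_mul_div, div_lt_iff₀ (by positivity)]
    nlinarith
  let L : E ≃L[ℝ] E := ContinuousLinearEquiv.equivOfInverse (t • B (c p)) (t⁻¹ • B' (c p))
    (fun v => by simp [b2, smul_smul, ht0.ne']) (fun v => by simp [b1, smul_smul, ht0.ne'])
  have hLs : ∀ y, L.symm y = t⁻¹ • B' (c p) y := fun _ => rfl
  have hball : ∀ y ∈ ball (0 : E) 4, c p + L.symm y ∈ ball (c p) r := by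
    intro y hy
    rw [mem_ball_zero_iff] at hy
    rw [mem_ball_iff_norm, add_sub_cancel_left, hLs, norm_smul, Real.norm_eq_abs,
      abs_of_pos (inv_pos.2 ht0)]
    refine lt_of_le_of_lt (mul_le_mul_of_nonneg_left ?_ (inv_pos.2 ht0).le) htr
    exact le_trans ((B' (c p)).le_opNorm y) (mul_le_mul_of_nonneg_left hy.le (norm_nonneg _))
  have h34 : ball (0 : E) 3 ⊆ ball 0 4 := ball_subset_ball (by norm_num)
  have hdet : 0 < (B (c p)).det * (L.symm : End).det := by
    have h1 : ((B (c p)).comp (L.symm : End)) = t⁻¹ • ContinuousLinearMap.id ℝ E := by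
      ext v : 1
      simp [hLs, b1]
    have h2 := congrArg ContinuousLinearMap.det h1
    rw [Charts_det_comp] at h2
    rw [h2]
    simp only [ContinuousLinearMap.det, ContinuousLinearMap.toLinearMap_smul, LinearMap.det_smul,
      ContinuousLinearMap.coe_id, LinearMap.det_id, mul_one]
    positivity
  have hA : ContDiff ℝ ∞ fun y : E => c p + L.symm y := contDiff_const.add L.symm.contDiff
  obtain ⟨Fr, hFr⟩ := exists_frame (B := fun y => (B (c p + L.symm y)).comp (L.symm : End))
    (B' := fun y => (L : End).comp (B' (c p + L.symm y)))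
    ((hB.comp hA.contDiffOn hball).clm_comp contDiffOn_const)
    (contDiffOn_const.clm_comp (hB'.comp hA.contDiffOn hball))
    (fun y hy => by
      obtain ⟨c1, c2, -, -, c5⟩ := H _ (hball y hy)
      refine ⟨fun v => by simp [c1], fun v => by simp [c2], ?_⟩
      rw [Charts_det_comp]
      have h2 := mul_pos c5 hdet
      have h3 : (B (c p + L.symm y)).det * (B (c p)).det * ((B (c p)).det * (L.symm : End).det)
          = (B (c p + L.symm y)).det * (L.symm : End).det * (B (c p)).det ^ 2 := by ring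
      rw [h3] at h2
      exact lt_of_mul_lt_mul_right (by rwa [zero_mul]) (sq_nonneg (B (c p)).det))
  obtain ⟨κ, hκ, k1, k2, k3, k4, k5⟩ := exists_chart hc L (c p) (R := 3)
    (fun y hy => hrO (hball y (h34 hy)))
  refine ⟨κ, hκ, Fr, k1, k5 p hp (by simp), by simp [k3], fun y hy => ?_⟩
  have hy' : y ∈ κ.target := by rw [k1]; exact hy
  have hq : κ.symm y ∈ κ.source := κ.map_target hy'
  have hcq : ∀ z ∈ ball (0 : E) 3, c (κ.symm z) = c p + L.symm z := fun z hz => by
    rw [k4, c.right_inv (hrO (hball z (h34 hz)))]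
  have hD : fderiv ℝ (fun x => c (κ.symm x)) y = (L.symm : End) := by
    have h1 : (fun x => c (κ.symm x)) =ᶠ[𝓝 y] fun z => c p + L.symm z :=
      eventually_of_mem (isOpen_ball.mem_nhds hy) hcq
    rw [h1.fderiv_eq, fderiv_const_add, L.symm.fderiv]
  have e1 := lrep_tr hκ hc hq (k2 hq) α
  have e2 := jrep_tr hκ hc hq (k2 hq) J
  rw [κ.right_inv hy', hD, hcq y hy] at e1
  simp only [κ.right_inv hy', hD, hcq y hy, ContinuousLinearEquiv.coe_coe] at e2
  obtain ⟨c1, c2, c3, c4, -⟩ := H _ (hball y (h34 hy))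
  obtain ⟨f1, f2⟩ := hFr y hy
  refine ⟨?_, fun u v => ?_⟩
  · ext v : 1
    simp only [Frame.J, f1, f2, ContinuousLinearMap.comp_apply, ContinuousLinearEquiv.coe_coe]
    rw [← c3, c2, ← e2, L.apply_symm_apply]
  · simp only [f1, ContinuousLinearMap.comp_apply, ContinuousLinearEquiv.coe_coe, c4, gsym_apply, e1,
      pb_apply, e2]

theorem exists_preGeo [CompactSpace M]
    {α : Π x : M, TangentSpace (𝓡 4) x →L[ℝ] TangentSpace (𝓡 4) x →L[ℝ] ℝ}
    {J : Π x : M, TangentSpace (𝓡 4) x →L[ℝ] TangentSpace (𝓡 4) x}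
    (hJ : IsAlmostComplexStructure (𝓡 4) M J) (hα : IsSmoothTwoForm (𝓡 4) M α)
    (ht : Tames (𝓡 4) M α J) :
    ∃ G : PreGeo M, (∀ i, G.κ i ∈ IsManifold.maximalAtlas (𝓡 4) ∞ M) ∧
      ∀ i, ∀ x ∈ ball (0 : E) 3, (G.fr i).J x = jrep (G.κ i) J x := by
  choose κ hκ Fr k1 k2 k3 k4 using exists_chart_frame hJ hα ht
  obtain ⟨t, ht⟩ := isCompact_univ.elim_finite_subcover
    (fun p : M => (κ p).source ∩ κ p ⁻¹' ball 0 1)
    (fun p => (κ p).continuousOn.isOpen_inter_preimage (κ p).open_source isOpen_ball)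
    (fun p _ => mem_iUnion.2 ⟨p, k2 p, by simp [k3]⟩)
  refine ⟨{ n := t.card
            κ := fun i => κ (t.equivFin.symm i)
            tgt := fun i => k1 _
            cover := fun p => ?_
            smooth_tr := fun i j p hi hj => tr_contDiffAt' (hκ _) (hκ _) hi hj
            fr := fun i => Fr (t.equivFin.symm i)
            uni_tr := fun i j p hi hj => ?_ }, fun i => hκ _, fun i x hx => (k4 _ x hx).1⟩
  · obtain ⟨q, hq, h⟩ := mem_iUnion₂.1 (ht (mem_univ p))
    refine ⟨t.equivFin ⟨q, hq⟩, ?_⟩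
    simp only [Equiv.symm_apply_apply]
    exact ⟨h.1, mem_ball_zero_iff.1 h.2⟩
  · generalize ((t.equivFin.symm i : t) : M) = a at hi hj ⊢
    generalize ((t.equivFin.symm j : t) : M) = b at hi hj ⊢
    have e1 := lrep_tr (hκ a) (hκ b) hi hj α
    have e2 := jrep_tr (hκ a) (hκ b) hi hj J
    obtain ⟨a1, a2⟩ := k4 a (κ a p) (by rw [← k1 a]; exact (κ a).map_source hi)
    obtain ⟨b1, b2⟩ := k4 b (κ b p) (by rw [← k1 b]; exact (κ b).map_source hj)
    generalize fderiv ℝ (fun x => κ b ((κ a).symm x)) (κ a p) = D at e1 e2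
    refine ⟨fun v => ?_, fun v => ?_⟩
    · have h1 := a2 ((Fr a).A' (κ a p) v) ((Fr a).A' (κ a p) v)
      have h2 := b2 (D ((Fr a).A' (κ a p) v)) (D ((Fr a).A' (κ a p) v))
      rw [(Fr a).mul, gsym_apply, e1, pb_apply, e2, ← gsym_apply, ← h2, real_inner_self_eq_norm_sq,
        real_inner_self_eq_norm_sq] at h1
      simp only [ContinuousLinearMap.comp_apply]
      exact (pow_left_inj₀ (norm_nonneg _) (norm_nonneg _) two_ne_zero).1 h1.symm
    · have h1 := e2 ((Fr a).A' (κ a p) v)
      rw [← a1, ← b1] at h1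
      simp only [Frame.J, ContinuousLinearMap.comp_apply, (Fr a).mul] at h1
      simp only [ContinuousLinearMap.comp_apply, h1, (Fr b).mul]

end Crest.Agent.R240

end
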