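import Crest.Agent.R240.ConnA

/-!
# Row 240: existence of connection data
-/

set_option autoImplicit false
set_option linter.unusedSectionVars false
set_option linter.unusedVariables false

open MeasureTheory Metric Set Filter Topology
open scoped ContDiff ENNReal

noncomputable section

namespace Crest.Agent.R240

namespace Geo

variable {M : Type*} [MetricSpace M] [CompactSpace M] [MeasurableSpace M] [BorelSpace M]
  {G : Geo M}

theorem conn_ball {x : E} (hx : x ∈ ball (0 : E) (5 / 2)) : x ∈ ball (0 : E) 3 :=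
  ball_subset_ball (by norm_num) hx

theorem cF_self (q : M) : G.cF q q = 0 := by simp [cF]

theorem cf_diag (i : Fin G.n) (y : E) : G.cf i (y, y) = 0 := by
  simp [cf, cg, cF_self]

theorem cf_eq (i : Fin G.n) {x y : E} (hx : x ∈ ball (0 : E) (5 / 2))
    (hy : y ∈ ball (0 : E) (5 / 2)) : G.cf i (x, y) = G.cg i (x, y) := by
  rw [mem_ball_zero_iff] at hx hy
  simp only [cf, bump_one hx.le, bump_one hy.le, mul_one, one_smul]

theorem cg_at (i : Fin G.n) {x y : E} (hx : x ∈ ball (0 : E) 3) (hy : y ∈ ball (0 : E) 3) :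
    ContDiffAt ℝ ∞ (G.cg i) (x, y) :=
  (cg_smooth i).contDiffAt ((isOpen_ball.prod isOpen_ball).mem_nhds ⟨hx, hy⟩)

theorem cg_diff_fst (i : Fin G.n) {x y : E} (hx : x ∈ ball (0 : E) 3) (hy : y ∈ ball (0 : E) 3) :
    DifferentiableAt ℝ (fun x' => G.cg i (x', y)) x := by
  have h1 : DifferentiableAt ℝ (G.cg i) (x, y) := (cg_at i hx hy).differentiableAt (by simp)
  have h2 : DifferentiableAt ℝ (fun x' : E => (x', y)) x :=
    differentiableAt_id.prodMk (differentiableAt_const y)
  exact DifferentiableAt.comp (f := fun x' : E => (x', y)) x h1 h2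

theorem cg_diff_snd (i : Fin G.n) {x y : E} (hx : x ∈ ball (0 : E) 3) (hy : y ∈ ball (0 : E) 3) :
    DifferentiableAt ℝ (fun y' => G.cg i (x, y')) y :=
  ((cg_at i hx hy).differentiableAt (by simp)).comp y
    ((differentiableAt_const x).prodMk differentiableAt_id)

theorem Pf_cf (i : Fin G.n) {x y : E} (hx : x ∈ ball (0 : E) (5 / 2))
    (hy : y ∈ ball (0 : E) (5 / 2)) :
    Pf (G.cf i) (x, y) = fderiv ℝ (fun x' => G.cg i (x', y)) x := by
  rw [conn_Pf_eq ((cf_smooth i).differentiable (by simp) _)]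
  refine Filter.EventuallyEq.fderiv_eq ?_
  filter_upwards [isOpen_ball.mem_nhds hx] with x' hx' using cf_eq i hx' hy

theorem Qf_cf (i : Fin G.n) {x y : E} (hx : x ∈ ball (0 : E) (5 / 2))
    (hy : y ∈ ball (0 : E) (5 / 2)) :
    Qf (G.cf i) (x, y) = fderiv ℝ (fun y' => G.cg i (x, y')) y := by
  rw [conn_Qf_eq ((cf_smooth i).differentiable (by simp) _)]
  refine Filter.EventuallyEq.fderiv_eq ?_
  filter_upwards [isOpen_ball.mem_nhds hy] with y' hy' using cf_eq i hx hy'

theorem cE_loc {i l : Fin G.n} {y : E} (hy : y ∈ ball (0 : E) 3)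
    (hl : G.rho l ((G.κ i).symm y) ≠ 0) : G.loc0 i (G.cE l) =ᶠ[𝓝 y] G.tr i l := by
  obtain ⟨h1, h2⟩ := rho_ne_zero hl
  have hc : ContinuousAt (G.tr i l) y := (conn_tr_at hy h1).continuousAt
  have h3 : ∀ᶠ y' in 𝓝 y, ‖G.tr i l y'‖ < 1 := hc.norm.eventually (gt_mem_nhds h2)
  filter_upwards [conn_dom hy h1, h3] with y' h4 h5
  exact cE_eq h4.2 (h5.le.trans (by norm_num))

theorem cf_deriv (i : Fin G.n) {y : E} (hy : y ∈ ball (0 : E) (5 / 2)) :
    Pf (G.cf i) (y, y) = (G.fr i).A y := by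
  have hy3 := conn_ball hy
  rw [Pf_cf i hy hy]
  set q := (G.κ i).symm y with hq
  have hd : ∀ l, HasFDerivAt (fun x' => (G.rho l q • (G.cW i q).comp (G.T l q))
      (G.loc0 i (G.cE l) x' - G.loc0 i (G.cE l) y)) (G.rho l q • (G.fr i).A y) y := by
    intro l
    by_cases hl : G.rho l q = 0
    · simp only [hl, zero_smul, zero_apply]
      exact hasFDerivAt_const _ _
    · have h1 := (rho_ne_zero hl).1
      have h2 : HasFDerivAt (G.loc0 i (G.cE l)) (fderiv ℝ (G.tr i l) y) y :=
        ((conn_tr_at hy3 h1).differentiableAt (by simp)).hasFDerivAt.congr_of_eventuallyEq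
          (cE_loc hy3 hl)
      have h3 := (G.rho l q • (G.cW i q).comp (G.T l q)).hasFDerivAt.comp y
        (h2.sub_const (G.loc0 i (G.cE l) y))
      refine HasFDerivAt.congr_fderiv h3 ?_
      ext1 v
      have h4 := T_tr' (symm_mem hy3) h1 v
      rw [map_symm hy3] at h4
      simp only [smul_apply, ContinuousLinearMap.comp_apply]
      rw [h4]
      simp only [cW, ContinuousLinearMap.comp_apply, G.Ti_T, hq, map_symm hy3]
  have hs := HasFDerivAt.fun_sum (u := Finset.univ) fun l _ => hd l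
  rw [← Finset.sum_smul, G.sum_rho, one_smul] at hs
  rw [← hs.fderiv]
  congr 1
  funext x'
  exact cg_eq i (x', y)

theorem cθ_skew (i : Fin G.n) (y v a b : E) :
    inner ℝ (G.cθ i y v a) b = -inner ℝ a (G.cθ i y v b) := by
  by_cases hb : bump y = 0
  · simp [cθ, hb]
  have hy : y ∈ ball (0 : E) 3 := by
    rw [mem_ball_zero_iff]
    by_contra h
    exact hb (bump_zero (le_trans (by norm_num) (not_lt.1 h)))
  have key : ∀ j, G.rho j ((G.κ i).symm y) * inner ℝ (G.cth i j y v a) b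
      = -(G.rho j ((G.κ i).symm y) * inner ℝ a (G.cth i j y v b)) := by
    intro j
    by_cases hj : G.rho j ((G.κ i).symm y) = 0
    · simp [hj]
    have h1 := (rho_ne_zero hj).1
    have h2 : ∀ᶠ y' in 𝓝 y, ∀ a b,
        inner ℝ (G.cB i i j y' a) (G.cB i i j y' b) = inner ℝ a b := by
      filter_upwards [conn_dom hy h1] with y' hy' a b
      exact (cB_uni (symm_mem hy'.1) hy'.2).inner a b
    have h3 := conn_skew ((cB_at hy (symm_mem hy) h1).differentiableAt (by simp)) h2 v
      (G.cB i j i y a) (G.cB i j i y b)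
    rw [cB_cB, cB_cB] at h3
    rw [cth_apply, cth_apply, h3, mul_neg]
  simp only [cθ, smul_apply, _root_.sum_apply, inner_smul_left, inner_smul_right,
    sum_inner, inner_sum, conj_trivial, key, Finset.sum_neg_distrib, mul_neg]

theorem cf_U (i : Fin G.n) {x y : E} (hx : x ∈ ball (0 : E) (5 / 2))
    (hy : y ∈ ball (0 : E) (5 / 2)) :
    G.U i ((G.κ i).symm y) (G.cf i (x, y)) = G.cF ((G.κ i).symm x) ((G.κ i).symm y) := by
  rw [cf_eq i hx hy]
  exact U_cW _ _ _

theorem D0_T {φ : M → E} {i : Fin G.n} {x : E} (hx : x ∈ ball (0 : E) 3)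
    (h : DifferentiableAt ℝ (G.loc0 i φ) x) (X : E) :
    G.D0 φ ((G.κ i).symm x) (G.T i ((G.κ i).symm x) X) = fderiv ℝ (G.loc0 i φ) x X := by
  have h1 := D0_eq (φ := φ) (symm_mem hx) (by rw [map_symm hx]; exact h)
  rw [h1, map_symm hx, ContinuousLinearMap.comp_apply, G.Ti_T]

theorem cf_P (i : Fin G.n) {x y : E} (hx : x ∈ ball (0 : E) (5 / 2))
    (hy : y ∈ ball (0 : E) (5 / 2)) (X : E) :
    G.U i ((G.κ i).symm y) (Pf (G.cf i) (x, y) X)
      = G.D0 (fun p' => G.cF p' ((G.κ i).symm y)) ((G.κ i).symm x) (G.T i ((G.κ i).symm x) X) := by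
  have hx3 := conn_ball hx
  have hy3 := conn_ball hy
  have h1 := (G.U i ((G.κ i).symm y)).hasFDerivAt.comp x (cg_diff_fst i hx3 hy3).hasFDerivAt
  have h2 : (G.U i ((G.κ i).symm y) ∘ fun x' => G.cg i (x', y))
      = G.loc0 i fun p' => G.cF p' ((G.κ i).symm y) := by
    funext x'
    exact U_cW _ _ _
  rw [h2] at h1
  rw [D0_T hx3 h1.differentiableAt, h1.fderiv, Pf_cf i hx hy, ContinuousLinearMap.comp_apply]

theorem cf_D (i : Fin G.n) {x y : E} (hx : x ∈ ball (0 : E) (5 / 2))
    (hy : y ∈ ball (0 : E) (5 / 2)) (v : E) :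
    G.U i ((G.κ i).symm y) (Qf (G.cf i) (x, y) v - G.cθ i y v (G.cf i (x, y)))
      = (∑ j, G.rho j ((G.κ i).symm y) • (G.U j ((G.κ i).symm y)).comp
          (G.D0 (fun q' => G.cW j q' (G.cF ((G.κ i).symm x) q')) ((G.κ i).symm y)))
        (G.T i ((G.κ i).symm y) v) := by
  have hx3 := conn_ball hx
  have hy3 := conn_ball hy
  rw [Qf_cf i hx hy, cf_eq i hx hy]
  set p := (G.κ i).symm x with hp
  set q := (G.κ i).symm y with hq
  set gi : E → E := fun y' => G.cg i (x, y') with hgi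
  have hgd : DifferentiableAt ℝ gi y := cg_diff_snd i hx3 hy3
  have key : ∀ j, G.rho j q • G.U i q (fderiv ℝ gi y v - G.cth i j y v (gi y))
      = G.rho j q • G.U j q (G.D0 (fun q' => G.cW j q' (G.cF p q')) q (G.T i q v)) := by
    intro j
    by_cases hj : G.rho j q = 0
    · simp [hj]
    have h1 := (rho_ne_zero hj).1
    set gj : E → E := G.loc0 i fun q' => G.cW j q' (G.cF p q') with hgj
    have e1 : gj = fun y' => G.cB i j i y' (gi y') := by
      funext y'
      simp only [hgj, hgi, loc0, cB, cg, ContinuousLinearMap.comp_apply, U_cW, hp]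
    have e2 : gi = fun y' => G.cB i i j y' (gj y') := by
      funext y'
      rw [e1]
      exact (cB_cB i i j y' _).symm
    have hjd : DifferentiableAt ℝ gj y := by
      rw [e1]
      exact ((cB_at hy3 h1 (symm_mem hy3)).differentiableAt (by simp)).clm_apply hgd
    have hBd : DifferentiableAt ℝ (G.cB i i j) y :=
      (cB_at hy3 (symm_mem hy3) h1).differentiableAt (by simp)
    have e3 : fderiv ℝ gi y v = G.cB i i j y (fderiv ℝ gj y v) + fderiv ℝ (G.cB i i j) y v (gj y) := by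
      conv_lhs => rw [e2]
      rw [fderiv_clm_apply hBd hjd]
      rfl
    have e4 : G.cth i j y v (gi y) = fderiv ℝ (G.cB i i j) y v (gj y) := by
      rw [cth_apply, e1]
    rw [e3, e4, add_sub_cancel_right, D0_T hy3 hjd]
    simp only [cB, ContinuousLinearMap.comp_apply, U_cW, hq, hgj]
  have hb : bump y = 1 := bump_one (mem_ball_zero_iff.1 hy).le
  simp only [_root_.sum_apply, smul_apply, ContinuousLinearMap.comp_apply, ← key,
    cθ, hb, one_smul, ← hq]
  simp only [map_sub, smul_sub, Finset.sum_sub_distrib, ← Finset.sum_smul, G.sum_rho, one_smul,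
    map_sum, map_smul, hgi]

/-- (C1) -/
theorem exists_conn (G : Geo M) : Nonempty G.Conn := by
  have hlow : ∀ᶠ t in 𝓝[>] (0 : ℝ), ∀ i, ∀ y ∈ closedBall (0 : E) (9 / 4), ∀ x, ‖x - y‖ ≤ 2 * t →
      t * ‖x - y‖ ≤ ‖G.cf i (x, y)‖ :=
    eventually_all.2 fun i => conn_low (cf_smooth i) (G.fr i) (cf_diag i) fun y hy => cf_deriv i hy
  obtain ⟨t, ht, ht'⟩ := (hlow.and (Ioo_mem_nhdsGT (by norm_num : (0 : ℝ) < 1 / 10))).exists
  exact ⟨{
    F := G.cF
    Pg := fun p q => G.D0 (fun p' => G.cF p' q) p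
    Dg := fun p q => ∑ j, G.rho j q • (G.U j q).comp (G.D0 (fun q' => G.cW j q' (G.cF p q')) q)
    f := G.cf
    θ := G.cθ
    r1 := t
    c1 := t
    r1_pos := ht'.1
    r1_le := ht'.2.le
    c1_pos := ht'.1
    f_smooth := cf_smooth
    θ_smooth := cθ_smooth
    f_diag := cf_diag
    f_deriv := fun i y hy => cf_deriv i hy
    low := ht
    skew := cθ_skew
    f_eq := fun i x hx y hy => cf_U i hx hy
    P_eq := fun i x hx y hy X => cf_P i hx hy X
    D_eq := fun i x hx y hy v => cf_D i hx hy v }⟩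

end Geo

end Crest.Agent.R240

end
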