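import Crest.Agent.R240.ChartD
import Crest.Agent.R240.Par2

/-!
# Row 240: auxiliary constructions for the connection data
-/

set_option autoImplicit false
set_option linter.unusedSectionVars false
set_option linter.unusedVariables false

open MeasureTheory Metric Set Filter Topology
open scoped ContDiff ENNReal

noncomputable section

namespace Crest.Agent.R240

/-! ### calculus on `ℝ⁴` -/

theorem conn_Pf_eq {f : E × E → E} {x y : E} (h : DifferentiableAt ℝ f (x, y)) :
    Pf f (x, y) = fderiv ℝ (fun x' => f (x', y)) x := by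
  have h1 : HasFDerivAt (fun x' : E => (x', y)) (ContinuousLinearMap.inl ℝ E E) x :=
    hasFDerivAt_prodMk_left x y
  exact (h.hasFDerivAt.comp x h1).fderiv.symm

theorem conn_Qf_eq {f : E × E → E} {x y : E} (h : DifferentiableAt ℝ f (x, y)) :
    Qf f (x, y) = fderiv ℝ (fun y' => f (x, y')) y := by
  have h1 : HasFDerivAt (fun y' : E => (x, y')) (ContinuousLinearMap.inr ℝ E E) y :=
    hasFDerivAt_prodMk_right x y
  exact (h.hasFDerivAt.comp y h1).fderiv.symm

/-- the derivative of a family of isometries is skew -/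
theorem conn_skew {B : E → End} {y : E} (hB : DifferentiableAt ℝ B y)
    (hU : ∀ᶠ y' in 𝓝 y, ∀ a b, inner ℝ (B y' a) (B y' b) = inner ℝ a b) (v a b : E) :
    inner ℝ (fderiv ℝ B y v a) (B y b) = -inner ℝ (B y a) (fderiv ℝ B y v b) := by
  have ha : HasFDerivAt (fun y' => B y' a) ((fderiv ℝ B y).flip a) y := by
    have := hB.hasFDerivAt.clm_apply (hasFDerivAt_const a y)
    simpa using this
  have hb : HasFDerivAt (fun y' => B y' b) ((fderiv ℝ B y).flip b) y := by
    have := hB.hasFDerivAt.clm_apply (hasFDerivAt_const b y)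
    simpa using this
  have h1 := ha.inner ℝ hb
  have h2 : HasFDerivAt (fun y' => inner ℝ (B y' a) (B y' b)) (0 : E →L[ℝ] ℝ) y := by
    refine (hasFDerivAt_const (inner ℝ a b : ℝ) y).congr_of_eventuallyEq ?_
    filter_upwards [hU] with y' hy' using hy' a b
  have h3 := congrArg (fun L : E →L[ℝ] ℝ => L v) (h1.unique h2)
  simp only [ContinuousLinearMap.comp_apply, ContinuousLinearMap.prod_apply,
    fderivInnerCLM_apply, ContinuousLinearMap.flip_apply, zero_apply] at h3
  linarith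

/-- lower bound near the diagonal -/
theorem conn_low {f : E × E → E} (hf : ContDiff ℝ ∞ f) (Fr : Frame) (h0 : ∀ y, f (y, y) = 0)
    (hd : ∀ y ∈ ball (0 : E) (5 / 2), Pf f (y, y) = Fr.A y) :
    ∀ᶠ t in 𝓝[>] (0 : ℝ), ∀ y ∈ closedBall (0 : E) (9 / 4), ∀ x, ‖x - y‖ ≤ 2 * t →
      t * ‖x - y‖ ≤ ‖f (x, y)‖ := by
  obtain ⟨C, hC⟩ := Fr.bdd
  set C' : ℝ := max C 1 with hC'
  have hC'pos : 0 < C' := lt_of_lt_of_le one_pos (le_max_right _ _)
  have hA : ∀ y h : E, ‖h‖ ≤ C' * ‖Fr.A y h‖ := by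
    intro y h
    calc ‖h‖ = ‖Fr.A' y (Fr.A y h)‖ := by rw [Fr.mul']
      _ ≤ ‖Fr.A' y‖ * ‖Fr.A y h‖ := (Fr.A' y).le_opNorm _
      _ ≤ C' * ‖Fr.A y h‖ := by
        gcongr
        exact (hC y).2.trans (le_max_left _ _)
  have hPc : Continuous (Pf f) := by
    unfold Pf
    exact (hf.continuous_fderiv (by simp)).clm_comp continuous_const
  have hK : IsCompact (closedBall (0 : E) (5 / 2) ×ˢ closedBall (0 : E) (5 / 2)) :=
    (isCompact_closedBall _ _).prod (isCompact_closedBall _ _)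
  have hU := hK.uniformContinuousOn_of_continuous hPc.continuousOn
  rw [Metric.uniformContinuousOn_iff_le] at hU
  have hε : 0 < 1 / (2 * C') := by positivity
  obtain ⟨δ, hδ, hU⟩ := hU _ hε
  have hm : 0 < min (min (δ / 2) (1 / 8)) (1 / (2 * C')) := by positivity
  filter_upwards [Ioo_mem_nhdsGT hm] with t ht y hy x hx
  obtain ⟨ht0, ht⟩ := ht
  have ht1 : t < δ / 2 := lt_of_lt_of_le ht ((min_le_left _ _).trans (min_le_left _ _))
  have ht2 : t < 1 / 8 := lt_of_lt_of_le ht ((min_le_left _ _).trans (min_le_right _ _))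
  have ht3 : t < 1 / (2 * C') := lt_of_lt_of_le ht (min_le_right _ _)
  have hy' : ‖y‖ ≤ 9 / 4 := by simpa using hy
  have hyb : y ∈ ball (0 : E) (5 / 2) := by
    rw [mem_ball_zero_iff]; linarith
  have hdiff : Differentiable ℝ f := hf.differentiable (by simp)
  have key : ‖f (x, y) - f (y, y) - Fr.A y (x - y)‖ ≤ (1 / (2 * C')) * ‖x - y‖ := by
    refine Convex.norm_image_sub_le_of_norm_fderiv_le' (𝕜 := ℝ) (f := fun x' => f (x', y))
      (s := closedBall y (2 * t)) (φ := Fr.A y) ?_ ?_ (convex_closedBall _ _) ?_ ?_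
    · intro x' _
      exact (hdiff (x', y)).comp x' (differentiableAt_id.prodMk (differentiableAt_const y))
    · intro x' hx'
      rw [← conn_Pf_eq (hdiff (x', y)), ← hd y hyb, ← dist_eq_norm]
      have hx'' : dist x' y ≤ 2 * t := hx'
      apply hU
      · refine ⟨?_, ?_⟩
        · rw [mem_closedBall_zero_iff]
          have : ‖x'‖ ≤ ‖y‖ + ‖x' - y‖ := by
            calc ‖x'‖ = ‖y + (x' - y)‖ := by congr 1; abel
              _ ≤ _ := norm_add_le _ _
          rw [dist_eq_norm] at hx''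
          show ‖x'‖ ≤ 5 / 2
          linarith
        · rw [mem_closedBall_zero_iff]
          show ‖y‖ ≤ 5 / 2
          linarith
      · refine ⟨?_, ?_⟩ <;>
        · rw [mem_closedBall_zero_iff]
          show ‖y‖ ≤ 5 / 2
          linarith
      · rw [Prod.dist_eq, dist_self]
        exact max_le (by linarith) hδ.le
    · exact mem_closedBall_self (by linarith)
    · rw [mem_closedBall, dist_eq_norm]; exact hx
  rw [h0, sub_zero] at key
  have h1 := hA y (x - y)
  have h2 : ‖Fr.A y (x - y)‖ ≤ ‖f (x, y)‖ + ‖f (x, y) - Fr.A y (x - y)‖ := by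
    calc ‖Fr.A y (x - y)‖ = ‖f (x, y) - (f (x, y) - Fr.A y (x - y))‖ := by congr 1; abel
      _ ≤ _ := norm_sub_le _ _
  have h3 : (1 / C') * ‖x - y‖ ≤ ‖Fr.A y (x - y)‖ := by
    rw [one_div, inv_mul_le_iff₀ hC'pos]; exact h1
  have h4 : (1 / C') = 2 * (1 / (2 * C')) := by field_simp
  have h5 : t * ‖x - y‖ ≤ (1 / (2 * C')) * ‖x - y‖ := by gcongr
  rw [h4] at h3
  linarith

/-- product version of `contDiff_bump_smul` -/
theorem conn_bump2 {F : Type*} [NormedAddCommGroup F] [NormedSpace ℝ F] {g : E × E → F}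
    (hg : ContDiffOn ℝ ∞ g (ball 0 3 ×ˢ ball 0 3)) :
    ContDiff ℝ ∞ fun z : E × E => (bump z.1 * bump z.2) • g z := by
  have hb : ContDiff ℝ ∞ fun z : E × E => bump z.1 * bump z.2 :=
    (bump.contDiff.comp contDiff_fst).mul (bump.contDiff.comp contDiff_snd)
  have h0 : ∀ z : E × E, z ∉ closedBall (0 : E) (11 / 4) ×ˢ closedBall (0 : E) (11 / 4) →
      (bump z.1 * bump z.2) • g z = 0 := by
    intro z hz
    rw [mem_prod, not_and_or, mem_closedBall_zero_iff, mem_closedBall_zero_iff] at hz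
    rcases hz with hz | hz
    · rw [bump_zero (not_le.1 hz).le]; simp
    · rw [bump_zero (x := z.2) (not_le.1 hz).le]; simp
  have hsub : closedBall (0 : E) (11 / 4) ×ˢ closedBall (0 : E) (11 / 4)
      ⊆ ball (0 : E) 3 ×ˢ ball (0 : E) 3 :=
    prod_mono (closedBall_subset_ball (by norm_num)) (closedBall_subset_ball (by norm_num))
  have h := contDiff_indicator_ball (f := fun z : E × E => (bump z.1 * bump z.2) • g z)
    (isOpen_ball.prod isOpen_ball) (isClosed_closedBall.prod isClosed_closedBall) hsub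
    (hb.contDiffOn.smul hg) (fun z _ hz => h0 z hz)
  convert h using 1
  funext z
  by_cases hz : z ∈ ball (0 : E) 3 ×ˢ ball (0 : E) 3
  · rw [indicator_of_mem hz]
  · rw [indicator_of_notMem hz]
    exact h0 z fun h => hz (hsub h)

namespace Geo

variable {M : Type*} [MetricSpace M] [CompactSpace M] [MeasurableSpace M] [BorelSpace M]
  {G : Geo M}

variable {F : Type*} [NormedAddCommGroup F] [NormedSpace ℝ F]

theorem conn_symm_cont {i : Fin G.n} {y : E} (hy : y ∈ ball (0 : E) 3) :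
    ContinuousAt (G.κ i).symm y :=
  (G.κ i).continuousAt_symm (by rw [G.tgt]; exact hy)

/-- multiplying with the partition of unity -/
theorem conn_rho_smul (i l : Fin G.n) {g : E → F}
    (hg : ∀ y ∈ ball (0 : E) 3, (G.κ i).symm y ∈ (G.κ l).source → ContDiffAt ℝ ∞ g y) :
    ContDiffOn ℝ ∞ (fun y => G.rho l ((G.κ i).symm y) • g y) (ball 0 3) := by
  intro y hy
  refine ContDiffAt.contDiffWithinAt ?_
  by_cases hl : (G.κ i).symm y ∈ (G.κ l).source
  · exact ((G.rho_S0 l).at (i := i) hy).smul (hg y hy hl)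
  · have hK : (G.κ i).symm y ∈ (G.K l 1)ᶜ := fun h => hl h.1
    have hO : IsOpen (G.K l 1)ᶜ := (isCompact_K l (by norm_num)).isClosed.isOpen_compl
    have hev := (conn_symm_cont hy).eventually (hO.mem_nhds hK)
    refine (contDiffAt_const (c := (0 : F))).congr_of_eventuallyEq ?_
    filter_upwards [hev] with y' hy'
    rw [rho_eq_zero hy', zero_smul]

theorem conn_tr_at {i a : Fin G.n} {y : E} (hy : y ∈ ball (0 : E) 3)
    (ha : (G.κ i).symm y ∈ (G.κ a).source) : ContDiffAt ℝ ∞ (G.tr i a) y := by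
  have := tr_contDiffAt (symm_mem hy) ha
  rwa [map_symm hy] at this

theorem conn_dom {i a : Fin G.n} {y : E} (hy : y ∈ ball (0 : E) 3)
    (ha : (G.κ i).symm y ∈ (G.κ a).source) :
    ∀ᶠ y' in 𝓝 y, y' ∈ ball (0 : E) 3 ∧ (G.κ i).symm y' ∈ (G.κ a).source :=
  (isOpen_dom i a).mem_nhds ⟨hy, ha⟩

theorem conn_Ti_T {a b : Fin G.n} {q : M} (ha : q ∈ (G.κ a).source) (hb : q ∈ (G.κ b).source) :
    (G.Ti a q).comp (G.T b q) = fderiv ℝ (G.tr b a) (G.κ b q) := by
  ext1 v
  rw [ContinuousLinearMap.comp_apply, ← T_tr' hb ha, G.Ti_T]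

theorem conn_TT_at {i a b : Fin G.n} {y : E} (hy : y ∈ ball (0 : E) 3)
    (ha : (G.κ i).symm y ∈ (G.κ a).source) (hb : (G.κ i).symm y ∈ (G.κ b).source) :
    ContDiffAt ℝ ∞ (fun y' => (G.Ti a ((G.κ i).symm y')).comp (G.T b ((G.κ i).symm y'))) y := by
  have h1 : ContDiffAt ℝ ∞ (fderiv ℝ (G.tr b a)) (G.tr i b y) :=
    (tr_contDiffAt hb ha).fderiv_right (m := ∞) (by simp)
  refine (h1.comp y (conn_tr_at hy hb)).congr_of_eventuallyEq ?_
  filter_upwards [conn_dom hy ha, conn_dom hy hb] with y' h1 h2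
  exact conn_Ti_T h1.2 h2.2

variable (G)

/-- the inverse of `U` -/
def cW (i : Fin G.n) (q : M) : End := ((G.fr i).A (G.κ i q)).comp (G.Ti i q)

/-- globally defined coordinates -/
def cE (l : Fin G.n) : M → E := G.ext0 l fun x => bump x • x

/-- the global map -/
def cF (p q : M) : E := ∑ l, G.rho l q • G.T l q (G.cE l p - G.cE l q)

/-- transition matrices between unitary frames, read in chart `i` -/
def cB (i a b : Fin G.n) (y : E) : End :=
  (G.cW a ((G.κ i).symm y)).comp (G.U b ((G.κ i).symm y))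

/-- the local expression of `cF` -/
def cg (i : Fin G.n) (z : E × E) : E :=
  G.cW i ((G.κ i).symm z.2) (G.cF ((G.κ i).symm z.1) ((G.κ i).symm z.2))

def cf (i : Fin G.n) (z : E × E) : E := (bump z.1 * bump z.2) • G.cg i z

def cth (i j : Fin G.n) (y : E) : E →L[ℝ] End :=
  ((ContinuousLinearMap.compL ℝ E E E).flip (G.cB i j i y)).comp (fderiv ℝ (G.cB i i j) y)

def cθ (i : Fin G.n) (y : E) : E →L[ℝ] End :=
  bump y • ∑ j, G.rho j ((G.κ i).symm y) • G.cth i j y

variable {G}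

theorem U_cW (i : Fin G.n) (q : M) (v : E) : G.U i q (G.cW i q v) = v := U_A_Ti i q v

theorem cW_U (i : Fin G.n) (q : M) (v : E) : G.cW i q (G.U i q v) = v := A_Ti_U i q v

theorem cth_apply (i j : Fin G.n) (y v a : E) :
    G.cth i j y v a = fderiv ℝ (G.cB i i j) y v (G.cB i j i y a) := rfl

theorem cB_cB (i a b : Fin G.n) (y v : E) : G.cB i a b y (G.cB i b a y v) = v := by
  simp only [cB, ContinuousLinearMap.comp_apply, U_cW, cW_U]

theorem cB_uni {i a b : Fin G.n} {y : E} (ha : (G.κ i).symm y ∈ (G.κ a).source)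
    (hb : (G.κ i).symm y ∈ (G.κ b).source) : Uni (G.cB i a b y) :=
  (uni_A_Ti ha).comp (U_uni hb)

theorem cE_S0 (l : Fin G.n) : G.S0 (G.cE l) := by
  refine S0_ext0 l (r := 11 / 4) (bump.contDiff.smul contDiff_id).contDiffOn (by norm_num) ?_
  intro x _ hx
  rw [bump_zero hx.le, zero_smul]

theorem cE_eq {l : Fin G.n} {p : M} (hp : p ∈ (G.κ l).source) (h : ‖G.κ l p‖ ≤ 5 / 2) :
    G.cE l p = G.κ l p := by
  simp only [cE, ext0, if_pos hp, bump_one h, one_smul]

theorem cWT_at {i a b : Fin G.n} {y : E} (hy : y ∈ ball (0 : E) 3)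
    (ha : (G.κ i).symm y ∈ (G.κ a).source) (hb : (G.κ i).symm y ∈ (G.κ b).source) :
    ContDiffAt ℝ ∞ (fun y' => (G.cW a ((G.κ i).symm y')).comp (G.T b ((G.κ i).symm y'))) y := by
  have h1 : ContDiffAt ℝ ∞ (fun y' => (G.fr a).A (G.tr i a y')) y :=
    (G.fr a).smooth.contDiffAt.comp y (conn_tr_at hy ha)
  exact h1.clm_comp (conn_TT_at hy ha hb)

theorem cB_at {i a b : Fin G.n} {y : E} (hy : y ∈ ball (0 : E) 3)
    (ha : (G.κ i).symm y ∈ (G.κ a).source) (hb : (G.κ i).symm y ∈ (G.κ b).source) :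
    ContDiffAt ℝ ∞ (G.cB i a b) y := by
  have h1 : ContDiffAt ℝ ∞ (fun y' => (G.fr b).A' (G.tr i b y')) y :=
    (G.fr b).smooth'.contDiffAt.comp y (conn_tr_at hy hb)
  exact (cWT_at hy ha hb).clm_comp h1

theorem cg_eq (i : Fin G.n) (z : E × E) :
    G.cg i z = ∑ l, (G.rho l ((G.κ i).symm z.2) •
      (G.cW i ((G.κ i).symm z.2)).comp (G.T l ((G.κ i).symm z.2)))
        (G.loc0 i (G.cE l) z.1 - G.loc0 i (G.cE l) z.2) := by
  simp only [cg, cF, map_sum, map_smul, smul_apply,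
    ContinuousLinearMap.comp_apply, loc0]

theorem cg_smooth (i : Fin G.n) : ContDiffOn ℝ ∞ (G.cg i) (ball 0 3 ×ˢ ball 0 3) := by
  rw [show G.cg i = _ from funext (cg_eq i)]
  refine ContDiffOn.sum fun l _ => ?_
  have h1 : ContDiffOn ℝ ∞ (fun y => G.rho l ((G.κ i).symm y) •
      (G.cW i ((G.κ i).symm y)).comp (G.T l ((G.κ i).symm y))) (ball 0 3) :=
    conn_rho_smul i l fun y hy hl => cWT_at hy (symm_mem hy) hl
  have h2 := cE_S0 (G := G) l i
  exact (h1.comp contDiffOn_snd fun z hz => hz.2).clm_apply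
    ((h2.comp contDiffOn_fst fun z hz => hz.1).sub (h2.comp contDiffOn_snd fun z hz => hz.2))

theorem cf_smooth (i : Fin G.n) : ContDiff ℝ ∞ (G.cf i) := conn_bump2 (cg_smooth i)

theorem cth_at {i j : Fin G.n} {y : E} (hy : y ∈ ball (0 : E) 3)
    (hj : (G.κ i).symm y ∈ (G.κ j).source) : ContDiffAt ℝ ∞ (G.cth i j) y := by
  have h1 : ContDiffAt ℝ ∞ (fderiv ℝ (G.cB i i j)) y :=
    (cB_at hy (symm_mem hy) hj).fderiv_right (m := ∞) (by simp)
  have h2 : ContDiffAt ℝ ∞
      (fun y' => (ContinuousLinearMap.compL ℝ E E E).flip (G.cB i j i y')) y :=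
    (ContinuousLinearMap.compL ℝ E E E).flip.contDiff.contDiffAt.comp y
      (cB_at hy hj (symm_mem hy))
  exact h2.clm_comp h1

theorem cθ_smooth (i : Fin G.n) : ContDiff ℝ ∞ (G.cθ i) :=
  contDiff_bump_smul (ContDiffOn.sum fun j _ => conn_rho_smul i j fun y hy hj => cth_at hy hj)

end Geo

end Crest.Agent.R240

end
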