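import Crest.Agent.R240.Jet

/-!
# Row 240: finite rank approximation, Neumann series, linear sections
-/

set_option autoImplicit false
set_option linter.unusedSectionVars false
set_option linter.unusedVariables false

open MeasureTheory Metric Set Filter Topology
open scoped ContDiff ENNReal

noncomputable section

namespace Crest.Agent.R240

namespace FR

/-- a fine smooth partition of unity on the unit ball -/
theorem exists_pou {δ : ℝ} (hδ : 0 < δ) : ∃ (N : ℕ) (x : Fin N → E) (φ : Fin N → E → ℝ),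
    (∀ m, ‖x m‖ ≤ 1) ∧ (∀ m, ContDiff ℝ ∞ (φ m)) ∧ (∀ m y, 0 ≤ φ m y) ∧
    (∀ y, ‖y‖ ≤ 1 → ∑ m, φ m y = 1) ∧ ∀ m y, φ m y ≠ 0 → ‖y - x m‖ ≤ δ := by
  obtain ⟨t, hts, ht, hc⟩ := finite_cover_balls_of_compact (isCompact_closedBall (0 : E) 1) hδ
  obtain ⟨N, x, -, rfl⟩ := ht.fin_param
  rw [biUnion_range] at hc
  obtain ⟨f, hf⟩ := SmoothPartitionOfUnity.exists_isSubordinate (modelWithCornersSelf ℝ E)
    isClosed_closedBall (fun m => ball (x m) δ) (fun _ => isOpen_ball) hc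
  refine ⟨N, x, fun m y => f m y, fun m => mem_closedBall_zero_iff.1 (hts (mem_range_self m)),
    fun m => (f m).contMDiff.contDiff, fun m y => f.nonneg m y, fun y hy => ?_, fun m y hy => ?_⟩
  · rw [← finsum_eq_sum_of_fintype]
    exact f.sum_eq_one (mem_closedBall_zero_iff.2 hy)
  · exact (mem_ball_iff_norm.1 (hf m (subset_tsupport _ hy))).le

/-- basic alternating forms -/
def W (a b : Fin 4) : Bil := altL ((dx a).smulRight (dx b))

theorem alt_W (a b : Fin 4) : Alt (W a b) := alt_altL _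

theorem sum_W {β : Bil} (h : Alt β) : ∑ a, ∑ b, β (e a) (e b) • W a b = β := by
  have h1 : ∑ a, ∑ b, β (e a) (e b) • W a b = altL (ofCoef fun a b => β (e a) (e b)) := by
    simp only [W, ofCoef, map_sum, map_smul]
  rw [h1, ofCoef_self, h.altL]

theorem am_sum {ι : Type*} (s : Finset ι) (c : ι → ℝ) (β : ι → Bil) :
    am (∑ j ∈ s, c j • β j) = ∑ j ∈ s, c j • am (β j) := by
  have : ∀ γ, am γ = amL J0 γ := fun _ => rfl
  simp only [this, map_sum, map_smul]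

end FR

namespace Geo

variable {M : Type*} [MetricSpace M] [CompactSpace M] [MeasurableSpace M] [BorelSpace M]
  {G : Geo M}

theorem FR_lip {u : M → Bil} (hu : G.S2 u) {c : ℝ} (hc : G.CB 1 u c) (i : Fin G.n) {x y : E}
    (hx : ‖x‖ ≤ 1) (hy : ‖y‖ ≤ 1) : ‖G.loc2 i u y - G.loc2 i u x‖ ≤ c * ‖y - x‖ := by
  have hb : ∀ z ∈ closedBall (0 : E) 1, z ∈ ball (0 : E) 3 := fun z hz =>
    closedBall_subset_ball (by norm_num) hz
  refine Convex.norm_image_sub_le_of_norm_fderiv_le (𝕜 := ℝ) (s := closedBall 0 1)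
    (fun z hz => (hu.at (hb z hz)).differentiableAt (by simp)) (fun z hz => ?_)
    (convex_closedBall _ _) (mem_closedBall_zero_iff.2 hx) (mem_closedBall_zero_iff.2 hy)
  have h1 := jb_of_mem_K (symm_mem_K (G := G) (i := i) (by norm_num)
    (mem_closedBall_zero_iff.1 hz)) 1 u
  rw [map_symm (hb z hz)] at h1
  exact (JB.norm_fderiv_le (s := 0) h1).trans (hc _)

/-- evaluation of a coefficient -/
def FR_ev (G : Geo M) (i : Fin G.n) (x : E) (a b : Fin 4) : G.AmS →ₗ[ℝ] ℝ where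
  toFun u := G.loc2 i u.1 x (e a) (e b)
  map_add' u v := by simp [loc2]
  map_smul' c u := by simp [loc2]

theorem FR_one {N : ℕ} {x : Fin N → E} {φ : Fin N → E → ℝ} {δ T : ℝ} (hx : ∀ m, ‖x m‖ ≤ 1)
    (h0 : ∀ m y, 0 ≤ φ m y) (h1 : ∀ y, ‖y‖ ≤ 1 → ∑ m, φ m y = 1)
    (h2 : ∀ m y, φ m y ≠ 0 → ‖y - x m‖ ≤ δ) (hδ : 0 ≤ δ)
    (hT : ∀ i, ∀ p ∈ (G.κ i).source, ‖G.T i p‖ ≤ T ∧ ‖G.Ti i p‖ ≤ T) {u : M → Bil} (hu : G.Am u)
    {c : ℝ} (hc0 : 0 ≤ c) (hc : G.CB 1 u c) (i : Fin G.n) (p : M) :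
    ‖G.rho i p • u p - ∑ m, ∑ a, ∑ b, G.loc2 i u (x m) (e a) (e b) •
      G.ext2 i (fun y => (G.loc0 i (G.rho i) y * φ m y) • FR.W a b) p‖
      ≤ G.rho i p * (c * δ * T ^ 2) := by
  by_cases hp : p ∈ (G.κ i).source
  · have e1 : ∀ m, ∑ a, ∑ b, G.loc2 i u (x m) (e a) (e b) •
        G.ext2 i (fun y => (G.loc0 i (G.rho i) y * φ m y) • FR.W a b) p
        = G.rho i p • φ m (G.κ i p) • pb (G.loc2 i u (x m)) (G.Ti i p) := by
      intro m
      have ha : Alt (G.loc2 i u (x m)) := (hu.alt _).pb _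
      conv_rhs => rw [← FR.sum_W ha]
      simp only [ext2, if_pos hp, loc0_map hp, ← pbL_apply, map_sum, map_smul, Finset.smul_sum,
        smul_smul]
      refine Finset.sum_congr rfl fun a _ => Finset.sum_congr rfl fun b _ => ?_
      congr 1
      ring
    simp only [e1]
    by_cases hr : G.rho i p = 0
    · simp [hr]
    have hy := (rho_ne_zero hr).2.le
    have e2 : u p = ∑ m, φ m (G.κ i p) • pb (G.loc2 i u (G.κ i p)) (G.Ti i p) := by
      rw [← Finset.sum_smul, h1 _ hy, one_smul, loc2_map hp]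
    rw [e2, ← Finset.smul_sum, ← smul_sub, norm_smul, Real.norm_of_nonneg (G.rho_nonneg i p),
      ← Finset.sum_sub_distrib]
    refine mul_le_mul_of_nonneg_left ?_ (G.rho_nonneg i p)
    refine (norm_sum_le_of_le _ (n := fun m => φ m (G.κ i p) * (c * δ * T ^ 2))
      fun m _ => ?_).trans ?_
    · rw [← smul_sub, ← pb_sub, norm_smul, Real.norm_of_nonneg (h0 _ _)]
      by_cases hm : φ m (G.κ i p) = 0
      · simp [hm]
      refine mul_le_mul_of_nonneg_left ((norm_pb_le _ _).trans ?_) (h0 _ _)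
      have a1 := FR_lip hu.smooth hc i (hx m) hy
      have a2 := mul_le_mul_of_nonneg_left (h2 m _ hm) hc0
      have a3 := (hT i p hp).2
      exact mul_le_mul (a1.trans a2) (by gcongr) (by positivity) (by positivity)
    · rw [← Finset.sum_mul, h1 _ hy, one_mul]
  · have hr : G.rho i p = 0 := by
      by_contra h
      exact hp (rho_ne_zero h).1
    simp [ext2, hp, hr]

/-- (B3) finite rank approximation of the identity -/
theorem finite_rank (G : Geo M) {η : ℝ} (hη : 0 < η) :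
    ∃ (m : ℕ) (h : Fin m → G.AmS) (ℓ : Fin m → G.AmS →ₗ[ℝ] ℝ) (C : ℝ), 0 ≤ C ∧
      (∀ j (u : G.AmS) (c0 : ℝ), (∀ p, ‖u.1 p‖ ≤ c0) → |ℓ j u| ≤ C * c0) ∧
      ∀ (u : G.AmS) (c : ℝ), 0 ≤ c → G.CB 1 u.1 c →
        ∀ p, ‖u.1 p - ∑ j, ℓ j u • (h j).1 p‖ ≤ η * c := by
  obtain ⟨T, hT1, hT⟩ := G.exists_T_bound
  have hT0 : 0 < T := by linarith
  have hδ : 0 < η / T ^ 2 := by positivity
  obtain ⟨N, x, φ, hx, hφ, h0, h1, h2⟩ := FR.exists_pou hδ
  let g : Fin G.n × Fin N × Fin 4 × Fin 4 → M → Bil := fun z =>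
    G.ext2 z.1 (fun y => (G.loc0 z.1 (G.rho z.1) y * φ z.2.1 y) • FR.W z.2.2.1 z.2.2.2)
  have hg : ∀ z, G.Am fun p => am (g z p) := by
    intro z
    refine Am.of_am (S2_ext2 z.1 ?_ (r := 1) (by norm_num) fun y hy hy1 => ?_)
      (alt_ext2 z.1 fun y _ => (FR.alt_W _ _).smul _)
    · exact ((G.rho_S0 z.1 z.1).mul (hφ _).contDiffOn).smul contDiffOn_const
    · rw [loc0_rho_zero z.1 hy hy1.le, zero_mul, zero_smul]
  let σ := (Fintype.equivFin (Fin G.n × Fin N × Fin 4 × Fin 4)).symm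
  refine ⟨_, fun j => ⟨_, hg (σ j)⟩,
    fun j => G.FR_ev (σ j).1 (x (σ j).2.1) (σ j).2.2.1 (σ j).2.2.2, T ^ 2, by positivity,
    fun j u c0 hu => ?_, fun u c hc0 hc p => ?_⟩
  · change |G.loc2 (σ j).1 u.1 (x (σ j).2.1) (e (σ j).2.2.1) (e (σ j).2.2.2)| ≤ _
    generalize σ j = z
    obtain ⟨i, m, a, b⟩ := z
    refine (abs_apply_le _ _ _).trans ?_
    rw [norm_e, norm_e, mul_one, mul_one, mul_comm]
    refine (norm_pb_le _ _).trans ?_
    have a1 := (hT i _ (symm_mem (Jet.mem_ball_of_le (by norm_num) (hx m)))).1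
    have a2 := hu ((G.κ i).symm (x m))
    exact mul_le_mul a2 (by gcongr) (by positivity) ((norm_nonneg _).trans a2)
  · have hu : G.Am u.1 := u.2
    have e1 := σ.sum_comp fun z => G.loc2 z.1 u.1 (x z.2.1) (e z.2.2.1) (e z.2.2.2) • am (g z p)
    change ‖u.1 p - ∑ j, G.loc2 (σ j).1 u.1 (x (σ j).2.1) (e (σ j).2.2.1) (e (σ j).2.2.2) •
      am (g (σ j) p)‖ ≤ _
    rw [e1, ← FR.am_sum, ← hu.am_eq p, ← am_sub]
    refine (norm_am_le _).trans ?_
    have e2 : u.1 p = ∑ i, G.rho i p • u.1 p := by rw [← Finset.sum_smul, G.sum_rho, one_smul]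
    simp only [Fintype.sum_prod_type]
    rw [e2, ← Finset.sum_sub_distrib]
    refine (norm_sum_le_of_le _ fun i _ => FR_one hx h0 h1 h2 hδ.le hT hu hc0 hc i p).trans ?_
    rw [← Finset.sum_mul, G.sum_rho, one_mul]
    refine le_of_eq ?_
    field_simp

end Geo

end Crest.Agent.R240

end
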