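import Crest.Agent.R240.Jet

/-!
# Row 240: Neumann series
-/

set_option autoImplicit false
set_option linter.unusedSectionVars false
set_option linter.unusedVariables false

open MeasureTheory Metric Set Filter Topology
open scoped ContDiff ENNReal

noncomputable section

namespace Crest.Agent.R240

namespace Geo

variable {M : Type*} [MetricSpace M] [CompactSpace M] [MeasurableSpace M] [BorelSpace M]
  {G : Geo M}

/-- (B4) Neumann series in all `C^s` at once -/
theorem neumann (G : Geo M) (L : G.AmS →ₗ[ℝ] G.AmS)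
    (h0 : ∀ (g : G.AmS) (c0 : ℝ), 0 ≤ c0 → (∀ p, ‖g.1 p‖ ≤ c0) → ∀ p, ‖(L g).1 p‖ ≤ 1 / 2 * c0)
    (hs : ∀ s : ℕ, ∃ C : ℝ, 0 ≤ C ∧ ∀ (g : G.AmS) (c c0 : ℝ), 0 ≤ c → 0 ≤ c0 → G.CB s g.1 c →
      (∀ p, ‖g.1 p‖ ≤ c0) → G.CB s (L g).1 (1 / 2 * c + C * c0)) :
    ∃ C : ℝ, 0 ≤ C ∧ ∀ (f : G.AmS) (c : ℝ), 0 ≤ c → G.CB 1 f.1 c →
      ∃ g : G.AmS, g - L g = f ∧ G.CB 1 g.1 (C * c) ∧ ∀ p, ‖g.1 p‖ ≤ C * c := by
  obtain ⟨C0, hC0, h00⟩ := G.jn_zero_equiv
  obtain ⟨C1, hC1, h1⟩ := hs 1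
  refine ⟨2 + 4 * C1 * C0 + 2 * C0, by positivity, fun f c hc hf => ?_⟩
  set c0 := C0 * c with hc0
  have hc00 : 0 ≤ c0 := by positivity
  have hsup : ∀ (n : ℕ) p, ‖((L ^ n) f).1 p‖ ≤ c0 * (1 / 2) ^ n := by
    intro n
    induction n with
    | zero =>
      intro p
      have := (h00 f.1 p).1.trans (mul_le_mul_of_nonneg_left
        ((jn_mono zero_le_one f.1 p).trans (hf p)) (by linarith))
      simpa using this
    | succ n ih =>
      intro p
      rw [pow_succ', Module.End.mul_apply]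
      exact (h0 _ _ (by positivity) ih p).trans (le_of_eq (by ring))
  have hcb : ∀ (s : ℕ) (C cs : ℝ), 0 ≤ C → 0 ≤ cs → (∀ (g : G.AmS) (c c0 : ℝ), 0 ≤ c → 0 ≤ c0 →
      G.CB s g.1 c → (∀ p, ‖g.1 p‖ ≤ c0) → G.CB s (L g).1 (1 / 2 * c + C * c0)) → G.CB s f.1 cs →
      ∀ n : ℕ, G.CB s ((L ^ n) f).1 (cs * (1 / 2) ^ n + 2 * C * c0 * (n * (1 / 2) ^ n)) := by
    intro s C cs hC hcs H hfs n
    induction n with
    | zero => simpa using hfs
    | succ n ih =>
      rw [pow_succ', Module.End.mul_apply]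
      refine (H _ _ _ (by positivity) (by positivity) ih (hsup n)).mono le_rfl (le_of_eq ?_)
      push_cast
      ring
  have hsum : ∀ a b : ℝ, HasSum (fun n : ℕ => a * (1 / 2 : ℝ) ^ n + b * (n * (1 / 2) ^ n))
      (a * 2 + b * 2) := by
    intro a b
    have e := hasSum_coe_mul_geometric_of_norm_lt_one (r := (1 / 2 : ℝ)) (by norm_num)
    rw [show (1 / 2 : ℝ) / (1 - 1 / 2) ^ 2 = 2 by norm_num] at e
    exact (hasSum_geometric_two.mul_left a).add (e.mul_left b)
  obtain ⟨s1, s2, s3⟩ := G.S2_tsum (u := fun n => ((L ^ n) f).1) (fun n => ((L ^ n) f).2.smooth)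
    fun s => by
      obtain ⟨C, hC, H⟩ := hs s
      obtain ⟨cs, hcs, hfs⟩ := S2.exists_CB f.2.smooth s
      exact ⟨_, (hsum _ _).summable, hcb s C cs hC hcs H hfs⟩
  have hS : ∀ (N : ℕ) p, (∑ n ∈ Finset.range N, (L ^ n) f).1 p =
      ∑ n ∈ Finset.range N, ((L ^ n) f).1 p := fun N p => by
    rw [Submodule.coe_sum, Finset.sum_apply]
  have hlim : ∀ p, Tendsto (fun N => (∑ n ∈ Finset.range N, (L ^ n) f).1 p) atTop
      (𝓝 (∑' n, ((L ^ n) f).1 p)) := fun p => by
    simp only [hS]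
    exact (s1 p).hasSum.tendsto_sum_nat
  let g : G.AmS := ⟨fun p => ∑' n, ((L ^ n) f).1 p, s2,
    fun p => isClosed_alt.mem_of_tendsto (hlim p) (Eventually.of_forall fun N =>
      (∑ n ∈ Finset.range N, (L ^ n) f).2.alt p),
    fun p => (isClosed_anti J0).mem_of_tendsto (hlim p) (Eventually.of_forall fun N =>
      (∑ n ∈ Finset.range N, (L ^ n) f).2.anti p)⟩
  have htail : ∀ (N : ℕ) p, ‖(g - ∑ n ∈ Finset.range N, (L ^ n) f).1 p‖ ≤ c0 * (1 / 2) ^ N * 2 := by
    intro N p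
    have e : (g - ∑ n ∈ Finset.range N, (L ^ n) f).1 p = ∑' n, ((L ^ (n + N)) f).1 p := by
      rw [Submodule.coe_sub, Pi.sub_apply, hS]
      exact sub_eq_of_eq_add' ((s1 p).sum_add_tsum_nat_add N).symm
    rw [e]
    refine tsum_of_norm_bounded (hasSum_geometric_two.mul_left (c0 * (1 / 2) ^ N)) fun n => ?_
    exact (hsup _ p).trans (le_of_eq (by ring))
  refine ⟨g, ?_, ?_, fun p => ?_⟩
  · have key : ∀ N : ℕ, g - L g - f = (g - ∑ n ∈ Finset.range N, (L ^ n) f) -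
        L (g - ∑ n ∈ Finset.range N, (L ^ n) f) - (L ^ N) f := by
      intro N
      induction N with
      | zero => simp
      | succ N ih =>
        rw [ih, Finset.sum_range_succ, pow_succ', Module.End.mul_apply]
        simp only [map_sub, map_add]
        abel
    rw [← sub_eq_zero]
    ext1
    funext p
    have hb : ∀ N : ℕ, ‖(g - L g - f).1 p‖ ≤ 4 * c0 * (1 / 2) ^ N := by
      intro N
      rw [key N, Submodule.coe_sub, Submodule.coe_sub, Pi.sub_apply, Pi.sub_apply]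
      have a1 := htail N p
      have a2 := h0 _ _ (by positivity) (htail N) p
      have a3 := hsup N p
      refine (norm_sub_le _ _).trans ((add_le_add (norm_sub_le _ _) le_rfl).trans ?_)
      linarith
    have ht : Tendsto (fun N : ℕ => 4 * c0 * (1 / 2 : ℝ) ^ N) atTop (𝓝 (4 * c0 * 0)) :=
      (tendsto_pow_atTop_nhds_zero_of_lt_one (by norm_num) (by norm_num)).const_mul _
    rw [mul_zero] at ht
    exact norm_le_zero_iff.1 (ge_of_tendsto' ht hb)
  · refine (s3 1 _ (hsum _ _).summable (hcb 1 C1 c hC1 hc h1 hf)).mono le_rfl ?_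
    rw [(hsum _ _).tsum_eq, hc0]
    have : 0 ≤ C0 * c := by positivity
    linarith
  · have := htail 0 p
    simp only [Finset.range_zero, Finset.sum_empty, sub_zero, pow_zero, mul_one] at this
    have h2 : 0 ≤ C1 * C0 * c := by positivity
    rw [hc0] at this
    linarith

end Geo

end Crest.Agent.R240

end
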