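import Crest.Agent.R240.Jet

/-!
# Row 240: linear sections
-/

set_option autoImplicit false
set_option linter.unusedSectionVars false
set_option linter.unusedVariables false

open MeasureTheory Metric Set Filter Topology
open scoped ContDiff ENNReal

noncomputable section

namespace Crest.Agent.R240

namespace Geo

variable {M : Type*} [MetricSpace M] [CompactSpace M] [MeasurableSpace M] [BorelSpace M]
  {G : Geo M}

/-- (B5) a bounded section over a finite dimensional space -/
theorem fin_section (G : Geo M) {m : ℕ} (h : Fin m → M → Bil) : ∃ C : ℝ, 0 ≤ C ∧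
    ∀ c : Fin m → ℝ, (∃ η, G.Z η ∧ ∀ p, am (η p) = ∑ j, c j • h j p) →
      ∃ η, G.Z η ∧ (∀ p, am (η p) = ∑ j, c j • h j p) ∧ ∀ p, ‖η p‖ ≤ C * ‖c‖ := by
  let W : Submodule ℝ (Fin m → ℝ) :=
    { carrier := {c | ∃ η, G.Z η ∧ ∀ p, am (η p) = ∑ j, c j • h j p}
      add_mem' := by
        rintro c c' ⟨η, hη, h1⟩ ⟨η', hη', h2⟩
        refine ⟨η + η', hη.add hη', fun p => ?_⟩
        rw [Pi.add_apply, am_add, h1, h2, ← Finset.sum_add_distrib]
        simp only [Pi.add_apply, add_smul]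
      zero_mem' := ⟨0, Z.zero, fun p => by
        have : am (0 : Bil) = 0 := (amL J0).map_zero
        simp [this]⟩
      smul_mem' := by
        rintro a c ⟨η, hη, h1⟩
        refine ⟨a • η, hη.smul a, fun p => ?_⟩
        rw [Pi.smul_apply, am_smul, h1, Finset.smul_sum]
        simp only [Pi.smul_apply, smul_eq_mul, mul_smul] }
  let b := Module.finBasis ℝ W
  have hb : ∀ k, ∃ η, G.Z η ∧ ∀ p, am (η p) = ∑ j, (b k).1 j • h j p := fun k => (b k).2
  choose η hηZ hη using hb
  choose B hB0 hB using fun k => (hηZ k).smooth.bdd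
  let ℓ : Fin (Module.finrank ℝ W) → W →L[ℝ] ℝ := fun k =>
    LinearMap.toContinuousLinearMap (b.coord k)
  refine ⟨∑ k, ‖ℓ k‖ * B k, Finset.sum_nonneg fun k _ => mul_nonneg (ℓ k).opNorm_nonneg (hB0 k),
    fun c hc => ?_⟩
  let c' : W := ⟨c, hc⟩
  have hZ : (∑ k, b.repr c' k • η k) ∈ G.ZS :=
    Submodule.sum_mem _ fun k _ => Submodule.smul_mem _ _ (hηZ k)
  have hc' : ∀ j, c j = ∑ k, b.repr c' k * (b k).1 j := by
    intro j
    have h1 := congrArg (fun w : W => w.1 j) (b.sum_repr c')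
    simp only [Submodule.coe_sum, Submodule.coe_smul, Finset.sum_apply, Pi.smul_apply,
      smul_eq_mul] at h1
    exact h1.symm
  refine ⟨∑ k, b.repr c' k • η k, hZ, fun p => ?_, fun p => ?_⟩
  · have hsum : ∀ β : Fin (Module.finrank ℝ W) → Bil, am (∑ i, β i) = ∑ i, am (β i) := fun β =>
      map_sum (amL J0) β Finset.univ
    simp only [Finset.sum_apply, Pi.smul_apply, hsum, am_smul, hη, Finset.smul_sum, smul_smul]
    rw [Finset.sum_comm]
    refine Finset.sum_congr rfl fun j _ => ?_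
    rw [hc' j, Finset.sum_smul]
  · simp only [Finset.sum_apply, Pi.smul_apply]
    refine (norm_sum_le _ _).trans ?_
    rw [Finset.sum_mul]
    refine Finset.sum_le_sum fun k _ => ?_
    rw [norm_smul]
    have h1 : ‖b.repr c' k‖ ≤ ‖ℓ k‖ * ‖c‖ := (ℓ k).le_opNorm c'
    calc ‖b.repr c' k‖ * ‖η k p‖ ≤ ‖ℓ k‖ * ‖c‖ * B k :=
          mul_le_mul h1 (hB k p) (norm_nonneg _) (by positivity)
      _ = ‖ℓ k‖ * B k * ‖c‖ := by ring

end Geo

end Crest.Agent.R240

end
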