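import Crest.Agent.R240.ParGlob
import Crest.Agent.R240.FinRank
import Crest.Agent.R240.Neumann
import Crest.Agent.R240.Section

/-!
# Row 240: the correction lemma
-/

set_option autoImplicit false
set_option linter.unusedSectionVars false
set_option linter.unusedVariables false

open MeasureTheory Metric Set Filter Topology
open scoped ContDiff ENNReal

noncomputable section

namespace Crest.Agent.R240

namespace Geo

variable {M : Type*} [MetricSpace M] [CompactSpace M] [MeasurableSpace M] [BorelSpace M]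
  {G : Geo M}

/-- (B) a closed form with the same anti-invariant part and controlled size -/
theorem correction (G : Geo M) : ∃ C : ℝ, 0 ≤ C ∧ ∀ η, G.Z η → ∀ c : ℝ, 0 ≤ c →
    G.CB 1 (fun p => am (η p)) c →
      ∃ η', G.Z η' ∧ (∀ p, am (η' p) = am (η p)) ∧ ∀ p, ‖η' p‖ ≤ C * c := by
  obtain ⟨Ee, Q, S, hE1, hid, ⟨CE, hCE, hE⟩, hS0, hSs, hQs⟩ := parametrix G
  obtain ⟨C1, hC1, hQ1⟩ := hQs 1
  obtain ⟨C0, hC0, hQ0⟩ := hQs 0
  obtain ⟨CJ, hCJ, hJ⟩ := jn_zero_equiv G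
  have hη0 : 0 < 1 / (4 * (C1 + 1)) := by positivity
  obtain ⟨m, h, ℓ, Cl, hCl, hℓ, happ⟩ := finite_rank G hη0
  -- the finite rank part
  let F : G.AmS →ₗ[ℝ] G.AmS := ∑ j, ((ℓ j).comp Q).smulRight (h j)
  have hF : ∀ g, (F g).1 = ∑ j, ℓ j (Q g) • (h j).1 := by
    intro g
    simp [F, LinearMap.sum_apply]
  have hQsup : ∀ (g : G.AmS) (c0 : ℝ), 0 ≤ c0 → (∀ p, ‖g.1 p‖ ≤ c0) →
      ∀ p, ‖(Q g).1 p‖ ≤ CJ * (C0 * c0) := fun g c0 h0 hg p =>
    (hJ _ p).1.trans (mul_le_mul_of_nonneg_left (hQ0 g c0 h0 hg p) (by linarith))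
  have hcoef : ∀ (g : G.AmS) (c0 : ℝ), 0 ≤ c0 → (∀ p, ‖g.1 p‖ ≤ c0) →
      ∀ j, |ℓ j (Q g)| ≤ Cl * (CJ * (C0 * c0)) := fun g c0 h0 hg j =>
    hℓ j _ _ (hQsup g c0 h0 hg)
  let L : G.AmS →ₗ[ℝ] G.AmS := Q - F - S
  have hL : ∀ g, (L g).1 = (Q g).1 - (F g).1 - (S g).1 := fun g => rfl
  have hL0 : ∀ (g : G.AmS) (c0 : ℝ), 0 ≤ c0 → (∀ p, ‖g.1 p‖ ≤ c0) →
      ∀ p, ‖(L g).1 p‖ ≤ 1 / 2 * c0 := by
    intro g c0 h0 hg p
    have h1 := happ (Q g) (C1 * c0) (by positivity) (hQ1 g c0 h0 hg) p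
    have h2 := hS0 g c0 h0 hg p
    have h3 : 1 / (4 * (C1 + 1)) * (C1 * c0) ≤ 1 / 4 * c0 := by
      rw [← mul_assoc]
      refine mul_le_mul_of_nonneg_right ?_ h0
      rw [div_mul_eq_mul_div, div_le_div_iff₀ (by positivity) (by positivity)]
      linarith
    have h4 : (L g).1 p = ((Q g).1 p - ∑ j, ℓ j (Q g) • (h j).1 p) - (S g).1 p := by
      rw [hL, hF]; simp
    rw [h4]
    refine (norm_sub_le _ _).trans ?_
    linarith
  have hLs : ∀ s : ℕ, ∃ C : ℝ, 0 ≤ C ∧ ∀ (g : G.AmS) (c c0 : ℝ), 0 ≤ c → 0 ≤ c0 →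
      G.CB s g.1 c → (∀ p, ‖g.1 p‖ ≤ c0) → G.CB s (L g).1 (1 / 2 * c + C * c0) := by
    intro s
    obtain ⟨Cs, hCs, hS⟩ := hSs s
    obtain ⟨Cq, hCq, hQ⟩ := hQs s
    choose b hb0 hb using fun j => (h j).2.smooth.exists_CB s
    have hbs : 0 ≤ ∑ j, b j := Finset.sum_nonneg fun j _ => hb0 j
    refine ⟨Cs + Cq + Cl * (CJ * C0) * ∑ j, b j, by positivity, fun g c c0 hc h0 hg hg0 p => ?_⟩
    have h1 := hS g c c0 hc h0 hg hg0 p
    have h2 := hQ g c0 h0 hg0 p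
    have h3 : G.jn s (F g).1 p ≤ Cl * (CJ * C0) * (∑ j, b j) * c0 := by
      rw [hF]
      refine (jn_sum (fun j _ => (h j).2.smooth.smul _) s p).trans ?_
      rw [Finset.mul_sum, Finset.sum_mul]
      refine Finset.sum_le_sum fun j _ => ?_
      rw [jn_smul (h j).2.smooth]
      calc _ ≤ Cl * (CJ * (C0 * c0)) * b j :=
            mul_le_mul (hcoef g c0 h0 hg0 j) (hb j p) (jn_nonneg _ _ _) (by positivity)
        _ = _ := by ring
    rw [hL]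
    have h4 := jn_sub ((Q g).2.smooth.sub (F g).2.smooth) (S g).2.smooth s p
    have h5 := jn_sub (Q g).2.smooth (F g).2.smooth s p
    nlinarith
  obtain ⟨CN, hCN, hN⟩ := neumann G L hL0 hLs
  obtain ⟨CS, hCS, hsec⟩ := fin_section G fun j => (h j).1
  refine ⟨CE * CN + CS * (Cl * (CJ * (C0 * CN))), by positivity, fun η hη c hc hb => ?_⟩
  obtain ⟨g, hg, hg1, hg0⟩ := hN ⟨fun p => am (η p), Am.of_am hη.smooth hη.alt⟩ c hc hb
  have hkey : ∀ p, am (η p) = am (G.D1 (Ee g) p) + ∑ j, ℓ j (Q g) • (h j).1 p := by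
    intro p
    have h1 : g.1 p - (L g).1 p = am (η p) := congrFun (congrArg Subtype.val hg) p
    rw [hL, hF] at h1
    rw [hid, ← h1]
    simp only [Pi.sub_apply, Finset.sum_apply, Pi.smul_apply]
    abel
  obtain ⟨σ, hσ, hσam, hσb⟩ := hsec (fun j => ℓ j (Q g))
    ⟨η - G.D1 (Ee g), hη.sub (hE1 g).Z, fun p => by
      rw [Pi.sub_apply, am_sub, hkey p]; abel⟩
  refine ⟨G.D1 (Ee g) + σ, (hE1 g).Z.add hσ, fun p => ?_, fun p => ?_⟩
  · rw [Pi.add_apply, am_add, hσam, hkey p]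
  · have h1 := hE g (CN * c) (by positivity) hg1 p
    have h2 : ‖fun j => ℓ j (Q g)‖ ≤ Cl * (CJ * (C0 * (CN * c))) :=
      (pi_norm_le_iff_of_nonneg (by positivity)).mpr fun j =>
        hcoef g _ (by positivity) hg0 j
    have h3 := (hσb p).trans (mul_le_mul_of_nonneg_left h2 hCS)
    rw [Pi.add_apply]
    refine (norm_add_le _ _).trans ?_
    nlinarith

end Geo

end Crest.Agent.R240

end
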