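import Crest.Agent.R240.Chart2

/-!
# Row 240: the volume measure
-/

set_option autoImplicit false
set_option linter.unusedSectionVars false
set_option linter.unusedVariables false

open MeasureTheory Metric Set Filter Topology
open scoped ContDiff ENNReal

noncomputable section

namespace Crest.Agent.R240

namespace VolAux

theorem det_comp (A B : End) : (A.comp B).det = A.det * B.det :=
  LinearMap.det_comp (A : E →ₗ[ℝ] E) (B : E →ₗ[ℝ] E)

theorem abs_det_le {A : End} {C : ℝ} (h : ‖A‖ ≤ C) : |A.det| ≤ C ^ 4 * 24 := by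
  have hC : 0 ≤ C := (norm_nonneg _).trans h
  have h1 : ∀ a, ‖A (e a)‖ ≤ C := fun a => by
    have := A.le_opNorm (e a)
    rw [norm_e, mul_one] at this
    exact this.trans h
  rw [det_eq_det4]
  refine (abs_det4_le _ _ _ _).trans ?_
  have : ‖A (e 0)‖ * ‖A (e 1)‖ * ‖A (e 2)‖ * ‖A (e 3)‖ ≤ C * C * C * C := by
    gcongr <;> exact h1 _
  nlinarith

theorem frame_det (Fr : Frame) : ∃ C : ℝ, 0 < C ∧ ∀ x, C⁻¹ ≤ (Fr.A x).det ∧ (Fr.A x).det ≤ C := by
  obtain ⟨C, hC⟩ := Fr.bdd
  refine ⟨C ^ 4 * 24 + 1, by positivity, fun x => ⟨?_, ?_⟩⟩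
  · have h1 : (Fr.A x).det * (Fr.A' x).det = 1 := by
      rw [← det_comp]
      have : (Fr.A x).comp (Fr.A' x) = ContinuousLinearMap.id ℝ E := by
        ext1 v
        exact Fr.mul x v
      rw [this]
      exact LinearMap.det_id
    have h2 := (le_abs_self _).trans (abs_det_le (hC x).2)
    have h3 := Fr.det_pos x
    rw [inv_le_iff_one_le_mul₀ (by positivity)]
    nlinarith
  · have h2 := (le_abs_self _).trans (abs_det_le (hC x).1)
    linarith

theorem continuous_det (Fr : Frame) : Continuous fun x => (Fr.A x).det :=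
  ContinuousLinearMap.continuous_det.comp Fr.smooth.continuous

theorem measurable_det (Fr : Frame) : Measurable fun x => ENNReal.ofReal (Fr.A x).det :=
  (continuous_det Fr).measurable.ennreal_ofReal

theorem continuous_wp : Continuous fun z : Bil × Bil => wp z.1 z.2 := by
  unfold wp
  fun_prop

theorem sqrt_eq {X : Type*} [MeasurableSpace X] {μ : Measure X} {g : X → Bil} (hg : MemLp g 2 μ) :
    √(∫ p, ‖g p‖ ^ 2 ∂μ) = (eLpNorm g 2 μ).toReal := by
  rw [hg.eLpNorm_eq_integral_rpow_norm (by norm_num) (by norm_num), ENNReal.toReal_ofReal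
    (Real.rpow_nonneg (integral_nonneg fun _ => by positivity) _), Real.sqrt_eq_rpow]
  simp

end VolAux

namespace Geo

variable {M : Type*} [MetricSpace M] [CompactSpace M] [MeasurableSpace M] [BorelSpace M]
  {G : Geo M}

theorem exists_det_bound (G : Geo M) : ∃ c C : ℝ, 0 < c ∧ ∀ i x,
    c ≤ ((G.fr i).A x).det ∧ ((G.fr i).A x).det ≤ C := by
  choose C hC h using fun i => VolAux.frame_det (G.fr i)
  have h0 : 0 ≤ ∑ i, C i := Finset.sum_nonneg fun i _ => (hC i).le
  have h1 : ∀ i, C i ≤ 1 + ∑ i, C i := fun i => by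
    have := Finset.single_le_sum (f := C) (fun j _ => (hC j).le) (Finset.mem_univ i)
    linarith
  refine ⟨(1 + ∑ i, C i)⁻¹, 1 + ∑ i, C i, by positivity, fun i x => ⟨?_, ?_⟩⟩
  · exact (inv_anti₀ (hC i) (h1 i)).trans (h i x).1
  · exact (h i x).2.trans (h1 i)

theorem aemeasurable_symm (i : Fin G.n) :
    AEMeasurable (G.κ i).symm ((volume : Measure E).restrict (ball 0 3)) := by
  have := (G.κ i).continuousOn_symm
  rw [G.tgt i] at this
  exact this.aemeasurable measurableSet_ball

theorem aemeasurable_comp_symm (i : Fin G.n) {Y : Type*} [MeasurableSpace Y] {f : M → Y}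
    (hf : Measurable f) :
    AEMeasurable (fun x => f ((G.κ i).symm x)) ((volume : Measure E).restrict (ball 0 3)) :=
  hf.comp_aemeasurable (aemeasurable_symm i)

theorem measurable_rho (G : Geo M) (i : Fin G.n) : Measurable (G.rho i) :=
  (G.rho_S0 i).continuous.measurable

instance isFiniteMeasure_V (G : Geo M) : IsFiniteMeasure G.V := by
  obtain ⟨c, C, hc, h⟩ := G.exists_det_bound
  have : ∀ i, IsFiniteMeasure (((volume : Measure E).restrict (ball (0 : E) 3)).withDensity fun x =>
      ENNReal.ofReal (G.rho i ((G.κ i).symm x) * ((G.fr i).A x).det)) := by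
    intro i
    refine isFiniteMeasure_withDensity (ne_of_lt ?_)
    refine lt_of_le_of_lt (lintegral_mono (g := fun _ => ENNReal.ofReal C) fun x => ?_) ?_
    · refine ENNReal.ofReal_le_ofReal ?_
      have h1 := G.rho_le_one i ((G.κ i).symm x)
      have h2 := (h i x).2
      have h3 := (G.fr i).det_pos x
      nlinarith
    · rw [lintegral_const, Measure.restrict_apply_univ]
      exact ENNReal.mul_lt_top ENNReal.ofReal_lt_top measure_ball_lt_top
  unfold V
  infer_instance

/-- change of charts -/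
theorem lintegral_change (i j : Fin G.n) {g : M → ℝ≥0∞}
    (hi : ∀ p, p ∉ (G.κ i).source → g p = 0) (hj : ∀ p, p ∉ (G.κ j).source → g p = 0) :
    ∫⁻ y in ball (0 : E) 3, ENNReal.ofReal ((G.fr j).A y).det * g ((G.κ j).symm y)
      = ∫⁻ x in ball (0 : E) 3, ENNReal.ofReal ((G.fr i).A x).det * g ((G.κ i).symm x) := by
  have red : ∀ (a b : Fin G.n), (∀ p, p ∉ (G.κ b).source → g p = 0) →
      ∫⁻ x in ball (0 : E) 3, ENNReal.ofReal ((G.fr a).A x).det * g ((G.κ a).symm x)
        = ∫⁻ x in {x : E | x ∈ ball (0 : E) 3 ∧ (G.κ a).symm x ∈ (G.κ b).source},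
          ENNReal.ofReal ((G.fr a).A x).det * g ((G.κ a).symm x) := by
    intro a b hb
    rw [← lintegral_indicator measurableSet_ball,
      ← lintegral_indicator (isOpen_dom a b).measurableSet]
    congr 1
    funext x
    by_cases h1 : x ∈ ball (0 : E) 3
    · by_cases h2 : (G.κ a).symm x ∈ (G.κ b).source
      · rw [indicator_of_mem h1, indicator_of_mem (by exact ⟨h1, h2⟩)]
      · rw [indicator_of_mem h1, indicator_of_notMem (fun h => h2 h.2), hb _ h2, mul_zero]
    · rw [indicator_of_notMem h1, indicator_of_notMem (fun h => h1 h.1)]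
  rw [red j i hi, red i j hj]
  have himg : G.tr i j '' {x : E | x ∈ ball (0 : E) 3 ∧ (G.κ i).symm x ∈ (G.κ j).source}
      = {x : E | x ∈ ball (0 : E) 3 ∧ (G.κ j).symm x ∈ (G.κ i).source} := by
    ext y
    constructor
    · rintro ⟨x, ⟨h1, h2⟩, rfl⟩
      refine ⟨map_mem h2, ?_⟩
      rw [tr, symm_map h2]
      exact symm_mem h1
    · rintro ⟨h1, h2⟩
      refine ⟨G.κ i ((G.κ j).symm y), ⟨map_mem h2, ?_⟩, ?_⟩
      · rw [symm_map h2]
        exact symm_mem h1
      · rw [tr, symm_map h2, map_symm h1]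
  rw [← himg, lintegral_image_eq_lintegral_abs_det_fderiv_mul volume
    (isOpen_dom i j).measurableSet (f' := fun x => fderiv ℝ (G.tr i j) x)]
  · refine setLIntegral_congr_fun (isOpen_dom i j).measurableSet fun x hx => ?_
    obtain ⟨h1, h2⟩ := hx
    have h3 := symm_mem (G := G) (i := i) h1
    have h4 : (G.T j ((G.κ i).symm x)).comp (fderiv ℝ (G.tr i j) x) = G.T i ((G.κ i).symm x) := by
      ext1 v
      have := T_tr' h3 h2 v
      rw [map_symm h1] at this
      exact this
    have h5 := congrArg ContinuousLinearMap.det h4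
    rw [VolAux.det_comp, det_T h2, det_T h3, map_symm h1] at h5
    have h6 := (G.fr i).det_pos x
    have h7 := (G.fr j).det_pos (G.κ j ((G.κ i).symm x))
    have h8 : 0 < (fderiv ℝ (G.tr i j) x).det := by
      by_contra h
      push Not at h
      nlinarith
    have h9 : G.tr i j x = G.κ j ((G.κ i).symm x) := rfl
    change ENNReal.ofReal |(fderiv ℝ (G.tr i j) x).det| *
      (ENNReal.ofReal ((G.fr j).A (G.tr i j x)).det * g ((G.κ j).symm (G.tr i j x))) = _
    rw [← mul_assoc, abs_of_pos h8, ← ENNReal.ofReal_mul h8.le, h9, symm_map h2,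
      mul_comm (fderiv ℝ (G.tr i j) x).det, h5]
  · rintro x ⟨h1, h2⟩
    have := (tr_contDiffAt (symm_mem (G := G) (i := i) h1) h2).differentiableAt (by simp)
    rw [map_symm h1] at this
    exact this.hasFDerivAt.hasFDerivWithinAt
  · rintro x ⟨h1, h2⟩ y ⟨h3, h4⟩ h
    have h5 := congrArg (G.κ j).symm h
    rw [tr, tr, symm_map h2, symm_map h4] at h5
    rw [← map_symm (G := G) (i := i) h1, h5, map_symm h3]

/-- chart formula for nonnegative functions -/
theorem lintegral_chart (i : Fin G.n) {f : M → ℝ≥0∞} (hf : Measurable f)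
    (h0 : ∀ p, p ∉ (G.κ i).source → f p = 0) :
    ∫⁻ p, f p ∂G.V
      = ∫⁻ x in ball (0 : E) 3, ENNReal.ofReal ((G.fr i).A x).det * f ((G.κ i).symm x) := by
  have hm : ∀ j, Measurable fun p => ENNReal.ofReal (G.rho j p) * f p := fun j =>
    (G.measurable_rho j).ennreal_ofReal.mul hf
  have h1 : ∀ j, ∫⁻ p, f p ∂(((volume.restrict (ball (0 : E) 3)).withDensity fun x =>
      ENNReal.ofReal (G.rho j ((G.κ j).symm x) * ((G.fr j).A x).det)).map (G.κ j).symm)
      = ∫⁻ x in ball (0 : E) 3, ENNReal.ofReal ((G.fr i).A x).det *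
        (ENNReal.ofReal (G.rho j ((G.κ i).symm x)) * f ((G.κ i).symm x)) := by
    intro j
    have a1 : AEMeasurable (fun x => ENNReal.ofReal (G.rho j ((G.κ j).symm x) * ((G.fr j).A x).det))
        (volume.restrict (ball (0 : E) 3)) :=
      ((aemeasurable_comp_symm j (G.measurable_rho j)).mul
        (VolAux.continuous_det _).measurable.aemeasurable).ennreal_ofReal
    rw [lintegral_map' hf.aemeasurable
      ((aemeasurable_symm j).mono' (withDensity_absolutelyContinuous _ _)),
      lintegral_withDensity_eq_lintegral_mul₀ a1 (aemeasurable_comp_symm j hf),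
      ← lintegral_change i j (g := fun p => ENNReal.ofReal (G.rho j p) * f p)]
    · congr 1
      funext x
      simp only [Pi.mul_apply]
      rw [ENNReal.ofReal_mul (G.rho_nonneg _ _)]
      ring
    · intro p hp
      rw [h0 p hp, mul_zero]
    · intro p hp
      have : G.rho j p = 0 := by
        by_contra h
        exact hp (rho_ne_zero h).1
      simp [this]
  rw [V, lintegral_finsetSum_measure]
  simp only [h1]
  have h2 : ∀ j, AEMeasurable (fun x => ENNReal.ofReal ((G.fr i).A x).det *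
      (ENNReal.ofReal (G.rho j ((G.κ i).symm x)) * f ((G.κ i).symm x)))
      (volume.restrict (ball (0 : E) 3)) := fun j =>
    (VolAux.measurable_det _).aemeasurable.mul (aemeasurable_comp_symm i (hm j))
  rw [← lintegral_finsetSum' _ fun j _ => h2 j]
  congr 1
  funext x
  rw [← Finset.mul_sum, ← Finset.sum_mul,
    ← ENNReal.ofReal_sum_of_nonneg fun j _ => G.rho_nonneg j _, G.sum_rho]
  simp

/-- the volume measure in a chart -/
theorem V_restrict (i : Fin G.n) : G.V.restrict (G.κ i).source =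
    ((volume.restrict (ball (0 : E) 3)).withDensity fun x =>
      ENNReal.ofReal ((G.fr i).A x).det).map (G.κ i).symm := by
  have hs := (G.κ i).open_source.measurableSet
  refine Measure.ext fun s hs' => ?_
  have hm : ∀ {t : Set M}, MeasurableSet t → Measurable (t.indicator (1 : M → ℝ≥0∞)) :=
    fun ht => measurable_one.indicator ht
  rw [Measure.restrict_apply hs', ← lintegral_indicator_one (hs'.inter hs),
    lintegral_chart i (hm (hs'.inter hs)) fun p hp => indicator_of_notMem (fun h => hp h.2) _,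
    ← lintegral_indicator_one hs', lintegral_map' (hm hs').aemeasurable
      ((aemeasurable_symm i).mono' (withDensity_absolutelyContinuous _ _)),
    lintegral_withDensity_eq_lintegral_mul₀ (VolAux.measurable_det _).aemeasurable
      (aemeasurable_comp_symm i (hm hs'))]
  refine setLIntegral_congr_fun measurableSet_ball fun x hx => ?_
  have h1 := symm_mem (G := G) (i := i) hx
  simp only [Pi.mul_apply]
  congr 1
  by_cases h : (G.κ i).symm x ∈ s
  · rw [indicator_of_mem h, indicator_of_mem (by exact ⟨h, h1⟩)]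
  · rw [indicator_of_notMem h, indicator_of_notMem (fun h' => h h'.1)]

/-- chart formula -/
theorem integral_chart {F : Type*} [NormedAddCommGroup F] [NormedSpace ℝ F] [CompleteSpace F]
    (i : Fin G.n) {f : M → F} (hf : StronglyMeasurable f)
    (h0 : ∀ p, p ∉ (G.κ i).source → f p = 0) :
    (Integrable f G.V ↔
      IntegrableOn (fun x => ((G.fr i).A x).det • f ((G.κ i).symm x)) (ball (0 : E) 3)) ∧
    ∫ p, f p ∂G.V = ∫ x in ball (0 : E) 3, ((G.fr i).A x).det • f ((G.κ i).symm x) := by
  have hs := (G.κ i).open_source.measurableSet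
  have hm : AEMeasurable (G.κ i).symm ((volume.restrict (ball (0 : E) 3)).withDensity fun x =>
      ENNReal.ofReal ((G.fr i).A x).det) :=
    (aemeasurable_symm i).mono' (withDensity_absolutelyContinuous _ _)
  have hd : ∀ x, (ENNReal.ofReal ((G.fr i).A x).det).toReal = ((G.fr i).A x).det := fun x =>
    ENNReal.toReal_ofReal ((G.fr i).det_pos x).le
  constructor
  · have h1 : Integrable f G.V ↔ IntegrableOn f (G.κ i).source G.V :=
      (integrableOn_iff_integrable_of_support_subset fun p hp => by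
        by_contra h
        exact hp (h0 p h)).symm
    rw [h1, IntegrableOn, V_restrict, integrable_map_measure hf.aestronglyMeasurable hm,
      integrable_withDensity_iff_integrable_smul' (VolAux.measurable_det _)
        (Eventually.of_forall fun _ => ENNReal.ofReal_lt_top)]
    simp only [hd]
    rfl
  · rw [← setIntegral_eq_integral_of_forall_compl_eq_zero h0, V_restrict,
      integral_map hm hf.aestronglyMeasurable,
      integral_withDensity_eq_integral_toReal_smul (VolAux.measurable_det _)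
        (Eventually.of_forall fun _ => ENNReal.ofReal_lt_top)]
    simp only [hd]

theorem V_le_of (i : Fin G.n) {C : ℝ} (hC : ∀ x, ((G.fr i).A x).det ≤ C) {s : Set M}
    (hs : MeasurableSet s) (hsi : s ⊆ (G.κ i).source) {t : Set E} (ht : MeasurableSet t)
    (hst : ∀ q ∈ s, G.κ i q ∈ t) : G.V s ≤ ENNReal.ofReal C * volume t := by
  rw [← lintegral_indicator_one hs, lintegral_chart i (measurable_one.indicator hs)
    fun p hp => indicator_of_notMem (fun h => hp (hsi h)) _, ← lintegral_indicator_const ht,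
    ← lintegral_indicator measurableSet_ball]
  refine lintegral_mono fun x => ?_
  by_cases h1 : x ∈ ball (0 : E) 3
  · rw [indicator_of_mem h1]
    by_cases h2 : (G.κ i).symm x ∈ s
    · have h3 := hst _ h2
      rw [map_symm h1] at h3
      rw [indicator_of_mem h2, indicator_of_mem h3, Pi.one_apply, mul_one]
      exact ENNReal.ofReal_le_ofReal (hC x)
    · rw [indicator_of_notMem h2, mul_zero]
      exact zero_le
  · rw [indicator_of_notMem h1]
    exact zero_le

theorem lintegral_chart_le (i : Fin G.n) {c : ℝ} (hc : ∀ x, c ≤ ((G.fr i).A x).det) {s : Set M}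
    (hs : MeasurableSet s) {t : Set E} (ht : MeasurableSet t) (htb : t ⊆ ball 0 3)
    (hst : ∀ x ∈ t, (G.κ i).symm x ∈ s) {f : M → ℝ≥0∞} (hf : Measurable f) :
    ∫⁻ x in t, ENNReal.ofReal c * f ((G.κ i).symm x) ≤ ∫⁻ q in s, f q ∂G.V := by
  have hs' := hs.inter (G.κ i).open_source.measurableSet
  refine le_trans ?_ (lintegral_mono_set (s := s ∩ (G.κ i).source) inter_subset_left)
  rw [← lintegral_indicator hs', lintegral_chart i (hf.indicator hs')
    fun p hp => indicator_of_notMem (fun h => hp h.2) _, ← lintegral_indicator ht,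
    ← lintegral_indicator measurableSet_ball]
  refine lintegral_mono fun x => ?_
  by_cases h1 : x ∈ t
  · rw [indicator_of_mem h1, indicator_of_mem (htb h1),
      indicator_of_mem (by exact ⟨hst x h1, symm_mem (htb h1)⟩)]
    gcongr
    exact hc x
  · rw [indicator_of_notMem h1]
    exact zero_le

theorem V_ball_le (G : Geo M) : ∃ C : ℝ, 0 < C ∧ ∀ p r, 0 ≤ r →
    G.V.real (closedBall p r) ≤ C * r ^ 4 := by
  obtain ⟨c, C, hc, h⟩ := G.exists_det_bound
  obtain ⟨δ, hδ, hK⟩ := G.near_K (r := 1) (r' := 5 / 2) (by norm_num) (by norm_num)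
  obtain ⟨L, hL, hLip⟩ := G.exists_lip
  obtain ⟨w, hw, hvol⟩ := volume_closedBall_real
  have hV : 0 ≤ G.V.real univ := measureReal_nonneg
  refine ⟨|C| * (w * L ^ 4) + G.V.real univ / δ ^ 4 + 1, by positivity, fun p r hr => ?_⟩
  have hr4 : 0 ≤ r ^ 4 := by positivity
  have e1 : 0 ≤ |C| * (w * L ^ 4) * r ^ 4 := by positivity
  have e2 : 0 ≤ G.V.real univ / δ ^ 4 * r ^ 4 := by positivity
  rcases le_total r δ with h1 | h1
  · have h2 : ∀ q ∈ closedBall p r, q ∈ G.K (G.ch p) (5 / 2) := fun q hq =>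
      hK _ p (G.mem_K_ch p) q (by rw [dist_comm]; exact (mem_closedBall.1 hq).trans h1)
    have h3 := V_le_of (G.ch p) (C := |C|) (fun x => (h _ x).2.trans (le_abs_self _))
      (s := closedBall p r) measurableSet_closedBall (fun q hq => (h2 q hq).1)
      (t := closedBall (G.κ (G.ch p) p) (L * r)) measurableSet_closedBall fun q hq => by
        rw [mem_closedBall, dist_eq_norm]
        refine (hLip _ q (h2 q hq) p (K_mono _ (by norm_num) (G.mem_K_ch p))).2.trans ?_
        exact mul_le_mul_of_nonneg_left (mem_closedBall.1 hq) (by linarith)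
    have h4 := ENNReal.toReal_mono
      (ENNReal.mul_ne_top ENNReal.ofReal_ne_top measure_closedBall_lt_top.ne) h3
    rw [ENNReal.toReal_mul, ENNReal.toReal_ofReal (abs_nonneg _), ← measureReal_def,
      ← measureReal_def, hvol _ _ (by positivity)] at h4
    have e3 : |C| * (w * (L * r) ^ 4) = |C| * (w * L ^ 4) * r ^ 4 := by ring
    nlinarith
  · have h2 : G.V.real (closedBall p r) ≤ G.V.real univ := measureReal_mono (subset_univ _)
    have h3 : G.V.real univ ≤ G.V.real univ / δ ^ 4 * r ^ 4 := by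
      rw [div_mul_eq_mul_div, le_div_iff₀ (by positivity)]
      gcongr
    nlinarith

theorem V_ball_ge (G : Geo M) : ∃ c : ℝ, 0 < c ∧ ∀ p r, 0 ≤ r → r ≤ 1 →
    c * r ^ 4 ≤ G.V.real (closedBall p r) := by
  obtain ⟨c, C, hc, h⟩ := G.exists_det_bound
  obtain ⟨L, hL, hLip⟩ := G.exists_lip
  obtain ⟨w, hw, hvol⟩ := volume_closedBall_real
  have hL0 : 0 < L := by linarith
  refine ⟨c * (w / L ^ 4), by positivity, fun p r hr hr1 => ?_⟩
  have h1 : r / L ≤ 1 := by rw [div_le_one hL0]; linarith
  have h2 : ∀ x ∈ closedBall (G.κ (G.ch p) p) (r / L), ‖x‖ ≤ 5 / 2 := fun x hx => by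
    have a1 := mem_closedBall_iff_norm.1 hx
    have a2 := G.ch_lt p
    have a3 := norm_le_insert' x (G.κ (G.ch p) p)
    linarith
  have h3 : closedBall (G.κ (G.ch p) p) (r / L) ⊆ ball 0 3 := fun x hx => by
    rw [mem_ball_zero_iff]
    linarith [h2 x hx]
  have h4 := lintegral_chart_le (G.ch p) (fun x => (h _ x).1) (s := closedBall p r)
    measurableSet_closedBall measurableSet_closedBall h3 (fun x hx => by
      have a1 := (hLip _ _ (symm_mem_K (by norm_num) (h2 x hx)) p
        (K_mono _ (by norm_num) (G.mem_K_ch p))).1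
      rw [map_symm (h3 hx)] at a1
      have a2 := mem_closedBall_iff_norm.1 hx
      rw [le_div_iff₀ hL0] at a2
      rw [mem_closedBall]
      linarith) (f := fun _ => 1) measurable_const
  simp only [mul_one, lintegral_const, MeasurableSet.univ, Measure.restrict_apply, univ_inter,
    one_mul] at h4
  have h5 := ENNReal.toReal_mono (measure_ne_top _ _) h4
  rw [ENNReal.toReal_mul, ENNReal.toReal_ofReal hc.le, ← measureReal_def,
    ← measureReal_def, hvol _ _ (by positivity)] at h5
  refine le_of_eq_of_le ?_ h5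
  field_simp

theorem S2.memLp {η : M → Bil} (h : G.S2 η) (q : ℝ≥0∞) : MemLp η q G.V := by
  obtain ⟨C, -, hC⟩ := h.bdd
  exact MemLp.of_bound h.measurable.aestronglyMeasurable C (Eventually.of_forall hC)
theorem S2.integrable {η : M → Bil} (h : G.S2 η) : Integrable η G.V :=
  memLp_one_iff_integrable.1 (h.memLp 1)
theorem n2_nonneg (g : M → Bil) : 0 ≤ G.n2 g := integral_nonneg fun _ => by positivity

/-- Cauchy–Schwarz for the wedge pairing -/
theorem abs_integral_wp_le {η ζ : M → Bil} (hη : MemLp η 2 G.V) (hζ : MemLp ζ 2 G.V) :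
    Integrable (fun p => wp (η p) (ζ p)) G.V ∧
      |∫ p, wp (η p) (ζ p) ∂G.V| ≤ 6 * √(G.n2 η) * √(G.n2 ζ) := by
  have h1 : Integrable (fun p => 6 * (‖η p‖ * ‖ζ p‖)) G.V :=
    (hη.norm.integrable_mul hζ.norm).const_mul 6
  have h2 : ∀ p, ‖wp (η p) (ζ p)‖ ≤ 6 * (‖η p‖ * ‖ζ p‖) := fun p => by
    rw [← mul_assoc]
    exact abs_wp_le _ _
  have h0 : AEStronglyMeasurable (fun p => wp (η p) (ζ p)) G.V :=
    Continuous.comp_aestronglyMeasurable₂ (g := fun β γ : Bil => wp β γ) VolAux.continuous_wp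
      hη.aestronglyMeasurable hζ.aestronglyMeasurable
  refine ⟨h1.mono' h0 (Eventually.of_forall h2), ?_⟩
  have h4 : |∫ p, wp (η p) (ζ p) ∂G.V| ≤ ∫ p, 6 * (‖η p‖ * ‖ζ p‖) ∂G.V :=
    norm_integral_le_of_norm_le h1 (Eventually.of_forall h2)
  refine h4.trans ?_
  rw [integral_const_mul, mul_assoc]
  refine mul_le_mul_of_nonneg_left ?_ (by norm_num)
  have e2 : ENNReal.ofReal (2 : ℝ) = 2 := by simp
  have h3 := integral_mul_norm_le_Lp_mul_Lq (μ := G.V) (f := η) (g := ζ) Real.HolderConjugate.two_two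
    (by rw [e2]; exact hη) (by rw [e2]; exact hζ)
  rw [Real.sqrt_eq_rpow, Real.sqrt_eq_rpow]
  simp only [Real.rpow_two] at h3
  exact h3

theorem sqrt_n2_add_le {η ζ : M → Bil} (hη : MemLp η 2 G.V) (hζ : MemLp ζ 2 G.V) :
    √(G.n2 (η + ζ)) ≤ √(G.n2 η) + √(G.n2 ζ) := by
  rw [n2, n2, n2, VolAux.sqrt_eq hη, VolAux.sqrt_eq hζ, VolAux.sqrt_eq (hη.add hζ),
    ← ENNReal.toReal_add hη.2.ne hζ.2.ne]
  exact ENNReal.toReal_mono (ENNReal.add_ne_top.2 ⟨hη.2.ne, hζ.2.ne⟩)
    (eLpNorm_add_le hη.1 hζ.1 (by norm_num))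

/-- comparison of a local integral in a chart with an integral over a metric ball -/
theorem setIntegral_chart_le (G : Geo M) : ∃ C : ℝ, 1 ≤ C ∧ ∀ i, ∀ p ∈ G.K i 2, ∀ r, 0 ≤ r →
    r ≤ 1 / 2 → ∀ f : M → ℝ, Measurable f → (∀ q, 0 ≤ f q) → Integrable f G.V →
      ∫ y in closedBall (G.κ i p) r, f ((G.κ i).symm y) ≤ C * ∫ q in closedBall p (C * r), f q ∂G.V := by
  obtain ⟨c, C, hc, h⟩ := G.exists_det_bound
  obtain ⟨L, hL, hLip⟩ := G.exists_lip
  have hc' : 0 < c⁻¹ := inv_pos.2 hc
  refine ⟨L + c⁻¹, by linarith, fun i p hp r hr hr1 f hf hf0 hfi => ?_⟩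
  have h2 : ∀ x ∈ closedBall (G.κ i p) r, ‖x‖ ≤ 5 / 2 := fun x hx => by
    have a1 := mem_closedBall_iff_norm.1 hx
    have a2 : ‖G.κ i p‖ ≤ 2 := hp.2
    have a3 := norm_le_insert' x (G.κ i p)
    linarith
  have h3 : closedBall (G.κ i p) r ⊆ ball 0 3 := fun x hx => by
    rw [mem_ball_zero_iff]
    linarith [h2 x hx]
  have h3' : ∀ x ∈ closedBall (G.κ i p) r, (G.κ i).symm x ∈ closedBall p ((L + c⁻¹) * r) := by
    intro x hx
    have a1 := (hLip _ _ (symm_mem_K (by norm_num) (h2 x hx)) p (K_mono _ (by norm_num) hp)).1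
    rw [map_symm (h3 hx)] at a1
    have a2 := mem_closedBall_iff_norm.1 hx
    have a3 : L * ‖x - G.κ i p‖ ≤ L * r := mul_le_mul_of_nonneg_left a2 (by linarith)
    have a4 : 0 ≤ c⁻¹ * r := by positivity
    rw [mem_closedBall, add_mul]
    linarith
  have h4 := lintegral_chart_le i (fun x => (h _ x).1) (s := closedBall p ((L + c⁻¹) * r))
    measurableSet_closedBall measurableSet_closedBall h3 h3' hf.ennreal_ofReal
  have h6 : 0 ≤ ∫ q in closedBall p ((L + c⁻¹) * r), f q ∂G.V := integral_nonneg hf0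
  have h8 : ∫ y in closedBall (G.κ i p) r, f ((G.κ i).symm y) =
      (∫⁻ y in closedBall (G.κ i p) r, ENNReal.ofReal (f ((G.κ i).symm y))).toReal :=
    integral_eq_lintegral_of_nonneg_ae (Eventually.of_forall fun _ => hf0 _)
      ((aemeasurable_comp_symm i hf).mono_set h3).aestronglyMeasurable
  have h9 : ENNReal.ofReal (∫ q in closedBall p ((L + c⁻¹) * r), f q ∂G.V) =
      ∫⁻ q in closedBall p ((L + c⁻¹) * r), ENNReal.ofReal (f q) ∂G.V :=
    ofReal_integral_eq_lintegral_ofReal hfi.integrableOn (Eventually.of_forall hf0)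
  rw [lintegral_const_mul' _ _ ENNReal.ofReal_ne_top, ← h9] at h4
  have h5 := ENNReal.toReal_mono ENNReal.ofReal_ne_top h4
  rw [ENNReal.toReal_mul, ENNReal.toReal_ofReal hc.le, ENNReal.toReal_ofReal h6, ← h8] at h5
  have h7 := mul_le_mul_of_nonneg_left h5 hc'.le
  rw [← mul_assoc, inv_mul_cancel₀ hc.ne', one_mul] at h7
  exact h7.trans (mul_le_mul_of_nonneg_right (by linarith) h6)

end Geo

end Crest.Agent.R240

end
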