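import Crest.Agent.R240.ChartD
import Crest.Agent.R240.Vol

/-!
# Row 240: Stokes' theorem on the model
-/

set_option autoImplicit false
set_option linter.unusedSectionVars false
set_option linter.unusedVariables false

open MeasureTheory Metric Set Filter Topology
open scoped ContDiff ENNReal

noncomputable section

namespace Crest.Agent.R240

namespace Geo

variable {M : Type*} [MetricSpace M] [CompactSpace M] [MeasurableSpace M] [BorelSpace M]
  {G : Geo M}

theorem stokes_continuous_pb : Continuous fun z : Bil × End => pb z.1 z.2 :=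
  continuous_iff_continuousAt.2 fun _ =>
    (ContDiffAt.pb (n := 0) contDiffAt_fst contDiffAt_snd).continuousAt

theorem stokes_measurable_ext2 (i : Fin G.n) {η : E → Bil} (hη : Measurable η) :
    Measurable (G.ext2 i η) := by
  have : G.ext2 i η = fun p => pb (G.ext0 i η p) (G.Ti i p) := by
    funext p
    unfold ext2 ext0
    split_ifs
    · rfl
    · ext u v
      simp
  rw [this]
  exact stokes_continuous_pb.measurable2 (c := pb) (measurable_ext0 i hη) (G.Ti_meas i)

/-- the wedge pairing read in a chart -/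
theorem integral_wp_ext2 (i : Fin G.n) {η : E → Bil} (hη : Measurable η) (ha : ∀ x, Alt (η x))
    {Φ : M → Bil} (hΦ : Measurable Φ) (ha' : ∀ p, Alt (Φ p)) :
    ∫ p, wp (G.ext2 i η p) (Φ p) ∂G.V = ∫ x in ball (0 : E) 3, wp (η x) (G.loc2 i Φ x) := by
  have hm : Measurable fun p => wp (G.ext2 i η p) (Φ p) :=
    VolAux.continuous_wp.measurable2 (c := wp) (stokes_measurable_ext2 i hη) hΦ
  rw [(integral_chart i hm.stronglyMeasurable fun p hp => by simp [ext2, hp, wp]).2]
  refine setIntegral_congr_fun measurableSet_ball fun x hx => ?_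
  simp only [smul_eq_mul]
  rw [← wp_loc hx (alt_ext2 i (fun x _ => ha x) _) (ha' _), loc2_ext2 hx]

theorem stokes_alt_rep2 (i : Fin G.n) {η : M → Bil} (ha : ∀ p, Alt (η p)) (x : E) :
    Alt (G.rep2 i η x) := ((ha _).pb _).smul _

/-- the pairing with the derivative of a form supported in a chart -/
theorem stokes_wp_D1_ext1 (i : Fin G.n) {γ : E → Cov} (hγ : ContDiff ℝ ∞ γ)
    (hs : tsupport γ ⊆ closedBall 0 1) {η : M → Bil} (h : G.S2 η) (ha : ∀ p, Alt (η p)) :
    ∫ p, wp (G.D1 (G.ext1 i γ) p) (η p) ∂G.V = ∫ x, wp (d1 γ x) (G.rep2 i η x) := by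
  have h0 : ∀ x : E, 1 < ‖x‖ → x ∉ tsupport γ := fun x hx hx' =>
    absurd (mem_closedBall_zero_iff.1 (hs hx')) (not_le.2 hx)
  have h1 : ∀ x : E, 1 < ‖x‖ → ∀ β, wp (d1 γ x) β = 0 := fun x hx β => by
    rw [d1_congr (notMem_tsupport_iff_eventuallyEq.1 (h0 x hx))]
    simp [wp, d1_apply]
  have hc : Continuous (d1 γ) :=
    continuous_iff_continuousAt.2 fun x => (ContDiffAt.d1 hγ.contDiffAt).continuousAt
  have hm : Measurable (d1 γ) := hc.measurable
  rw [D1_ext1 i hγ.contDiffOn (r := 1) (by norm_num)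
      fun x _ hx => image_eq_zero_of_notMem_tsupport (h0 x hx),
    integral_wp_ext2 i hm (alt_d1 γ) h.measurable ha,
    ← setIntegral_eq_integral_of_forall_compl_eq_zero (s := ball (0 : E) 3)
      (f := fun x => wp (d1 γ x) (G.rep2 i η x)) fun x hx =>
      h1 x (by rw [mem_ball_zero_iff] at hx; linarith [not_lt.1 hx]) _]
  refine integral_congr_ae (Eventually.of_forall fun x => ?_)
  simp only
  rcases le_or_gt ‖x‖ 1 with hx | hx
  · rw [rep2_eq i η (by linarith)]
  · rw [h1 x hx, h1 x hx]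

theorem stokes {γ : M → Cov} {ζ : M → Bil} (hγ : G.S1 γ) (hζ : G.Z ζ) :
    ∫ p, wp (G.D1 γ p) (ζ p) ∂G.V = 0 := by
  obtain ⟨γ', h1, rfl⟩ := hγ.decomp
  have h2 : ∀ i, G.S1 (G.ext1 i (γ' i)) := fun i =>
    S1_ext1 i (h1 i).1.contDiffOn (r := 1) (by norm_num) fun x _ hx =>
      image_eq_zero_of_notMem_tsupport fun hx' =>
        absurd (mem_closedBall_zero_iff.1 ((h1 i).2 hx')) (not_le.2 hx)
  have h3 : ∀ p, wp (G.D1 (∑ i, G.ext1 i (γ' i)) p) (ζ p) =
      ∑ i, wp (G.D1 (G.ext1 i (γ' i)) p) (ζ p) := fun p => by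
    rw [D1_sum fun i _ => h2 i, Finset.sum_apply, wp_comm]
    simp only [wp_comm _ (ζ p)]
    exact map_sum (wpL (ζ p)) _ _
  simp only [h3]
  rw [integral_finsetSum _ fun i _ =>
    (abs_integral_wp_le ((h2 i).Z.smooth.memLp 2) (hζ.smooth.memLp 2)).1]
  refine Finset.sum_eq_zero fun i _ => ?_
  rw [stokes_wp_D1_ext1 i (h1 i).1 (h1 i).2 hζ.smooth hζ.alt, stokes_euclid (h1 i).1
    ((isCompact_closedBall _ _).of_isClosed_subset (isClosed_tsupport _) (h1 i).2)
    (hζ.smooth.rep2 i) (stokes_alt_rep2 i hζ.alt)]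
  refine integral_eq_zero_of_ae (Eventually.of_forall fun x => ?_)
  by_cases hx : x ∈ tsupport (γ' i)
  · have h4 := mem_closedBall_zero_iff.1 ((h1 i).2 hx)
    have h5 : ∀ u v w, d2 (G.rep2 i ζ) x u v w = 0 := fun u v w => by
      rw [d2_congr (rep2_eventuallyEq i ζ (by linarith)),
        hζ.d2_loc i (mem_ball_zero_iff.2 (by linarith))]
    simp [w13, h5]
  · simp [w13, image_eq_zero_of_notMem_tsupport hx]

theorem Z_of_weak {η : M → Bil} (h : G.S2 η) (ha : ∀ p, Alt (η p))
    (hw : ∀ γ, G.S1 γ → ∫ p, wp (G.D1 γ p) (η p) ∂G.V = 0) : G.Z η := by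
  refine Z_of_loc h ha fun i x hx u v w => ?_
  rw [← d2_congr (rep2_eventuallyEq i η (by linarith [mem_ball_zero_iff.1 hx]))]
  refine d2_eq_zero_of_weak (h.rep2 i) (stokes_alt_rep2 i ha) isOpen_ball (fun γ h1 _ h2 => ?_) x hx u v w
  have h3 := h2.trans ball_subset_closedBall
  rw [← stokes_wp_D1_ext1 i h1 h3 h ha]
  exact hw _ (S1_ext1 i h1.contDiffOn (r := 1) (by norm_num) fun x _ hx =>
    image_eq_zero_of_notMem_tsupport fun hx' =>
      absurd (mem_closedBall_zero_iff.1 (h3 hx')) (not_le.2 hx))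

end Geo

end Crest.Agent.R240

end
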