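import Crest.Agent.R240.CurP
import Crest.Agent.R240.Stokes

/-!
# Row 240: examples of currents; Hahn–Banach duality
-/

set_option autoImplicit false
set_option linter.unusedSectionVars false
set_option linter.unusedVariables false

open MeasureTheory Metric Set Filter Topology
open scoped ContDiff ENNReal

noncomputable section

namespace Crest.Agent.R240

namespace Geo

variable {M : Type*} [MetricSpace M] [CompactSpace M] [MeasurableSpace M] [BorelSpace M]
  {G : Geo M}

theorem CurC_ae_le {ν : Measure (M × E)} (hν : ∀ᵐ z ∂ν, ‖z.2‖ = 1)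
    {η : M → Bil} {C : ℝ} (hC : ∀ p, ‖η p‖ ≤ C) : ∀ᵐ z ∂ν, ‖η z.1 z.2 (J0 z.2)‖ ≤ C := by
  filter_upwards [hν] with z hz
  have h := abs_apply_le (η z.1) z.2 (J0 z.2)
  rw [norm_J0, hz, mul_one, mul_one] at h
  exact h.trans (hC _)

theorem integrable_Tm {ν : Measure (M × E)} [IsFiniteMeasure ν] (hν : ∀ᵐ z ∂ν, ‖z.2‖ = 1)
    {η : M → Bil} (hm : Measurable η) {C : ℝ} (hC : ∀ p, ‖η p‖ ≤ C) :
    Integrable (fun z : M × E => η z.1 z.2 (J0 z.2)) ν := by
  have hc : Continuous fun w : Bil × E => w.1 w.2 (J0 w.2) := by fun_prop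
  exact Integrable.of_bound
    (hc.measurable.comp ((hm.comp measurable_fst).prodMk measurable_snd)).aestronglyMeasurable C
    (CurC_ae_le hν hC)

theorem abs_Tm_le {ν : Measure (M × E)} [IsFiniteMeasure ν] (hν : ∀ᵐ z ∂ν, ‖z.2‖ = 1)
    {η : M → Bil} {C : ℝ} (hC : ∀ p, ‖η p‖ ≤ C) : |Tm ν η| ≤ C * ν.real univ :=
  norm_integral_le_of_norm_le_const (CurC_ae_le hν hC)

theorem CurC_norm_le (G : Geo M) : ∃ C : ℝ, 0 ≤ C ∧ ∀ (η : M → Bil) (c : ℝ), G.CB 1 η c →
    ∀ p, ‖η p‖ ≤ C * c := by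
  obtain ⟨C, hC, h⟩ := G.jn_zero_equiv
  exact ⟨C, by linarith, fun η c hc p => (h η p).1.trans
    (mul_le_mul_of_nonneg_left (hc.mono (Nat.zero_le 1) le_rfl p) (by linarith))⟩

theorem CurC_wp_le {η Φ : M → Bil} {C : ℝ} (hC : ∀ p, ‖η p‖ ≤ C) (p : M) :
    ‖wp (η p) (Φ p)‖ ≤ 6 * C * ‖Φ p‖ :=
  (abs_wp_le _ _).trans (by gcongr; exact hC p)

theorem CurC_cont_wp : Continuous fun w : Bil × Bil => wp w.1 w.2 := by
  unfold wp
  fun_prop

theorem CurC_integrable_wp {η Φ : M → Bil} (hη : G.S2 η) (hΦ : Integrable Φ G.V) :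
    Integrable (fun p => wp (η p) (Φ p)) G.V := by
  obtain ⟨C, -, hC⟩ := hη.bdd
  have h1 : AEStronglyMeasurable (fun p => (η p, Φ p)) G.V :=
    hη.integrable.aestronglyMeasurable.prodMk hΦ.aestronglyMeasurable
  have h2 := CurC_cont_wp.comp_aestronglyMeasurable h1
  exact (hΦ.norm.const_mul (6 * C)).mono' h2 (.of_forall (CurC_wp_le hC))

/-- the current of a measure -/
def Cur.ofMeasure (G : Geo M) (ν : Measure (M × E)) [IsFiniteMeasure ν]
    (hν : ∀ᵐ z ∂ν, ‖z.2‖ = 1) : G.Cur where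
  N := Tm ν
  add := fun η ζ hη hζ => by
    obtain ⟨C, -, hC⟩ := hη.bdd
    obtain ⟨C', -, hC'⟩ := hζ.bdd
    exact integral_add (integrable_Tm hν hη.measurable hC) (integrable_Tm hν hζ.measurable hC')
  smul := fun c η _ => integral_const_mul c fun z : M × E => η z.1 z.2 (J0 z.2)
  bound := by
    obtain ⟨C, h0, h⟩ := G.CurC_norm_le
    exact ⟨C * ν.real univ, by positivity, fun η c _ hc =>
      (abs_Tm_le hν (h η c hc)).trans_eq (mul_right_comm _ _ _)⟩

/-- the current of an integrable form -/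
def Cur.ofForm (G : Geo M) (Φ : M → Bil) (hΦ : Integrable Φ G.V) : G.Cur where
  N := fun η => ∫ p, wp (η p) (Φ p) ∂G.V
  add := fun η ζ hη hζ => by
    simp only [Pi.add_apply, wp_add_left]
    exact integral_add (CurC_integrable_wp hη hΦ) (CurC_integrable_wp hζ hΦ)
  smul := fun c η _ => by
    simp only [Pi.smul_apply, wp_smul_left]
    exact integral_const_mul _ _
  bound := by
    obtain ⟨C, h0, h⟩ := G.CurC_norm_le
    refine ⟨6 * C * ∫ p, ‖Φ p‖ ∂G.V, by positivity, fun η c _ hc => ?_⟩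
    refine (norm_integral_le_of_norm_le (hΦ.norm.const_mul (6 * (C * c)))
      (.of_forall (CurC_wp_le (h η c hc)))).trans_eq ?_
    rw [integral_const_mul]
    ring

/-- the anti-invariant part of a current -/
def Cur.amC (ψ : G.Cur) : G.Cur where
  N := fun η => ψ.N fun p => am (η p)
  add := fun η ζ hη hζ => by
    rw [← ψ.add _ _ hη.am hζ.am]
    exact congrArg _ (funext fun p => am_add _ _)
  smul := fun c η hη => by
    rw [← ψ.smul _ _ hη.am]
    exact congrArg _ (funext fun p => am_smul _ _)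
  bound := by
    obtain ⟨C, h0, h⟩ := ψ.bound
    obtain ⟨C', h1, h'⟩ := G.jn_am 1
    refine ⟨C * C', by positivity, fun η c hη hc => ?_⟩
    rw [mul_assoc]
    exact h _ _ hη.am fun p => (h' η hη p).trans (mul_le_mul_of_nonneg_left (hc p) (by linarith))

/-- the sum of two currents -/
def Cur.plus (N N' : G.Cur) : G.Cur where
  N := fun η => N.N η + N'.N η
  add := fun η ζ hη hζ => by
    rw [N.add _ _ hη hζ, N'.add _ _ hη hζ]
    ring
  smul := fun c η hη => by
    rw [N.smul _ _ hη, N'.smul _ _ hη]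
    ring
  bound := by
    obtain ⟨C, h0, h⟩ := N.bound
    obtain ⟨C', h0', h'⟩ := N'.bound
    refine ⟨C + C', by positivity, fun η c hη hc => (abs_add_le _ _).trans ?_⟩
    linarith [h η c hη hc, h' η c hη hc]

end Geo

end Crest.Agent.R240

end
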