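import Crest.Agent.R240.JetRep

/-!
# Row 240: currents and parameters
-/

set_option autoImplicit false
set_option linter.unusedSectionVars false
set_option linter.unusedVariables false

open MeasureTheory Metric Set Filter Topology
open scoped ContDiff ENNReal

noncomputable section

namespace Crest.Agent.R240

namespace CurP

section
variable {X Y F : Type*} [NormedAddCommGroup X] [NormedSpace ℝ X] [NormedAddCommGroup Y]
  [NormedSpace ℝ Y] [NormedAddCommGroup F] [NormedSpace ℝ F]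

theorem fderiv_fst {Φ : X × Y → F} {x : X} {y : Y} (h : DifferentiableAt ℝ Φ (x, y)) (v : X) :
    fderiv ℝ (fun x => Φ (x, y)) x v = fderiv ℝ Φ (x, y) (v, 0) := by
  have := (h.hasFDerivAt.comp x (hasFDerivAt_prodMk_left (𝕜 := ℝ) x y)).fderiv
  rw [show (fun x => Φ (x, y)) = Φ ∘ fun x => (x, y) from rfl, this]
  rfl

theorem fderiv_snd {Φ : X × Y → F} {x : X} {y : Y} (h : DifferentiableAt ℝ Φ (x, y)) (w : Y) :
    fderiv ℝ (fun y => Φ (x, y)) y w = fderiv ℝ Φ (x, y) (0, w) := by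
  have := (h.hasFDerivAt.comp y (hasFDerivAt_prodMk_right x y)).fderiv
  rw [show (fun y => Φ (x, y)) = Φ ∘ fun y => (x, y) from rfl, this]
  rfl

theorem fderiv_clm {f : X → Y} {x : X} (h : DifferentiableAt ℝ f x) (L : Y →L[ℝ] F) (v : X) :
    fderiv ℝ (fun x => L (f x)) x v = L (fderiv ℝ f x v) := by
  have := (L.hasFDerivAt.comp x h.hasFDerivAt).fderiv
  rw [show (fun x => L (f x)) = L ∘ f from rfl, this]
  rfl

theorem contDiffOn_fderiv {Φ : X → F} {S : Set X} (h : ContDiffOn ℝ ∞ Φ S) (hS : IsOpen S)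
    (v : X) : ContDiffOn ℝ ∞ (fun x => fderiv ℝ Φ x v) S :=
  (h.fderiv_of_isOpen hS (by simp)).clm_apply contDiffOn_const

theorem diffAt {Φ : X → F} {S : Set X} (h : ContDiffOn ℝ ∞ Φ S) (hS : IsOpen S) {x : X}
    (hx : x ∈ S) : DifferentiableAt ℝ Φ x :=
  (h.contDiffAt (hS.mem_nhds hx)).differentiableAt (by simp)

end

/-- integration over a compact set as a continuous linear map -/
theorem exists_intL {F : Type*} [NormedAddCommGroup F] [NormedSpace ℝ F] [CompleteSpace F]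
    [SecondCountableTopology F] {Kc : Set E} (hK : IsCompact Kc) [CompactSpace Kc] :
    ∃ L : C(Kc, F) →L[ℝ] F, ∀ (g : C(Kc, F)) (f : E → F), (∀ k : Kc, g k = f k) →
      L g = ∫ y in Kc, f y := by
  have hm := hK.measurableSet
  let μ : Measure Kc := Measure.comap Subtype.val volume
  have : IsFiniteMeasure μ := ⟨by
    rw [comap_subtype_coe_apply hm, image_univ, Subtype.range_coe]
    exact hK.measure_lt_top⟩
  refine ⟨(L1.integralCLM (μ := μ)).comp (ContinuousMap.toLp 1 μ ℝ), fun g f hgf => ?_⟩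
  rw [ContinuousLinearMap.comp_apply, ← L1.integral_eq, L1.integral_eq_integral,
    integral_congr_ae (ContinuousMap.coeFn_toLp μ g), ← integral_subtype_comap hm]
  exact integral_congr_ae (Eventually.of_forall hgf)

theorem int_comm {K F F' : Type*} [TopologicalSpace K] [CompactSpace K] [NormedAddCommGroup F]
    [NormedSpace ℝ F] [CompleteSpace F] [NormedAddCommGroup F'] [NormedSpace ℝ F']
    [CompleteSpace F'] (L : C(K, F) →L[ℝ] F') {f : E → C(K, F)} {Kc : Set E}
    (hI : IntegrableOn f Kc) : L (∫ w in Kc, f w) = ∫ w in Kc, L (f w) :=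
  (L.integral_comp_comm hI).symm

end CurP

namespace Geo

variable {M : Type*} [MetricSpace M] [CompactSpace M] [MeasurableSpace M] [BorelSpace M]
  {G : Geo M}

open CurP

section param
variable {P : Type*} [NormedAddCommGroup P] [NormedSpace ℝ P] [FiniteDimensional ℝ P]
  {O : Set P} {η : P → M → Bil}

theorem SP.contDiffOn (h : G.SP O η) (hO : IsOpen O) (p : M) :
    ContDiffOn ℝ ∞ (fun z => η z p) O := by
  have hp := G.ch_source p
  have h1 : ContDiffOn ℝ ∞ (fun z => G.loc2 (G.ch p) (η z) (G.κ (G.ch p) p)) O :=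
    (h (G.ch p)).comp (f := fun z => (z, G.κ (G.ch p) p)) (by fun_prop)
      fun z hz => ⟨hz, map_mem hp⟩
  exact ((pbL (G.Ti (G.ch p) p)).contDiff.comp_contDiffOn h1).congr
    fun z _ => (loc2_map hp (η z)).symm

theorem CurP_loc (h : G.SP O η) (hO : IsOpen O) (v : P) (i : Fin G.n) {y : P × E}
    (hy : y ∈ O ×ˢ ball (0 : E) 3) :
    G.loc2 i (fun p => _root_.fderiv ℝ (fun z => η z p) y.1 v) y.2 =
      _root_.fderiv ℝ (fun z : P × E => G.loc2 i (η z.1) z.2) y (v, 0) := by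
  rw [← fderiv_fst (x := y.1) (y := y.2) (diffAt (h i) (hO.prod isOpen_ball) hy)]
  exact (fderiv_clm (diffAt (h.contDiffOn hO _) hO hy.1) (pbL (G.T i ((G.κ i).symm y.2))) v).symm

theorem SP.fderiv (h : G.SP O η) (hO : IsOpen O) (v : P) :
    G.SP O fun z p => fderiv ℝ (fun z => η z p) z v := fun i =>
  (contDiffOn_fderiv (h i) (hO.prod isOpen_ball) (v, 0)).congr fun _ hy => CurP_loc h hO v i hy

theorem CurP_mem (x : closedBall (0 : E) 1) : (x : E) ∈ ball (0 : E) 3 :=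
  closedBall_subset_ball (by norm_num) x.2

theorem CurP_jetF (h : G.SP O η) (hO : IsOpen O) {z : P} (hz : z ∈ O)
    (y : Fin G.n × closedBall (0 : E) 1) :
    G.jetF (η z) y = (G.loc2 y.1 (η z) y.2, fun a =>
      _root_.fderiv ℝ (fun w : P × E => G.loc2 y.1 (η w.1) w.2) (z, y.2) (0, e a)) := by
  refine Prod.ext rfl (funext fun a => ?_)
  exact fderiv_snd (Φ := fun w : P × E => G.loc2 y.1 (η w.1) w.2)
    (diffAt (h y.1) (hO.prod isOpen_ball) ⟨hz, CurP_mem y.2⟩) (e a)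

theorem CurP_jet (h : G.SP O η) (hO : IsOpen O) : ContDiffOn ℝ ∞ (fun z => G.jet (η z)) O := by
  have hS := hO.prod (isOpen_ball (x := (0 : E)) (ε := 3))
  have h1 : ∀ i, ContDiffOn ℝ ∞ (fun w : P × E => ((G.loc2 i (η w.1) w.2, fun a =>
      _root_.fderiv ℝ (fun w : P × E => G.loc2 i (η w.1) w.2) w (0, e a)) :
        Bil × (Fin 4 → Bil))) (O ×ˢ ball 0 3) := fun i =>
    (h i).prodMk (contDiffOn_pi.2 fun a => contDiffOn_fderiv (h i) hS _)
  have h2 : ContDiffOn ℝ ∞ (fun w : P × (E × (Fin G.n → ℝ)) => ∑ i, w.2.2 i •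
      ((G.loc2 i (η w.1) w.2.1, fun a => _root_.fderiv ℝ
        (fun w : P × E => G.loc2 i (η w.1) w.2) (w.1, w.2.1) (0, e a)) : Bil × (Fin 4 → Bil)))
      (O ×ˢ (ball 0 3 ×ˢ univ)) :=
    ContDiffOn.sum fun i _ => by
      have a1 : ContDiffOn ℝ ∞ (fun w : P × (E × (Fin G.n → ℝ)) => w.2.2 i)
        (O ×ˢ (ball 0 3 ×ˢ univ)) := by fun_prop
      exact a1.smul ((h1 i).comp (f := fun w : P × (E × (Fin G.n → ℝ)) => (w.1, w.2.1))
        (by fun_prop) fun w hw => ⟨hw.1, hw.2.1⟩)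
  refine (contDiffOn_curry hO (isOpen_ball.prod isOpen_univ) h2
    (K := Fin G.n × closedBall (0 : E) 1) (ι := fun y => (y.2, Pi.single y.1 1))
    (Continuous.prodMk (by fun_prop) ((continuous_of_discreteTopology
      (f := fun i : Fin G.n => (Pi.single i 1 : Fin G.n → ℝ))).comp continuous_fst))
    fun y => ⟨CurP_mem y.2, trivial⟩).1.congr fun z hz => ?_
  refine congrArg (fun f => ContinuousMap.mkD f 0) (funext fun y => ?_)
  rw [CurP_jetF h hO hz, Finset.sum_eq_single y.1]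
  · simp only [Pi.single_eq_same, one_smul]
  · intro j _ hj
    simp only [Pi.single_eq_of_ne hj, zero_smul]
  · simp

theorem CurP_jet_fderiv (h : G.SP O η) (hO : IsOpen O) {z : P} (hz : z ∈ O) (v : P) :
    _root_.fderiv ℝ (fun z => G.jet (η z)) z v =
      G.jet fun p => _root_.fderiv ℝ (fun z => η z p) z v := by
  have hS := hO.prod (isOpen_ball (x := (0 : E)) (ε := 3))
  have hd := diffAt (CurP_jet h hO) hO hz
  refine ContinuousMap.ext fun y => ?_
  have hy : (z, (y.2 : E)) ∈ O ×ˢ ball (0 : E) 3 := ⟨hz, CurP_mem y.2⟩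
  have key : ∀ (L : (Bil × (Fin 4 → Bil)) →L[ℝ] Bil) (Φ : P × E → Bil),
      ContDiffOn ℝ ∞ Φ (O ×ˢ ball 0 3) → (∀ w ∈ O, L (G.jetF (η w) y) = Φ (w, y.2)) →
      L (_root_.fderiv ℝ (fun z => G.jet (η z)) z v y) = _root_.fderiv ℝ Φ (z, y.2) (v, 0) := by
    intro L Φ hΦ hL
    refine (fderiv_clm hd (L.comp (ContinuousMap.evalCLM ℝ y)) v).symm.trans ?_
    rw [← fderiv_fst (diffAt hΦ hS hy)]
    refine congrArg (fun A : P →L[ℝ] Bil => A v) (Filter.EventuallyEq.fderiv_eq ?_)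
    filter_upwards [hO.mem_nhds hz] with w hw
    rw [← hL w hw, ← jet_apply (h.slice hw)]
    rfl
  rw [jet_apply ((h.fderiv hO v).slice hz), CurP_jetF (h.fderiv hO v) hO hz]
  refine Prod.ext ?_ (funext fun a => ?_)
  · exact (key (ContinuousLinearMap.fst ℝ _ _) _ (h y.1) fun w _ => rfl).trans
      (CurP_loc h hO v y.1 hy).symm
  · refine (key ((ContinuousLinearMap.proj a).comp (ContinuousLinearMap.snd ℝ _ _)) _
      (contDiffOn_fderiv (h y.1) hS (0, e a)) fun w hw => by rw [CurP_jetF h hO hw]; rfl).trans ?_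
    rw [fderiv_fderiv_symm ((h y.1).contDiffAt (hS.mem_nhds hy))]
    refine congrArg (fun A : P × E →L[ℝ] Bil => A (0, e a)) (Filter.EventuallyEq.fderiv_eq ?_)
    filter_upwards [hS.mem_nhds hy] with w hw
    exact (CurP_loc h hO v y.1 hw).symm

/-- (P1) a current depends smoothly on parameters -/
theorem Cur.contDiffOn_param (N : G.Cur) (h : G.SP O η) (hO : IsOpen O) :
    ContDiffOn ℝ ∞ (fun z => N.N (η z)) O := by
  obtain ⟨ℓ, hℓ⟩ := N.exists_rep
  exact (ℓ.contDiff.comp_contDiffOn (CurP_jet h hO)).congr fun z hz => hℓ _ (h.slice hz)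

theorem Cur.fderiv_param (N : G.Cur) (h : G.SP O η) (hO : IsOpen O) {z : P} (hz : z ∈ O) (v : P) :
    fderiv ℝ (fun z => N.N (η z)) z v = N.N fun p => fderiv ℝ (fun z => η z p) z v := by
  obtain ⟨ℓ, hℓ⟩ := N.exists_rep
  rw [hℓ _ ((h.fderiv hO v).slice hz), ← CurP_jet_fderiv h hO hz,
    ← fderiv_clm (diffAt (CurP_jet h hO) hO hz) ℓ v]
  refine congrArg (fun A : P →L[ℝ] ℝ => A v) (Filter.EventuallyEq.fderiv_eq ?_)
  filter_upwards [hO.mem_nhds hz] with w hw
  exact hℓ _ (h.slice hw)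

end param

theorem CurP_int {O Kc : Set E} {Φ : E × E → Bil} (h : ContDiffOn ℝ ∞ Φ (O ×ˢ ball 0 3))
    (hO : IsOpen O) (hK : IsCompact Kc) (hKO : Kc ⊆ O) :
    ContDiffOn ℝ ∞ (fun x => ∫ y in Kc, Φ (y, x)) (ball 0 3) ∧ ∀ x ∈ ball (0 : E) 3, ∀ w,
      fderiv ℝ (fun x => ∫ y in Kc, Φ (y, x)) x w = ∫ y in Kc, fderiv ℝ Φ (y, x) (0, w) := by
  have : CompactSpace Kc := isCompact_iff_compactSpace.1 hK
  obtain ⟨L, hL⟩ := exists_intL (F := Bil) hK
  have h1 : ContDiffOn ℝ ∞ (fun w : E × E => Φ (w.2, w.1)) (ball 0 3 ×ˢ O) :=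
    h.comp (f := fun w : E × E => (w.2, w.1)) (by fun_prop) fun w hw => ⟨hw.2, hw.1⟩
  have h2 := (contDiffOn_curry isOpen_ball hO h1 (K := Kc) continuous_subtype_val
    fun k => hKO k.2).1
  have h3 : ∀ x ∈ ball (0 : E) 3, ∀ k : Kc,
      (ContinuousMap.mkD (fun k : Kc => Φ (k, x)) 0 : C(Kc, Bil)) k = Φ (k, x) := by
    intro x hx k
    refine ContinuousMap.mkD_apply_of_continuous ?_
    exact h.continuousOn.comp_continuous (by fun_prop) fun k => ⟨hKO k.2, hx⟩
  have h4 : ∀ x ∈ ball (0 : E) 3, ∫ y in Kc, Φ (y, x) =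
      L (ContinuousMap.mkD (fun k : Kc => Φ (k, x)) 0) := fun x hx =>
    (hL _ (fun y => Φ (y, x)) (h3 x hx)).symm
  refine ⟨(L.contDiff.comp_contDiffOn h2).congr h4, fun x hx w => ?_⟩
  have hd := diffAt h2 isOpen_ball hx
  rw [← hL (fderiv ℝ (fun x => (ContinuousMap.mkD (fun k : Kc => Φ (k, x)) 0 : C(Kc, Bil))) x w),
    ← fderiv_clm hd L w]
  · refine congrArg (fun A : E →L[ℝ] Bil => A w) (Filter.EventuallyEq.fderiv_eq ?_)
    filter_upwards [isOpen_ball.mem_nhds hx] with x' hx'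
    exact h4 x' hx'
  · intro k
    refine (fderiv_clm hd (ContinuousMap.evalCLM ℝ k) w).symm.trans ?_
    rw [← fderiv_snd (diffAt h (hO.prod isOpen_ball) ⟨hKO k.2, hx⟩)]
    refine congrArg (fun A : E →L[ℝ] Bil => A w) (Filter.EventuallyEq.fderiv_eq ?_)
    filter_upwards [isOpen_ball.mem_nhds hx] with x' hx'
    exact h3 x' hx' k

/-- (P2) a current commutes with integrals -/
theorem Cur.integral_param (N : G.Cur) {O Kc : Set E} {η : E → M → Bil} (h : G.SP O η)
    (hO : IsOpen O) (hK : IsCompact Kc) (hKO : Kc ⊆ O) :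
    G.S2 (fun p => ∫ y in Kc, η y p) ∧
      N.N (fun p => ∫ y in Kc, η y p) = ∫ y in Kc, N.N (η y) := by
  obtain ⟨ℓ, hℓ⟩ := N.exists_rep
  have hm := hK.measurableSet
  have e1 : ∀ i, G.loc2 i (fun p => ∫ y in Kc, η y p) = fun x => ∫ y in Kc, G.loc2 i (η y) x := by
    intro i
    funext x
    exact ((pbL (G.T i ((G.κ i).symm x))).integral_comp_comm
      (((h.contDiffOn hO _).continuousOn.mono hKO).integrableOn_compact hK)).symm
  have hS : G.S2 (fun p => ∫ y in Kc, η y p) := fun i => by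
    rw [e1]
    exact (CurP_int (h i) hO hK hKO).1
  have hI : IntegrableOn (fun y => G.jet (η y)) Kc :=
    ((CurP_jet h hO).continuousOn.mono hKO).integrableOn_compact hK
  have e2 : G.jet (fun p => ∫ y in Kc, η y p) = ∫ y in Kc, G.jet (η y) := by
    refine ContinuousMap.ext fun y => ?_
    have key : ∀ (L : (Bil × (Fin 4 → Bil)) →L[ℝ] Bil) (f : E → Bil),
        (∀ w ∈ O, L (G.jetF (η w) y) = f w) →
        L ((∫ w in Kc, G.jet (η w)) y) = ∫ w in Kc, f w := by
      intro L f hL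
      refine (int_comm (F := Bil × (Fin 4 → Bil)) (L.comp (ContinuousMap.evalCLM ℝ y)) hI).trans ?_
      refine setIntegral_congr_fun hm fun w hw => ?_
      rw [← hL w (hKO hw), ← jet_apply (h.slice (hKO hw))]
      rfl
    rw [jet_apply hS, jetF, e1]
    refine Prod.ext ?_ (funext fun a => ?_)
    · exact (key (ContinuousLinearMap.fst ℝ _ _) _ fun w _ => rfl).symm
    · refine ((CurP_int (h y.1) hO hK hKO).2 _ (CurP_mem y.2) (e a)).trans ?_
      exact (key ((ContinuousLinearMap.proj a).comp (ContinuousLinearMap.snd ℝ _ _)) _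
        fun w hw => by rw [CurP_jetF h hO hw]; rfl).symm
  refine ⟨hS, ?_⟩
  rw [hℓ _ hS, e2]
  refine (int_comm (F := Bil × (Fin 4 → Bil)) ℓ hI).trans ?_
  exact setIntegral_congr_fun hm fun w hw => (hℓ _ (h.slice (hKO hw))).symm

end Geo

end Crest.Agent.R240

end
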