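import Crest.Agent.R240.Par2
import Crest.Agent.R240.Prof

/-!
# Row 240: the operators `Op K t`
-/

set_option autoImplicit false
set_option linter.unusedSectionVars false
set_option linter.unusedVariables false

open MeasureTheory Metric Set Filter Topology
open scoped ContDiff ENNReal

noncomputable section

namespace Crest.Agent.R240

section jb
variable {F F' : Type*} [NormedAddCommGroup F] [NormedSpace ℝ F] [NormedAddCommGroup F']
  [NormedSpace ℝ F']

theorem JB.mono {s s' : ℕ} {g : E → F} {x : E} {c c' : ℝ} (h : JB s g x c) (hs : s' ≤ s)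
    (hc : c ≤ c') : JB s' g x c' := fun j hj => (h j (hj.trans hs)).trans hc

theorem JB.nonneg {s : ℕ} {g : E → F} {x : E} {c : ℝ} (h : JB s g x c) : 0 ≤ c :=
  (norm_nonneg _).trans (h 0 (Nat.zero_le _))

theorem JB.congr {s : ℕ} {g g' : E → F} {x : E} {c : ℝ} (h : JB s g x c) (he : g' =ᶠ[𝓝 x] g) :
    JB s g' x c := fun j hj => by
  rw [(he.iteratedFDeriv ℝ j).eq_of_nhds]
  exact h j hj

theorem JB.add {s : ℕ} {g g' : E → F} {x : E} {c c' : ℝ} (h : JB s g x c) (h' : JB s g' x c')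
    (hg : ContDiffAt ℝ ∞ g x) (hg' : ContDiffAt ℝ ∞ g' x) :
    JB s (fun y => g y + g' y) x (c + c') := fun j hj => by
  have e := iteratedFDeriv_add_apply (𝕜 := ℝ) (i := j) (f := g) (g := g') (x := x)
    (hg.of_le (by exact_mod_cast le_top)) (hg'.of_le (by exact_mod_cast le_top))
  have e' : (fun y => g y + g' y) = g + g' := rfl
  rw [e', e]
  exact (norm_add_le _ _).trans (add_le_add (h j hj) (h' j hj))

theorem JB.sub {s : ℕ} {g g' : E → F} {x : E} {c c' : ℝ} (h : JB s g x c) (h' : JB s g' x c')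
    (hg : ContDiffAt ℝ ∞ g x) (hg' : ContDiffAt ℝ ∞ g' x) :
    JB s (fun y => g y - g' y) x (c + c') := fun j hj => by
  have e := iteratedFDeriv_sub_apply (𝕜 := ℝ) (i := j) (f := g) (g := g') (x := x)
    (hg.of_le (by exact_mod_cast le_top)) (hg'.of_le (by exact_mod_cast le_top))
  have e' : (fun y => g y - g' y) = g - g' := rfl
  rw [e', e]
  exact (norm_sub_le _ _).trans (add_le_add (h j hj) (h' j hj))

theorem JB.const_smul {s : ℕ} {g : E → F} {x : E} {c : ℝ} (h : JB s g x c)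
    (hg : ContDiffAt ℝ ∞ g x) (a : ℝ) : JB s (fun y => a • g y) x (|a| * c) := fun j hj => by
  have e := iteratedFDeriv_const_smul_apply' (𝕜 := ℝ) (i := j) (f := g) (x := x) (a := a)
    (hg.of_le (by exact_mod_cast le_top))
  rw [e, norm_smul, Real.norm_eq_abs]
  exact mul_le_mul_of_nonneg_left (h j hj) (abs_nonneg a)

theorem JB.of_eventually_zero {s : ℕ} {g : E → F} {x : E} (h : g =ᶠ[𝓝 x] fun _ => 0) :
    JB s g x 0 := fun j hj => by
  rw [(h.iteratedFDeriv ℝ j).eq_of_nhds]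
  simp

theorem JB.norm_le {s : ℕ} {g : E → F} {x : E} {c : ℝ} (h : JB s g x c) : ‖g x‖ ≤ c := by
  have := h 0 (Nat.zero_le _)
  rwa [norm_iteratedFDeriv_zero] at this

theorem JB.norm_fderiv_le {s : ℕ} {g : E → F} {x : E} {c : ℝ} (h : JB (s + 1) g x c) :
    ‖fderiv ℝ g x‖ ≤ c := by
  have := h 1 (by omega)
  rwa [← norm_iteratedFDeriv_fderiv, norm_iteratedFDeriv_zero] at this

end jb

section op
variable {F F' : Type*} [NormedAddCommGroup F] [NormedSpace ℝ F] [CompleteSpace F]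
  [NormedAddCommGroup F'] [NormedSpace ℝ F'] [CompleteSpace F']
  {C : ℝ} {K : E × E × ℝ → F →L[ℝ] F'}

theorem IsK.zero_of_notMem {F'' : Type*} [NormedAddCommGroup F''] [NormedSpace ℝ F'']
    {K : E × E × ℝ → F''} (hK : IsK C K) (x : E) {w : E} (t : ℝ)
    (hw : w ∉ closedBall (0 : E) C) : K (x, w, t) = 0 := by
  apply hK.supp
  rw [mem_closedBall_zero_iff, not_le] at hw
  exact hw.le

theorem IsK.hasCompactSupport (hK : IsK C K) (G : E → F) (t : ℝ) (x : E) :
    HasCompactSupport fun w => K (x, w, t) (G w) := by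
  refine HasCompactSupport.intro (isCompact_closedBall (0 : E) C) fun w hw => ?_
  rw [hK.zero_of_notMem x t hw]
  rfl

theorem IsK.integrable' (hK : IsK C K) {G : E → F} (hG : Continuous G) (t : ℝ) (x : E) :
    Integrable fun w => K (x, w, t) (G w) := by
  refine Continuous.integrable_of_hasCompactSupport ?_ (hK.hasCompactSupport G t x)
  have h1 : Continuous fun w : E => K (x, w, t) := hK.smooth.continuous.comp (by fun_prop)
  exact h1.clm_apply hG

/-- directional derivatives of kernels are kernels -/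
theorem IsK.dirD {F'' : Type*} [NormedAddCommGroup F''] [NormedSpace ℝ F'']
    {K : E × E × ℝ → F''} (hK : IsK C K) (u : E × E × ℝ) :
    IsK C fun z => fderiv ℝ K z u := by
  have hs : ContDiff ℝ ∞ fun z => fderiv ℝ K z u :=
    (hK.smooth.fderiv_right (m := ∞) (by simp)).clm_apply contDiff_const
  refine ⟨hs, fun x w t hw => ?_⟩
  -- the set where the derivative vanishes is closed and contains `C < ‖w‖`
  have key : ∀ w : E, C < ‖w‖ → fderiv ℝ K (x, w, t) u = 0 := by
    intro w hw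
    have ho : IsOpen {z : E × E × ℝ | C < ‖z.2.1‖} := isOpen_lt continuous_const (by fun_prop)
    have : K =ᶠ[𝓝 (x, w, t)] fun _ => 0 := by
      filter_upwards [ho.mem_nhds (show (x, w, t) ∈ {z : E × E × ℝ | C < ‖z.2.1‖} from hw)]
        with z hz
      exact hK.supp z.1 z.2.1 z.2.2 (le_of_lt hz)
    rw [this.fderiv_eq]
    simp
  have hc : IsClosed {w : E | fderiv ℝ K (x, w, t) u = 0} :=
    isClosed_eq (hs.continuous.comp (by fun_prop : Continuous fun w : E => (x, w, t)))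
      continuous_const
  have hsub : (closedBall (0 : E) C)ᶜ ⊆ {w : E | fderiv ℝ K (x, w, t) u = 0} := by
    intro w hw
    rw [mem_compl_iff, mem_closedBall_zero_iff, not_le] at hw
    exact key w hw
  have hcl := hc.closure_subset_iff.2 hsub
  apply hcl
  rw [closure_compl, interior_closedBall' , mem_compl_iff, mem_ball_zero_iff, not_lt]
  exact hw

theorem IsK.integrable (hK : IsK C K) {g : E → F} (hg : Continuous g) (t : ℝ) (x : E) :
    Integrable fun w => K (x, w, t) (g (x + t • w)) :=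
  hK.integrable' (G := fun w => g (x + t • w)) (hg.comp (by fun_prop)) t x

theorem IsK.locC (hK : IsK C K) {g : E → F} (hg : ContDiff ℝ ∞ g) :
    LocC fun z : (E × ℝ) × E => K (z.1.1, z.2, z.1.2) (g (z.1.1 + z.1.2 • z.2)) := by
  refine ⟨?_, fun p₀ => ⟨closedBall 0 C, isCompact_closedBall _ _,
    Eventually.of_forall fun p y hy => ?_⟩⟩
  · have h1 : ContDiff ℝ ∞ fun z : (E × ℝ) × E => K (z.1.1, z.2, z.1.2) :=
      hK.smooth.comp (by fun_prop)
    have h2 : ContDiff ℝ ∞ fun z : (E × ℝ) × E => g (z.1.1 + z.1.2 • z.2) :=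
      hg.comp (by fun_prop)
    exact h1.clm_apply h2
  · show K (p.1, y, p.2) _ = 0
    rw [hK.zero_of_notMem p.1 p.2 hy]
    rfl

/-- the derivative of the integrand, abstract version -/
theorem fderiv_integrand_aux {V : Type*} [NormedAddCommGroup V] [NormedSpace ℝ V]
    {K : V × V × ℝ → F →L[ℝ] F'} (hK : Differentiable ℝ K) {g : V → F} (hg : Differentiable ℝ g)
    (z u : (V × ℝ) × V) :
    fderiv ℝ (fun z : (V × ℝ) × V => K (z.1.1, z.2, z.1.2) (g (z.1.1 + z.1.2 • z.2))) z u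
      = fderiv ℝ K (z.1.1, z.2, z.1.2) (u.1.1, u.2, u.1.2) (g (z.1.1 + z.1.2 • z.2))
        + K (z.1.1, z.2, z.1.2)
          (fderiv ℝ g (z.1.1 + z.1.2 • z.2) (u.1.1 + (z.1.2 • u.2 + u.1.2 • z.2))) := by
  have hA : HasFDerivAt (fun z : (V × ℝ) × V => z.1.1)
      ((ContinuousLinearMap.fst ℝ V ℝ).comp (ContinuousLinearMap.fst ℝ (V × ℝ) V)) z :=
    ((ContinuousLinearMap.fst ℝ V ℝ).comp (ContinuousLinearMap.fst ℝ (V × ℝ) V)).hasFDerivAt
  have hB : HasFDerivAt (fun z : (V × ℝ) × V => z.1.2)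
      ((ContinuousLinearMap.snd ℝ V ℝ).comp (ContinuousLinearMap.fst ℝ (V × ℝ) V)) z :=
    ((ContinuousLinearMap.snd ℝ V ℝ).comp (ContinuousLinearMap.fst ℝ (V × ℝ) V)).hasFDerivAt
  have hC : HasFDerivAt (fun z : (V × ℝ) × V => z.2) (ContinuousLinearMap.snd ℝ (V × ℝ) V) z :=
    (ContinuousLinearMap.snd ℝ (V × ℝ) V).hasFDerivAt
  have hP := hA.prodMk (hC.prodMk hB)
  have hS : HasFDerivAt (fun z : (V × ℝ) × V => z.1.1 + z.1.2 • z.2) _ z := hA.add (hB.smul hC)
  have h1 : HasFDerivAt (fun z : (V × ℝ) × V => K (z.1.1, z.2, z.1.2)) _ z :=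
    HasFDerivAt.comp (g := K) (f := fun z : (V × ℝ) × V => (z.1.1, z.2, z.1.2)) z
      (hK (z.1.1, z.2, z.1.2)).hasFDerivAt hP
  have h2 : HasFDerivAt (fun z : (V × ℝ) × V => g (z.1.1 + z.1.2 • z.2)) _ z :=
    HasFDerivAt.comp (g := g) (f := fun z : (V × ℝ) × V => z.1.1 + z.1.2 • z.2) z
      (hg (z.1.1 + z.1.2 • z.2)).hasFDerivAt hS
  rw [(h1.clm_apply h2).fderiv]
  simp [add_comm]

/-- the derivative of the integrand -/
theorem IsK.fderiv_integrand (hK : IsK C K) {g : E → F} (hg : ContDiff ℝ ∞ g)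
    (z u : (E × ℝ) × E) :
    fderiv ℝ (fun z : (E × ℝ) × E => K (z.1.1, z.2, z.1.2) (g (z.1.1 + z.1.2 • z.2))) z u
      = fderiv ℝ K (z.1.1, z.2, z.1.2) (u.1.1, u.2, u.1.2) (g (z.1.1 + z.1.2 • z.2))
        + K (z.1.1, z.2, z.1.2)
          (fderiv ℝ g (z.1.1 + z.1.2 • z.2) (u.1.1 + (z.1.2 • u.2 + u.1.2 • z.2))) :=
  fderiv_integrand_aux (hK.smooth.differentiable (by simp)) (hg.differentiable (by simp)) z u

/-- (O1) joint smoothness -/
theorem IsK.contDiff_op (hK : IsK C K) {g : E → F} (hg : ContDiff ℝ ∞ g) :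
    ContDiff ℝ ∞ fun z : E × ℝ => Op K z.2 g z.1 :=
  (hK.locC hg).contDiff_integral volume

theorem IsK.contDiff_op' (hK : IsK C K) {g : E → F} (hg : ContDiff ℝ ∞ g) (t : ℝ) :
    ContDiff ℝ ∞ (Op K t g) :=
  (hK.contDiff_op hg).comp (f := fun x : E => (x, t)) (by fun_prop)

theorem IsK.op_add (hK : IsK C K) {g g' : E → F} (hg : Continuous g) (hg' : Continuous g') (t : ℝ)
    (x : E) : Op K t (fun y => g y + g' y) x = Op K t g x + Op K t g' x := by
  unfold Op
  rw [← integral_add (hK.integrable hg t x) (hK.integrable hg' t x)]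
  simp only [map_add]

theorem op_smul (K : E × E × ℝ → F →L[ℝ] F') (g : E → F) (a t : ℝ) (x : E) :
    Op K t (fun y => a • g y) x = a • Op K t g x := by
  unfold Op
  rw [← integral_smul]
  simp only [map_smul]

/-- locality -/
theorem IsK.op_congr (hK : IsK C K) {g g' : E → F} {t : ℝ} (ht : 0 ≤ t) {x : E}
    (h : ∀ y, ‖y - x‖ ≤ C * t → g y = g' y) : Op K t g x = Op K t g' x := by
  unfold Op
  congr 1
  funext w
  by_cases hw : C ≤ ‖w‖
  · rw [hK.supp x w t hw]
    rfl
  · rw [h]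
    rw [add_sub_cancel_left, norm_smul, Real.norm_eq_abs, abs_of_nonneg ht, mul_comm]
    exact mul_le_mul_of_nonneg_right (not_le.1 hw).le ht

/-- (O5) Hadamard for kernels -/
theorem IsK.hadamard {F'' : Type*} [NormedAddCommGroup F''] [NormedSpace ℝ F''] [CompleteSpace F'']
    {K : E × E × ℝ → F''} (hK : IsK C K) :
    ∃ K' : E × E × ℝ → F'', IsK C K' ∧ ∀ x w t, K (x, w, t) = K (x, w, 0) + t • K' (x, w, t) := by
  have h1 : ContDiff ℝ ∞ fun z : (E × E) × ℝ => K (z.1.1, z.1.2, z.2) :=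
    hK.smooth.comp (by fun_prop)
  obtain ⟨g, hg, h2, -, h3⟩ := Crest.Agent.R240.hadamard h1
  refine ⟨fun z => g ((z.1, z.2.1), z.2.2), ⟨hg.comp (by fun_prop), fun x w t hw => ?_⟩,
    fun x w t => h2 (x, w) t⟩
  exact h3 (x, w) (fun t => hK.supp x w t hw) t

/-- the derivative of `Op` in `(x, t)` -/
theorem IsK.fderiv_op_joint (hK : IsK C K) {g : E → F} (hg : ContDiff ℝ ∞ g) (z u : E × ℝ) :
    fderiv ℝ (fun z : E × ℝ => Op K z.2 g z.1) z u
      = Op (fun y => fderiv ℝ K y (u.1, 0, u.2)) z.2 g z.1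
        + ∫ w, K (z.1, w, z.2) (fderiv ℝ g (z.1 + z.2 • w) (u.1 + u.2 • w)) := by
  have h := (hK.locC hg).fderiv_integral volume z u
  have hc : Continuous (fderiv ℝ g) := hg.continuous_fderiv (by simp)
  have i1 := (hK.dirD (u.1, 0, u.2)).integrable hg.continuous z.2 z.1
  have i2 := hK.integrable' (G := fun w => fderiv ℝ g (z.1 + z.2 • w) (u.1 + u.2 • w))
    ((hc.comp (by fun_prop)).clm_apply (by fun_prop)) z.2 z.1
  unfold Op
  rw [← integral_add i1 i2]
  refine h.trans ?_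
  congr 1
  funext w
  rw [hK.fderiv_integrand hg]
  simp

/-- (O6a) derivative in `x` -/
theorem IsK.fderiv_op (hK : IsK C K) {g : E → F} (hg : ContDiff ℝ ∞ g) (t : ℝ) (x v : E) :
    fderiv ℝ (Op K t g) x v = Op (fun z => fderiv ℝ K z (v, 0, 0)) t g x
      + Op K t (fun y => fderiv ℝ g y v) x := by
  have h1 := ((hK.contDiff_op hg).differentiable (by simp) (x, t)).hasFDerivAt.comp x
    (hasFDerivAt_prodMk_left (𝕜 := ℝ) x t)
  have e : Op K t g = (fun z : E × ℝ => Op K z.2 g z.1) ∘ fun e : E => (e, t) := rfl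
  rw [e, h1.fderiv]
  simp only [ContinuousLinearMap.comp_apply, ContinuousLinearMap.inl_apply]
  rw [hK.fderiv_op_joint hg]
  simp [Op]

/-- (O6b) integration by parts in `w` -/
theorem IsK.op_fderiv (hK : IsK C K) {g : E → F} (hg : ContDiff ℝ ∞ g) (t : ℝ) (x v : E) :
    t • Op K t (fun y => fderiv ℝ g y v) x = -Op (fun z => fderiv ℝ K z (0, v, 0)) t g x := by
  have hL := hK.locC hg
  have hs : ContDiff ℝ ∞ fun w : E => K (x, w, t) (g (x + t • w)) :=
    hL.smooth.comp (f := fun w : E => ((x, t), w)) (by fun_prop)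
  have h0 := integral_fderiv_eq_zero hs (hK.hasCompactSupport (fun w => g (x + t • w)) t x) v
  have hd : ∀ w : E, fderiv ℝ (fun w : E => K (x, w, t) (g (x + t • w))) w v
      = fderiv ℝ K (x, w, t) (0, v, 0) (g (x + t • w))
        + t • K (x, w, t) (fderiv ℝ g (x + t • w) v) := by
    intro w
    have h1 := (hL.smooth.differentiable (by simp) ((x, t), w)).hasFDerivAt.comp w
      (hasFDerivAt_prodMk_right (𝕜 := ℝ) (x, t) w)
    have e : (fun w : E => K (x, w, t) (g (x + t • w)))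
        = (fun z : (E × ℝ) × E => K (z.1.1, z.2, z.1.2) (g (z.1.1 + z.1.2 • z.2)))
          ∘ fun e : E => ((x, t), e) := rfl
    rw [e, h1.fderiv]
    simp only [ContinuousLinearMap.comp_apply, ContinuousLinearMap.inr_apply]
    rw [hK.fderiv_integrand hg]
    simp
  have hc : Continuous (fderiv ℝ g) := hg.continuous_fderiv (by simp)
  have i1 := (hK.dirD (0, v, 0)).integrable hg.continuous t x
  have i2 := hK.integrable (g := fun y => fderiv ℝ g y v)
    (hc.clm_apply continuous_const) t x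
  simp only [hd] at h0
  have i3 : Integrable fun w => t • K (x, w, t) (fderiv ℝ g (x + t • w) v) := i2.smul t
  rw [integral_add i1 i3, integral_smul] at h0
  unfold Op
  exact eq_neg_of_add_eq_zero_right h0

/-- (O6c) derivative in `t` -/
theorem IsK.hasDerivAt_op (hK : IsK C K) {g : E → F} (hg : ContDiff ℝ ∞ g) (t : ℝ) (x : E) :
    HasDerivAt (fun t => Op K t g x)
      (Op (fun z => fderiv ℝ K z (0, 0, 1)) t g x
        + ∫ w, K (x, w, t) (fderiv ℝ g (x + t • w) w)) t := by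
  have h1 := ((hK.contDiff_op hg).differentiable (by simp) (x, t)).hasFDerivAt.comp t
    (hasFDerivAt_prodMk_right (𝕜 := ℝ) x t)
  have h2 := h1.hasDerivAt
  simp only [ContinuousLinearMap.comp_apply, ContinuousLinearMap.inr_apply] at h2
  rw [hK.fderiv_op_joint hg] at h2
  simp only [one_smul, zero_add] at h2
  exact h2

end op

end Crest.Agent.R240

end
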