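import Crest.Agent.R240.Vol
import Crest.Agent.R240.OpL

/-!
# Row 240: pointwise bounds and chart formula for the kernels
-/

set_option autoImplicit false
set_option linter.unusedSectionVars false
set_option linter.unusedVariables false

open MeasureTheory Metric Set Filter Topology
open scoped ContDiff ENNReal

noncomputable section

namespace Crest.Agent.R240

namespace KerBd

theorem isK_bdd {F : Type*} [NormedAddCommGroup F] [NormedSpace ℝ F] {C : ℝ} {K : E × E × ℝ → F}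
    (hK : IsK C K) : ∃ B : ℝ, 0 ≤ B ∧ ∀ x : E, ‖x‖ ≤ 2 → ∀ w : E, ∀ t ∈ Icc (0 : ℝ) 1,
      ‖K (x, w, t)‖ ≤ B := by
  have hc : IsCompact (closedBall (0 : E) 2 ×ˢ (closedBall (0 : E) C ×ˢ Icc (0 : ℝ) 1)) :=
    (isCompact_closedBall _ _).prod ((isCompact_closedBall _ _).prod isCompact_Icc)
  obtain ⟨B, hB⟩ := hc.exists_bound_of_continuousOn hK.smooth.continuous.continuousOn
  refine ⟨max B 0, le_max_right _ _, fun x hx w t ht => ?_⟩
  by_cases hw : C ≤ ‖w‖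
  · rw [hK.supp x w t hw, norm_zero]; exact le_max_right _ _
  · refine (hB (x, w, t) ⟨?_, ?_, ht⟩).trans (le_max_left _ _)
    · simpa using hx
    · simpa using (not_le.mp hw).le

theorem contr_smul (c : ℝ) (k : Quad) (φ : Bil) : contr (c • k) φ = c • contr k φ := by
  ext X Y
  simp only [contr_apply, qv_smul, wp_smul_left, _root_.smul_apply, smul_eq_mul]

theorem contr_zero (φ : Bil) : contr 0 φ = 0 := by
  have := contr_smul 0 0 φ
  simpa using this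

theorem continuous_contr : Continuous fun z : Quad × Bil => contr z.1 z.2 := by
  refine continuous_iff_continuousAt.2 fun z => ?_
  exact (ContDiffAt.contr (n := 0) contDiffAt_fst contDiffAt_snd).continuousAt

theorem sm_contr {α : Type*} [MeasurableSpace α] {k : α → Quad} {φ : α → Bil}
    (hk : StronglyMeasurable k) (hφ : StronglyMeasurable φ) :
    StronglyMeasurable fun a => contr (k a) (φ a) := by
  have h := continuous_contr.comp_stronglyMeasurable (hk.prodMk hφ)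
  simpa only using h

theorem aesm_contr {α : Type*} [MeasurableSpace α] {μ : Measure α} {k : α → Quad} {φ : α → Bil}
    (hk : AEStronglyMeasurable k μ) (hφ : AEStronglyMeasurable φ μ) :
    AEStronglyMeasurable (fun a => contr (k a) (φ a)) μ := by
  have h := continuous_contr.comp_aestronglyMeasurable (hk.prodMk hφ)
  simpa only using h

theorem uni_J0 : Uni J0 := ⟨norm_J0, fun _ => rfl⟩

theorem pbQ_smul (c : ℝ) (k : Quad) (A B : End) : pbQ (c • k) A B = c • pbQ k A B :=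
  (pbQL A B).map_smul c k

theorem pbQ_sub (k k' : Quad) (A B : End) : pbQ (k - k') A B = pbQ k A B - pbQ k' A B :=
  (pbQL A B).map_sub k k'

theorem pbQ_zero (A B : End) : pbQ 0 A B = 0 := (pbQL A B).map_zero

theorem qv_sub (k k' : Quad) (X Y : E) : qv (k - k') X Y = qv k X Y - qv k' X Y := by
  rw [sub_eq_add_neg, qv_add, ← neg_one_smul ℝ k', qv_smul, neg_one_smul, ← sub_eq_add_neg]

theorem qv_neg_right (k : Quad) (X Y : E) : qv k X (-Y) = -qv k X Y := by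
  rw [← neg_one_smul ℝ Y, qv_smul_right, neg_one_smul]

theorem pbQ_vol_J (Fr : Frame) (x : E) :
    pbQ (pbQ vol (Fr.A x) (Fr.A x)) (Fr.J x) (Fr.J x) = pbQ vol (Fr.A x) (Fr.A x) := by
  have h : (Fr.A x).comp (Fr.J x) = J0.comp (Fr.A x) := by
    ext1 v
    exact Fr.A_J x v
  rw [pbQ_pbQ, h, ← pbQ_pbQ, pbQ_vol J0, uni_J0.det, one_smul]

theorem norm_pbQ_bd (k : Quad) {A B : End} {T c : ℝ} (hA : ‖A‖ ≤ T) (hB : ‖B‖ ≤ T)
    (hk : ‖k‖ ≤ c) : ‖pbQ k A B‖ ≤ 16 * T ^ 4 * c := by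
  have hT : 0 ≤ T := (norm_nonneg _).trans hA
  have hc : 0 ≤ c := (norm_nonneg _).trans hk
  calc ‖pbQ k A B‖ ≤ 16 * ‖k‖ * ‖A‖ ^ 2 * ‖B‖ ^ 2 := norm_pbQ_le k A B
    _ ≤ 16 * c * T ^ 2 * T ^ 2 := by gcongr
    _ = 16 * T ^ 4 * c := by ring

end KerBd

open KerBd

namespace Geo

variable {M : Type*} [MetricSpace M] [CompactSpace M] [MeasurableSpace M] [BorelSpace M]
  {G : Geo M}

theorem Ker.measurable (Kr : G.Ker) (ε : ℝ) : Measurable fun z : M × M => Kr.k ε z.1 z.2 :=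
  (Kr.smooth ε).measurable

theorem Ker.alt_qv (Kr : G.Ker) (ε : ℝ) (p q : M) (X Y : E) : Alt (qv (Kr.k ε p q) X Y) := by
  intro u v
  rw [qv_apply, qv_apply, ← Finset.sum_neg_distrib]
  refine Finset.sum_congr rfl fun a _ => ?_
  rw [← Finset.sum_neg_distrib]
  refine Finset.sum_congr rfl fun b _ => ?_
  rw [Kr.alt2 ε p q a b u v]
  ring

theorem Ker.qv_swap (Kr : G.Ker) (ε : ℝ) (p q : M) (X Y : E) :
    qv (Kr.k ε p q) X Y = -qv (Kr.k ε p q) Y X := by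
  ext u v
  rw [_root_.neg_apply, _root_.neg_apply, qv_apply, qv_apply,
    Finset.sum_comm, ← Finset.sum_neg_distrib]
  refine Finset.sum_congr rfl fun a _ => ?_
  rw [← Finset.sum_neg_distrib]
  refine Finset.sum_congr rfl fun b _ => ?_
  rw [Kr.alt1 ε p q b a, _root_.neg_apply, _root_.neg_apply]
  ring

/-- the kernel read in the chart of the first point -/
theorem Ker.k_chart (Kr : G.Ker) {ε : ℝ} (hε : ε ∈ Ioc 0 Kr.ε0) {i : Fin G.n} {p q : M}
    (hp : p ∈ G.K i 2) (hq : q ∈ (G.κ i).source) :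
    Kr.k ε p q = ε⁻¹ ^ 4 • pbQ (Kr.Kb i (G.κ i p, ε⁻¹ • (G.κ i q - G.κ i p), ε))
      (G.Ti i p) (G.Ti i q) := by
  rw [← locQ_map hp.1 hq (Kr.k ε), Kr.Kb_eq ε hε i _ (by simpa using hp.2) _ (map_mem hq),
    pbQ_smul]

theorem Ker.bd0 (Kr : G.Ker) : ∃ C : ℝ, 0 ≤ C ∧ ∀ ε ∈ Ioc 0 Kr.ε0, ∀ p q,
    ‖Kr.k ε p q‖ ≤ C * ε⁻¹ ^ 4 := by
  obtain ⟨T, hT1, hT⟩ := G.exists_T_bound
  choose B hB0 hB using fun i => isK_bdd (Kr.Kb_isK i)
  have hS : 0 ≤ ∑ i, B i := Finset.sum_nonneg fun i _ => hB0 i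
  refine ⟨16 * T ^ 4 * ∑ i, B i, by positivity, fun ε hε p q => ?_⟩
  have hε0 : 0 < ε := hε.1
  have hp : p ∈ G.K (G.ch p) 2 := K_mono _ (by norm_num) (G.mem_K_ch p)
  by_cases hq : q ∈ G.K (G.ch p) (9 / 4)
  · rw [Kr.k_chart hε hp hq.1, norm_smul, Real.norm_of_nonneg (by positivity), mul_comm]
    gcongr
    refine norm_pbQ_bd _ (hT _ _ hp.1).2 (hT _ _ hq.1).2 ?_
    refine (hB _ _ hp.2 _ _ ⟨hε0.le, hε.2.trans Kr.ε0_le⟩).trans ?_
    exact Finset.single_le_sum (f := B) (fun i _ => hB0 i) (Finset.mem_univ _)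
  · rw [Kr.out ε hε _ p hp q hq, norm_zero]
    positivity

theorem Ker.isK_H (Kr : G.Ker) (i : Fin G.n) : IsK Kr.C0 fun z : E × E × ℝ =>
    Kr.Kb i z - pbQ (Kr.Kb i z) ((G.fr i).J z.1) ((G.fr i).J (z.1 + z.2.2 • z.2.1)) := by
  refine ⟨(Kr.Kb_isK i).smooth.sub (contDiff_iff_contDiffAt.2 fun z => ?_), fun x w t hw => ?_⟩
  · refine ContDiffAt.pbQ (Kr.Kb_isK i).smooth.contDiffAt ?_ ?_
    · exact ((G.fr i).J_smooth.comp contDiff_fst).contDiffAt
    · refine ((G.fr i).J_smooth.comp ?_).contDiffAt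
      fun_prop
  · simp only [(Kr.Kb_isK i).supp x w t hw, pbQ_zero, sub_zero]

theorem Ker.H_bd (Kr : G.Ker) (i : Fin G.n) : ∃ B : ℝ, 0 ≤ B ∧ ∀ x : E, ‖x‖ ≤ 2 → ∀ w : E,
    ∀ t ∈ Icc (0 : ℝ) 1, ‖Kr.Kb i (x, w, t)
      - pbQ (Kr.Kb i (x, w, t)) ((G.fr i).J x) ((G.fr i).J (x + t • w))‖ ≤ t * B := by
  obtain ⟨K', hK', h⟩ := (Kr.isK_H i).hadamard
  obtain ⟨B, hB0, hB⟩ := isK_bdd hK'
  refine ⟨B, hB0, fun x hx w t ht => ?_⟩
  have h1 := h x w t
  simp only [zero_smul, add_zero] at h1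
  rw [h1, Kr.Kb_zero i x (by simpa using hx) w, pbQ_smul, pbQ_vol_J, sub_self, zero_add, norm_smul,
    Real.norm_of_nonneg ht.1]
  exact mul_le_mul_of_nonneg_left (hB x hx w t ht) ht.1

/-- the kernel is almost `J0 ⊗ J0`-invariant -/
theorem Ker.bd1 (Kr : G.Ker) : ∃ C : ℝ, 0 ≤ C ∧ ∀ ε ∈ Ioc 0 Kr.ε0, ∀ p q,
    ‖Kr.k ε p q - pbQ (Kr.k ε p q) J0 J0‖ ≤ C * ε⁻¹ ^ 3 := by
  obtain ⟨T, hT1, hT⟩ := G.exists_T_bound
  choose B hB0 hB using fun i => Kr.H_bd i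
  have hS : 0 ≤ ∑ i, B i := Finset.sum_nonneg fun i _ => hB0 i
  refine ⟨16 * T ^ 4 * ∑ i, B i, by positivity, fun ε hε p q => ?_⟩
  have hε0 : 0 < ε := hε.1
  have hp : p ∈ G.K (G.ch p) 2 := K_mono _ (by norm_num) (G.mem_K_ch p)
  generalize G.ch p = i at hp
  by_cases hq : q ∈ G.K i (9 / 4)
  · have e1 : (G.Ti i p).comp J0 = ((G.fr i).J (G.κ i p)).comp (G.Ti i p) := by
      ext1 v
      exact Ti_J hp.1 v
    have e2 : (G.Ti i q).comp J0 = ((G.fr i).J (G.κ i q)).comp (G.Ti i q) := by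
      ext1 v
      exact Ti_J hq.1 v
    have e3 : G.κ i p + ε • ε⁻¹ • (G.κ i q - G.κ i p) = G.κ i q := by
      rw [smul_smul, mul_inv_cancel₀ hε0.ne', one_smul, add_sub_cancel]
    have hb := hB i _ hp.2 (ε⁻¹ • (G.κ i q - G.κ i p)) ε ⟨hε0.le, hε.2.trans Kr.ε0_le⟩
    rw [e3] at hb
    rw [Kr.k_chart hε hp hq.1, pbQ_smul, pbQ_pbQ, e1, e2, ← pbQ_pbQ, ← smul_sub, ← pbQ_sub,
      norm_smul, Real.norm_of_nonneg (by positivity)]
    have hBi : B i ≤ ∑ i, B i :=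
      Finset.single_le_sum (f := B) (fun i _ => hB0 i) (Finset.mem_univ _)
    refine (mul_le_mul_of_nonneg_left (norm_pbQ_bd _ (hT _ _ hp.1).2 (hT _ _ hq.1).2
      (hb.trans (mul_le_mul_of_nonneg_left hBi hε0.le))) (by positivity)).trans (le_of_eq ?_)
    field_simp
  · rw [Kr.out ε hε _ p hp q hq, pbQ_zero, sub_zero, norm_zero]
    positivity

theorem Ker.bd_am_snd (Kr : G.Ker) : ∃ C : ℝ, 0 ≤ C ∧ ∀ ε ∈ Ioc 0 Kr.ε0, ∀ p q v, ‖v‖ = 1 →
    ‖am (qv (Kr.k ε p q) v (J0 v))‖ ≤ C * ε⁻¹ ^ 3 := by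
  obtain ⟨C, hC0, hC⟩ := Kr.bd1
  refine ⟨8 * C, by positivity, fun ε hε p q v hv => ?_⟩
  have e : am (qv (Kr.k ε p q) v (J0 v))
      = (1 / 2 : ℝ) • qv (Kr.k ε p q - pbQ (Kr.k ε p q) J0 J0) v (J0 v) := by
    ext u w
    rw [am, amJ_apply, qv_sub, _root_.smul_apply, _root_.smul_apply,
      _root_.sub_apply, _root_.sub_apply, qv_pbQ, J0_J0, qv_neg_right,
      ← Kr.qv_swap, smul_eq_mul]
  rw [e, norm_smul, Real.norm_of_nonneg (by norm_num)]
  have h1 := norm_qv_le (Kr.k ε p q - pbQ (Kr.k ε p q) J0 J0) v (J0 v)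
  rw [norm_J0, hv] at h1
  have h2 := hC ε hε p q
  linarith

theorem Ker.bd_am_fst (Kr : G.Ker) : ∃ C : ℝ, 0 ≤ C ∧ ∀ ε ∈ Ioc 0 Kr.ε0, ∀ p q w, ‖w‖ = 1 →
    ‖am (qv (qswap (Kr.k ε p q)) w (J0 w))‖ ≤ C * ε⁻¹ ^ 3 := by
  obtain ⟨C, hC0, hC⟩ := Kr.bd1
  refine ⟨128 * C, by positivity, fun ε hε p q w hw => ?_⟩
  have e : am (qv (qswap (Kr.k ε p q)) w (J0 w))
      = (1 / 2 : ℝ) • qv (qswap (Kr.k ε p q - pbQ (Kr.k ε p q) J0 J0)) w (J0 w) := by
    ext X Y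
    rw [am, amJ_apply, _root_.smul_apply, _root_.smul_apply,
      qv_qswap, qv_qswap, qv_qswap, qv_sub,
      _root_.sub_apply, _root_.sub_apply, qv_pbQ, J0_J0, map_neg,
      ← Kr.alt_qv ε p q (J0 X) (J0 Y) w (J0 w), smul_eq_mul]
  rw [e, norm_smul, Real.norm_of_nonneg (by norm_num)]
  have h1 := norm_qv_le (qswap (Kr.k ε p q - pbQ (Kr.k ε p q) J0 J0)) w (J0 w)
  rw [norm_J0, hw] at h1
  have h2 := hC ε hε p q
  have h3 := norm_qswap_le (Kr.k ε p q - pbQ (Kr.k ε p q) J0 J0)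
  linarith

theorem integrable_contr {k : M → M → Quad} (hk : G.SK k) {φ : M → Bil} (hφ : Integrable φ G.V)
    (p : M) : Integrable (fun q => contr (k p q) (φ q)) G.V := by
  obtain ⟨C, hC0, hC⟩ := hk.bdd
  have hm : Measurable fun q => k p q := hk.measurable.comp measurable_prodMk_left
  refine Integrable.mono' (hφ.norm.const_mul (96 * C)) ?_ (Eventually.of_forall fun q => ?_)
  · exact aesm_contr hm.aestronglyMeasurable hφ.aestronglyMeasurable
  · refine (norm_contr_le _ _).trans ?_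
    gcongr
    exact hC p q

theorem Kop_apply {k : M → M → Quad} (hk : G.SK k) {φ : M → Bil} (hφ : Integrable φ G.V)
    (p : M) (X Y : E) : G.Kop k φ p X Y = ∫ q, wp (qv (k p q) X Y) (φ q) ∂G.V := by
  have hi := integrable_contr hk hφ p
  rw [Kop, ContinuousLinearMap.integral_apply hi X,
    ContinuousLinearMap.integral_apply (hi.apply_continuousLinearMap X) Y]
  simp only [contr_apply]

theorem Kop_add {k : M → M → Quad} (hk : G.SK k) {φ φ' : M → Bil} (hφ : Integrable φ G.V)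
    (hφ' : Integrable φ' G.V) : G.Kop k (φ + φ') = G.Kop k φ + G.Kop k φ' := by
  funext p
  rw [Pi.add_apply, Kop, Kop, Kop,
    ← integral_add (integrable_contr hk hφ p) (integrable_contr hk hφ' p)]
  refine integral_congr_ae (Eventually.of_forall fun q => ?_)
  exact (contrL (k p q)).map_add (φ q) (φ' q)

theorem Kop_sub {k : M → M → Quad} (hk : G.SK k) {φ φ' : M → Bil} (hφ : Integrable φ G.V)
    (hφ' : Integrable φ' G.V) : G.Kop k (φ - φ') = G.Kop k φ - G.Kop k φ' := by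
  funext p
  rw [Pi.sub_apply, Kop, Kop, Kop,
    ← integral_sub (integrable_contr hk hφ p) (integrable_contr hk hφ' p)]
  refine integral_congr_ae (Eventually.of_forall fun q => ?_)
  exact (contrL (k p q)).map_sub (φ q) (φ' q)

theorem measurable_Kop {k : M → M → Quad} (hk : G.SK k) {φ : M → Bil} (hφ : Measurable φ) :
    Measurable (G.Kop k φ) := by
  have hm : StronglyMeasurable fun z : M × M => contr (k z.1 z.2) (φ z.2) :=
    sm_contr hk.measurable.stronglyMeasurable (hφ.comp measurable_snd).stronglyMeasurable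
  exact (hm.integral_prod_right' (ν := G.V)).measurable

theorem Ker.alt_Kop (Kr : G.Ker) (ε : ℝ) {φ : M → Bil} (hφ : Integrable φ G.V) (p : M) :
    Alt (G.Kop (Kr.k ε) φ p) := by
  intro u v
  rw [Kop_apply (Kr.smooth ε) hφ, Kop_apply (Kr.smooth ε) hφ, ← integral_neg]
  refine integral_congr_ae (Eventually.of_forall fun q => ?_)
  show wp (qv (Kr.k ε p q) u v) (φ q) = -wp (qv (Kr.k ε p q) v u) (φ q)
  rw [Kr.qv_swap ε p q u v, ← neg_one_smul ℝ (qv (Kr.k ε p q) v u), wp_smul_left, neg_one_mul]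

theorem Ker.norm_Kop_le (Kr : G.Ker) : ∃ C : ℝ, 0 ≤ C ∧ ∀ ε ∈ Ioc 0 Kr.ε0, ∀ φ : M → Bil,
    Integrable φ G.V → ∀ p,
      ‖G.Kop (Kr.k ε) φ p‖ ≤ C * ε⁻¹ ^ 4 * ∫ q in closedBall p (Kr.C0 * ε), ‖φ q‖ ∂G.V := by
  obtain ⟨C, hC0, hC⟩ := Kr.bd0
  refine ⟨96 * C, by positivity, fun ε hε φ hφ p => ?_⟩
  rw [Kop, ← setIntegral_eq_integral_of_forall_compl_eq_zero (s := closedBall p (Kr.C0 * ε)),
    ← integral_const_mul]
  · refine norm_integral_le_of_norm_le (hφ.norm.const_mul _).integrableOn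
      (Eventually.of_forall fun q => ?_)
    refine (norm_contr_le _ _).trans ?_
    rw [mul_assoc 96 C]
    gcongr
    exact hC ε hε p q
  · intro q hq
    rw [Kr.supp ε hε p q (by rw [dist_comm]; simpa using hq), contr_zero]

theorem Ker.isK_contr (Kr : G.Ker) (i : Fin G.n) : IsK Kr.C0 fun z => contrL (Kr.Kb i z) := by
  refine ⟨contDiff_iff_contDiffAt.2 fun z => ContDiffAt.contrL (Kr.Kb_isK i).smooth.contDiffAt,
    fun x w t hw => ?_⟩
  ext1 φ
  rw [contrL_apply, (Kr.Kb_isK i).supp x w t hw, contr_zero, _root_.zero_apply]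

theorem Ker.Kb_far (Kr : G.Ker) {ε : ℝ} (hε : ε ∈ Ioc 0 Kr.ε0) (i : Fin G.n) {x y : E}
    (hx : ‖x‖ ≤ 2) (hy : 5 / 2 < ‖y‖) : Kr.Kb i (x, ε⁻¹ • (y - x), ε) = 0 := by
  refine (Kr.Kb_isK i).supp _ _ _ ?_
  have hε0 : 0 < ε := hε.1
  have h1 : ‖y‖ - ‖x‖ ≤ ‖y - x‖ := norm_sub_norm_le y x
  have h2 : Kr.C0 * ε ≤ Kr.C0 * Kr.ε0 :=
    mul_le_mul_of_nonneg_left hε.2 (zero_le_one.trans Kr.C0_ge)
  have h3 := Kr.small
  rw [norm_smul, Real.norm_of_nonneg (by positivity), le_inv_mul_iff₀ hε0]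
  linarith

/-- the chart formula -/
theorem Ker.Kop_loc (Kr : G.Ker) {ε : ℝ} (hε : ε ∈ Ioc 0 Kr.ε0) {φ : M → Bil} (hφ : G.S2 φ)
    (ha : ∀ p, Alt (φ p)) (i : Fin G.n) {x : E} (hx : ‖x‖ ≤ 2) :
    G.loc2 i (G.Kop (Kr.k ε) φ) x = Op (fun z => contrL (Kr.Kb i z)) ε (G.rep2 i φ) x := by
  have hε0 : 0 < ε := hε.1
  have hx3 : x ∈ ball (0 : E) 3 := by
    rw [mem_ball_zero_iff]; linarith
  have hp : (G.κ i).symm x ∈ G.K i 2 := symm_mem_K (by norm_num) hx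
  have hi := integrable_contr (Kr.smooth ε) hφ.integrable ((G.κ i).symm x)
  have hm : StronglyMeasurable fun q =>
      pbL (G.T i ((G.κ i).symm x)) (contr (Kr.k ε ((G.κ i).symm x) q) (φ q)) := by
    refine (pbL _).continuous.comp_stronglyMeasurable ?_
    have hm' : Measurable fun q => Kr.k ε ((G.κ i).symm x) q :=
      (Kr.smooth ε).measurable.comp measurable_prodMk_left
    exact sm_contr hm'.stronglyMeasurable hφ.measurable.stronglyMeasurable
  have h1 : G.loc2 i (G.Kop (Kr.k ε) φ) x = ∫ q,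
      pbL (G.T i ((G.κ i).symm x)) (contr (Kr.k ε ((G.κ i).symm x) q) (φ q)) ∂G.V := by
    rw [ContinuousLinearMap.integral_comp_comm _ hi]
    rfl
  have h2 := (integral_chart i hm fun q hq => by
    rw [Kr.out ε hε i _ hp q (fun h => hq h.1), contr_zero, map_zero]).2
  have h3 : ∀ y ∈ ball (0 : E) 3, ((G.fr i).A y).det • pbL (G.T i ((G.κ i).symm x))
      (contr (Kr.k ε ((G.κ i).symm x) ((G.κ i).symm y)) (φ ((G.κ i).symm y)))
      = ε⁻¹ ^ 4 • contr (Kr.Kb i (x, ε⁻¹ • (y - x), ε)) (G.rep2 i φ y) := by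
    intro y hy
    have hd := det_T (symm_mem (i := i) hy)
    rw [map_symm hy] at hd
    rw [← hd, pbL_apply, ← contr_pbQ (Kr.alt2 ε _ _) (ha _), ← contr_smul]
    have hl := Kr.Kb_eq ε hε i x (by simpa using hx) y hy
    by_cases hy' : ‖y‖ ≤ 5 / 2
    · rw [rep2_eq i φ hy', ← hl]
      rfl
    · rw [Kr.Kb_far hε i hx (not_le.mp hy'), smul_zero] at hl ⊢
      rw [contr_zero]
      have hl' : pbQ (Kr.k ε ((G.κ i).symm x) ((G.κ i).symm y)) (G.T i ((G.κ i).symm x))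
        (G.T i ((G.κ i).symm y)) = 0 := hl
      rw [hl', contr_zero]
  rw [h1, h2, setIntegral_congr_fun measurableSet_ball h3,
    setIntegral_eq_integral_of_forall_compl_eq_zero, integral_smul]
  · have h4 := Measure.integral_comp_smul (volume : Measure E)
      (fun y => contr (Kr.Kb i (x, ε⁻¹ • (x + y - x), ε)) (G.rep2 i φ (x + y))) ε
    rw [integral_add_left_eq_self
      (fun y => contr (Kr.Kb i (x, ε⁻¹ • (y - x), ε)) (G.rep2 i φ y)) x,
      finrank_euclideanSpace_fin, abs_of_nonneg (by positivity), ← inv_pow] at h4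
    rw [← h4, Op]
    refine integral_congr_ae (Eventually.of_forall fun w => ?_)
    simp only [contrL_apply, add_sub_cancel_left, smul_smul, inv_mul_cancel₀ hε0.ne', one_smul]
  · intro y hy
    rw [mem_ball_zero_iff, not_lt] at hy
    rw [Kr.Kb_far hε i hx (by linarith), contr_zero, smul_zero]

/-- at scale zero the operator is the identity -/
theorem Ker.Op_zero (Kr : G.Ker) (i : Fin G.n) {g : E → Bil} {x : E} (hx : ‖x‖ ≤ 2)
    (ha : Alt (g x)) : Op (fun z => contrL (Kr.Kb i z)) 0 g x = g x := by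
  have h1 : ∀ w : E, contrL (Kr.Kb i (x, w, 0)) (g (x + (0 : ℝ) • w))
      = (((G.fr i).A x).det • Kr.a ((G.fr i).A x w)) • g x := by
    intro w
    rw [zero_smul, add_zero, contrL_apply, Kr.Kb_zero i x (by simpa using hx) w, pbQ_vol,
      smul_smul, contr_smul, contr_vol ha, smul_eq_mul, mul_comm]
  rw [Op]
  simp only [h1]
  rw [integral_smul_const, integral_comp_end _ ((G.fr i).det_pos x), Kr.a_int, one_smul]

end Geo

end Crest.Agent.R240

end
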