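import Crest.Agent.R240.CurC
import Crest.Agent.R240.KerBd

/-!
# Row 240: regularisation of currents
-/

set_option autoImplicit false
set_option linter.unusedSectionVars false
set_option linter.unusedVariables false

open MeasureTheory Metric Set Filter Topology
open scoped ContDiff ENNReal

noncomputable section

namespace Crest.Agent.R240

namespace Geo

variable {M : Type*} [MetricSpace M] [CompactSpace M] [MeasurableSpace M] [BorelSpace M]
  {G : Geo M}

theorem SK.snd_coef {k : M → M → Quad} (hk : G.SK k) (p : M) (a b : Fin 4) :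
    G.S2 fun q => k p q a b := by
  have h := hk.snd p (e a) (e b)
  simpa only [qv_e] using h

theorem Cur.R_e (N : G.Cur) (k : M → M → Quad) (p : M) (a b : Fin 4) :
    N.R k p (e a) (e b) = N.N fun q => k p q a b := by
  unfold Cur.R
  rw [ofCoef_e]

theorem Cur.R_apply (N : G.Cur) {k : M → M → Quad} (hk : G.SK k) (p : M) (X Y : E) :
    N.R k p X Y = N.N fun q => qv (k p q) X Y := by
  have h1 : (fun q => qv (k p q) X Y)
      = ∑ a, ∑ b, (X a * Y b) • fun q => k p q a b := by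
    funext q
    simp only [qv, Finset.sum_apply, Pi.smul_apply]
  rw [h1, N.map_sum fun a _ => S2.sum fun b _ => (hk.snd_coef p a b).smul _]
  unfold Cur.R
  rw [ofCoef_apply]
  refine Finset.sum_congr rfl fun a _ => ?_
  rw [N.map_sum fun b _ => (hk.snd_coef p a b).smul _]
  refine Finset.sum_congr rfl fun b _ => ?_
  rw [N.smul _ _ (hk.snd_coef p a b), mul_comm]

theorem Cur.loc2_R (N : G.Cur) {k : M → M → Quad} (hk : G.SK k) (i : Fin G.n) (u v : E) :
    (fun x => G.loc2 i (N.R k) x u v) = fun x => N.N fun q =>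
      qv (k ((G.κ i).symm x) q) (G.T i ((G.κ i).symm x) u) (G.T i ((G.κ i).symm x) v) := by
  funext x
  unfold loc2
  rw [pb_apply, N.R_apply hk]

theorem Cur.R_smooth (N : G.Cur) {k : M → M → Quad} (hk : G.SK k) : G.S2 (N.R k) := by
  intro i x hx
  refine ContDiffAt.contDiffWithinAt (contDiffAt_bil fun a b => ?_)
  rw [N.loc2_R hk]
  exact (N.contDiffOn_param (hk.sp i (e a) (e b)) isOpen_ball).contDiffAt
    (isOpen_ball.mem_nhds hx)

theorem Cur.R_alt (N : G.Cur) {k : M → M → Quad} (hk : G.SK k)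
    (ha : ∀ p q a b, k p q a b = -k p q b a) (p : M) : Alt (N.R k p) := by
  refine alt_of_coef fun a b => ?_
  rw [N.R_e, N.R_e]
  have h1 : (fun q => k p q a b) = (-1 : ℝ) • fun q => k p q b a := by
    funext q
    rw [ha p q a b]
    simp only [Pi.smul_apply, neg_smul, one_smul]
  rw [h1, N.smul _ _ (hk.snd_coef p b a)]
  ring

theorem ktr_e (k : M → M → Quad) (q p : M) (c d a b : Fin 4) :
    ktr k q p c d (e a) (e b) = k p q a b (e c) (e d) := by
  unfold ktr qswap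
  rw [ofCoef_e]

theorem Ker.ktr_alt1 (Kr : G.Ker) (ε : ℝ) (q p : M) (c d : Fin 4) :
    ktr (Kr.k ε) q p c d = -ktr (Kr.k ε) q p d c := by
  refine bil_ext fun a b => ?_
  rw [neg_apply, neg_apply, ktr_e, ktr_e]
  exact Kr.alt2 ε p q a b _ _

theorem Ker.ktr_alt2 (Kr : G.Ker) (ε : ℝ) (q p : M) (c d : Fin 4) :
    Alt (ktr (Kr.k ε) q p c d) := by
  refine alt_of_coef fun a b => ?_
  rw [ktr_e, ktr_e, Kr.alt1 ε p q a b, neg_apply,
    neg_apply]

/-- the derivative of the kernel in the first variable, read in a chart -/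
def dK (G : Geo M) (k : M → M → Quad) (i : Fin G.n) (x u v w : E) (q : M) : Bil :=
  fderiv ℝ (fun z : E =>
    qv (k ((G.κ i).symm z) q) (G.T i ((G.κ i).symm z) v) (G.T i ((G.κ i).symm z) w)) x u

theorem SK.dK_S2 {k : M → M → Quad} (hk : G.SK k) (i : Fin G.n) {x : E}
    (hx : x ∈ ball (0 : E) 3) (u v w : E) : G.S2 (G.dK k i x u v w) :=
  ((hk.sp i v w).fderiv isOpen_ball u).slice hx

theorem Cur.fderiv_loc2_R (N : G.Cur) {k : M → M → Quad} (hk : G.SK k) (i : Fin G.n) {x : E}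
    (hx : x ∈ ball (0 : E) 3) (u v w : E) :
    fderiv ℝ (G.loc2 i (N.R k)) x u v w = N.N (G.dK k i x u v w) := by
  rw [fderiv_bil_apply (((N.R_smooth hk).at hx).differentiableAt (by simp)), N.loc2_R hk,
    N.fderiv_param (hk.sp i v w) isOpen_ball hx]
  rfl

theorem SK.dK_apply {k : M → M → Quad} (hk : G.SK k) (i : Fin G.n) {x : E}
    (hx : x ∈ ball (0 : E) 3) (u v w : E) (q : M) (a b : E) :
    G.dK k i x u v w q a b
      = fderiv ℝ (G.loc2 i fun p' => qv (qswap (k p' q)) a b) x u v w := by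
  unfold dK
  rw [fderiv_bil_apply ((((hk.sp i v w).contDiffOn isOpen_ball q).contDiffAt
      (isOpen_ball.mem_nhds hx)).differentiableAt (by simp)),
    fderiv_bil_apply (((hk.fst q a b).at hx).differentiableAt (by simp))]
  congr 2
  funext y
  unfold loc2
  rw [pb_apply, qv_qswap]

/-- the regularisation of a closed current is closed -/
theorem Cur.R_Z (Kr : G.Ker) {ε : ℝ} (hε : ε ∈ Ioc 0 Kr.ε0) {N : G.Cur} (hN : N.Closed) :
    G.Z (N.R (Kr.k ε)) := by
  have hk := Kr.smooth ε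
  refine ⟨N.R_smooth hk, N.R_alt hk (Kr.alt1 ε), fun p X Y W => ?_⟩
  obtain ⟨Γ, hΓ, hD⟩ := Kr.exact ε hε p X Y W
  have hx : G.κ (G.ch p) p ∈ ball (0 : E) 3 := map_mem (G.ch_source p)
  unfold D2 d2
  rw [N.fderiv_loc2_R hk _ hx, N.fderiv_loc2_R hk _ hx, N.fderiv_loc2_R hk _ hx,
    ← N.add _ _ (hk.dK_S2 _ hx _ _ _) (hk.dK_S2 _ hx _ _ _),
    ← N.add _ _ ((hk.dK_S2 _ hx _ _ _).add (hk.dK_S2 _ hx _ _ _)) (hk.dK_S2 _ hx _ _ _),
    ← hN Γ hΓ]
  congr 1
  funext q
  refine bil_ext fun a b => ?_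
  rw [← hD q (e a) (e b)]
  unfold D2 d2
  simp only [Pi.add_apply, add_apply]
  rw [hk.dK_apply _ hx, hk.dK_apply _ hx, hk.dK_apply _ hx]

theorem R_ofForm {k : M → M → Quad} (hk : G.SK k) {Φ : M → Bil} (hΦ : Integrable Φ G.V) :
    (Cur.ofForm G Φ hΦ).R k = G.Kop k Φ := by
  funext p
  refine bil_ext fun a b => ?_
  rw [Cur.R_apply _ hk, Kop_apply hk hΦ]
  rfl

theorem R_plus (N N' : G.Cur) (k : M → M → Quad) : (N.plus N').R k = N.R k + N'.R k := by
  funext p
  refine bil_ext fun a b => ?_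
  simp only [Pi.add_apply, add_apply]
  rw [Cur.R_e, Cur.R_e, Cur.R_e]
  rfl

theorem Kop_smooth {k : M → M → Quad} (hk : G.SK k) {Φ : M → Bil} (hΦ : Integrable Φ G.V) :
    G.S2 (G.Kop k Φ) := by
  rw [← R_ofForm hk hΦ]
  exact Cur.R_smooth _ hk

theorem Ker.Kop_Z (Kr : G.Ker) {ε : ℝ} (hε : ε ∈ Ioc 0 Kr.ε0) {ζ : M → Bil} (hζ : G.Z ζ) :
    G.Z (G.Kop (Kr.k ε) ζ) := by
  rw [← R_ofForm (Kr.smooth ε) hζ.smooth.integrable]
  exact Cur.R_Z Kr hε fun γ hγ => stokes hγ hζ

/-- integrals as sums of integrals over the unit balls of the charts -/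
theorem integral_eq_sum_chart {F : Type*} [NormedAddCommGroup F] [NormedSpace ℝ F]
    [CompleteSpace F] {f : M → F} (hm : StronglyMeasurable f) (hf : Integrable f G.V) :
    ∫ p, f p ∂G.V = ∑ j, ∫ y in closedBall (0 : E) 1,
      (((G.fr j).A y).det * G.rho j ((G.κ j).symm y)) • f ((G.κ j).symm y) := by
  have hρ : ∀ j, Continuous (G.rho j) := fun j => (G.rho_S0 j).continuous
  have h1 : (fun p => f p) = fun p => ∑ j, G.rho j p • f p := by
    funext p
    rw [← Finset.sum_smul, G.sum_rho, one_smul]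
  have hint : ∀ j, Integrable (fun p => G.rho j p • f p) G.V := by
    intro j
    refine hf.mono ((hρ j).stronglyMeasurable.smul hm).aestronglyMeasurable
      (Eventually.of_forall fun p => ?_)
    rw [norm_smul, Real.norm_eq_abs, abs_of_nonneg (G.rho_nonneg j p)]
    exact mul_le_of_le_one_left (norm_nonneg _) (G.rho_le_one j p)
  rw [h1, integral_finsetSum _ fun j _ => hint j]
  refine Finset.sum_congr rfl fun j _ => ?_
  have h0 : ∀ p, p ∉ (G.κ j).source → G.rho j p • f p = 0 := by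
    intro p hp
    rw [rho_eq_zero fun h => hp h.1, zero_smul]
  rw [(integral_chart j (f := fun p => G.rho j p • f p)
    ((hρ j).stronglyMeasurable.smul hm) h0).2]
  simp only [smul_smul]
  refine setIntegral_eq_of_subset_of_forall_sdiff_eq_zero measurableSet_ball
    (closedBall_subset_ball (by norm_num)) fun y hy => ?_
  have h2 : G.rho j ((G.κ j).symm y) = 0 :=
    loc0_rho_zero j hy.1 (by
      have := hy.2
      rw [mem_closedBall_zero_iff, not_le] at this
      exact this.le)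
  rw [h2, mul_zero, zero_smul]

theorem contr_eq_qswap (k : Quad) (ψ : Bil) : contr k ψ =
    ψ (e 2) (e 3) • qswap k 0 1 - ψ (e 1) (e 3) • qswap k 0 2 + ψ (e 1) (e 2) • qswap k 0 3
      + ψ (e 0) (e 3) • qswap k 1 2 - ψ (e 0) (e 2) • qswap k 1 3
      + ψ (e 0) (e 1) • qswap k 2 3 := by
  refine bil_ext fun a b => ?_
  simp only [contr, qswap, add_apply, sub_apply,
    smul_apply, ofCoef_e, smul_eq_mul, wp]
  ring

theorem SK.contr_fst_spec (N : G.Cur) {k : M → M → Quad} (hk : G.SK k) (q : M) (ψ : Bil) :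
    G.S2 (fun p => contr (k p q) ψ) ∧
      (N.N fun p => contr (k p q) ψ) = wp (N.R (Geo.ktr k) q) ψ := by
  have hs : ∀ c d, G.S2 fun p => Geo.ktr k q p c d := fun c d => hk.ktr.snd_coef q c d
  have h1 : (fun p => contr (k p q) ψ) =
      ψ (e 2) (e 3) • (fun p => Geo.ktr k q p 0 1) - ψ (e 1) (e 3) • (fun p => Geo.ktr k q p 0 2)
      + ψ (e 1) (e 2) • (fun p => Geo.ktr k q p 0 3) + ψ (e 0) (e 3) • (fun p => Geo.ktr k q p 1 2)
      - ψ (e 0) (e 2) • (fun p => Geo.ktr k q p 1 3)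
      + ψ (e 0) (e 1) • (fun p => Geo.ktr k q p 2 3) := by
    funext p
    rw [contr_eq_qswap]
    rfl
  have s1 := (hs 0 1).smul (ψ (e 2) (e 3))
  have s2 := (hs 0 2).smul (ψ (e 1) (e 3))
  have s3 := (hs 0 3).smul (ψ (e 1) (e 2))
  have s4 := (hs 1 2).smul (ψ (e 0) (e 3))
  have s5 := (hs 1 3).smul (ψ (e 0) (e 2))
  have s6 := (hs 2 3).smul (ψ (e 0) (e 1))
  rw [h1]
  refine ⟨((((s1.sub s2).add s3).add s4).sub s5).add s6, ?_⟩
  rw [N.add _ _ ((((s1.sub s2).add s3).add s4).sub s5) s6,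
    N.map_sub (((s1.sub s2).add s3).add s4) s5, N.add _ _ ((s1.sub s2).add s3) s4,
    N.add _ _ (s1.sub s2) s3, N.map_sub s1 s2, N.smul _ _ (hs 0 1), N.smul _ _ (hs 0 2),
    N.smul _ _ (hs 0 3), N.smul _ _ (hs 1 2), N.smul _ _ (hs 1 3), N.smul _ _ (hs 2 3)]
  unfold wp
  simp only [Cur.R_e]
  ring

theorem SK.sp_contr {k : M → M → Quad} (hk : G.SK k) (hk2 : ∀ p q a b, Alt (k p q a b))
    {φ : M → Bil} (hφ : G.S2 φ) (ha : ∀ p, Alt (φ p)) (j : Fin G.n) :
    G.SP (ball (0 : E) 3) fun (y : E) p => (((G.fr j).A y).det * G.rho j ((G.κ j).symm y)) •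
      contr (k p ((G.κ j).symm y)) (φ ((G.κ j).symm y)) := by
  intro i
  have h1 : ContDiffOn ℝ ∞ (fun z : E × E => G.loc0 j (G.rho j) z.1 •
      contr (G.locQ i j k (z.2, z.1)) (G.loc2 j φ z.1)) (ball 0 3 ×ˢ ball 0 3) := by
    intro z hz
    refine ContDiffAt.contDiffWithinAt ?_
    have a1 : ContDiffAt ℝ ∞ (fun z : E × E => G.loc0 j (G.rho j) z.1) z :=
      ((G.rho_S0 j).at hz.1).comp z contDiffAt_fst
    have a2 : ContDiffAt ℝ ∞ (fun z : E × E => G.loc2 j φ z.1) z :=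
      (hφ.at hz.1).comp z contDiffAt_fst
    have a3 : ContDiffAt ℝ ∞ (fun z : E × E => G.locQ i j k (z.2, z.1)) z := by
      have b1 : ContDiffAt ℝ ∞ (G.locQ i j k) (z.2, z.1) :=
        (hk i j).contDiffAt ((isOpen_ball.prod isOpen_ball).mem_nhds ⟨hz.2, hz.1⟩)
      exact b1.comp z (contDiffAt_snd.prodMk contDiffAt_fst)
    exact a1.smul (ContDiffAt.contr a3 a2)
  refine h1.congr fun z hz => ?_
  unfold loc2 locQ loc0
  simp only
  rw [contr_pbQ (hk2 _ _) (ha _), pb_smul, det_T (symm_mem hz.1), map_symm hz.1, smul_smul,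
    mul_comm]

theorem continuous_contr_pair : Continuous fun z : Quad × Bil => contr z.1 z.2 := by
  rw [continuous_iff_continuousAt]
  intro z
  have h1 : ContDiffAt ℝ 0 (fun z : Quad × Bil => z.1) z := contDiffAt_fst
  have h2 : ContDiffAt ℝ 0 (fun z : Quad × Bil => z.2) z := contDiffAt_snd
  exact (ContDiffAt.contr h1 h2).continuousAt

theorem measurable_contr_pair : Measurable fun z : Quad × Bil => contr z.1 z.2 :=
  continuous_contr_pair.measurable

theorem measurable_contr_snd {k : M → M → Quad} (hk : G.SK k) {φ : M → Bil} (hφ : Measurable φ)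
    (p : M) : Measurable fun q => contr (k p q) (φ q) := by
  have h1 : Measurable fun q => k p q :=
    hk.measurable.comp (f := fun q : M => (p, q)) (measurable_const.prodMk measurable_id)
  exact measurable_contr_pair.comp (f := fun q => (k p q, φ q)) (h1.prodMk hφ)

/-- duality -/
theorem Cur.N_Kop (N : G.Cur) (Kr : G.Ker) (ε : ℝ) {φ : M → Bil} (hφ : G.S2 φ)
    (ha : ∀ p, Alt (φ p)) :
    N.N (G.Kop (Kr.k ε) φ) = ∫ q, wp (N.R (ktr (Kr.k ε)) q) (φ q) ∂G.V := by
  have hk := Kr.smooth ε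
  have hP := fun j => N.integral_param (hk.sp_contr (Kr.alt2 ε) hφ ha j) isOpen_ball
    (isCompact_closedBall (0 : E) 1) (closedBall_subset_ball (by norm_num))
  have h1 : G.Kop (Kr.k ε) φ = ∑ j, fun p => ∫ y in closedBall (0 : E) 1,
      (((G.fr j).A y).det * G.rho j ((G.κ j).symm y)) •
        contr (Kr.k ε p ((G.κ j).symm y)) (φ ((G.κ j).symm y)) := by
    funext p
    rw [Finset.sum_apply]
    exact integral_eq_sum_chart (measurable_contr_snd hk hφ.measurable p).stronglyMeasurable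
      (integrable_contr hk hφ.integrable p)
  have hn : G.S2 (N.R (ktr (Kr.k ε))) := N.R_smooth hk.ktr
  have hna : ∀ p, Alt (N.R (ktr (Kr.k ε)) p) := N.R_alt hk.ktr (Kr.ktr_alt1 ε)
  have hc : Continuous fun q => wp (N.R (ktr (Kr.k ε)) q) (φ q) := (hn.wp hφ hna ha).continuous
  rw [h1, N.map_sum fun j _ => (hP j).1, integral_eq_sum_chart hc.stronglyMeasurable
    (abs_integral_wp_le (hn.memLp 2) (hφ.memLp 2)).1]
  refine Finset.sum_congr rfl fun j _ => ?_
  rw [(hP j).2]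
  refine integral_congr_ae (Eventually.of_forall fun y => ?_)
  obtain ⟨s1, s2⟩ := SK.contr_fst_spec N hk ((G.κ j).symm y) (φ ((G.κ j).symm y))
  simp only [smul_eq_mul]
  rw [← s2, ← N.smul _ _ s1]
  rfl

/-- the energy identity -/
theorem Cur.energy (N : G.Cur) (hN : ∀ η, G.Z η → N.N η = 0) (Kr : G.Ker) {ε : ℝ}
    (hε : ε ∈ Ioc 0 Kr.ε0) :
    ∫ q, wp (N.R (ktr (Kr.k ε)) q) (N.R (ktr (Kr.k ε)) q) ∂G.V = 0 := by
  have hk := Kr.smooth ε
  have hn : G.S2 (N.R (ktr (Kr.k ε))) := N.R_smooth hk.ktr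
  have hna : ∀ p, Alt (N.R (ktr (Kr.k ε)) p) := N.R_alt hk.ktr (Kr.ktr_alt1 ε)
  have hZ : G.Z (N.R (ktr (Kr.k ε))) := by
    refine Z_of_weak hn hna fun γ hγ => ?_
    have h1 := N.N_Kop Kr ε hγ.Z.smooth hγ.Z.alt
    rw [hN _ (Kr.Kop_Z hε hγ.Z)] at h1
    rw [h1]
    exact integral_congr_ae (Eventually.of_forall fun p => wp_comm _ _)
  rw [← N.N_Kop Kr ε hn hna]
  exact hN _ (Kr.Kop_Z hε hZ)

end Geo

end Crest.Agent.R240

end
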