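import Mathlib

/-!
# Row 240 (S0371, Donaldson: tamed ⇒ compatible on 4-manifolds): definitions

Read `Crest/Agent/R240/Plan.lean` for the proof.  Everything happens in the model `Geo M`:
a compact metric space with finitely many charts onto `ball 0 3 ⊆ ℝ⁴`; every tangent space is
identified with `E = ℝ⁴ = ℂ²` by a (measurable, discontinuous) unitary *reference frame*, so that the
almost complex structure is the constant `J0` and a two-form is just a map `M → Bil`.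
DO NOT EDIT THIS FILE without asking helper10.
-/

set_option autoImplicit false

open MeasureTheory Metric Set Filter Topology
open scoped ContDiff ENNReal

noncomputable section

namespace Crest.Agent.R240

/-! ### Linear algebra on `ℝ⁴` -/

abbrev E := EuclideanSpace ℝ (Fin 4)
abbrev End := E →L[ℝ] E
abbrev Cov := E →L[ℝ] ℝ
instance instCovGroup : NormedAddCommGroup Cov := inferInstance
instance instCovSpace : NormedSpace ℝ Cov := inferInstance
instance instEndGroup : NormedAddCommGroup End := inferInstance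
instance instEndSpace : NormedSpace ℝ End := inferInstance
abbrev Bil := E →L[ℝ] Cov
instance instBilGroup : NormedAddCommGroup Bil := inferInstance
instance instBilSpace : NormedSpace ℝ Bil := inferInstance
/-- double forms: `k a b` is the form at the point `q` obtained by putting `e a, e b` in the two
slots at the point `p`; see `qv` -/
abbrev Quad := Fin 4 → Fin 4 → Bil

/-- basis vectors -/
def e (a : Fin 4) : E := EuclideanSpace.single a 1

/-- coordinate covectors -/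
def dx (a : Fin 4) : Cov := EuclideanSpace.proj a

/-- the standard complex structure -/
def J0 : End :=
  (dx 0).smulRight (e 1) - (dx 1).smulRight (e 0) + (dx 2).smulRight (e 3) - (dx 3).smulRight (e 2)

/-- unitary maps -/
def Uni (U : End) : Prop := (∀ v, ‖U v‖ = ‖v‖) ∧ ∀ v, U (J0 v) = J0 (U v)

/-- pull-back of a bilinear form -/
def pb (β : Bil) (A : End) : Bil := β.bilinearComp A A

/-- alternating -/
def Alt (β : Bil) : Prop := ∀ u v, β u v = -β v u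

/-- anti-invariant -/
def Anti (J : End) (β : Bil) : Prop := ∀ u v, β (J u) (J v) = -β u v

/-- the anti-invariant part -/
def amJ (J : End) (β : Bil) : Bil := (1 / 2 : ℝ) • (β - pb β J)

/-- the anti-invariant part for `J0` -/
def am (β : Bil) : Bil := amJ J0 β

/-- the invariant part for `J0` -/
def ip (β : Bil) : Bil := β - am β

/-- wedge product of two covectors -/
def wedge (φ ψ : Cov) : Bil := φ.smulRight ψ - ψ.smulRight φ

/-- the covector with given coordinates -/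
def cov (c : Fin 4 → ℝ) : Cov := ∑ a, c a • dx a

/-- the form with given matrix -/
def ofCoef (c : Fin 4 → Fin 4 → ℝ) : Bil := ∑ a, ∑ b, c a b • (dx a).smulRight (dx b)

/-- Hodge star (of the part above the diagonal) -/
def star (β : Bil) : Bil :=
  β (e 0) (e 1) • wedge (dx 2) (dx 3) - β (e 0) (e 2) • wedge (dx 1) (dx 3)
    + β (e 0) (e 3) • wedge (dx 1) (dx 2) + β (e 1) (e 2) • wedge (dx 0) (dx 3)
    - β (e 1) (e 3) • wedge (dx 0) (dx 2) + β (e 2) (e 3) • wedge (dx 0) (dx 1)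

/-- `β ∧ γ / vol` -/
def wp (β γ : Bil) : ℝ :=
  β (e 0) (e 1) * γ (e 2) (e 3) - β (e 0) (e 2) * γ (e 1) (e 3) + β (e 0) (e 3) * γ (e 1) (e 2)
    + β (e 1) (e 2) * γ (e 0) (e 3) - β (e 1) (e 3) * γ (e 0) (e 2) + β (e 2) (e 3) * γ (e 0) (e 1)

/-- the determinant of four vectors -/
def det4 (u v w z : E) : ℝ :=
  (u 0 * v 1 - u 1 * v 0) * (w 2 * z 3 - w 3 * z 2) - (u 0 * v 2 - u 2 * v 0) * (w 1 * z 3 - w 3 * z 1)
    + (u 0 * v 3 - u 3 * v 0) * (w 1 * z 2 - w 2 * z 1)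
    + (u 1 * v 2 - u 2 * v 1) * (w 0 * z 3 - w 3 * z 0)
    - (u 1 * v 3 - u 3 * v 1) * (w 0 * z 2 - w 2 * z 0)
    + (u 2 * v 3 - u 3 * v 2) * (w 0 * z 1 - w 1 * z 0)

/-- `|det_ℂ (v, w)|²`, the squared sine of the angle between two complex lines -/
def ang (v w : E) : ℝ := det4 v (J0 v) w (J0 w)

/-- the standard Kähler form `⟪J0 u, v⟫` -/
def om : Bil := wedge (dx 0) (dx 1) + wedge (dx 2) (dx 3)

/-- a double form evaluated on two vectors at the first point -/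
def qv (k : Quad) (X Y : E) : Bil := ∑ a, ∑ b, (X a * Y b) • k a b

/-- the volume form: `qv vol u v w z = det4 u v w z` -/
def vol : Quad := fun a b => star (wedge (dx a) (dx b))

/-- pull-back of a double form: `A` in the first two slots, `B` in the last two -/
def pbQ (k : Quad) (A B : End) : Quad := fun a b => pb (qv k (A (e a)) (A (e b))) B

/-- exchange of the two pairs of slots -/
def qswap (k : Quad) : Quad := fun c d => ofCoef fun a b => k a b (e c) (e d)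

/-- contraction of the last two slots with a form through the wedge pairing -/
def contr (k : Quad) (φ : Bil) : Bil := ofCoef fun a b => wp (k a b) φ

/-- the two-form `* θ` attached to a skew endomorphism, see `Th_cyc` -/
def Th (θ : End) : Bil := star (ofCoef fun a b => θ (e a) b)

/-! ### Calculus on `ℝ⁴` -/

/-- exterior derivative of a one-form -/
def d1 (γ : E → Cov) (x : E) : Bil := fderiv ℝ γ x - (fderiv ℝ γ x).flip

/-- exterior derivative of a two-form -/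
def d2 (η : E → Bil) (x u v w : E) : ℝ :=
  fderiv ℝ η x u v w + fderiv ℝ η x v w u + fderiv ℝ η x w u v

/-- the operator `g ↦ ∫ K(x,w,t) g(x + t w) dw` -/
def Op {F F' : Type*} [NormedAddCommGroup F] [NormedSpace ℝ F] [NormedAddCommGroup F']
    [NormedSpace ℝ F'] (K : E × E × ℝ → F →L[ℝ] F') (t : ℝ) (g : E → F) (x : E) : F' :=
  ∫ w, K (x, w, t) (g (x + t • w))

/-- smooth, vanishing for `‖w‖ ≥ C` -/
structure IsK {F : Type*} [NormedAddCommGroup F] [NormedSpace ℝ F] (C : ℝ) (K : E × E × ℝ → F) :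
    Prop where
  smooth : ContDiff ℝ ∞ K
  supp : ∀ x w t, C ≤ ‖w‖ → K (x, w, t) = 0

/-- all derivatives of order `≤ s` at `x` are bounded by `c` -/
def JB {F : Type*} [NormedAddCommGroup F] [NormedSpace ℝ F] (s : ℕ) (g : E → F) (x : E) (c : ℝ) :
    Prop := ∀ j ≤ s, ‖iteratedFDeriv ℝ j g x‖ ≤ c

/-- a smooth complex frame on `ℝ⁴` -/
structure Frame where
  A : E → End
  A' : E → End
  smooth : ContDiff ℝ ∞ A
  smooth' : ContDiff ℝ ∞ A'
  mul : ∀ x v, A x (A' x v) = v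
  mul' : ∀ x v, A' x (A x v) = v
  det_pos : ∀ x, 0 < (A x).det
  bdd : ∃ C, ∀ x, ‖A x‖ ≤ C ∧ ‖A' x‖ ≤ C

/-- the almost complex structure of a frame -/
def Frame.J (Fr : Frame) (x : E) : End := (Fr.A' x).comp (J0.comp (Fr.A x))

/-- a cut-off equal to `1` on `closedBall 0 (5/2)`, supported in `ball 0 (11/4)` -/
def bump : ContDiffBump (0 : E) := ⟨5 / 2, 11 / 4, by norm_num, by norm_num⟩

/-- un-normalised profile -/
def b0 (s : ℝ) : ℝ := expNegInvGlue (1 - s)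

/-- decreasing profile, positive on `s < 1`, zero on `s ≥ 1` -/
def bp (s : ℝ) : ℝ := (∫ w : E, -2 * deriv b0 (‖w‖ ^ 2))⁻¹ * b0 s

/-- `ap = -2 bp'`, positive on `s < 1`, zero on `s ≥ 1`, `∫ ap (‖w‖²) dw = 1` -/
def ap (s : ℝ) : ℝ := -2 * deriv bp s

/-- the positive current of a measure on (point, unit vector in the frame) -/
def Tl (Fr : Frame) (ν : Measure (E × E)) (η : E → Bil) : ℝ :=
  ∫ z, η z.1 (Fr.A' z.1 z.2) (Fr.A' z.1 (J0 z.2)) ∂ν

/-- the rescaled squared distance -/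
def sq (Fr : Frame) (ε : ℝ) (x y : E) : ℝ := ‖Fr.A x (y - x)‖ ^ 2 / ε ^ 2

/-- smoothed density ratio -/
def Theta (Fr : Frame) (μ : Measure E) (ε : ℝ) (x : E) : ℝ := ε⁻¹ ^ 2 * ∫ y, bp (sq Fr ε x y) ∂μ

/-- the radial defect -/
def Dt (Fr : Frame) (ν : Measure (E × E)) (ε : ℝ) (x : E) : ℝ :=
  ε⁻¹ ^ 5 * ∫ z, ap (sq Fr ε x z.1) * ang z.2 (Fr.A x (z.1 - x)) ∂ν

/-- the radial test form -/
def grad (Fr : Frame) (ε : ℝ) (x y : E) : Cov :=
  bp (sq Fr ε x y) • (innerSL ℝ (J0 (Fr.A x (y - x)))).comp (Fr.A x)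

/-- the translation test form -/
def gcon (Fr : Frame) (ε : ℝ) (x b y : E) : Cov :=
  bp (sq Fr ε x y) • (innerSL ℝ (J0 b)).comp (Fr.A x)

/-- the points of positive upper two-dimensional density -/
def Lel {X : Type*} [PseudoMetricSpace X] [MeasurableSpace X] (μ : Measure X) : Set X :=
  {x | ¬ Tendsto (fun r : ℝ => μ.real (closedBall x r) / r ^ 2) (𝓝[>] 0) (𝓝 0)}

/-- mass ratio bound down to scale `ε` -/
def Mass {X : Type*} [PseudoMetricSpace X] [MeasurableSpace X] (μ : Measure X) (ε m : ℝ) : Prop :=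
  ∀ x r, 0 < r → ε ≤ r → μ.real (closedBall x r) ≤ m * r ^ 2

/-- derivative in the first variable -/
def Pf (f : E × E → E) (z : E × E) : End := (fderiv ℝ f z).comp (ContinuousLinearMap.inl ℝ E E)

/-- derivative in the second variable -/
def Qf (f : E × E → E) (z : E × E) : End := (fderiv ℝ f z).comp (ContinuousLinearMap.inr ℝ E E)

/-- main part of the local kernel -/
def KV (f : E × E → E) (ρ : E → ℝ) (z : E × E) : Quad := ρ z.2 • pbQ vol (Pf f z) (Qf f z)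

/-- correction part of the local kernel -/
def KW (f : E × E → E) (θ : E → E →L[ℝ] End) (ρ : E → ℝ) (z : E × E) : Quad := fun a b =>
  wedge (cov fun c => Th (θ z.2 (e c)) (Pf f z (e a)) (Pf f z (e b))) (fderiv ℝ ρ z.2)

/-! ### The model -/

/-- charts and unitary frames -/
structure PreGeo (M : Type*) [TopologicalSpace M] where
  n : ℕ
  κ : Fin n → OpenPartialHomeomorph M E
  tgt : ∀ i, (κ i).target = ball 0 3
  cover : ∀ p, ∃ i, p ∈ (κ i).source ∧ ‖κ i p‖ < 1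
  smooth_tr : ∀ i j p, p ∈ (κ i).source → p ∈ (κ j).source →
    ContDiffAt ℝ ∞ (fun x => κ j ((κ i).symm x)) (κ i p)
  fr : Fin n → Frame
  uni_tr : ∀ i j p, p ∈ (κ i).source → p ∈ (κ j).source →
    Uni (((fr j).A (κ j p)).comp ((fderiv ℝ (fun x => κ j ((κ i).symm x)) (κ i p)).comp
      ((fr i).A' (κ i p))))

/-- a closed two-form given by its chart representatives -/
structure PreGeo.Fam {M : Type*} [TopologicalSpace M] (G : PreGeo M) (η : Fin G.n → E → Bil) :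
    Prop where
  smooth : ∀ i, ContDiffOn ℝ ∞ (η i) (ball 0 3)
  alt : ∀ i, ∀ x ∈ ball (0 : E) 3, Alt (η i x)
  closed : ∀ i, ∀ x ∈ ball (0 : E) 3, ∀ u v w, d2 (η i) x u v w = 0
  tr : ∀ i j p, p ∈ (G.κ i).source → p ∈ (G.κ j).source →
    η i (G.κ i p) = pb (η j (G.κ j p)) (fderiv ℝ (fun x => G.κ j ((G.κ i).symm x)) (G.κ i p))
  tames : ∀ i, ∀ x ∈ ball (0 : E) 3, ∀ v, v ≠ 0 → 0 < η i x v ((G.fr i).J x v)

/-- the metric is comparable with the chart distance -/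
def PreGeo.Lip {M : Type*} [MetricSpace M] (G : PreGeo M) : Prop :=
  ∃ C : ℝ, ∀ i, ∀ x ∈ closedBall (0 : E) (5 / 2), ∀ y ∈ closedBall (0 : E) (5 / 2),
    dist ((G.κ i).symm x) ((G.κ i).symm y) ≤ C * ‖x - y‖ ∧
      ‖x - y‖ ≤ C * dist ((G.κ i).symm x) ((G.κ i).symm y)

/-- charts, unitary frames, the reference frames `T i p : (chart i) → (reference)` and a comparable
metric -/
structure Geo (M : Type*) [MetricSpace M] [MeasurableSpace M] extends PreGeo M where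
  T : Fin n → M → End
  Ti : Fin n → M → End
  T_Ti : ∀ i p v, T i p (Ti i p v) = v
  Ti_T : ∀ i p v, Ti i p (T i p v) = v
  T_meas : ∀ i, Measurable (T i)
  Ti_meas : ∀ i, Measurable (Ti i)
  T_tr : ∀ i j p, p ∈ (κ i).source → p ∈ (κ j).source →
    (T j p).comp (fderiv ℝ (fun x => κ j ((κ i).symm x)) (κ i p)) = T i p
  uni : ∀ i p, p ∈ (κ i).source → Uni ((T i p).comp ((fr i).A' (κ i p)))
  lip : toPreGeo.Lip

namespace Geo

variable {M : Type*} [MetricSpace M] [MeasurableSpace M] (G : Geo M)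

/-- the part of chart `i` of radius `≤ r` -/
def K (i : Fin G.n) (r : ℝ) : Set M := {p | p ∈ (G.κ i).source ∧ ‖G.κ i p‖ ≤ r}

/-- transition map from chart `i` to chart `j` -/
def tr (i j : Fin G.n) (x : E) : E := G.κ j ((G.κ i).symm x)

/-- the unitary map from the frame of chart `i` to the reference frame -/
def U (i : Fin G.n) (p : M) : End := (G.T i p).comp ((G.fr i).A' (G.κ i p))

/-- a chosen chart -/
def ch (p : M) : Fin G.n := (G.cover p).choose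

section loc
variable {F : Type*} [NormedAddCommGroup F] [NormedSpace ℝ F]

def loc0 (i : Fin G.n) (φ : M → F) (x : E) : F := φ ((G.κ i).symm x)
def loc1 (i : Fin G.n) (γ : M → Cov) (x : E) : Cov :=
  (γ ((G.κ i).symm x)).comp (G.T i ((G.κ i).symm x))
def loc2 (i : Fin G.n) (η : M → Bil) (x : E) : Bil :=
  pb (η ((G.κ i).symm x)) (G.T i ((G.κ i).symm x))
def locQ (i j : Fin G.n) (k : M → M → Quad) (z : E × E) : Quad :=
  pbQ (k ((G.κ i).symm z.1) ((G.κ j).symm z.2)) (G.T i ((G.κ i).symm z.1))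
    (G.T j ((G.κ j).symm z.2))

open Classical in
def ext0 (i : Fin G.n) (φ : E → F) (p : M) : F := if p ∈ (G.κ i).source then φ (G.κ i p) else 0
open Classical in
def ext1 (i : Fin G.n) (γ : E → Cov) (p : M) : Cov :=
  if p ∈ (G.κ i).source then (γ (G.κ i p)).comp (G.Ti i p) else 0
open Classical in
def ext2 (i : Fin G.n) (η : E → Bil) (p : M) : Bil :=
  if p ∈ (G.κ i).source then pb (η (G.κ i p)) (G.Ti i p) else 0
open Classical in
def extQ (i : Fin G.n) (k : E × E → Quad) (p q : M) : Quad :=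
  if p ∈ (G.κ i).source ∧ q ∈ (G.κ i).source then
    pbQ (k (G.κ i p, G.κ i q)) (G.Ti i p) (G.Ti i q) else 0

/-- smooth functions -/
def S0 (φ : M → F) : Prop := ∀ i, ContDiffOn ℝ ∞ (G.loc0 i φ) (ball 0 3)
/-- smooth one-forms -/
def S1 (γ : M → Cov) : Prop := ∀ i, ContDiffOn ℝ ∞ (G.loc1 i γ) (ball 0 3)
/-- smooth two-tensors -/
def S2 (η : M → Bil) : Prop := ∀ i, ContDiffOn ℝ ∞ (G.loc2 i η) (ball 0 3)
/-- smooth kernels -/
def SK (k : M → M → Quad) : Prop :=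
  ∀ i j, ContDiffOn ℝ ∞ (G.locQ i j k) (ball 0 3 ×ˢ ball 0 3)
/-- smooth families of two-tensors with parameter in `O` -/
def SP {P : Type*} [NormedAddCommGroup P] [NormedSpace ℝ P] (O : Set P) (η : P → M → Bil) : Prop :=
  ∀ i, ContDiffOn ℝ ∞ (fun z : P × E => G.loc2 i (η z.1) z.2) (O ×ˢ ball 0 3)

/-- globally defined chart representative; equal to `loc2` on `closedBall 0 (5/2)` -/
def rep2 (i : Fin G.n) (η : M → Bil) (x : E) : Bil := bump x • G.loc2 i η x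

def D0 (φ : M → F) (p : M) : E →L[ℝ] F :=
  (fderiv ℝ (G.loc0 (G.ch p) φ) (G.κ (G.ch p) p)).comp (G.Ti (G.ch p) p)
def D1 (γ : M → Cov) (p : M) : Bil :=
  pb (d1 (G.loc1 (G.ch p) γ) (G.κ (G.ch p) p)) (G.Ti (G.ch p) p)
def D2 (η : M → Bil) (p : M) (u v w : E) : ℝ :=
  d2 (G.loc2 (G.ch p) η) (G.κ (G.ch p) p) (G.Ti (G.ch p) p u) (G.Ti (G.ch p) p v)
    (G.Ti (G.ch p) p w)

end loc

/-- smooth closed two-forms -/
structure Z (η : M → Bil) : Prop where
  smooth : G.S2 η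
  alt : ∀ p, Alt (η p)
  closed : ∀ p u v w, G.D2 η p u v w = 0

/-- smooth anti-invariant two-forms -/
structure Am (g : M → Bil) : Prop where
  smooth : G.S2 g
  alt : ∀ p, Alt (g p)
  anti : ∀ p, Anti J0 (g p)

open Classical in
/-- size of the `s`-jet of a two-tensor at `p` -/
def jn (s : ℕ) (g : M → Bil) (p : M) : ℝ :=
  ∑ i, if p ∈ G.K i 1 then
    ∑ j ∈ Finset.range (s + 1), ‖iteratedFDeriv ℝ j (G.loc2 i g) (G.κ i p)‖ else 0

/-- `C^s` bound -/
def CB (s : ℕ) (g : M → Bil) (c : ℝ) : Prop := ∀ p, G.jn s g p ≤ c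

/-- the one-jets in the unit balls of the charts -/
def jetF (η : M → Bil) (y : Fin G.n × closedBall (0 : E) 1) : Bil × (Fin 4 → Bil) :=
  (G.loc2 y.1 η y.2, fun a => fderiv ℝ (G.loc2 y.1 η) y.2 (e a))

/-- the one-jets as an element of a Banach space -/
def jet (η : M → Bil) : C(Fin G.n × closedBall (0 : E) 1, Bil × (Fin 4 → Bil)) :=
  ContinuousMap.mkD (G.jetF η) 0

/-- the un-normalised bump of chart `i` -/
def rho0 (i : Fin G.n) : M → ℝ := G.ext0 i fun x => expNegInvGlue (1 - ‖x‖ ^ 2)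

/-- the partition of unity; `rho i` vanishes off `K i 1` -/
def rho (i : Fin G.n) (p : M) : ℝ := G.rho0 i p / ∑ j, G.rho0 j p

/-- the volume measure -/
def V : Measure M :=
  ∑ i, ((volume.restrict (ball (0 : E) 3)).withDensity fun x =>
    ENNReal.ofReal (G.rho i ((G.κ i).symm x) * ((G.fr i).A x).det)).map (G.κ i).symm

/-- squared `L²` norm -/
def n2 (g : M → Bil) : ℝ := ∫ p, ‖g p‖ ^ 2 ∂G.V

/-- currents of order one -/
structure Cur where
  N : (M → Bil) → ℝ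
  add : ∀ η ζ, G.S2 η → G.S2 ζ → N (η + ζ) = N η + N ζ
  smul : ∀ (c : ℝ) η, G.S2 η → N (c • η) = c * N η
  bound : ∃ C : ℝ, 0 ≤ C ∧ ∀ η c, G.S2 η → G.CB 1 η c → |N η| ≤ C * c

/-- closed currents -/
def Cur.Closed {G : Geo M} (N : G.Cur) : Prop := ∀ γ, G.S1 γ → N.N (G.D1 γ) = 0

/-- a current applied to the second variable of a kernel -/
def Cur.R {G : Geo M} (N : G.Cur) (k : M → M → Quad) (p : M) : Bil :=
  ofCoef fun a b => N.N fun q => k p q a b

/-- the transposed kernel -/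
def ktr (k : M → M → Quad) (q p : M) : Quad := qswap (k p q)

/-- the integral operator of a kernel -/
def Kop (k : M → M → Quad) (φ : M → Bil) (p : M) : Bil := ∫ q, contr (k p q) (φ q) ∂G.V

/-- `g` is smooth at scale `ε` with `L²` size `≤ c` -/
def Dom (ε : ℝ) (g : M → Bil) (c : ℝ) : Prop :=
  ∃ h : M → ℝ, Measurable h ∧ (∀ p, 0 ≤ h p) ∧ (∃ B, ∀ p, h p ≤ B) ∧ ∫ p, h p ^ 2 ∂G.V ≤ c ^ 2 ∧
    ∀ p p', dist p p' ≤ ε → ∀ s ≤ 4, G.jn s g p' ≤ ε⁻¹ ^ s * h p

/-- `ψ` is bounded by `a` on forms that are smooth at a scale in `[ε, ε0]` -/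
def Cur.Bd {G : Geo M} (ψ : G.Cur) (ε0 ε a : ℝ) : Prop :=
  ∀ ε' ∈ Icc ε ε0, ∀ g c, G.Am g → 0 ≤ c → G.Dom ε' g c → |ψ.N g| ≤ a * c

/-- a measure on unit tangent vectors read in the chart `i` and its frame -/
def nuc (i : Fin G.n) (ν : Measure (M × E)) : Measure (E × E) :=
  (ν.restrict {z | z.1 ∈ G.K i (5 / 2)}).map
    fun z => (G.κ i z.1, (G.fr i).A (G.κ i z.1) (G.Ti i z.1 z.2))

/-- an anti-invariant `L²` form that is a limit of smooth ones -/
structure L2Am (Φ : M → Bil) : Prop where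
  meas : Measurable Φ
  mem : MemLp Φ 2 G.V
  alt : ∀ p, Alt (Φ p)
  anti : ∀ p, Anti J0 (Φ p)
  approx : ∀ δ > 0, ∃ g, G.Am g ∧ ∫ p, ‖Φ p - g p‖ ^ 2 ∂G.V ≤ δ

/-- connection data: a map `F p q ∈ T_q M` and its expressions in the unitary frames -/
structure Conn where
  F : M → M → E
  Pg : M → M → End
  Dg : M → M → End
  f : Fin G.n → E × E → E
  θ : Fin G.n → E → E →L[ℝ] End
  r1 : ℝ
  c1 : ℝ
  r1_pos : 0 < r1
  r1_le : r1 ≤ 1 / 10
  c1_pos : 0 < c1
  f_smooth : ∀ i, ContDiff ℝ ∞ (f i)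
  θ_smooth : ∀ i, ContDiff ℝ ∞ (θ i)
  f_diag : ∀ i y, f i (y, y) = 0
  f_deriv : ∀ i, ∀ y ∈ ball (0 : E) (5 / 2), Pf (f i) (y, y) = (G.fr i).A y
  low : ∀ i, ∀ y ∈ closedBall (0 : E) (9 / 4), ∀ x, ‖x - y‖ ≤ 2 * r1 →
    c1 * ‖x - y‖ ≤ ‖f i (x, y)‖
  skew : ∀ i y v a b, inner ℝ (θ i y v a) b = -inner ℝ a (θ i y v b)
  f_eq : ∀ i, ∀ x ∈ ball (0 : E) (5 / 2), ∀ y ∈ ball (0 : E) (5 / 2),
    G.U i ((G.κ i).symm y) (f i (x, y)) = F ((G.κ i).symm x) ((G.κ i).symm y)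
  P_eq : ∀ i, ∀ x ∈ ball (0 : E) (5 / 2), ∀ y ∈ ball (0 : E) (5 / 2), ∀ X,
    G.U i ((G.κ i).symm y) (Pf (f i) (x, y) X)
      = Pg ((G.κ i).symm x) ((G.κ i).symm y) (G.T i ((G.κ i).symm x) X)
  D_eq : ∀ i, ∀ x ∈ ball (0 : E) (5 / 2), ∀ y ∈ ball (0 : E) (5 / 2), ∀ v,
    G.U i ((G.κ i).symm y) (Qf (f i) (x, y) v - θ i y v (f i (x, y)))
      = Dg ((G.κ i).symm x) ((G.κ i).symm y) (G.T i ((G.κ i).symm y) v)

namespace Conn
variable {G} (c : G.Conn)

/-- cut-off near the diagonal -/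
def ζ : ContDiffBump (0 : E) := ⟨c.r1, 2 * c.r1, c.r1_pos, by linarith [c.r1_pos]⟩

/-- the local kernel of chart `j` at scale `ε` -/
def Kj (ε : ℝ) (j : Fin G.n) (z : E × E) : Quad :=
  c.ζ (z.1 - z.2) •
    ((ε⁻¹ ^ 4 * ap (‖c.f j z‖ ^ 2 / ε ^ 2)) • KV (c.f j) (G.loc0 j (G.rho j)) z
      + (ε⁻¹ ^ 2 * bp (‖c.f j z‖ ^ 2 / ε ^ 2)) • KW (c.f j) (c.θ j) (G.loc0 j (G.rho j)) z)

/-- the kernel at scale `ε` -/
def k (ε : ℝ) (p q : M) : Quad := ∑ j, G.extQ j (c.Kj ε j) p q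

/-- scale independent main part -/
def Vh (p q : M) : Quad :=
  ∑ j, G.extQ j (fun z => c.ζ (z.1 - z.2) • KV (c.f j) (G.loc0 j (G.rho j)) z) p q

/-- scale independent correction part -/
def Wh (p q : M) : Quad :=
  ∑ j, G.extQ j (fun z => c.ζ (z.1 - z.2) • KW (c.f j) (c.θ j) (G.loc0 j (G.rho j)) z) p q

end Conn

/-- the regularising kernels (Thom forms of the diagonal) -/
structure Ker where
  ε0 : ℝ
  C0 : ℝ
  C1 : ℝ
  c2 : ℝ
  ε0_pos : 0 < ε0
  ε0_le : ε0 ≤ 1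
  C0_ge : 1 ≤ C0
  C1_nonneg : 0 ≤ C1
  c2_pos : 0 < c2
  small : C0 * ε0 ≤ 1 / 10
  k : ℝ → M → M → Quad
  a : E → ℝ
  Kb : Fin G.n → E × E × ℝ → Quad
  smooth : ∀ ε, G.SK (k ε)
  alt1 : ∀ ε p q a b, k ε p q a b = -k ε p q b a
  alt2 : ∀ ε p q a b, Alt (k ε p q a b)
  supp : ∀ ε ∈ Ioc 0 ε0, ∀ p q, C0 * ε < dist p q → k ε p q = 0
  out : ∀ ε ∈ Ioc 0 ε0, ∀ i, ∀ p ∈ G.K i 2, ∀ q, q ∉ G.K i (9 / 4) → k ε p q = 0
  exact : ∀ ε ∈ Ioc 0 ε0, ∀ p X Y W, ∃ Γ, G.S1 Γ ∧ ∀ q v w,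
    G.D2 (fun p' => qv (qswap (k ε p' q)) v w) p X Y W = G.D1 Γ q v w
  pos : ∀ ε ∈ Ioc 0 ε0, ∀ p q v w, ‖v‖ = 1 → ‖w‖ = 1 →
    -(C1 * ε⁻¹ ^ 2) ≤ qv (k ε p q) v (J0 v) w (J0 w)
  pos' : ∀ ε ∈ Ioc 0 ε0, ∀ i, ∀ p ∈ G.K i 2, ∀ q ∈ G.K i (9 / 4),
    ‖G.κ i q - G.κ i p‖ ≤ c2 * ε → ∀ v w, ‖v‖ = 1 → ‖w‖ = 1 →
    c2 * ε⁻¹ ^ 4 * ang v w - C1 * ε⁻¹ ^ 2 ≤
      qv (k ε p q) (G.U i p v) (J0 (G.U i p v)) (G.U i q w) (J0 (G.U i q w))
  Kb_isK : ∀ i, IsK C0 (Kb i)
  Kb_eq : ∀ ε ∈ Ioc 0 ε0, ∀ i, ∀ x ∈ closedBall (0 : E) 2, ∀ y ∈ ball (0 : E) 3,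
    G.locQ i i (k ε) (x, y) = ε⁻¹ ^ 4 • Kb i (x, ε⁻¹ • (y - x), ε)
  a_cont : Continuous a
  a_supp : HasCompactSupport a
  a_int : ∫ w, a w = 1
  Kb_zero : ∀ i, ∀ x ∈ closedBall (0 : E) 2, ∀ w,
    Kb i (x, w, 0) = a ((G.fr i).A x w) • pbQ vol ((G.fr i).A x) ((G.fr i).A x)

/-- the approximate identity on anti-invariant forms -/
def Ker.Q {G : Geo M} (Kr : G.Ker) (ε : ℝ) (g : M → Bil) (p : M) : Bil := am (G.Kop (Kr.k ε) g p)

/-- the kernel paired with two positive currents -/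
def Ker.TT {G : Geo M} (Kr : G.Ker) (ε : ℝ) (ν ν₁ : Measure (M × E)) : ℝ :=
  ∫ z, ∫ z', qv (Kr.k ε z.1 z'.1) z.2 (J0 z.2) z'.2 (J0 z'.2) ∂ν₁ ∂ν

end Geo

/-- the positive current of a measure on unit tangent vectors -/
def Tm {M : Type*} [MeasurableSpace M] (ν : Measure (M × E)) (η : M → Bil) : ℝ :=
  ∫ z, η z.1 z.2 (J0 z.2) ∂ν

end Crest.Agent.R240

end
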