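import Crest.Agent.R240.ThetaLim

/-!
# Row 240: the part of positive density is closed (local statement)
-/

set_option autoImplicit false
set_option linter.unusedSectionVars false
set_option linter.unusedVariables false

open MeasureTheory Metric Set Filter Topology
open scoped ContDiff ENNReal

noncomputable section

namespace Crest.Agent.R240

/-- local data: `T + Λ` is closed in `ball 0 2`, densities and the angle energy are bounded -/
structure LocData (Fr : Frame) (ν : Measure (E × E)) (Λ : E → Bil) (m : ℝ) : Prop where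
  unit : ∀ᵐ z ∂ν, ‖z.2‖ = 1
  meas : Measurable Λ
  mem : MemLp Λ 2 volume
  alt : ∀ y, Alt (Λ y)
  anti : ∀ y, Anti (Fr.J y) (Λ y)
  closed : ∀ γ : E → Cov, ContDiff ℝ ∞ γ → tsupport γ ⊆ ball 0 2 →
    Tl Fr ν (d1 γ) + ∫ y, wp (d1 γ y) (Λ y) = 0
  mass : Mass ν.fst 0 m
  angle : ∃ C c : ℝ, 0 < c ∧ ∀ ε ∈ Ioc 0 c,
    ∫ z in {z : E × E | ‖z.1‖ ≤ 1}, (∫ z' in {z' : E × E | ‖z'.1 - z.1‖ ≤ ε}, ang z.2 z'.2 ∂ν) ∂ν
      ≤ C * ε ^ 4

variable {Fr : Frame} {ν : Measure (E × E)} [IsFiniteMeasure ν] {Λ : E → Bil} {m : ℝ}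

theorem wp_amJ (Fr : Frame) (y : E) {β γ : Bil} (hβ : Alt β) (hγ : Alt γ) (h : Anti (Fr.J y) γ) :
    wp (amJ (Fr.J y) β) γ = wp β γ := by
  have hback : ∀ η : Bil, pb (pb η (Fr.A' y)) (Fr.A y) = η := fun η => by
    rw [pb_pb]
    exact pb_of_id η fun v => Fr.mul' y v
  have hanti : Anti J0 (pb γ (Fr.A' y)) := fun u v => by
    rw [pb_apply, pb_apply, ← Fr.J_A', ← Fr.J_A', h]
  have h1 : Alt (am (pb β (Fr.A' y))) := (hβ.pb _).amJ _
  calc wp (amJ (Fr.J y) β) γ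
      = wp (pb (am (pb β (Fr.A' y))) (Fr.A y)) (pb (pb γ (Fr.A' y)) (Fr.A y)) := by
        rw [Fr.amJ_eq, hback]
    _ = (Fr.A y).det * wp (am (pb β (Fr.A' y))) (pb γ (Fr.A' y)) := wp_pb h1 (hγ.pb _) _
    _ = (Fr.A y).det * wp (pb β (Fr.A' y)) (pb γ (Fr.A' y)) := by
        rw [wp_am_left (hβ.pb _) (hγ.pb _) hanti]
    _ = wp (pb (pb β (Fr.A' y)) (Fr.A y)) (pb (pb γ (Fr.A' y)) (Fr.A y)) :=
        (wp_pb (hβ.pb _) (hγ.pb _) _).symm
    _ = wp β γ := by rw [hback, hback]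

namespace ElMir

theorem integrableOn_norm_ball (hΛ : MemLp Λ 2 volume) (x : E) (r : ℝ) :
    IntegrableOn (fun y => ‖Λ y‖) (closedBall x r) := by
  haveI : IsFiniteMeasure ((volume : Measure E).restrict (closedBall x r)) :=
    isFiniteMeasure_restrict.2 measure_closedBall_lt_top.ne
  exact ((hΛ.restrict (closedBall x r)).integrable one_le_two).norm

/-- `L²` functions have `L¹` norm `O(r²)` on balls of radius `r` -/
theorem setIntegral_norm_le (hΛ : MemLp Λ 2 volume) : ∃ B : ℝ, 0 ≤ B ∧ ∀ (x : E) (r : ℝ), 0 < r →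
    ∫ y in closedBall x r, ‖Λ y‖ ≤ B * r ^ 2 := by
  obtain ⟨c, hc, hvol⟩ := volume_closedBall_real
  have hsq : Integrable (fun y => ‖Λ y‖ ^ 2) volume := hΛ.integrable_norm_pow two_ne_zero
  have hL : 0 ≤ ∫ y, ‖Λ y‖ ^ 2 := integral_nonneg fun y => sq_nonneg _
  refine ⟨c + ∫ y, ‖Λ y‖ ^ 2, by positivity, fun x r hr => ?_⟩
  haveI : IsFiniteMeasure ((volume : Measure E).restrict (closedBall x r)) :=
    isFiniteMeasure_restrict.2 measure_closedBall_lt_top.ne
  have h1 : ∫ y in closedBall x r, ‖Λ y‖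
      ≤ ∫ y in closedBall x r, (r⁻¹ ^ 2 + r ^ 2 * ‖Λ y‖ ^ 2) := by
    refine integral_mono (integrableOn_norm_ball hΛ x r)
      ((integrable_const _).add (hsq.integrableOn.const_mul _)) fun y => ?_
    have h2 : r⁻¹ * r = 1 := inv_mul_cancel₀ hr.ne'
    have h3 := norm_nonneg (Λ y)
    have h4 : r⁻¹ * (r * ‖Λ y‖) = ‖Λ y‖ := by rw [← mul_assoc, h2, one_mul]
    change ‖Λ y‖ ≤ r⁻¹ ^ 2 + r ^ 2 * ‖Λ y‖ ^ 2
    nlinarith [sq_nonneg (r⁻¹ - r * ‖Λ y‖)]
  rw [integral_add (integrable_const _) (hsq.integrableOn.const_mul _), integral_const_mul,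
    setIntegral_const, hvol x r hr.le, smul_eq_mul] at h1
  have h5 : ∫ y in closedBall x r, ‖Λ y‖ ^ 2 ≤ ∫ y, ‖Λ y‖ ^ 2 :=
    setIntegral_le_integral hsq (Eventually.of_forall fun y => sq_nonneg _)
  have h6 : c * r ^ 4 * r⁻¹ ^ 2 = c * r ^ 2 := by field_simp
  have h7 := mul_le_mul_of_nonneg_left h5 (sq_nonneg r)
  nlinarith

/-- the pairing of a small form supported in a ball with `Λ` -/
theorem abs_integral_wp_ball (hΛ : MemLp Λ 2 volume) {η : E → Bil} {x : E} {r a : ℝ}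
    (h0 : ∀ y, r ≤ ‖y - x‖ → wp (η y) (Λ y) = 0) (ha : ∀ y, |wp (η y) (Λ y)| ≤ a * ‖Λ y‖) :
    |∫ y, wp (η y) (Λ y)| ≤ a * ∫ y in closedBall x r, ‖Λ y‖ := by
  rw [← integral_const_mul, ← integral_indicator measurableSet_closedBall, ← Real.norm_eq_abs]
  refine norm_integral_le_of_norm_le
    ((integrable_indicator_iff measurableSet_closedBall).2
      ((integrableOn_norm_ball hΛ x r).const_mul a)) (Eventually.of_forall fun y => ?_)
  by_cases hy : y ∈ closedBall x r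
  · rw [indicator_of_mem hy, Real.norm_eq_abs]
    exact ha y
  · rw [indicator_of_notMem hy, h0 y, norm_zero]
    rw [mem_closedBall, dist_eq_norm, not_le] at hy
    exact hy.le

theorem ball_sub {x : E} (hx : ‖x‖ ≤ 1) {r : ℝ} (hr : r ≤ 1 / 2) :
    closedBall x r ⊆ ball (0 : E) 2 := fun y hy => by
  rw [mem_closedBall, dist_eq_norm] at hy
  rw [mem_ball_zero_iff]
  have : ‖y‖ ≤ ‖y - x‖ + ‖x‖ := by simpa using norm_add_le (y - x) x
  linarith

theorem le_sqrt_of_forall {X D Q : ℝ} (hD : 0 ≤ D) (hQ : 0 ≤ Q)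
    (h : ∀ t : ℝ, 0 < t → X ≤ t * D + t⁻¹ * Q) : X ≤ (1 + Q) * √D := by
  refine le_of_forall_pos_le_add fun δ hδ => ?_
  have hs := Real.sqrt_nonneg D
  have hδ' : 0 < δ / (Q + 1) := by positivity
  have ht : 0 < √D + δ / (Q + 1) := by positivity
  have h1 := h _ (inv_pos.2 ht)
  rw [inv_inv] at h1
  have h2 : (√D + δ / (Q + 1))⁻¹ * D ≤ √D := by
    rw [inv_mul_le_iff₀ ht]
    have := Real.mul_self_sqrt hD
    nlinarith
  have h3 : δ / (Q + 1) * Q ≤ δ := by
    rw [div_mul_eq_mul_div, div_le_iff₀ (by positivity)]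
    nlinarith
  nlinarith

/-- the angle energy around a point -/
def Qa (ν : Measure (E × E)) (r : ℝ) (z : E × E) : ℝ :=
  ∫ z' in {z' : E × E | ‖z'.1 - z.1‖ ≤ r}, ang z.2 z'.2 ∂ν

theorem measurableSet_near (x : E) (r : ℝ) : MeasurableSet {z' : E × E | ‖z'.1 - x‖ ≤ r} :=
  (isClosed_le (by fun_prop) continuous_const).measurableSet

theorem measurable_Qa (ν : Measure (E × E)) [IsFiniteMeasure ν] (r : ℝ) :
    StronglyMeasurable (Qa ν r) := by
  have hS : MeasurableSet {p : (E × E) × (E × E) | ‖p.2.1 - p.1.1‖ ≤ r} :=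
    (isClosed_le (by fun_prop) continuous_const).measurableSet
  have hc : Continuous fun p : (E × E) × (E × E) => ang p.1.2 p.2.2 :=
    continuous_ang.comp (f := fun p : (E × E) × (E × E) => (p.1.2, p.2.2)) (by fun_prop)
  have h := (hc.stronglyMeasurable.indicator hS).integral_prod_right' (ν := ν)
  convert h using 1
  funext z
  rw [Qa, ← integral_indicator (measurableSet_near z.1 r)]
  rfl

theorem integrable_ang (hν : ∀ᵐ z ∂ν, ‖z.2‖ = 1) (w : E) :
    Integrable (fun z' : E × E => ang w z'.2) ν := by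
  have hc : Continuous fun z' : E × E => ang w z'.2 :=
    continuous_ang.comp (f := fun z' : E × E => (w, z'.2)) (by fun_prop)
  refine Integrable.of_bound hc.aestronglyMeasurable (‖w‖ ^ 2) ?_
  filter_upwards [hν] with z hz
  rw [Real.norm_eq_abs, abs_of_nonneg (ang_nonneg _ _)]
  have := ang_le w z.2
  rwa [hz, one_pow, mul_one] at this

theorem integrable_Qa (hν : ∀ᵐ z ∂ν, ‖z.2‖ = 1) (r : ℝ) : Integrable (Qa ν r) ν := by
  refine Integrable.of_bound (measurable_Qa ν r).aestronglyMeasurable (ν.real univ) ?_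
  filter_upwards [hν] with z hz
  have h0 : 0 ≤ Qa ν r z := integral_nonneg fun _ => ang_nonneg _ _
  rw [Real.norm_eq_abs, abs_of_nonneg h0]
  have h1 : Qa ν r z ≤ ∫ z', ang z.2 z'.2 ∂ν :=
    setIntegral_le_integral (integrable_ang hν _) (Eventually.of_forall fun _ => ang_nonneg _ _)
  have h2 : ∫ z', ang z.2 z'.2 ∂ν ≤ ∫ z', (1 : ℝ) ∂ν := by
    refine integral_mono_ae (integrable_ang hν _) (integrable_const _) ?_
    filter_upwards [hν] with z' hz'
    have := ang_le z.2 z'.2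
    rwa [hz, hz', one_pow, mul_one] at this
  rw [integral_const, smul_eq_mul, mul_one] at h2
  exact h1.trans h2

theorem sq_nonneg' (Fr : Frame) (ε : ℝ) (x y : E) : 0 ≤ sq Fr ε x y := by
  unfold sq; positivity

theorem continuous_sq (Fr : Frame) (ε : ℝ) (x : E) : Continuous (sq Fr ε x) := by
  unfold sq; fun_prop

theorem integrable_Dt (hν : ∀ᵐ z ∂ν, ‖z.2‖ = 1) {ε : ℝ} (hε : 0 < ε) (x : E) :
    Integrable (fun z : E × E => ap (sq Fr ε x z.1) * ang z.2 (Fr.A x (z.1 - x))) ν := by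
  obtain ⟨Cp, hCp, hp⟩ := prof_bdd
  have hc : Continuous fun z : E × E => ap (sq Fr ε x z.1) * ang z.2 (Fr.A x (z.1 - x)) :=
    (ap_smooth.continuous.comp ((continuous_sq Fr ε x).comp continuous_fst)).mul
      (continuous_ang.comp (f := fun z : E × E => (z.2, Fr.A x (z.1 - x))) (by fun_prop))
  refine Integrable.of_bound hc.aestronglyMeasurable (Cp * ε ^ 2) ?_
  filter_upwards [hν] with z hz
  rw [Real.norm_eq_abs, abs_of_nonneg (mul_nonneg (ap_nonneg _) (ang_nonneg _ _))]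
  rcases le_total 1 (sq Fr ε x z.1) with h | h
  · rw [ap_zero h, zero_mul]; positivity
  · have h1 := ang_le z.2 (Fr.A x (z.1 - x))
    rw [hz, one_pow, one_mul] at h1
    rw [sq, div_le_one (by positivity)] at h
    exact mul_le_mul (hp _ (sq_nonneg' Fr ε x z.1)).2.1 (h1.trans h) (ang_nonneg _ _) hCp.le

/-- the cross term, by the arithmetic-geometric mean inequality -/
theorem cross_le : ∃ Cp C3 : ℝ, 0 < Cp ∧ 1 ≤ C3 ∧ ∀ (ν : Measure (E × E)) [IsFiniteMeasure ν],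
    (∀ᵐ z ∂ν, ‖z.2‖ = 1) → ∀ ε, 0 < ε → ∀ t : ℝ, 0 < t → ∀ z : E × E,
      ε⁻¹ ^ 4 * (∫ z', ap (sq Fr ε z.1 z'.1) *
              (√(ang z'.2 (Fr.A z.1 (z'.1 - z.1))) * √(ang z'.2 z.2)) ∂ν)
        ≤ (t * (ε * Dt Fr ν ε z.1) + t⁻¹ * (Cp * ε⁻¹ ^ 4 * Qa ν (C3 * ε) z)) / 2 := by
  obtain ⟨Cp, hCp, hp⟩ := prof_bdd
  obtain ⟨c, C3, hc, hC3, hsq⟩ := exists_sq_bounds Fr
  refine ⟨Cp, C3, hCp, hC3, fun ν _ hν ε hε t ht z => ?_⟩
  have hi1 := (integrable_Dt (Fr := Fr) hν hε z.1).const_mul (t / 2)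
  have hi2 := (((integrable_ang hν z.2).indicator (measurableSet_near z.1 (C3 * ε))).const_mul
    (t⁻¹ * Cp / 2))
  have h1 : (∫ z', ap (sq Fr ε z.1 z'.1) *
              (√(ang z'.2 (Fr.A z.1 (z'.1 - z.1))) * √(ang z'.2 z.2)) ∂ν)
      ≤ ∫ z', (t / 2 * (ap (sq Fr ε z.1 z'.1) * ang z'.2 (Fr.A z.1 (z'.1 - z.1)))
          + t⁻¹ * Cp / 2 * indicator {z' : E × E | ‖z'.1 - z.1‖ ≤ C3 * ε}
              (fun z' => ang z.2 z'.2) z') ∂ν := by
    refine integral_mono_of_nonneg (Eventually.of_forall fun z' => ?_) (hi1.add hi2)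
      (Eventually.of_forall fun z' => ?_)
    · exact mul_nonneg (ap_nonneg _) (mul_nonneg (Real.sqrt_nonneg _) (Real.sqrt_nonneg _))
    · dsimp only
      by_cases hz : z' ∈ {z' : E × E | ‖z'.1 - z.1‖ ≤ C3 * ε}
      · rw [indicator_of_mem hz, ang_comm z.2 z'.2]
        have ha := ap_nonneg (sq Fr ε z.1 z'.1)
        have ha' := (hp _ (sq_nonneg' Fr ε z.1 z'.1)).2.1
        have e1 := Real.mul_self_sqrt (ang_nonneg z'.2 (Fr.A z.1 (z'.1 - z.1)))
        have e2 := Real.mul_self_sqrt (ang_nonneg z'.2 z.2)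
        have n2 := ang_nonneg z'.2 z.2
        generalize √(ang z'.2 (Fr.A z.1 (z'.1 - z.1))) = a at e1
        generalize √(ang z'.2 z.2) = b at e2
        rw [← e1, ← e2]
        generalize ap (sq Fr ε z.1 z'.1) = p at ha ha'
        have h2 : a * b ≤ t / 2 * (a * a) + t⁻¹ / 2 * (b * b) := by
          have h3 : t * t⁻¹ = 1 := mul_inv_cancel₀ ht.ne'
          have h4 : 0 ≤ t * (a - t⁻¹ * b) ^ 2 := by positivity
          have h5 : t * (a - t⁻¹ * b) ^ 2
              = t * (a * a) - 2 * (t * t⁻¹) * (a * b) + (t * t⁻¹) * (t⁻¹ * (b * b)) := by ring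
          rw [h3] at h5
          linarith
        have h6 : p * (t⁻¹ / 2 * (b * b)) ≤ Cp * (t⁻¹ / 2 * (b * b)) :=
          mul_le_mul_of_nonneg_right ha' (mul_nonneg (by positivity) (mul_self_nonneg b))
        have h7 := mul_le_mul_of_nonneg_left h2 ha
        nlinarith
      · rw [indicator_of_notMem hz]
        rw [mem_setOf_eq, not_le] at hz
        rw [ap_zero ((hsq ε hε z.1 z'.1).1 hz.le)]
        simp
  rw [integral_add hi1 hi2, integral_const_mul, integral_const_mul,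
    integral_indicator (measurableSet_near z.1 (C3 * ε))] at h1
  have h8 := mul_le_mul_of_nonneg_left h1 (pow_nonneg (inv_pos.2 hε).le 4)
  refine h8.trans (le_of_eq ?_)
  rw [Dt, Qa]
  field_simp

theorem measurableSet_S : MeasurableSet {z : E × E | ‖z.1‖ ≤ 1} :=
  (isClosed_le (by fun_prop) continuous_const).measurableSet

theorem S_eq : {z : E × E | ‖z.1‖ ≤ 1} = Prod.fst ⁻¹' closedBall (0 : E) 1 := by
  ext z; simp

theorem setIntegral_fst {f : E → ℝ} (hf : Measurable f) :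
    ∫ z in {z : E × E | ‖z.1‖ ≤ 1}, f z.1 ∂ν = ∫ x in closedBall (0 : E) 1, f x ∂ν.fst := by
  rw [Measure.fst, setIntegral_map measurableSet_closedBall hf.aestronglyMeasurable
    measurable_fst.aemeasurable, S_eq]

theorem integrableOn_fst {f : E → ℝ} (hf : IntegrableOn f (closedBall (0 : E) 1) ν.fst) :
    IntegrableOn (fun z : E × E => f z.1) {z : E × E | ‖z.1‖ ≤ 1} ν := by
  rw [IntegrableOn, Measure.fst, Measure.restrict_map measurable_fst measurableSet_closedBall]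
    at hf
  rw [S_eq]
  exact hf.comp_measurable measurable_fst

end ElMir

open ElMir

theorem LocData.radial (h : LocData Fr ν Λ m) : ∃ B r0 : ℝ, 0 < r0 ∧ ∀ ε ∈ Ioc 0 r0,
    ∀ x : E, ‖x‖ ≤ 1 → |Tl Fr ν (d1 (grad Fr ε x))| ≤ B * ε ^ 3 := by
  obtain ⟨C, hC, htest⟩ := test_bounds Fr
  obtain ⟨B, hB, hball⟩ := setIntegral_norm_le h.mem
  have hC0 : 0 < C := by linarith
  refine ⟨6 * C * (B * C ^ 2), 1 / (2 * C), by positivity, fun ε hε x hx => ?_⟩
  have hε0 := hε.1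
  have hCε : C * ε ≤ 1 / 2 := by
    have := hε.2
    rw [le_div_iff₀ (by positivity)] at this
    linarith
  have hε1 : ε ≤ 1 := by nlinarith
  obtain ⟨hs, -, h0, -, -, hj⟩ := htest ε ⟨hε0, hε1⟩ x (by linarith)
  have hcl := h.closed _ (grad_smooth Fr ε x) (hs.trans (ball_sub hx hCε))
  rw [eq_neg_of_add_eq_zero_left hcl, abs_neg]
  have h1 := abs_integral_wp_ball (η := d1 (grad Fr ε x)) (x := x) (r := C * ε) (a := 6 * (C * ε))
    h.mem (fun y hy => by rw [h0 y hy, wp_zero_left]) (fun y => by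
      rw [← wp_amJ Fr y (alt_d1 _ y) (h.alt y) (h.anti y)]
      refine (abs_wp_le _ _).trans (mul_le_mul_of_nonneg_right ?_ (norm_nonneg _))
      have := hj y 0 (by norm_num)
      rw [norm_iteratedFDeriv_zero, pow_zero, mul_one] at this
      linarith)
  refine h1.trans ?_
  have h2 := mul_le_mul_of_nonneg_left (hball x (C * ε) (by positivity))
    (show 0 ≤ 6 * (C * ε) by positivity)
  refine h2.trans (le_of_eq ?_)
  ring

/-- the tangential gradient of `Theta`, weighted by `u` -/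
theorem LocData.tangential (h : LocData Fr ν Λ m) : ∃ C K r0 : ℝ, 0 ≤ C ∧ 1 ≤ K ∧ 0 < r0 ∧
    ∀ ε ∈ Ioc 0 r0, ∀ u : E → ℝ, Measurable u → (∀ x, 0 ≤ u x ∧ u x ≤ 1) →
      ∫ z in {z : E × E | ‖z.1‖ ≤ 1}, u z.1 *
          (|fderiv ℝ (Theta Fr ν.fst ε) z.1 (Fr.A' z.1 z.2)|
            + |fderiv ℝ (Theta Fr ν.fst ε) z.1 (Fr.A' z.1 (J0 z.2))|) ∂ν
        ≤ C * (√(∫ x in closedBall (0 : E) 1, ε * Dt Fr ν ε x ∂ν.fst)
          + (∫ x in closedBall (0 : E) 1, u x * Theta Fr ν.fst (K * ε) x ∂ν.fst)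
          + ε⁻¹ ^ 3 * ∫ y, ‖Λ y‖ * ν.fst.real (closedBall y (K * ε))) := by
  obtain ⟨C1, hC1, hgrad⟩ := theta_grad Fr
  obtain ⟨C2, hC2, htest⟩ := test_bounds Fr
  obtain ⟨c, C', hc, hC', hth⟩ := theta_bounds Fr
  obtain ⟨Cp, C3, hCp, hC3, hcross⟩ := cross_le (Fr := Fr)
  obtain ⟨Ca, ca, hca, hang⟩ := h.angle
  obtain ⟨cv, hcv, hvol⟩ := volume_closedBall_real
  set K : ℝ := C1 / c + C2 with hK
  have hC10 : 0 < C1 := by linarith
  have hC20 : 0 < C2 := by linarith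
  have hC30 : 0 < C3 := by linarith
  have hK2 : C2 ≤ K := by have : 0 ≤ C1 / c := by positivity
                          linarith
  have hK1 : 1 ≤ K := hC2.trans hK2
  have hK0 : 0 < K := by linarith
  have hcK : C1 ≤ c * K := by
    have : c * K = C1 + c * C2 := by rw [hK]; field_simp
    have : 0 ≤ c * C2 := by positivity
    linarith
  set Q : ℝ := Cp * (|Ca| * C3 ^ 4) with hQ
  have hQ0 : 0 ≤ Q := by positivity
  set a1 : ℝ := 2 * (C1 * K ^ 2 / c) with ha1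
  have ha10 : 0 ≤ a1 := by positivity
  refine ⟨(1 + Q) + a1 + 12 * C2, K, min (1 / (2 * C2)) (ca / C3), by positivity, hK1,
    lt_min (by positivity) (by positivity), fun ε hε u hu hu01 => ?_⟩
  have hε0 := hε.1
  have hCε : C2 * ε ≤ 1 / 2 := by
    have := hε.2.trans (min_le_left _ _)
    rw [le_div_iff₀ (by positivity)] at this
    linarith
  have hε1 : ε ≤ 1 := by nlinarith
  have hC3ε : C3 * ε ≤ ca := by
    have := hε.2.trans (min_le_right _ _)
    rw [le_div_iff₀ hC30] at this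
    linarith
  -- the truncated norm of `Λ`
  set f : E → ℝ := indicator (closedBall (0 : E) 2) fun y => ‖Λ y‖ with hf
  have hfm : Measurable f := h.meas.norm.indicator measurableSet_closedBall
  have hfi : Integrable f volume :=
    (integrable_indicator_iff measurableSet_closedBall).2 (integrableOn_norm_ball h.mem 0 2)
  have hf0 : ∀ y, 0 ≤ f y := fun y => indicator_nonneg (fun y _ => norm_nonneg _) y
  have hf1 : ∀ y, f y ≤ ‖Λ y‖ := fun y => indicator_le_self' (fun y _ => norm_nonneg _) y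
  obtain ⟨hG1, hG2, hG3⟩ := integral_ball_swap volume ν.fst hfm hfi (C2 * ε)
  set G : E → ℝ := fun x => ∫ y in closedBall x (C2 * ε), f y with hG
  have hG0 : ∀ x, 0 ≤ G x := fun x => integral_nonneg hf0
  have hX : Integrable (fun y => |‖Λ y‖| * ν.fst.real (closedBall y (K * ε))) volume :=
    (tendsto_cross volume ν.fst hK0 (CV := cv) (fun x r hr => (hvol x r hr).le) h.mass
      h.meas.norm h.mem.norm).1 ε hε0
  simp only [abs_norm] at hX
  have hGle : ∫ x in closedBall (0 : E) 1, G x ∂ν.fst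
      ≤ ∫ y, ‖Λ y‖ * ν.fst.real (closedBall y (K * ε)) := by
    refine (setIntegral_le_integral hG1 (Eventually.of_forall hG0)).trans ?_
    rw [hG3]
    refine integral_mono hG2 hX fun y => ?_
    exact mul_le_mul (hf1 y) (measureReal_mono (closedBall_subset_closedBall
      (mul_le_mul_of_nonneg_right hK2 hε0.le))) measureReal_nonneg (norm_nonneg _)
  -- the functions on the right hand side
  have hDc : Continuous fun x => ε * Dt Fr ν ε x := by
    have h1 := (Dt_continuous Fr ν h.unit).comp_continuous (f := fun x : E => (ε, x))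
      (by fun_prop) (fun x => ⟨hε0, mem_univ _⟩)
    exact continuous_const.mul h1
  have hTc : Continuous (Theta Fr ν.fst (K * ε)) :=
    (theta_smooth Fr ν.fst (by positivity)).continuous
  have hT0 : ∀ x, 0 ≤ Theta Fr ν.fst (K * ε) x := fun x =>
    le_trans (by have := measureReal_nonneg (μ := ν.fst) (s := closedBall x (c * (K * ε)))
                 positivity) (hth ν.fst (K * ε) (by positivity) x).1
  have hDi : IntegrableOn (fun x => ε * Dt Fr ν ε x) (closedBall (0 : E) 1) ν.fst :=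
    hDc.continuousOn.integrableOn_compact (isCompact_closedBall 0 1)
  have hTi : IntegrableOn (fun x => u x * Theta Fr ν.fst (K * ε) x) (closedBall (0 : E) 1)
      ν.fst := by
    refine Integrable.bdd_mul (c := 1)
      (hTc.continuousOn.integrableOn_compact (isCompact_closedBall 0 1))
      hu.aestronglyMeasurable (Eventually.of_forall fun x => ?_)
    rw [Real.norm_eq_abs, abs_of_nonneg (hu01 x).1]
    exact (hu01 x).2
  set D : ℝ := ∫ x in closedBall (0 : E) 1, ε * Dt Fr ν ε x ∂ν.fst with hD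
  set T : ℝ := ∫ x in closedBall (0 : E) 1, u x * Theta Fr ν.fst (K * ε) x ∂ν.fst with hT
  set X : ℝ := ∫ y, ‖Λ y‖ * ν.fst.real (closedBall y (K * ε)) with hXd
  have hD0 : 0 ≤ D := integral_nonneg fun x => mul_nonneg hε0.le (Dt_nonneg Fr ν hε0 x)
  have hT0' : 0 ≤ T := integral_nonneg fun x => mul_nonneg (hu01 x).1 (hT0 x)
  have hX0 : 0 ≤ X := integral_nonneg fun y => mul_nonneg (norm_nonneg _) measureReal_nonneg
  have hε3 : 0 ≤ ε⁻¹ ^ 3 := by positivity
  -- one direction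
  have hone : ∀ t : ℝ, 0 < t → ∀ x w b : E, ‖x‖ ≤ 1 → ‖b‖ = 1 → (∀ v, ang v b = ang v w) →
      u x * |fderiv ℝ (Theta Fr ν.fst ε) x (Fr.A' x b)|
        ≤ (t * (ε * Dt Fr ν ε x) + t⁻¹ * (Cp * ε⁻¹ ^ 4 * Qa ν (C3 * ε) (x, w))) / 2
          + a1 / 2 * (u x * Theta Fr ν.fst (K * ε) x) + 6 * C2 * ε⁻¹ ^ 3 * G x := by
    intro t ht x w b hx hb hbw
    have h1 := hgrad ν h.unit ε ⟨hε0, hε1⟩ x (by linarith) b
    simp only [hbw] at h1
    have h2 := hcross ν h.unit ε hε0 t ht (x, w)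
    dsimp only at h2
    obtain ⟨-, hs, -, h0, hn, -⟩ := htest ε ⟨hε0, hε1⟩ x (by linarith)
    have hsub := ball_sub hx hCε
    have hcl := h.closed _ (gcon_smooth Fr ε x b) ((hs b).trans hsub)
    have h3 := abs_integral_wp_ball (η := d1 (gcon Fr ε x b)) (x := x) (r := C2 * ε)
      (a := 6 * (C2 * ε⁻¹)) h.mem (fun y hy => by rw [h0 b y hy, wp_zero_left]) (fun y => by
        refine (abs_wp_le _ _).trans (mul_le_mul_of_nonneg_right ?_ (norm_nonneg _))
        have := hn b y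
        rw [hb, mul_one] at this
        linarith)
    have h4 : ∫ y in closedBall x (C2 * ε), ‖Λ y‖ = G x :=
      setIntegral_congr_fun measurableSet_closedBall fun y hy =>
        (indicator_of_mem (ball_subset_closedBall (hsub hy)) fun y => ‖Λ y‖).symm
    rw [h4, ← abs_neg, ← eq_neg_of_add_eq_zero_left hcl] at h3
    have h5 : C1 * ε⁻¹ ^ 2 * ν.fst.real (closedBall x (C1 * ε)) * ‖b‖
        ≤ a1 / 2 * Theta Fr ν.fst (K * ε) x := by
      have h6 := (hth ν.fst (K * ε) (by positivity) x).1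
      have h7 : ν.fst.real (closedBall x (C1 * ε)) ≤ ν.fst.real (closedBall x (c * (K * ε))) :=
        measureReal_mono (closedBall_subset_closedBall (by nlinarith))
      have h8 := mul_le_mul_of_nonneg_left h6 (show 0 ≤ a1 / 2 by positivity)
      refine le_trans ?_ h8
      have h9 : a1 / 2 * (c * (K * ε)⁻¹ ^ 2 * ν.fst.real (closedBall x (c * (K * ε))))
          = C1 * ε⁻¹ ^ 2 * ν.fst.real (closedBall x (c * (K * ε))) := by
        rw [ha1]; field_simp
      rw [h9, hb, mul_one]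
      exact mul_le_mul_of_nonneg_left h7 (by positivity)
    have hI0 : 0 ≤ ε⁻¹ ^ 4 * (∫ z', ap (sq Fr ε x z'.1) *
        (√(ang z'.2 (Fr.A x (z'.1 - x))) * √(ang z'.2 w)) ∂ν) :=
      mul_nonneg (by positivity) (integral_nonneg fun z' =>
        mul_nonneg (ap_nonneg _) (mul_nonneg (Real.sqrt_nonneg _) (Real.sqrt_nonneg _)))
    have h10 : |ε⁻¹ ^ 2 * Tl Fr ν (d1 (gcon Fr ε x b))| ≤ 6 * C2 * ε⁻¹ ^ 3 * G x := by
      rw [abs_mul, abs_of_nonneg (by positivity : (0 : ℝ) ≤ ε⁻¹ ^ 2)]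
      refine (mul_le_mul_of_nonneg_left h3 (by positivity)).trans (le_of_eq ?_)
      ring
    have h11 : |fderiv ℝ (Theta Fr ν.fst ε) x (Fr.A' x b)|
        ≤ |fderiv ℝ (Theta Fr ν.fst ε) x (Fr.A' x b) + ε⁻¹ ^ 2 * Tl Fr ν (d1 (gcon Fr ε x b))|
          + |ε⁻¹ ^ 2 * Tl Fr ν (d1 (gcon Fr ε x b))| := by
      have := abs_sub (fderiv ℝ (Theta Fr ν.fst ε) x (Fr.A' x b)
        + ε⁻¹ ^ 2 * Tl Fr ν (d1 (gcon Fr ε x b))) (ε⁻¹ ^ 2 * Tl Fr ν (d1 (gcon Fr ε x b)))
      rwa [add_sub_cancel_right] at this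
    have hG' : 0 ≤ 6 * C2 * ε⁻¹ ^ 3 * G x := mul_nonneg (by positivity) (hG0 x)
    obtain ⟨hu0, hu1⟩ := hu01 x
    generalize ε⁻¹ ^ 4 * (∫ z', ap (sq Fr ε x z'.1) *
        (√(ang z'.2 (Fr.A x (z'.1 - x))) * √(ang z'.2 w)) ∂ν) = I at h1 h2 hI0
    have h12 : |fderiv ℝ (Theta Fr ν.fst ε) x (Fr.A' x b)|
        ≤ (I + 6 * C2 * ε⁻¹ ^ 3 * G x) + a1 / 2 * Theta Fr ν.fst (K * ε) x := by linarith
    have h13 := mul_le_mul_of_nonneg_left h12 hu0
    have h14 : u x * (I + 6 * C2 * ε⁻¹ ^ 3 * G x) ≤ I + 6 * C2 * ε⁻¹ ^ 3 * G x :=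
      mul_le_of_le_one_left (by linarith) hu1
    nlinarith
  -- integrate
  have hmain : ∀ t : ℝ, 0 < t →
      ∫ z in {z : E × E | ‖z.1‖ ≤ 1}, u z.1 *
          (|fderiv ℝ (Theta Fr ν.fst ε) z.1 (Fr.A' z.1 z.2)|
            + |fderiv ℝ (Theta Fr ν.fst ε) z.1 (Fr.A' z.1 (J0 z.2))|) ∂ν
        - (a1 * T + 12 * C2 * (ε⁻¹ ^ 3 * X)) ≤ t * D + t⁻¹ * Q := by
    intro t ht
    have i1 := (integrableOn_fst hDi).const_mul t
    have i2 : Integrable (fun z => t⁻¹ * (Cp * ε⁻¹ ^ 4) * Qa ν (C3 * ε) z)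
        (ν.restrict {z : E × E | ‖z.1‖ ≤ 1}) :=
      (integrable_Qa h.unit (C3 * ε)).integrableOn.const_mul _
    have i3 := (integrableOn_fst hTi).const_mul a1
    have i4 := (integrableOn_fst (f := G) hG1.integrableOn).const_mul (12 * C2 * ε⁻¹ ^ 3)
    have h1 : ∫ z in {z : E × E | ‖z.1‖ ≤ 1}, u z.1 *
          (|fderiv ℝ (Theta Fr ν.fst ε) z.1 (Fr.A' z.1 z.2)|
            + |fderiv ℝ (Theta Fr ν.fst ε) z.1 (Fr.A' z.1 (J0 z.2))|) ∂ν
        ≤ ∫ z in {z : E × E | ‖z.1‖ ≤ 1}, (t * (ε * Dt Fr ν ε z.1)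
            + t⁻¹ * (Cp * ε⁻¹ ^ 4) * Qa ν (C3 * ε) z
            + a1 * (u z.1 * Theta Fr ν.fst (K * ε) z.1) + 12 * C2 * ε⁻¹ ^ 3 * G z.1) ∂ν := by
      refine integral_mono_of_nonneg (Eventually.of_forall fun z => ?_)
        (((i1.add i2).add i3).add i4) ?_
      · exact mul_nonneg (hu01 _).1 (add_nonneg (abs_nonneg _) (abs_nonneg _))
      · filter_upwards [ae_restrict_mem measurableSet_S, ae_restrict_of_ae h.unit] with z hz hz1
        have e1 := hone t ht z.1 z.2 z.2 hz hz1 fun v => rfl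
        have e2 := hone t ht z.1 z.2 (J0 z.2) hz (by rw [norm_J0, hz1]) fun v => ang_J0 v z.2
        rw [Prod.mk.eta] at e1 e2
        rw [mul_add]
        linarith
    rw [integral_add ((i1.fun_add i2).fun_add i3) i4, integral_add (i1.fun_add i2) i3,
      integral_add i1 i2,
      integral_const_mul t, integral_const_mul (t⁻¹ * (Cp * ε⁻¹ ^ 4)), integral_const_mul a1,
      integral_const_mul (12 * C2 * ε⁻¹ ^ 3),
      setIntegral_fst (f := fun x => ε * Dt Fr ν ε x) hDc.measurable,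
      setIntegral_fst (f := fun x => u x * Theta Fr ν.fst (K * ε) x) (hu.mul hTc.measurable)]
      at h1
    have h2 : ∫ z in {z : E × E | ‖z.1‖ ≤ 1}, G z.1 ∂ν ≤ X := by
      refine le_trans (le_of_eq ?_) hGle
      rw [Measure.fst, setIntegral_map measurableSet_closedBall hG1.aestronglyMeasurable
        measurable_fst.aemeasurable, S_eq]
    have h3 : ∫ z in {z : E × E | ‖z.1‖ ≤ 1}, Qa ν (C3 * ε) z ∂ν ≤ |Ca| * (C3 * ε) ^ 4 :=
      (hang (C3 * ε) ⟨by positivity, hC3ε⟩).trans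
        (mul_le_mul_of_nonneg_right (le_abs_self _) (by positivity))
    have h4 := mul_le_mul_of_nonneg_left h3
      (show 0 ≤ t⁻¹ * (Cp * ε⁻¹ ^ 4) by positivity)
    have h5 : t⁻¹ * (Cp * ε⁻¹ ^ 4) * (|Ca| * (C3 * ε) ^ 4) = t⁻¹ * Q := by
      rw [hQ]; field_simp
    have h6 := mul_le_mul_of_nonneg_left h2 (show 0 ≤ 12 * C2 * ε⁻¹ ^ 3 by positivity)
    linarith
  have hfin := le_sqrt_of_forall hD0 hQ0 hmain
  have hs := Real.sqrt_nonneg D
  have hX' : 0 ≤ ε⁻¹ ^ 3 * X := mul_nonneg hε3 hX0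
  have e : ((1 + Q) + a1 + 12 * C2) * (√D + T + ε⁻¹ ^ 3 * X)
      = (1 + Q) * √D + (a1 * T + 12 * C2 * (ε⁻¹ ^ 3 * X))
        + ((a1 + 12 * C2) * √D + (1 + Q + 12 * C2) * T + (1 + Q + a1) * (ε⁻¹ ^ 3 * X)) := by ring
  have e' : 0 ≤ (a1 + 12 * C2) * √D + (1 + Q + 12 * C2) * T + (1 + Q + a1) * (ε⁻¹ ^ 3 * X) := by
    positivity
  linarith

end Crest.Agent.R240

end
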