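import Crest.Agent.R240.ElMir

/-!
# Row 240: the cut-off argument
-/

set_option autoImplicit false
set_option linter.unusedSectionVars false
set_option linter.unusedVariables false

open MeasureTheory Metric Set Filter Topology
open scoped ContDiff ENNReal

noncomputable section

namespace Crest.Agent.R240

variable {Fr : Frame} {ν : Measure (E × E)} [IsFiniteMeasure ν] {Λ : E → Bil} {m : ℝ}

namespace EM2

/-- the cut-off profile -/
theorem exists_cut : ∃ (F : ℝ → ℝ) (S : ℝ), 0 < S ∧ ContDiff ℝ ∞ F ∧ (∀ t, 0 ≤ F t ∧ F t ≤ 1) ∧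
    (∀ t, 0 ≤ t → F t ≤ 2 * t) ∧ (∀ t, 1 ≤ t → F t = 1) ∧ (∀ t, |deriv F t| ≤ S) ∧
    (∀ t, 1 < t → deriv F t = 0) := by
  set F : ℝ → ℝ := fun t => Real.smoothTransition (2 * t - 1) with hF
  have hs : ContDiff ℝ ∞ F := Real.smoothTransition.contDiff.comp (by fun_prop)
  have h0 : ∀ t, t ≤ 1 / 2 → F t = 0 := fun t ht =>
    Real.smoothTransition.zero_of_nonpos (by linarith)
  have h1 : ∀ t, 1 ≤ t → F t = 1 := fun t ht => Real.smoothTransition.one_of_one_le (by linarith)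
  have hd1 : ∀ t, 1 < t → deriv F t = 0 := by
    intro t ht
    have : F =ᶠ[𝓝 t] fun _ => 1 := by
      filter_upwards [Ioi_mem_nhds ht] with s hs using h1 s (le_of_lt hs)
    rw [this.deriv_eq, deriv_const]
  have hd0 : ∀ t, t < 1 / 2 → deriv F t = 0 := by
    intro t ht
    have : F =ᶠ[𝓝 t] fun _ => 0 := by
      filter_upwards [Iio_mem_nhds ht] with s hs using h0 s (le_of_lt hs)
    rw [this.deriv_eq, deriv_const]
  have hc : Continuous (deriv F) := hs.continuous_deriv (by simp)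
  obtain ⟨S, hS⟩ := (isCompact_Icc (a := (0 : ℝ)) (b := 1)).exists_bound_of_continuousOn
    hc.continuousOn
  have h01 : ∀ t, 0 ≤ F t ∧ F t ≤ 1 := fun t =>
    ⟨Real.smoothTransition.nonneg _, Real.smoothTransition.le_one _⟩
  refine ⟨F, max S 1, lt_max_of_lt_right one_pos, hs, h01, ?_, h1, ?_, hd1⟩
  · intro t ht
    rcases le_total t (1 / 2) with h | h
    · rw [h0 t h]; linarith
    · linarith [(h01 t).2]
  · intro t
    rcases lt_or_ge t 0 with h | h
    · rw [hd0 t (by linarith), abs_zero]; exact le_max_of_le_right zero_le_one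
    rcases lt_or_ge 1 t with h' | h'
    · rw [hd1 t h', abs_zero]; exact le_max_of_le_right zero_le_one
    · exact le_max_of_le_left (hS t ⟨h, h'⟩)

/-- the integrand of `Tl` -/
def ev (Fr : Frame) (β : E → Bil) (z : E × E) : ℝ := β z.1 (Fr.A' z.1 z.2) (Fr.A' z.1 (J0 z.2))

theorem continuous_A1 (Fr : Frame) : Continuous fun z : E × E => Fr.A' z.1 z.2 :=
  (Fr.smooth'.continuous.comp continuous_fst).clm_apply continuous_snd

theorem continuous_A2 (Fr : Frame) : Continuous fun z : E × E => Fr.A' z.1 (J0 z.2) :=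
  (Fr.smooth'.continuous.comp continuous_fst).clm_apply (J0.continuous.comp continuous_snd)

theorem continuous_ev {β : E → Bil} (hβ : Continuous β) : Continuous (ev Fr β) :=
  ((hβ.comp continuous_fst).clm_apply (continuous_A1 Fr)).clm_apply (continuous_A2 Fr)

theorem meas_B : MeasurableSet {z : E × E | ‖z.1‖ ≤ 1} :=
  measurableSet_le (by fun_prop) measurable_const

theorem integrableOn_cont (hν : ∀ᵐ z ∂ν, ‖z.2‖ = 1) {f : E × E → ℝ} (hf : Continuous f) :
    IntegrableOn f {z : E × E | ‖z.1‖ ≤ 1} ν := by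
  obtain ⟨B, hB⟩ := ((isCompact_closedBall (0 : E) 1).prod
    (isCompact_closedBall (0 : E) 1)).exists_bound_of_continuousOn hf.continuousOn
  refine Integrable.mono' (integrable_const B) hf.aestronglyMeasurable ?_
  filter_upwards [ae_restrict_mem meas_B, ae_restrict_of_ae hν] with z hz hz2
  exact hB z ⟨by simpa using hz, by simp [hz2]⟩

theorem integrable_cont (hν : ∀ᵐ z ∂ν, ‖z.2‖ = 1) {f : E × E → ℝ} (hf : Continuous f)
    (h0 : ∀ z : E × E, 1 < ‖z.1‖ → f z = 0) : Integrable f ν :=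
  (integrableOn_cont hν hf).integrable_of_forall_notMem_eq_zero fun z hz =>
    h0 z (not_le.1 hz)

theorem ev_zero {γ : E → Cov} (hs : tsupport γ ⊆ closedBall 0 1) {x : E} (hx : 1 < ‖x‖) :
    γ =ᶠ[𝓝 x] 0 :=
  notMem_tsupport_iff_eventuallyEq.1 fun h => by
    have := hs h
    rw [mem_closedBall_zero_iff] at this
    exact absurd this (not_le.2 hx)

theorem out_zero {γ : E → Cov} (hs : tsupport γ ⊆ closedBall 0 1) {x : E} (hx : 1 < ‖x‖) :
    γ x = 0 := (ev_zero hs hx).eq_of_nhds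

theorem d1_out_zero {γ : E → Cov} (hs : tsupport γ ⊆ closedBall 0 1) {x : E} (hx : 1 < ‖x‖) :
    d1 γ x = 0 := by
  rw [d1_congr (ev_zero hs hx)]
  have : fderiv ℝ (0 : E → Cov) x = 0 := fderiv_const_apply _
  simp [d1, this]

theorem continuous_d1 {γ : E → Cov} (hγ : ContDiff ℝ ∞ γ) : Continuous (d1 γ) :=
  continuous_iff_continuousAt.2 fun x => (ContDiffAt.d1 hγ.contDiffAt).continuousAt

theorem exists_bound {γ : E → Cov} (hγ : ContDiff ℝ ∞ γ) :
    ∃ G : ℝ, 0 ≤ G ∧ ∀ x, ‖x‖ ≤ 1 → ‖γ x‖ ≤ G ∧ ‖d1 γ x‖ ≤ G := by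
  obtain ⟨G1, h1⟩ := (isCompact_closedBall (0 : E) 1).exists_bound_of_continuousOn
    hγ.continuous.continuousOn
  obtain ⟨G2, h2⟩ := (isCompact_closedBall (0 : E) 1).exists_bound_of_continuousOn
    (continuous_d1 hγ).continuousOn
  refine ⟨max (max G1 G2) 0, le_max_right _ _, fun x hx => ⟨?_, ?_⟩⟩
  · exact le_max_of_le_left (le_max_of_le_left (h1 x (by simpa using hx)))
  · exact le_max_of_le_left (le_max_of_le_right (h2 x (by simpa using hx)))

theorem exists_seq {Q : ℝ → ℝ} (h : ∀ δ, 0 < δ → ∃ᶠ ε in 𝓝[>] (0 : ℝ), Q ε ≤ δ) {r : ℝ}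
    (hr : 0 < r) : ∃ u : ℕ → ℝ, (∀ n, u n ∈ Ioc 0 r) ∧ Tendsto u atTop (𝓝[>] 0) ∧
      Tendsto (fun n => √(Q (u n))) atTop (𝓝 0) := by
  have key : ∀ n : ℕ, ∃ ε : ℝ, Q ε ≤ 1 / ((n : ℝ) + 1) ∧ ε ∈ Ioo 0 (min r (1 / ((n : ℝ) + 1))) := by
    intro n
    have hp : (0 : ℝ) < 1 / ((n : ℝ) + 1) := Nat.one_div_pos_of_nat
    exact ((h _ hp).and_eventually (Ioo_mem_nhdsGT (lt_min hr hp))).exists
  choose u hu hu' using key
  have hl : Tendsto (fun n : ℕ => 1 / ((n : ℝ) + 1)) atTop (𝓝 0) :=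
    tendsto_one_div_add_atTop_nhds_zero_nat
  refine ⟨u, fun n => ⟨(hu' n).1, (hu' n).2.le.trans (min_le_left _ _)⟩, ?_, ?_⟩
  · refine tendsto_nhdsWithin_iff.2 ⟨?_, Eventually.of_forall fun n => (hu' n).1⟩
    exact squeeze_zero (fun n => (hu' n).1.le) (fun n => (hu' n).2.le.trans (min_le_right _ _)) hl
  · refine squeeze_zero (fun n => Real.sqrt_nonneg _) (fun n => Real.sqrt_le_sqrt (hu n)) ?_
    simpa using hl.sqrt

theorem fderiv_cut {F : ℝ → ℝ} (hF : ContDiff ℝ ∞ F) {Θ : E → ℝ} (hΘ : ContDiff ℝ ∞ Θ) (s : ℝ)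
    (x : E) : fderiv ℝ (fun y => F (s * Θ y)) x = (deriv F (s * Θ x) * s) • fderiv ℝ Θ x := by
  have h1 : HasFDerivAt (fun y => s * Θ y) (s • fderiv ℝ Θ x) x :=
    ((hΘ.differentiable (by simp)) x).hasFDerivAt.const_mul s
  have h2 : HasDerivAt F (deriv F (s * Θ x)) (s * Θ x) :=
    ((hF.differentiable (by simp)) _).hasDerivAt
  have h3 := h2.comp_hasFDerivAt x h1
  rw [mul_smul]
  exact h3.fderiv

/-- the term with the derivative of the cut-off -/
theorem wedge_bound (hν : ∀ᵐ z ∂ν, ‖z.2‖ = 1) {γ : E → Cov} (hγ : ContDiff ℝ ∞ γ)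
    (hs : tsupport γ ⊆ closedBall 0 1) {F : ℝ → ℝ} {S : ℝ} (hS : 0 < S) (hF : ContDiff ℝ ∞ F)
    {G CA : ℝ} (hG0 : 0 ≤ G) (hG : ∀ x, ‖x‖ ≤ 1 → ‖γ x‖ ≤ G) (hA : ∀ x, ‖Fr.A' x‖ ≤ CA)
    {Θ : E → ℝ} (hΘ : ContDiff ℝ ∞ Θ) {s : ℝ} (hs0 : 0 < s) :
    |∫ z, ev Fr (fun x => wedge (fderiv ℝ (fun y => F (s * Θ y)) x) (γ x)) z ∂ν| ≤
      G * CA * (s * S) * ∫ z in {z : E × E | ‖z.1‖ ≤ 1}, |deriv F (s * Θ z.1)| / S *
        (|fderiv ℝ Θ z.1 (Fr.A' z.1 z.2)| + |fderiv ℝ Θ z.1 (Fr.A' z.1 (J0 z.2))|) ∂ν := by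
  have hdF : Continuous (deriv F) := hF.continuous_deriv (by simp)
  have hdΘ : Continuous (fderiv ℝ Θ) := hΘ.continuous_fderiv (by simp)
  have hΘc := hΘ.continuous
  have hc : Continuous fun z : E × E => |deriv F (s * Θ z.1)| / S *
      (|fderiv ℝ Θ z.1 (Fr.A' z.1 z.2)| + |fderiv ℝ Θ z.1 (Fr.A' z.1 (J0 z.2))|) := by
    refine Continuous.mul (by fun_prop) (Continuous.add ?_ ?_)
    · exact ((hdΘ.comp continuous_fst).clm_apply (continuous_A1 Fr)).abs
    · exact ((hdΘ.comp continuous_fst).clm_apply (continuous_A2 Fr)).abs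
  rw [← setIntegral_eq_integral_of_forall_compl_eq_zero (s := {z : E × E | ‖z.1‖ ≤ 1})
    (fun z hz => by simp [ev, out_zero hs (not_le.1 hz)]), ← integral_const_mul,
    ← Real.norm_eq_abs]
  refine norm_integral_le_of_norm_le ((integrableOn_cont hν hc).const_mul _) ?_
  filter_upwards [ae_restrict_mem meas_B, ae_restrict_of_ae hν] with z hz hz2
  have hCA : 0 ≤ CA := (norm_nonneg _).trans (hA 0)
  have hu : ‖Fr.A' z.1 z.2‖ ≤ CA := by
    simpa [hz2] using (Fr.A' z.1).le_of_opNorm_le (hA z.1) z.2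
  have hv : ‖Fr.A' z.1 (J0 z.2)‖ ≤ CA := by
    simpa [hz2, norm_J0] using (Fr.A' z.1).le_of_opNorm_le (hA z.1) (J0 z.2)
  have hγu : |γ z.1 (Fr.A' z.1 z.2)| ≤ G * CA :=
    ((γ z.1).le_of_opNorm_le (hG z.1 hz) _).trans (mul_le_mul_of_nonneg_left hu hG0)
  have hγv : |γ z.1 (Fr.A' z.1 (J0 z.2))| ≤ G * CA :=
    ((γ z.1).le_of_opNorm_le (hG z.1 hz) _).trans (mul_le_mul_of_nonneg_left hv hG0)
  simp only [ev, wedge_apply, fderiv_cut hF hΘ, _root_.smul_apply, smul_eq_mul,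
    Real.norm_eq_abs]
  generalize fderiv ℝ Θ z.1 (Fr.A' z.1 z.2) = a at *
  generalize fderiv ℝ Θ z.1 (Fr.A' z.1 (J0 z.2)) = b at *
  generalize γ z.1 (Fr.A' z.1 z.2) = p at *
  generalize γ z.1 (Fr.A' z.1 (J0 z.2)) = q at *
  generalize deriv F (s * Θ z.1) = D at *
  have e1 : G * CA * (s * S) * (|D| / S * (|a| + |b|))
      = |D| * s * |a| * (G * CA) + G * CA * (|D| * s * |b|) := by
    field_simp
  rw [e1]
  refine (abs_sub _ _).trans (add_le_add ?_ ?_)
  · rw [abs_mul, abs_mul, abs_mul, abs_of_pos hs0]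
    exact mul_le_mul_of_nonneg_left hγv (by positivity)
  · rw [abs_mul, abs_mul, abs_mul, abs_of_pos hs0]
    exact mul_le_mul_of_nonneg_right hγu (by positivity)

theorem vol_le : ∃ CV : ℝ, ∀ (x : E) (r : ℝ), 0 ≤ r → volume.real (closedBall x r) ≤ CV * r ^ 4 := by
  refine ⟨volume.real (closedBall (0 : E) 1), fun x r hr => ?_⟩
  rw [Measure.addHaar_real_closedBall' volume x hr]
  simp [mul_comm]

theorem cross (h : LocData Fr ν Λ m) {K : ℝ} (hK : 0 < K) :
    (∀ ε, 0 < ε → Integrable (fun y => ‖Λ y‖ * ν.fst.real (closedBall y (K * ε))) volume) ∧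
    Tendsto (fun ε : ℝ => ε⁻¹ ^ 3 * ∫ y, ‖Λ y‖ * ν.fst.real (closedBall y (K * ε))) (𝓝[>] 0)
      (𝓝 0) := by
  obtain ⟨CV, hV⟩ := vol_le
  simpa only [abs_norm] using tendsto_cross volume ν.fst hK hV h.mass h.meas.norm h.mem.norm

theorem theta_nonneg (Fr : Frame) (μ : Measure E) [IsFiniteMeasure μ] {ε : ℝ} (hε : 0 < ε) (x : E) :
    0 ≤ Theta Fr μ ε x := by
  obtain ⟨c, C, hc, -, hb⟩ := theta_bounds Fr
  refine le_trans ?_ (hb μ ε hε x).1
  positivity

theorem theta_le (Fr : Frame) (μ : Measure E) [IsFiniteMeasure μ] (hm : Mass μ 0 m) :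
    ∃ B : ℝ, ∀ ε, 0 < ε → ∀ x, Theta Fr μ ε x ≤ B := by
  obtain ⟨c, C, hc, hC, hb⟩ := theta_bounds Fr
  refine ⟨C ^ 3 * m, fun ε hε x => (hb μ ε hε x).2.trans ?_⟩
  have h1 := hm x (C * ε) (by positivity) (by positivity)
  calc C * ε⁻¹ ^ 2 * μ.real (closedBall x (C * ε)) ≤ C * ε⁻¹ ^ 2 * (m * (C * ε) ^ 2) :=
        mul_le_mul_of_nonneg_left h1 (by positivity)
    _ = C ^ 3 * m := by field_simp

theorem tsupport_cut {γ : E → Cov} (hs : tsupport γ ⊆ closedBall 0 1) (η : E → ℝ) :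
    tsupport (fun y => η y • γ y) ⊆ closedBall 0 1 :=
  (tsupport_smul_subset_right η γ).trans hs

theorem d1_cut_le (Fr : Frame) (μ : Measure E) [IsFiniteMeasure μ] {γ : E → Cov}
    (hγ : ContDiff ℝ ∞ γ) (hs : tsupport γ ⊆ closedBall 0 1) {F : ℝ → ℝ} {S : ℝ} (hS : 0 < S)
    (hF : ContDiff ℝ ∞ F) (hF0 : ∀ t, 0 ≤ F t) (hF2 : ∀ t, 0 ≤ t → F t ≤ 2 * t)
    (hFS : ∀ t, |deriv F t| ≤ S) :
    ∃ N K : ℝ, 0 ≤ N ∧ 0 < K ∧ ∀ s, 0 < s → ∀ ε ∈ Ioc (0 : ℝ) 1, ∀ y,
      ‖d1 (fun y => F (s * Theta Fr μ ε y) • γ y) y‖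
        ≤ N * s * (ε⁻¹ ^ 3 * μ.real (closedBall y (K * ε))) := by
  obtain ⟨c, C2, hc, hC2, hb⟩ := theta_bounds Fr
  obtain ⟨C1, hC1, hd⟩ := norm_fderiv_theta_le Fr
  obtain ⟨G, hG0, hG⟩ := exists_bound hγ
  refine ⟨2 * S * G * C1 + 2 * G * C2, max C1 C2, by positivity, by positivity, ?_⟩
  intro s hs0 ε hε y
  have hε0 := hε.1
  rcases lt_or_ge 1 ‖y‖ with hy | hy
  · rw [d1_out_zero (tsupport_cut hs _) hy, norm_zero]
    positivity
  have hΘ := theta_smooth Fr μ hε0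
  have hη : ContDiff ℝ ∞ fun y => F (s * Theta Fr μ ε y) := hF.comp (contDiff_const.mul hΘ)
  rw [d1_smul (hη.differentiable (by simp) y) (hγ.differentiable (by simp) y), fderiv_cut hF hΘ]
  set M := μ.real (closedBall y (max C1 C2 * ε)) with hM
  have hM0 : 0 ≤ M := measureReal_nonneg
  have hM1 : μ.real (closedBall y (C1 * ε)) ≤ M :=
    measureReal_mono (closedBall_subset_closedBall
      (mul_le_mul_of_nonneg_right (le_max_left _ _) hε0.le))
  have hM2 : μ.real (closedBall y (C2 * ε)) ≤ M :=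
    measureReal_mono (closedBall_subset_closedBall
      (mul_le_mul_of_nonneg_right (le_max_right _ _) hε0.le))
  have hpow : ε⁻¹ ^ 2 ≤ ε⁻¹ ^ 3 := pow_le_pow_right₀ ((one_le_inv₀ hε0).2 hε.2) (by norm_num)
  have h1 : ‖fderiv ℝ (Theta Fr μ ε) y‖ ≤ C1 * ε⁻¹ ^ 3 * M :=
    (hd μ ε hε y (by linarith)).trans (mul_le_mul_of_nonneg_left hM1 (by positivity))
  have h2 : Theta Fr μ ε y ≤ C2 * ε⁻¹ ^ 3 * M :=
    (hb μ ε hε0 y).2.trans (by gcongr)
  have h0 := theta_nonneg Fr μ hε0 y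
  have h3 : F (s * Theta Fr μ ε y) ≤ 2 * (s * (C2 * ε⁻¹ ^ 3 * M)) :=
    (hF2 _ (by positivity)).trans (by gcongr)
  have h4 : ‖wedge ((deriv F (s * Theta Fr μ ε y) * s) • fderiv ℝ (Theta Fr μ ε) y) (γ y)‖
      ≤ 2 * (S * s * (C1 * ε⁻¹ ^ 3 * M)) * G := by
    refine (norm_wedge_le _ _).trans ?_
    rw [norm_smul, Real.norm_eq_abs, abs_mul, abs_of_pos hs0]
    have := hFS (s * Theta Fr μ ε y)
    have := (hG y hy).1
    gcongr
  have h5 : ‖F (s * Theta Fr μ ε y) • d1 γ y‖ ≤ 2 * (s * (C2 * ε⁻¹ ^ 3 * M)) * G := by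
    rw [norm_smul, Real.norm_eq_abs, abs_of_nonneg (hF0 _)]
    have := (hG y hy).2
    gcongr
  refine (norm_add_le _ _).trans ((add_le_add h4 h5).trans (le_of_eq ?_))
  ring

/-- the estimate at a fixed scale -/
theorem step (h : LocData Fr ν Λ m) {γ : E → Cov} (hγ : ContDiff ℝ ∞ γ)
    (hs : tsupport γ ⊆ closedBall 0 1) {F : ℝ → ℝ} {S : ℝ} (hS : 0 < S) (hF : ContDiff ℝ ∞ F)
    (hF0 : ∀ t, 0 ≤ F t) (hF2 : ∀ t, 0 ≤ t → F t ≤ 2 * t) (hFS : ∀ t, |deriv F t| ≤ S) :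
    ∃ N N' K K' r0 : ℝ, 0 < K ∧ 0 < K' ∧ 0 < r0 ∧ ∀ s, 0 < s → ∀ ε ∈ Ioc 0 r0,
      |∫ z, F (s * Theta Fr ν.fst ε z.1) * ev Fr (d1 γ) z ∂ν| ≤
        N * (s * S) * (√(∫ x in closedBall (0 : E) 1, ε * Dt Fr ν ε x ∂ν.fst)
          + (∫ x in closedBall (0 : E) 1,
              |deriv F (s * Theta Fr ν.fst ε x)| / S * Theta Fr ν.fst (K * ε) x ∂ν.fst)
          + ε⁻¹ ^ 3 * ∫ y, ‖Λ y‖ * ν.fst.real (closedBall y (K * ε)))
        + N' * s * (ε⁻¹ ^ 3 * ∫ y, ‖Λ y‖ * ν.fst.real (closedBall y (K' * ε))) := by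
  obtain ⟨C, K, r0, hC, hK, hr0, ht⟩ := h.tangential
  obtain ⟨N', K', hN', hK', hd⟩ := d1_cut_le Fr ν.fst hγ hs hS hF hF0 hF2 hFS
  obtain ⟨G, hG0, hG⟩ := exists_bound hγ
  obtain ⟨CA, hCA⟩ := Fr.bdd
  have hCA0 : 0 ≤ CA := (norm_nonneg _).trans (hCA 0).2
  refine ⟨G * CA * C, 6 * N', K, K', min r0 1, by positivity, hK', by positivity, ?_⟩
  intro s hs0 ε hε
  have hε0 := hε.1
  have hε1 : ε ∈ Ioc (0 : ℝ) 1 := ⟨hε0, hε.2.trans (min_le_right _ _)⟩
  have hεr : ε ∈ Ioc (0 : ℝ) r0 := ⟨hε0, hε.2.trans (min_le_left _ _)⟩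
  have hΘ := theta_smooth Fr ν.fst hε0
  set Θ := Theta Fr ν.fst ε with hΘd
  have hη : ContDiff ℝ ∞ fun y => F (s * Θ y) := hF.comp (contDiff_const.mul hΘ)
  have hγ' : ContDiff ℝ ∞ fun y => F (s * Θ y) • γ y := hη.smul hγ
  have hcl := h.closed _ hγ' ((tsupport_cut hs _).trans (closedBall_subset_ball (by norm_num)))
  have hdF : Continuous (deriv F) := hF.continuous_deriv (by simp)
  have hw : Continuous fun x => wedge (fderiv ℝ (fun y => F (s * Θ y)) x) (γ x) :=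
    continuous_iff_continuousAt.2 fun x =>
      (ContDiffAt.wedge (n := 0) (contDiff_zero.2 (hη.continuous_fderiv (by simp))).contDiffAt
        (hγ.of_le (by simp)).contDiffAt).continuousAt
  have hi1 : Integrable (ev Fr fun x => wedge (fderiv ℝ (fun y => F (s * Θ y)) x) (γ x)) ν :=
    integrable_cont h.unit (continuous_ev hw) fun z hz => by simp [ev, out_zero hs hz]
  have hi2 : Integrable (fun z : E × E => F (s * Θ z.1) * ev Fr (d1 γ) z) ν :=
    integrable_cont h.unit ((hη.continuous.comp continuous_fst).mul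
      (continuous_ev (continuous_d1 hγ))) fun z hz => by simp [ev, d1_out_zero hs hz]
  have hT : Tl Fr ν (d1 fun y => F (s * Θ y) • γ y) =
      (∫ z, ev Fr (fun x => wedge (fderiv ℝ (fun y => F (s * Θ y)) x) (γ x)) z ∂ν)
        + ∫ z, F (s * Θ z.1) * ev Fr (d1 γ) z ∂ν := by
    rw [← integral_add hi1 hi2, Tl]
    refine integral_congr_ae (Eventually.of_forall fun z => ?_)
    simp only [d1_smul (hη.differentiable (by simp) z.1) (hγ.differentiable (by simp) z.1), ev,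
      _root_.add_apply, _root_.smul_apply, smul_eq_mul]
  have hb1 := wedge_bound (Fr := Fr) h.unit hγ hs hS hF hG0 (fun x hx => (hG x hx).1)
    (fun x => (hCA x).2) hΘ hs0
  have hb1' := ht ε hεr (fun x => |deriv F (s * Θ x)| / S)
    (by have := hΘ.continuous; fun_prop)
    (fun x => ⟨by positivity, (div_le_one hS).2 (hFS _)⟩)
  have hb2 : |∫ y, wp (d1 (fun y => F (s * Θ y) • γ y) y) (Λ y)| ≤
      6 * N' * s * (ε⁻¹ ^ 3 * ∫ y, ‖Λ y‖ * ν.fst.real (closedBall y (K' * ε))) := by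
    rw [← integral_const_mul, ← integral_const_mul, ← Real.norm_eq_abs]
    refine norm_integral_le_of_norm_le ((((cross h hK').1 ε hε0).const_mul _).const_mul _)
      (Eventually.of_forall fun y => ?_)
    refine (abs_wp_le _ _).trans ?_
    have := hd s hs0 ε hε1 y
    calc 6 * ‖d1 (fun y => F (s * Θ y) • γ y) y‖ * ‖Λ y‖
        ≤ 6 * (N' * s * (ε⁻¹ ^ 3 * ν.fst.real (closedBall y (K' * ε)))) * ‖Λ y‖ := by gcongr
      _ = _ := by ring
  have hb3 := hb1.trans (mul_le_mul_of_nonneg_left hb1' (by positivity))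
  rw [hT] at hcl
  have e : ∀ a b c : ℝ, a + b + c = 0 → |b| ≤ |a| + |c| := by
    intro a b c habc
    have : b = -(a + c) := by linarith
    rw [this, abs_neg]
    exact abs_add_le _ _
  refine (e _ _ _ hcl).trans (add_le_add (hb3.trans (le_of_eq ?_)) hb2)
  ring

theorem exists_dens (h : LocData Fr ν Λ m) : ∃ θ : E → ℝ, Measurable θ ∧ ∀ x : E, ‖x‖ ≤ 1 →
    Tendsto (fun ε => Theta Fr ν.fst ε x) (𝓝[>] 0) (𝓝 (θ x)) ∧ 0 ≤ θ x ∧
      (x ∈ Lel ν.fst ↔ 0 < θ x) := by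
  obtain ⟨B, r0, hr0, hB⟩ := h.radial
  obtain ⟨θ, hθ⟩ := exists_density Fr h.unit h.mass hr0 hB
  refine ⟨(closedBall (0 : E) 1).indicator θ, ?_, fun x hx => ?_⟩
  · have hp : ∀ n : ℕ, (0 : ℝ) < 1 / ((n : ℝ) + 1) := fun n => Nat.one_div_pos_of_nat
    have hl : Tendsto (fun n : ℕ => 1 / ((n : ℝ) + 1)) atTop (𝓝[>] 0) :=
      tendsto_nhdsWithin_iff.2 ⟨tendsto_one_div_add_atTop_nhds_zero_nat, Eventually.of_forall hp⟩
    refine measurable_of_tendsto_metrizable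
      (f := fun n : ℕ => (closedBall (0 : E) 1).indicator (Theta Fr ν.fst (1 / ((n : ℝ) + 1))))
      (fun n => (theta_smooth Fr ν.fst (hp n)).continuous.measurable.indicator
        measurableSet_closedBall) ?_
    rw [tendsto_pi_nhds]
    intro x
    by_cases hx : x ∈ closedBall (0 : E) 1
    · simp only [indicator_of_mem hx]
      exact (hθ x (by simpa using hx)).1.comp hl
    · simp only [indicator_of_notMem hx]
      exact tendsto_const_nhds
  · rw [indicator_of_mem (by simpa using hx)]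
    exact hθ x hx

/-- the limit `ε → 0` -/
theorem stepA (h : LocData Fr ν Λ m) {γ : E → Cov} (hγ : ContDiff ℝ ∞ γ)
    (hs : tsupport γ ⊆ closedBall 0 1) {F : ℝ → ℝ} {S : ℝ} (hS : 0 < S) (hF : ContDiff ℝ ∞ F)
    (hF0 : ∀ t, 0 ≤ F t ∧ F t ≤ 1) (hF2 : ∀ t, 0 ≤ t → F t ≤ 2 * t) (hFS : ∀ t, |deriv F t| ≤ S)
    {θ : E → ℝ} (hθ : ∀ x : E, ‖x‖ ≤ 1 →
      Tendsto (fun ε => Theta Fr ν.fst ε x) (𝓝[>] 0) (𝓝 (θ x))) :
    ∃ N : ℝ, ∀ s, 0 < s → |∫ z, F (s * θ z.1) * ev Fr (d1 γ) z ∂ν| ≤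
      N * ∫ x in closedBall (0 : E) 1, |deriv F (s * θ x)| * (s * θ x) ∂ν.fst := by
  obtain ⟨N, N', K, K', r0, hK, hK', hr0, hst⟩ := step h hγ hs hS hF (fun t => (hF0 t).1) hF2 hFS
  obtain ⟨B, r1, hr1, hB⟩ := h.radial
  obtain ⟨u, hu, hul, huQ⟩ := exists_seq
    (Q := fun ε => ∫ x in closedBall (0 : E) 1, ε * Dt Fr ν ε x ∂ν.fst)
    (fun δ hδ => frequently_Dt_le Fr h.unit h.mass hr1 hB hδ) hr0
  obtain ⟨BΘ, hBΘ⟩ := theta_le Fr ν.fst h.mass
  have hdF : Continuous (deriv F) := hF.continuous_deriv (by simp)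
  have hFc := hF.continuous
  have hev := continuous_ev (Fr := Fr) (continuous_d1 hγ)
  have hie : Integrable (ev Fr (d1 γ)) ν :=
    integrable_cont h.unit hev fun z hz => by simp [ev, d1_out_zero hs hz]
  have hKu : Tendsto (fun n => K * u n) atTop (𝓝[>] 0) :=
    tendsto_nhdsWithin_iff.2 ⟨by simpa using (tendsto_nhds_of_tendsto_nhdsWithin hul).const_mul K,
      Eventually.of_forall fun n => mul_pos hK (hu n).1⟩
  have hΘc : ∀ n, Continuous (Theta Fr ν.fst (u n)) := fun n =>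
    (theta_smooth Fr ν.fst (hu n).1).continuous
  have hΘc' : ∀ n, Continuous (Theta Fr ν.fst (K * u n)) := fun n =>
    (theta_smooth Fr ν.fst (mul_pos hK (hu n).1)).continuous
  refine ⟨N, fun s hs0 => ?_⟩
  have hL : Tendsto (fun n => ∫ z, F (s * Theta Fr ν.fst (u n) z.1) * ev Fr (d1 γ) z ∂ν) atTop
      (𝓝 (∫ z, F (s * θ z.1) * ev Fr (d1 γ) z ∂ν)) := by
    refine tendsto_integral_of_dominated_convergence (fun z => ‖ev Fr (d1 γ) z‖) (fun n => ?_)
      hie.norm (fun n => Eventually.of_forall fun z => ?_) (Eventually.of_forall fun z => ?_)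
    · have := hΘc n
      exact Continuous.aestronglyMeasurable (by fun_prop)
    · rw [norm_mul, Real.norm_eq_abs, abs_of_nonneg (hF0 _).1]
      exact mul_le_of_le_one_left (norm_nonneg _) (hF0 _).2
    · rcases le_or_gt ‖z.1‖ 1 with hz | hz
      · exact ((hFc.tendsto _).comp (((hθ z.1 hz).comp hul).const_mul s)).mul_const _
      · simp [ev, d1_out_zero hs hz]
  have hR : Tendsto (fun n => ∫ x in closedBall (0 : E) 1,
      |deriv F (s * Theta Fr ν.fst (u n) x)| / S * Theta Fr ν.fst (K * u n) x ∂ν.fst) atTop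
      (𝓝 (∫ x in closedBall (0 : E) 1, |deriv F (s * θ x)| / S * θ x ∂ν.fst)) := by
    refine tendsto_integral_of_dominated_convergence (fun _ => BΘ) (fun n => ?_)
      (integrable_const _) (fun n => Eventually.of_forall fun x => ?_) ?_
    · have := hΘc n
      have := hΘc' n
      exact Continuous.aestronglyMeasurable (by fun_prop)
    · have h0 := theta_nonneg Fr ν.fst (mul_pos hK (hu n).1) x
      rw [Real.norm_eq_abs, abs_of_nonneg (by positivity)]
      exact (mul_le_of_le_one_left h0 ((div_le_one hS).2 (hFS _))).trans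
        (hBΘ _ (mul_pos hK (hu n).1) x)
    · filter_upwards [ae_restrict_mem measurableSet_closedBall] with x hx
      have hx' : ‖x‖ ≤ 1 := by simpa using hx
      exact (((hdF.tendsto _).comp (((hθ x hx').comp hul).const_mul s)).abs.div_const S).mul
        ((hθ x hx').comp hKu)
  have hX := (cross h hK).2.comp hul
  have hX' := (cross h hK').2.comp hul
  have hlim := (((huQ.add hR).add hX).const_mul (N * (s * S))).add (hX'.const_mul (N' * s))
  refine (le_of_tendsto_of_tendsto' hL.abs hlim fun n => hst s hs0 (u n) (hu n)).trans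
    (le_of_eq ?_)
  rw [zero_add, add_zero, mul_zero, add_zero, mul_assoc, ← integral_const_mul]
  congr 1
  refine integral_congr_ae (Eventually.of_forall fun x => ?_)
  field_simp

end EM2

open EM2 in
/-- (E) -/
theorem LocData.closed_Lel (h : LocData Fr ν Λ m) {γ : E → Cov} (hγ : ContDiff ℝ ∞ γ)
    (hs : tsupport γ ⊆ closedBall 0 1) :
    Tl Fr (ν.restrict {z | z.1 ∈ Lel ν.fst}) (d1 γ) = 0 := by
  obtain ⟨F, S, hS, hF, hF0, hF2, hF1, hFS, hFd⟩ := exists_cut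
  obtain ⟨θ, hθm, hθ⟩ := exists_dens h
  obtain ⟨N, hN⟩ := stepA h hγ hs hS hF hF0 hF2 hFS fun x hx => (hθ x hx).1
  have hdF : Continuous (deriv F) := hF.continuous_deriv (by simp)
  have hFc := hF.continuous
  have hev := continuous_ev (Fr := Fr) (continuous_d1 hγ)
  have hie : Integrable (ev Fr (d1 γ)) ν :=
    integrable_cont h.unit hev fun z hz => by simp [ev, d1_out_zero hs hz]
  have hF00 : F 0 = 0 := le_antisymm (by simpa using hF2 0 le_rfl) (hF0 0).1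
  have hmeas : MeasurableSet {z : E × E | z.1 ∈ Lel ν.fst} :=
    (measurableSet_Lel ν.fst).preimage measurable_fst
  have hbig : ∀ t : ℝ, 0 < t → ∀ᶠ k : ℕ in atTop, 1 < ((k : ℝ) + 1) * t := fun t ht =>
    ((tendsto_atTop_add_const_right atTop 1 tendsto_natCast_atTop_atTop).atTop_mul_const
      ht).eventually_gt_atTop 1
  have hL : Tendsto (fun k : ℕ => ∫ z, F (((k : ℝ) + 1) * θ z.1) * ev Fr (d1 γ) z ∂ν) atTop
      (𝓝 (∫ z, {z : E × E | z.1 ∈ Lel ν.fst}.indicator (ev Fr (d1 γ)) z ∂ν)) := by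
    refine tendsto_integral_of_dominated_convergence (fun z => ‖ev Fr (d1 γ) z‖) (fun n => ?_)
      hie.norm (fun n => Eventually.of_forall fun z => ?_) (Eventually.of_forall fun z => ?_)
    · exact ((hFc.measurable.comp ((hθm.comp measurable_fst).const_mul _)).mul
        hev.measurable).aestronglyMeasurable
    · rw [norm_mul, Real.norm_eq_abs, abs_of_nonneg (hF0 _).1]
      exact mul_le_of_le_one_left (norm_nonneg _) (hF0 _).2
    · rcases le_or_gt ‖z.1‖ 1 with hz | hz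
      · obtain ⟨-, h0, hiff⟩ := hθ z.1 hz
        rcases h0.eq_or_lt with h0 | h0
        · have hn : z ∉ {z : E × E | z.1 ∈ Lel ν.fst} := fun hz' => (hiff.1 hz').ne h0
          rw [indicator_of_notMem hn]
          simp [← h0, hF00]
        · have hn : z ∈ {z : E × E | z.1 ∈ Lel ν.fst} := hiff.2 h0
          rw [indicator_of_mem hn]
          refine tendsto_const_nhds.congr' ?_
          filter_upwards [hbig _ h0] with k hk
          rw [hF1 _ hk.le, one_mul]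
      · have h0 : ev Fr (d1 γ) z = 0 := by simp [ev, d1_out_zero hs hz]
        rw [indicator_apply_eq_zero.2 fun _ => h0]
        simp [h0]
  have hR : Tendsto (fun k : ℕ => ∫ x in closedBall (0 : E) 1,
      |deriv F (((k : ℝ) + 1) * θ x)| * (((k : ℝ) + 1) * θ x) ∂ν.fst) atTop
      (𝓝 (∫ x in closedBall (0 : E) 1, (0 : ℝ) ∂ν.fst)) := by
    refine tendsto_integral_of_dominated_convergence (fun _ => S) (fun n => ?_)
      (integrable_const _) (fun n => ?_) ?_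
    · exact ((hdF.measurable.comp (hθm.const_mul _)).abs.mul
        (hθm.const_mul _)).aestronglyMeasurable
    · filter_upwards [ae_restrict_mem measurableSet_closedBall] with x hx
      have h0 := (hθ x (by simpa using hx)).2.1
      rw [Real.norm_eq_abs, abs_of_nonneg (by positivity)]
      rcases le_or_gt (((n : ℝ) + 1) * θ x) 1 with h1 | h1
      · exact (mul_le_of_le_one_right (abs_nonneg _) h1).trans (hFS _)
      · rw [hFd _ h1, abs_zero, zero_mul]; exact hS.le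
    · filter_upwards [ae_restrict_mem measurableSet_closedBall] with x hx
      have h0 := (hθ x (by simpa using hx)).2.1
      rcases h0.eq_or_lt with h0 | h0
      · simp [← h0]
      · refine tendsto_const_nhds.congr' ?_
        filter_upwards [hbig _ h0] with k hk
        rw [hFd _ hk, abs_zero, zero_mul]
  have hle := le_of_tendsto_of_tendsto' hL.abs (hR.const_mul N) fun k => hN _ (by positivity)
  rw [integral_zero, mul_zero, abs_nonpos_iff, integral_indicator hmeas] at hle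
  exact hle

end Crest.Agent.R240

end
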