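import Crest.Agent.R240.Taub

/-!
# Row 240: the energy estimate
-/

set_option autoImplicit false
set_option linter.unusedSectionVars false
set_option linter.unusedVariables false

open MeasureTheory Metric Set Filter Topology
open scoped ContDiff ENNReal

noncomputable section

namespace Crest.Agent.R240

namespace Geo

variable {M : Type*} [MetricSpace M] [CompactSpace M] [MeasurableSpace M] [BorelSpace M]
  {G : Geo M}

variable {ν : Measure (M × E)} [IsFiniteMeasure ν]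

theorem R_ofMeasure_ktr (Kr : G.Ker) (ε : ℝ) (hν : ∀ᵐ z ∂ν, ‖z.2‖ = 1) (q : M) (v w : E) :
    (Cur.ofMeasure G ν hν).R (ktr (Kr.k ε)) q v w
      = ∫ z, qv (Kr.k ε z.1 q) z.2 (J0 z.2) v w ∂ν := by
  rw [Cur.R_apply _ (Kr.smooth ε).ktr]
  change ∫ z, qv (qswap (Kr.k ε z.1 q)) v w z.2 (J0 z.2) ∂ν = _
  simp only [qv_qswap]

theorem Energy_integrable (Kr : G.Ker) (ε : ℝ) (hν : ∀ᵐ z ∂ν, ‖z.2‖ = 1) (q : M) (v w : E) :
    Integrable (fun z : M × E => qv (Kr.k ε z.1 q) z.2 (J0 z.2) v w) ν := by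
  have h := (Kr.smooth ε).fst q v w
  obtain ⟨C, -, hC⟩ := h.bdd
  simpa only [qv_qswap] using integrable_Tm hν h.measurable hC

theorem Energy_lower {B : Set M} (hB : MeasurableSet B) {f : M × E → ℝ} (hf : Integrable f ν)
    {c : ℝ} (h1 : ∀ᵐ z ∂ν, -c ≤ f z) (h0 : ∀ z : M × E, z.1 ∉ B → f z = 0) :
    -(c * ν.fst.real B) ≤ ∫ z, f z ∂ν := by
  have hs : MeasurableSet (Prod.fst ⁻¹' B : Set (M × E)) := measurable_fst hB
  have h2 : ∫ z, (Prod.fst ⁻¹' B : Set (M × E)).indicator (fun _ => -c) z ∂ν =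
      -(c * ν.fst.real B) := by
    rw [integral_indicator_const _ hs, measureReal_def, measureReal_def, Measure.fst_apply hB,
      smul_eq_mul]
    ring
  rw [← h2]
  refine integral_mono_ae ((integrable_const _).indicator hs) hf ?_
  filter_upwards [h1] with z hz
  by_cases h : z.1 ∈ B
  · rw [indicator_of_mem (by exact h)]
    exact hz
  · rw [indicator_of_notMem (by exact h), h0 z h]

theorem Energy_abs {B : Set M} (hB : MeasurableSet B) {f : M × E → ℝ} (hf : Integrable f ν)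
    {c : ℝ} (h1 : ∀ᵐ z ∂ν, |f z| ≤ c) (h0 : ∀ z : M × E, z.1 ∉ B → f z = 0) :
    |∫ z, f z ∂ν| ≤ c * ν.fst.real B := by
  have h2 := Energy_lower hB hf (c := c) (h1.mono fun z hz => (abs_le.1 hz).1) h0
  have h3 := Energy_lower hB hf.neg (c := c)
    (h1.mono fun z hz => neg_le_neg (abs_le.1 hz).2) (fun z hz => by simp [h0 z hz])
  simp only [Pi.neg_apply, integral_neg] at h3
  rw [abs_le]
  constructor <;> linarith

/-- pointwise bounds for the regularised positive current -/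
theorem R_ofMeasure_bounds (Kr : G.Ker) : ∃ C : ℝ, 0 ≤ C ∧
    ∀ (ν : Measure (M × E)) [IsFiniteMeasure ν] (hν : ∀ᵐ z ∂ν, ‖z.2‖ = 1), ∀ ε ∈ Ioc 0 Kr.ε0, ∀ q,
      ‖(Cur.ofMeasure G ν hν).R (ktr (Kr.k ε)) q‖
          ≤ C * ε⁻¹ ^ 4 * ν.fst.real (closedBall q (Kr.C0 * ε)) ∧
      ‖am ((Cur.ofMeasure G ν hν).R (ktr (Kr.k ε)) q)‖
          ≤ C * ε⁻¹ ^ 3 * ν.fst.real (closedBall q (Kr.C0 * ε)) ∧
      ∀ v, ‖v‖ = 1 → -(C * ε⁻¹ ^ 2 * ν.fst.real (closedBall q (Kr.C0 * ε)))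
          ≤ (Cur.ofMeasure G ν hν).R (ktr (Kr.k ε)) q v (J0 v) := by
  obtain ⟨C0, h0, H0⟩ := Kr.bd0
  obtain ⟨C3, h3, H3⟩ := Kr.bd_am_snd
  have h1 := Kr.C1_nonneg
  refine ⟨16 * C0 + C3 + Kr.C1, by positivity, fun ν _ hν ε hε q => ?_⟩
  have hε0 : 0 < ε := hε.1
  have hB : MeasurableSet (closedBall q (Kr.C0 * ε)) := measurableSet_closedBall
  have hμ : 0 ≤ ν.fst.real (closedBall q (Kr.C0 * ε)) := measureReal_nonneg
  have hz : ∀ z : M × E, z.1 ∉ closedBall q (Kr.C0 * ε) →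
      qv (Kr.k ε z.1 q) z.2 (J0 z.2) = 0 := by
    intro z hz
    rw [Kr.supp ε hε z.1 q (not_le.1 hz)]
    simp [qv]
  refine ⟨?_, ?_, fun v hv => ?_⟩
  · refine ContinuousLinearMap.opNorm_le_bound₂ _ (by positivity) fun v w => ?_
    rw [R_ofMeasure_ktr]
    refine (Energy_abs hB (Energy_integrable Kr ε hν q v w)
      (c := (16 * C0 + C3 + Kr.C1) * ε⁻¹ ^ 4 * ‖v‖ * ‖w‖) ?_
      fun z h => by simp [hz z h]).trans_eq (by ring)
    filter_upwards [hν] with z hz1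
    refine (abs_apply_le _ _ _).trans ?_
    have h4 := norm_qv_le (Kr.k ε z.1 q) z.2 (J0 z.2)
    rw [norm_J0, hz1, mul_one, mul_one] at h4
    have h5 := H0 ε hε z.1 q
    have h6 : 0 ≤ (C3 + Kr.C1) * ε⁻¹ ^ 4 := by positivity
    gcongr
    linarith
  · refine ContinuousLinearMap.opNorm_le_bound₂ _ (by positivity) fun v w => ?_
    have hi := Energy_integrable Kr ε hν q v w
    have hi' := Energy_integrable Kr ε hν q (J0 v) (J0 w)
    have e1 : am ((Cur.ofMeasure G ν hν).R (ktr (Kr.k ε)) q) v w =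
        ∫ z, am (qv (Kr.k ε z.1 q) z.2 (J0 z.2)) v w ∂ν := by
      simp only [am, amJ_apply, R_ofMeasure_ktr]
      rw [integral_const_mul, integral_sub hi hi']
    have hi'' : Integrable (fun z : M × E => am (qv (Kr.k ε z.1 q) z.2 (J0 z.2)) v w) ν := by
      simp only [am, amJ_apply]
      exact (hi.sub hi').const_mul _
    rw [e1]
    refine (Energy_abs hB hi'' (c := (16 * C0 + C3 + Kr.C1) * ε⁻¹ ^ 3 * ‖v‖ * ‖w‖) ?_
      fun z h => by simp [hz z h, am, amJ_apply]).trans_eq (by ring)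
    filter_upwards [hν] with z hz1
    refine (abs_apply_le _ _ _).trans ?_
    have h5 := H3 ε hε z.1 q z.2 hz1
    have h6 : 0 ≤ (16 * C0 + Kr.C1) * ε⁻¹ ^ 3 := by positivity
    gcongr
    linarith
  · rw [R_ofMeasure_ktr]
    refine Energy_lower hB (Energy_integrable Kr ε hν q v (J0 v)) ?_ fun z h => by simp [hz z h]
    filter_upwards [hν] with z hz1
    have h5 := Kr.pos ε hε z.1 q z.2 v hz1 hv
    have h6 : 0 ≤ (16 * C0 + C3) * ε⁻¹ ^ 2 := by positivity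
    linarith

theorem Energy_S2 (N : G.Cur) (Kr : G.Ker) (ε : ℝ) : G.S2 (N.R (ktr (Kr.k ε))) :=
  N.R_smooth (Kr.smooth ε).ktr

theorem Energy_alt (N : G.Cur) (Kr : G.Ker) (ε : ℝ) (q : M) : Alt (N.R (ktr (Kr.k ε)) q) :=
  N.R_alt (Kr.smooth ε).ktr (Kr.ktr_alt1 ε) q

theorem Energy_int_sq {η : M → Bil} (h : G.S2 η) : Integrable (fun p => ‖η p‖ ^ 2) G.V :=
  (h.memLp 2).norm.integrable_sq

theorem Energy_ip_add (β γ : Bil) : ip (β + γ) = ip β + ip γ := by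
  rw [ip, ip, ip, am_add]
  abel

/-- the invariant part of the regularised anti-invariant current is small -/
theorem n2_ip_R (Kr : G.Ker) : ∃ C : ℝ, 0 ≤ C ∧ ∀ (ψ : G.Cur), ∀ ε ∈ Ioc 0 Kr.ε0, ∀ a, 0 ≤ a →
    ψ.Bd Kr.ε0 ε a → √(G.n2 fun q => ip (ψ.amC.R (ktr (Kr.k ε)) q)) ≤ C * ε * a := by
  obtain ⟨C, hC, H⟩ := Kr.dom_Q_inv
  refine ⟨24 * C, by positivity, fun ψ ε hε a ha hB => ?_⟩
  have hε0 : 0 < ε := hε.1
  have hP := Energy_S2 ψ.amC Kr ε
  have hPa := Energy_alt ψ.amC Kr ε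
  set P := ψ.amC.R (ktr (Kr.k ε)) with hPdef
  have hIa : ∀ q, Alt (ip (P q)) := fun q => (hPa q).sub ((hPa q).amJ J0)
  have hφ : G.S2 fun q => star (ip (P q)) := hP.ip.star hIa
  have hφa : ∀ q, Alt (star (ip (P q))) := fun q => alt_star _
  have hφ0 : ∀ q, am (star (ip (P q))) = 0 := fun q => by
    rw [am_star (hIa q), am_ip]
    exact starL.map_zero
  have h1 : ∀ q, ‖ip (P q)‖ ^ 2 ≤ 2 * wp (P q) (star (ip (P q))) := by
    intro q
    have e1 : wp (am (P q)) (star (ip (P q))) = 0 := by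
      have := wp_ip_am (hφa q) (hPa q)
      rwa [ip, hφ0, sub_zero, wp_comm] at this
    have e2 := norm_sq_le_wp_star (hIa q)
    have e3 : wp (ip (P q)) (star (ip (P q))) = wp (P q) (star (ip (P q))) := by
      rw [show wp (ip (P q)) (star (ip (P q))) = wp (P q - am (P q)) (star (ip (P q))) from rfl,
        wp_sub_left, e1, sub_zero]
    rwa [e3] at e2
  have h2 : G.n2 (fun q => ip (P q)) ≤ 2 * ψ.N (Kr.Q ε fun q => star (ip (P q))) := by
    have e1 : ψ.N (Kr.Q ε fun q => star (ip (P q))) =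
        ∫ q, wp (P q) (star (ip (P q))) ∂G.V := ψ.amC.N_Kop Kr ε hφ hφa
    rw [e1, ← integral_const_mul]
    exact integral_mono (Energy_int_sq hP.ip)
      ((abs_integral_wp_le (hP.memLp 2) (hφ.memLp 2)).1.const_mul 2) h1
  have h3 := hB ε ⟨le_rfl, hε.2⟩ _ _ (Kr.Q_am ε hφ) (by positivity) (H ε hε _ hφ hφa hφ0)
  have h4 : √(G.n2 fun q => star (ip (P q))) ≤ 12 * √(G.n2 fun q => ip (P q)) := by
    have e1 : (G.n2 fun q => star (ip (P q))) ≤ 12 ^ 2 * G.n2 fun q => ip (P q) := by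
      rw [n2, n2, ← integral_const_mul]
      refine integral_mono (Energy_int_sq hφ) ((Energy_int_sq hP.ip).const_mul _) fun q => ?_
      simp only [← mul_pow]
      exact pow_le_pow_left₀ (norm_nonneg _) (norm_star_le _) 2
    refine (Real.sqrt_le_sqrt e1).trans_eq ?_
    rw [Real.sqrt_mul (by norm_num), Real.sqrt_sq (by norm_num)]
  have h5 := Real.mul_self_sqrt (n2_nonneg (G := G) fun q => ip (P q))
  set X := √(G.n2 fun q => ip (P q)) with hX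
  have hX0 : 0 ≤ X := Real.sqrt_nonneg _
  have h6 : a * (C * ε * √(G.n2 fun q => star (ip (P q)))) ≤ a * (C * ε * (12 * X)) := by gcongr
  have h7 : X * X ≤ 24 * C * ε * a * X := by
    have := (le_abs_self _).trans h3
    linarith
  rcases hX0.eq_or_lt with h | h
  · rw [← h]; positivity
  · exact le_of_mul_le_mul_right h7 h

/-- (D3) -/
theorem energy_estimate (Kr : G.Ker) (hν : ∀ᵐ z ∂ν, ‖z.2‖ = 1) (ψ : G.Cur)
    (hN : ∀ η, G.Z η → Tm ν η + ψ.N (fun p => am (η p)) = 0) :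
    ∃ C : ℝ, 0 ≤ C ∧ ∀ ε ∈ Ioc 0 Kr.ε0, ∀ a m, 0 ≤ a → 0 ≤ m → ψ.Bd Kr.ε0 ε a →
      Mass ν.fst ε m →
        G.n2 (fun q => am (ψ.amC.R (ktr (Kr.k ε)) q)) ≤ C * (ε ^ 2 * a ^ 2 + √m * a + m) := by
  obtain ⟨C, hC, H⟩ := R_ofMeasure_bounds Kr
  obtain ⟨C', hC', H'⟩ := n2_ip_R Kr
  obtain ⟨CV, hCV, HV⟩ := G.V_ball_le
  have hC0 : 0 < Kr.C0 := lt_of_lt_of_le one_pos Kr.C0_ge
  set K : ℝ := Kr.C0 ^ 6 * CV * ν.fst.real univ with hK
  have hK0 : 0 ≤ K := by have : 0 ≤ ν.fst.real univ := measureReal_nonneg; positivity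
  refine ⟨6 * C' ^ 2 + 12 * (C * C' * √K) + 8 * (C ^ 2 * K), by positivity,
    fun ε hε a m ha hm hB hM => ?_⟩
  have hε0 : 0 < ε := hε.1
  have hε1 : ε ≤ 1 := hε.2.trans Kr.ε0_le
  have hP := Energy_S2 ψ.amC Kr ε
  have hPa := Energy_alt ψ.amC Kr ε
  have ht := Energy_S2 (Cur.ofMeasure G ν hν) Kr ε
  have hta := Energy_alt (Cur.ofMeasure G ν hν) Kr ε
  have hE := Cur.energy ((Cur.ofMeasure G ν hν).plus ψ.amC) hN Kr hε
  have hb := H ν hν ε hε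
  have hP' := H' ψ ε hε a ha hB
  rw [R_plus] at hE
  set P := ψ.amC.R (ktr (Kr.k ε)) with hPdef
  set t := (Cur.ofMeasure G ν hν).R (ktr (Kr.k ε)) with htdef
  set μ : M → ℝ := fun q => ν.fst.real (closedBall q (Kr.C0 * ε)) with hμ
  have hμ0 : ∀ q, 0 ≤ μ q := fun q => measureReal_nonneg
  have hμ1 : ∀ q, μ q ≤ m * (Kr.C0 * ε) ^ 2 := fun q =>
    hM q _ (by positivity) (le_mul_of_one_le_left hε0.le Kr.C0_ge)
  obtain ⟨hμi, hμI⟩ := integral_measure_ball_le G.V ν.fst (r := Kr.C0 * ε)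
    fun x => HV x _ (by positivity)
  have key : ∀ (f : M → ℝ) (c : ℝ), Integrable f G.V → 0 ≤ c → (∀ q, f q ≤ c * μ q ^ 2) →
      ∫ q, f q ∂G.V ≤ c * (K * m * ε ^ 6) := by
    intro f c hf hc h
    have e1 : ∫ q, f q ∂G.V ≤ ∫ q, c * (m * (Kr.C0 * ε) ^ 2) * μ q ∂G.V := by
      refine integral_mono hf (hμi.const_mul _) fun q => (h q).trans ?_
      rw [pow_two, mul_assoc]
      exact mul_le_mul_of_nonneg_left (mul_le_mul_of_nonneg_right (hμ1 q) (hμ0 q)) hc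
    rw [integral_const_mul] at e1
    refine e1.trans ((mul_le_mul_of_nonneg_left hμI (by positivity)).trans_eq ?_)
    rw [hK]
    ring
  have hεi : ε⁻¹ * ε = 1 := inv_mul_cancel₀ hε0.ne'
  have i1 := abs_integral_wp_le (ht.ip.memLp 2) (ht.ip.memLp 2)
  have i2 := abs_integral_wp_le (ht.ip.memLp 2) (hP.ip.memLp 2)
  have i3 := abs_integral_wp_le (hP.ip.memLp 2) (hP.ip.memLp 2)
  have i4 := Energy_int_sq (ht.add hP).am
  have hE' : ∫ q, wp (ip (t q)) (ip (t q)) ∂G.V + 2 * ∫ q, wp (ip (t q)) (ip (P q)) ∂G.V +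
      ∫ q, wp (ip (P q)) (ip (P q)) ∂G.V + 2 * G.n2 (fun q => am ((t + P) q)) = 0 := by
    have j1 : Integrable (fun q => wp (ip (t q)) (ip (t q)) +
        2 * wp (ip (t q)) (ip (P q))) G.V := i1.1.add (i2.1.const_mul 2)
    have j2 : Integrable (fun q => wp (ip (t q)) (ip (t q)) +
        2 * wp (ip (t q)) (ip (P q)) + wp (ip (P q)) (ip (P q))) G.V := j1.add i3.1
    rw [← hE, n2, ← integral_const_mul, ← integral_const_mul,
      ← integral_add i1.1 (i2.1.const_mul 2), ← integral_add j1 i3.1,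
      ← integral_add j2 (i4.const_mul 2)]
    refine integral_congr_ae (Eventually.of_forall fun q => ?_)
    simp only [Pi.add_apply]
    rw [wp_split ((hta q).add (hPa q)), Energy_ip_add, wp_add_left, wp_add_right, wp_add_right,
      wp_comm (ip (P q)) (ip (t q))]
    ring
  have b1 : -∫ q, wp (ip (t q)) (ip (t q)) ∂G.V ≤ 6 * (C ^ 2 * K) * m := by
    rw [← integral_neg]
    refine (key _ (6 * C ^ 2 * ε⁻¹ ^ 6) i1.1.neg (by positivity) fun q => ?_).trans_eq ?_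
    · have e1 := wp_ip_ge (hta q) (δ := C * ε⁻¹ ^ 2 * μ q) (by have := hμ0 q; positivity)
        (hb q).2.2
      have e2 : 4 * (C * ε⁻¹ ^ 2 * μ q) * ‖t q‖ ≤
          4 * (C * ε⁻¹ ^ 2 * μ q) * (C * ε⁻¹ ^ 4 * μ q) :=
        mul_le_mul_of_nonneg_left (hb q).1 (by have := hμ0 q; positivity)
      have e3 : ε⁻¹ ^ 4 ≤ ε⁻¹ ^ 6 := pow_le_pow_right₀ ((one_le_inv₀ hε0).2 hε1) (by norm_num)
      have e4 : 2 * C ^ 2 * μ q ^ 2 * ε⁻¹ ^ 4 ≤ 2 * C ^ 2 * μ q ^ 2 * ε⁻¹ ^ 6 :=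
        mul_le_mul_of_nonneg_left e3 (by positivity)
      simp only [Pi.neg_apply]
      linarith
    · linear_combination (6 * C ^ 2 * K * m *
        ((ε⁻¹ * ε) ^ 5 + (ε⁻¹ * ε) ^ 4 + (ε⁻¹ * ε) ^ 3 + (ε⁻¹ * ε) ^ 2 + ε⁻¹ * ε + 1)) * hεi
  have b2 : √(G.n2 fun q => ip (t q)) ≤ C * √K * √m * ε⁻¹ := by
    rw [Real.sqrt_le_iff]
    refine ⟨by positivity, (key _ (C ^ 2 * ε⁻¹ ^ 8) (Energy_int_sq ht.ip) (by positivity)
      fun q => ?_).trans_eq ?_⟩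
    · have e1 := pow_le_pow_left₀ (norm_nonneg _) ((norm_ip_le (t q)).trans (hb q).1) 2
      exact e1.trans_eq (by ring)
    · rw [mul_pow, mul_pow, mul_pow, Real.sq_sqrt hK0, Real.sq_sqrt hm]
      linear_combination (C ^ 2 * K * m * ε⁻¹ ^ 2 *
        ((ε⁻¹ * ε) ^ 5 + (ε⁻¹ * ε) ^ 4 + (ε⁻¹ * ε) ^ 3 + (ε⁻¹ * ε) ^ 2 + ε⁻¹ * ε + 1)) * hεi
  have b3 : G.n2 (fun q => am (t q)) ≤ C ^ 2 * K * m := by
    refine (key _ (C ^ 2 * ε⁻¹ ^ 6) (Energy_int_sq ht.am) (by positivity)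
      fun q => ?_).trans_eq ?_
    · have e1 := pow_le_pow_left₀ (norm_nonneg _) (hb q).2.1 2
      exact e1.trans_eq (by ring)
    · linear_combination (C ^ 2 * K * m *
        ((ε⁻¹ * ε) ^ 5 + (ε⁻¹ * ε) ^ 4 + (ε⁻¹ * ε) ^ 3 + (ε⁻¹ * ε) ^ 2 + ε⁻¹ * ε + 1)) * hεi
  have b4 : |∫ q, wp (ip (t q)) (ip (P q)) ∂G.V| ≤ 6 * (C * C' * √K) * (√m * a) := by
    refine i2.2.trans ?_
    calc 6 * √(G.n2 fun q => ip (t q)) * √(G.n2 fun q => ip (P q))
        ≤ 6 * (C * √K * √m * ε⁻¹) * (C' * ε * a) := by gcongr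
      _ = 6 * (C * C' * √K) * (√m * a) := by
        linear_combination (6 * (C * C' * √K) * (√m * a)) * hεi
  have b5 : |∫ q, wp (ip (P q)) (ip (P q)) ∂G.V| ≤ 6 * C' ^ 2 * (ε ^ 2 * a ^ 2) := by
    refine i3.2.trans ?_
    calc 6 * √(G.n2 fun q => ip (P q)) * √(G.n2 fun q => ip (P q))
        ≤ 6 * (C' * ε * a) * (C' * ε * a) := by gcongr
      _ = 6 * C' ^ 2 * (ε ^ 2 * a ^ 2) := by ring
  have b6 : G.n2 (fun q => am (P q)) ≤
      2 * G.n2 (fun q => am ((t + P) q)) + 2 * G.n2 (fun q => am (t q)) := by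
    rw [n2, n2, n2, ← integral_const_mul, ← integral_const_mul,
      ← integral_add (i4.const_mul 2) ((Energy_int_sq ht.am).const_mul 2)]
    refine integral_mono (Energy_int_sq hP.am)
      ((i4.const_mul 2).add ((Energy_int_sq ht.am).const_mul 2)) fun q => ?_
    have e1 : ‖am (P q)‖ ≤ ‖am ((t + P) q)‖ + ‖am (t q)‖ := by
      have : am (P q) = am ((t + P) q) - am (t q) := by
        rw [Pi.add_apply, am_add, add_sub_cancel_left]
      rw [this]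
      exact norm_sub_le _ _
    have e2 := pow_le_pow_left₀ (norm_nonneg _) e1 2
    simp only
    linarith [sq_nonneg (‖am ((t + P) q)‖ - ‖am (t q)‖)]
  have c1 := (abs_le.1 b4).1
  have c2 := (abs_le.1 b5).1
  have p1 : 0 ≤ ε ^ 2 * a ^ 2 := by positivity
  have p2 : 0 ≤ √m * a := by positivity
  have p3 : 0 ≤ C' ^ 2 := by positivity
  have p4 : 0 ≤ C * C' * √K := by positivity
  have p5 : 0 ≤ C ^ 2 * K := by positivity
  linarith [mul_nonneg p3 p2, mul_nonneg p3 hm, mul_nonneg p4 p1, mul_nonneg p4 hm,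
    mul_nonneg p5 p1, mul_nonneg p5 p2]

theorem abs_N_Q_le (Kr : G.Ker) (ψ : G.Cur) (ε : ℝ) {u : M → Bil} (hu : G.Am u) :
    |ψ.N (Kr.Q ε u)| ≤ 6 * √(G.n2 fun q => am (ψ.amC.R (ktr (Kr.k ε)) q)) * √(G.n2 u) := by
  have e1 : ψ.N (Kr.Q ε u) = ∫ q, wp (ψ.amC.R (ktr (Kr.k ε)) q) (u q) ∂G.V :=
    ψ.amC.N_Kop Kr ε hu.smooth hu.alt
  rw [e1]
  refine le_of_eq_of_le ?_ (abs_integral_wp_le ((Energy_S2 ψ.amC Kr ε).am.memLp 2)
    (hu.smooth.memLp 2)).2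
  simp only [wp_am_left (Energy_alt ψ.amC Kr ε _) (hu.alt _) (hu.anti _)]

end Geo

end Crest.Agent.R240

end
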