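import Crest.Agent.R240.QOp

/-!
# Row 240: expansion of `N (R N₁) = 0`
-/

set_option autoImplicit false
set_option linter.unusedSectionVars false
set_option linter.unusedVariables false

open MeasureTheory Metric Set Filter Topology
open scoped ContDiff ENNReal

noncomputable section

namespace Crest.Agent.R240

namespace Geo

variable {M : Type*} [MetricSpace M] [CompactSpace M] [MeasurableSpace M] [BorelSpace M]
  {G : Geo M}

variable {ν ν₁ : Measure (M × E)} [IsFiniteMeasure ν] [IsFiniteMeasure ν₁]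

theorem Expand_int_fst {g : M → ℝ} (hg : Integrable g ν.fst) :
    Integrable (fun z : M × E => g z.1) ν ∧ ∫ z, g z.1 ∂ν = ∫ p, g p ∂ν.fst :=
  ⟨hg.comp_measurable measurable_fst, (integral_map measurable_fst.aemeasurable hg.1).symm⟩

theorem Expand_ind {s : Set M} (hs : MeasurableSet s) (c : ℝ) :
    Integrable (fun z : M × E => s.indicator (fun _ => c) z.1) ν ∧
      ∫ z, s.indicator (fun _ => c) z.1 ∂ν = ν.fst.real s * c := by
  have h := Expand_int_fst (ν := ν) ((integrable_const c).indicator hs)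
  exact ⟨h.1, h.2.trans (integral_indicator_const c hs)⟩

theorem Expand_cont : Continuous fun w : Quad × E => qv w.1 w.2 (J0 w.2) := by
  have h : ContDiff ℝ 0 fun w : Quad × E => qv w.1 w.2 (J0 w.2) :=
    contDiff_iff_contDiffAt.2 fun z => ContDiffAt.qv contDiffAt_fst contDiffAt_snd
      (J0.contDiff.contDiffAt.comp z contDiffAt_snd)
  exact h.continuous

theorem Expand_cont_qswap : Continuous qswap := by
  have h : ContDiff ℝ 0 fun k : Quad => qswap k :=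
    contDiff_iff_contDiffAt.2 fun z => ContDiffAt.qswap contDiffAt_id
  exact h.continuous

theorem Expand_norm_qv (k : Quad) {v : E} (hv : ‖v‖ = 1) : ‖qv k v (J0 v)‖ ≤ 16 * ‖k‖ := by
  have h := norm_qv_le k v (J0 v)
  rwa [norm_J0, hv, mul_one, mul_one] at h

theorem Expand_qv_zero (X Y : E) : qv 0 X Y = 0 := by
  simpa using qv_smul 0 0 X Y

theorem Expand_qswap_zero (X Y : E) : qv (qswap 0) X Y = 0 := by
  ext u v
  rw [qv_qswap, Expand_qv_zero]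
  rfl

/-- pairing with an anti-invariant form only sees the anti-invariant part -/
theorem Expand_wp_le {β φ : Bil} (hβ : Alt β) (hφ : Alt φ) (ha : Anti J0 φ) {c : ℝ}
    (hc : ‖am β‖ ≤ c) : ‖wp β φ‖ ≤ 6 * c * ‖φ‖ := by
  rw [← wp_am_left hβ hφ ha]
  exact (abs_wp_le _ _).trans (by gcongr)

theorem Expand_cross (Kr : G.Ker) {μ : Measure M} [IsFiniteMeasure μ] {m : ℝ} (hm : Mass μ 0 m)
    {Φ : M → Bil} (hΦ : G.L2Am Φ) {C : ℝ} {f : ℝ → ℝ}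
    (h : ∀ ε ∈ Ioc 0 Kr.ε0, Integrable (fun y => ‖Φ y‖ * μ.real (closedBall y (Kr.C0 * ε))) G.V →
      ‖f ε‖ ≤ C * (ε⁻¹ ^ 3 * ∫ y, ‖Φ y‖ * μ.real (closedBall y (Kr.C0 * ε)) ∂G.V)) :
    Tendsto f (𝓝[>] 0) (𝓝 0) := by
  obtain ⟨CV, -, hV⟩ := G.V_ball_le
  obtain ⟨h1, h2⟩ := tendsto_cross G.V μ (one_pos.trans_le Kr.C0_ge) hV hm hΦ.meas.norm
    hΦ.mem.norm
  simp only [abs_norm] at h1 h2
  refine squeeze_zero_norm' ?_ (by simpa only [mul_zero] using h2.const_mul C)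
  filter_upwards [Ioc_mem_nhdsGT Kr.ε0_pos] with ε hε
  exact h ε hε (h1 ε hε.1)

theorem Ker.integrable_TT (Kr : G.Ker) (ε : ℝ) (hν : ∀ᵐ z ∂ν, ‖z.2‖ = 1)
    (hν₁ : ∀ᵐ z ∂ν₁, ‖z.2‖ = 1) :
    Integrable (fun z : (M × E) × (M × E) =>
      qv (Kr.k ε z.1.1 z.2.1) z.1.2 (J0 z.1.2) z.2.2 (J0 z.2.2)) (ν.prod ν₁) := by
  obtain ⟨C, -, hC⟩ := (Kr.smooth ε).bdd
  have hc : Continuous fun w : (Quad × E) × E => qv w.1.1 w.1.2 (J0 w.1.2) w.2 (J0 w.2) :=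
    ((Expand_cont.comp continuous_fst).clm_apply continuous_snd).clm_apply
      (J0.continuous.comp continuous_snd)
  have hm : Measurable fun z : (M × E) × (M × E) => ((Kr.k ε z.1.1 z.2.1, z.1.2), z.2.2) :=
    (((Kr.measurable ε).comp (measurable_fst.fst.prodMk measurable_snd.fst)).prodMk
      measurable_fst.snd).prodMk measurable_snd.snd
  refine Integrable.of_bound (hc.measurable.comp hm).aestronglyMeasurable (16 * C) ?_
  filter_upwards [Measure.quasiMeasurePreserving_fst.ae hν,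
    Measure.quasiMeasurePreserving_snd.ae hν₁] with z h1 h2
  have h := abs_apply_le (qv (Kr.k ε z.1.1 z.2.1) z.1.2 (J0 z.1.2)) z.2.2 (J0 z.2.2)
  rw [norm_J0, h2, mul_one, mul_one] at h
  exact h.trans ((Expand_norm_qv _ h1).trans (by linarith [hC z.1.1 z.2.1]))

theorem R_ofMeasure (Kr : G.Ker) (ε : ℝ) (hν₁ : ∀ᵐ z ∂ν₁, ‖z.2‖ = 1) (p : M) (X Y : E) :
    (Cur.ofMeasure G ν₁ hν₁).R (Kr.k ε) p X Y
      = ∫ z, qv (Kr.k ε p z.1) X Y z.2 (J0 z.2) ∂ν₁ := by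
  exact Cur.R_apply _ (Kr.smooth ε) p X Y

theorem tendsto_Tm_Kop (Kr : G.Ker) (hν : ∀ᵐ z ∂ν, ‖z.2‖ = 1) {m : ℝ} (hm : Mass ν.fst 0 m)
    {Φ : M → Bil} (hΦ : G.L2Am Φ) :
    Tendsto (fun ε => Tm ν (G.Kop (Kr.k ε) Φ)) (𝓝[>] 0) (𝓝 0) := by
  obtain ⟨C, hC0, hC⟩ := Kr.bd_am_snd
  have hI : Integrable Φ G.V := hΦ.mem.integrable one_le_two
  refine Expand_cross Kr hm hΦ (C := 6 * C) fun ε hε _ => ?_
  obtain ⟨h1, -, h3⟩ := integral_ball_swap G.V ν.fst hΦ.meas.norm hI.norm (Kr.C0 * ε)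
  obtain ⟨h4, h5⟩ := Expand_int_fst h1
  rw [← h3, ← h5, ← mul_assoc, mul_assoc 6, ← integral_const_mul]
  refine norm_integral_le_of_norm_le (h4.const_mul _) ?_
  filter_upwards [hν] with z hz
  rw [Kop_apply (Kr.smooth ε) hI, ← integral_const_mul,
    ← integral_indicator measurableSet_closedBall]
  refine norm_integral_le_of_norm_le ((hI.norm.const_mul _).indicator measurableSet_closedBall)
    (.of_forall fun q => ?_)
  by_cases hq : q ∈ closedBall z.1 (Kr.C0 * ε)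
  · rw [indicator_of_mem hq]
    exact Expand_wp_le (Kr.alt_qv ε _ _ _ _) (hΦ.alt q) (hΦ.anti q) (hC ε hε _ _ _ hz)
  · rw [indicator_of_notMem hq, Kr.supp ε hε _ _ (not_le.1 (mt mem_closedBall'.2 hq)),
      Expand_qv_zero, wp_zero_left, norm_zero]

theorem Expand_wp_R (Kr : G.Ker) (ε : ℝ) (hν₁ : ∀ᵐ z ∂ν₁, ‖z.2‖ = 1) (p : M) (φ : Bil) :
    wp ((Cur.ofMeasure G ν₁ hν₁).R (Kr.k ε) p) φ
      = ∫ z, wp (qv (qswap (Kr.k ε p z.1)) z.2 (J0 z.2)) φ ∂ν₁ := by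
  obtain ⟨C, -, hC⟩ := (Kr.smooth ε).bdd
  have hm : Measurable fun z : M × E => (qswap (Kr.k ε p z.1), z.2) :=
    (Expand_cont_qswap.measurable.comp ((Kr.measurable ε).comp
      (measurable_const.prodMk measurable_fst))).prodMk measurable_snd
  have hI : Integrable (fun z : M × E => qv (qswap (Kr.k ε p z.1)) z.2 (J0 z.2)) ν₁ := by
    refine Integrable.of_bound (Expand_cont.measurable.comp hm).aestronglyMeasurable
      (16 * (16 * C)) ?_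
    filter_upwards [hν₁] with z hz
    exact (Expand_norm_qv _ hz).trans (by linarith [norm_qswap_le (Kr.k ε p z.1), hC p z.1])
  have h : (Cur.ofMeasure G ν₁ hν₁).R (Kr.k ε) p
      = ∫ z, qv (qswap (Kr.k ε p z.1)) z.2 (J0 z.2) ∂ν₁ := by
    ext X Y
    rw [R_ofMeasure, ContinuousLinearMap.integral_apply hI,
      ContinuousLinearMap.integral_apply (hI.apply_continuousLinearMap X)]
    simp only [qv_qswap]
  rw [h, wp_comm, ← wpL_apply, ← (wpL φ).integral_comp_comm hI]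
  simp only [wpL_apply, wp_comm φ]

theorem tendsto_wp_R (Kr : G.Ker) (hν₁ : ∀ᵐ z ∂ν₁, ‖z.2‖ = 1) {m : ℝ} (hm : Mass ν₁.fst 0 m)
    {Φ : M → Bil} (hΦ : G.L2Am Φ) :
    Tendsto (fun ε => ∫ p, wp ((Cur.ofMeasure G ν₁ hν₁).R (Kr.k ε) p) (Φ p) ∂G.V) (𝓝[>] 0)
      (𝓝 0) := by
  obtain ⟨C, hC0, hC⟩ := Kr.bd_am_fst
  refine Expand_cross Kr hm hΦ (C := 6 * C) fun ε hε hI => ?_
  rw [← mul_assoc, mul_assoc 6, ← integral_const_mul]
  refine norm_integral_le_of_norm_le (hI.const_mul _) (.of_forall fun p => ?_)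
  obtain ⟨h1, h2⟩ := Expand_ind (ν := ν₁) (s := closedBall p (Kr.C0 * ε)) measurableSet_closedBall
    (6 * (C * ε⁻¹ ^ 3) * ‖Φ p‖)
  rw [Expand_wp_R, ← mul_assoc, mul_comm, ← h2]
  refine norm_integral_le_of_norm_le h1 ?_
  filter_upwards [hν₁] with z hz
  by_cases hq : z.1 ∈ closedBall p (Kr.C0 * ε)
  · rw [indicator_of_mem hq]
    refine Expand_wp_le (fun X Y => ?_) (hΦ.alt p) (hΦ.anti p) (hC ε hε _ _ _ hz)
    rw [qv_qswap, qv_qswap, Kr.qv_swap]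
    rfl
  · rw [indicator_of_notMem hq, Kr.supp ε hε _ _ (not_le.1 (mt mem_closedBall'.2 hq)),
      Expand_qswap_zero, wp_zero_left, norm_zero]

/-- (F1) -/
theorem tendsto_TT (Kr : G.Ker) (hν : ∀ᵐ z ∂ν, ‖z.2‖ = 1) (hν₁ : ∀ᵐ z ∂ν₁, ‖z.2‖ = 1) {m : ℝ}
    (hm : Mass ν.fst 0 m) (hm₁ : Mass ν₁.fst 0 m) {Φ : M → Bil} (hΦ : G.L2Am Φ)
    (hN : ∀ η, G.Z η → Tm ν η + ∫ p, wp (η p) (Φ p) ∂G.V = 0)
    (hN₁ : ∀ γ, G.S1 γ → Tm ν₁ (G.D1 γ) + ∫ p, wp (G.D1 γ p) (Φ p) ∂G.V = 0) :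
    Tendsto (fun ε => Kr.TT ε ν ν₁) (𝓝[>] 0) (𝓝 (-(2 * G.n2 Φ))) := by
  have hI : Integrable Φ G.V := hΦ.mem.integrable one_le_two
  have h := (((tendsto_Tm_Kop Kr hν hm hΦ).add (tendsto_wp_R Kr hν₁ hm₁ hΦ)).add
    (Kr.tendsto_Kop hΦ)).neg
  rw [add_zero, zero_add] at h
  refine h.congr' ?_
  filter_upwards [Ioc_mem_nhdsGT Kr.ε0_pos] with ε hε
  have h1 := hN _ (Cur.R_Z Kr hε
    (N := (Cur.ofMeasure G ν₁ hν₁).plus (Cur.ofForm G Φ hI)) hN₁)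
  have s1 := (Cur.ofMeasure G ν₁ hν₁).R_smooth (Kr.smooth ε)
  have s2 := Kop_smooth (Kr.smooth ε) hI
  have h2 : Tm ν (_ + _) = Tm ν _ + Tm ν _ := (Cur.ofMeasure G ν hν).add _ _ s1 s2
  have h3 : ∫ p, wp ((_ + _ : M → Bil) p) (Φ p) ∂G.V = ∫ p, wp _ (Φ p) ∂G.V +
      ∫ p, wp _ (Φ p) ∂G.V := (Cur.ofForm G Φ hI).add _ _ s1 s2
  have h4 : Tm ν ((Cur.ofMeasure G ν₁ hν₁).R (Kr.k ε)) = Kr.TT ε ν ν₁ :=
    integral_congr_ae (.of_forall fun z => R_ofMeasure Kr ε hν₁ _ _ _)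
  rw [R_plus, R_ofForm (Kr.smooth ε) hI, h2, h3, h4] at h1
  linarith

/-- almost positivity -/
theorem TT_ge (Kr : G.Ker) (hν : ∀ᵐ z ∂ν, ‖z.2‖ = 1) (hν₁ : ∀ᵐ z ∂ν₁, ‖z.2‖ = 1) {ε : ℝ}
    (hε : ε ∈ Ioc 0 Kr.ε0) :
    -(Kr.C1 * (ε⁻¹ ^ 2 * ∫ q, ν.fst.real (closedBall q (Kr.C0 * ε)) ∂ν₁.fst)) ≤ Kr.TT ε ν ν₁ := by
  have hI := Kr.integrable_TT ε hν hν₁
  have h0 : Integrable (fun q => ν.fst.real (closedBall q (Kr.C0 * ε))) ν₁.fst :=
    Integrable.of_bound (measurable_measure_closedBall _ _).aestronglyMeasurable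
      (ν.fst.real univ) (.of_forall fun q => (Real.norm_of_nonneg measureReal_nonneg).trans_le
        (measureReal_mono (subset_univ _)))
  obtain ⟨h1, h2⟩ := Expand_int_fst h0
  refine le_trans ?_ (integral_integral_swap hI).ge
  rw [← h2, ← mul_assoc, ← neg_mul, ← integral_const_mul]
  refine integral_mono_ae (h1.const_mul _) hI.integral_prod_right ?_
  filter_upwards [hν₁, hI.prod_left_ae] with z' hz' hI'
  obtain ⟨h3, h4⟩ := Expand_ind (ν := ν) (s := closedBall z'.1 (Kr.C0 * ε))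
    measurableSet_closedBall (-(Kr.C1 * ε⁻¹ ^ 2))
  rw [mul_comm, ← h4]
  refine integral_mono_ae h3 hI' ?_
  filter_upwards [hν] with z hz
  by_cases hq : z.1 ∈ closedBall z'.1 (Kr.C0 * ε)
  · rw [indicator_of_mem hq]
    exact Kr.pos ε hε _ _ _ _ hz hz'
  · rw [indicator_of_notMem hq, Kr.supp ε hε _ _ (not_le.1 hq), Expand_qv_zero]
    exact le_rfl

end Geo

end Crest.Agent.R240

end
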