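import Crest.Agent.R240.CurC

/-!
# Row 240: Hahn–Banach duality
-/

set_option autoImplicit false
set_option linter.unusedSectionVars false
set_option linter.unusedVariables false

open MeasureTheory Metric Set Filter Topology
open scoped ContDiff ENNReal

noncomputable section

namespace Crest.Agent.R240

open scoped CompactlySupported in
/-- abstract form of the duality -/
theorem HB_abstract {X B : Type*} [TopologicalSpace X] [CompactSpace X] [T2Space X]
    [MeasurableSpace X] [BorelSpace X] [NormedAddCommGroup B] [NormedSpace ℝ B]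
    (W : Submodule ℝ (C(X, ℝ) × B)) {δ : ℝ} (hδ : 0 < δ) :
    (∃ w ∈ W, (∀ x, 1 < w.1 x) ∧ ‖w.2‖ < δ) ∨
    ∃ (μ : Measure X) (ℓ : B →L[ℝ] ℝ), IsFiniteMeasure μ ∧ μ ≠ 0 ∧
      ∀ w ∈ W, ∫ x, w.1 x ∂μ + ℓ w.2 = 0 := by
  refine or_iff_not_imp_left.2 fun hn => ?_
  let O : Set (C(X, ℝ) × B) := {φ : C(X, ℝ) | MapsTo φ univ (Ioi 1)} ×ˢ ball 0 δ
  have hO : IsOpen O :=
    (ContinuousMap.isOpen_setOfPred_mapsTo isCompact_univ isOpen_Ioi).prod isOpen_ball
  have hc : Convex ℝ O := by
    refine Convex.prod ?_ (convex_ball _ _)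
    intro φ hφ ψ hψ a b ha hb hab x _
    exact convex_Ioi (𝕜 := ℝ) (1 : ℝ) (hφ (mem_univ x)) (hψ (mem_univ x)) ha hb hab
  have hd : Disjoint O (W : Set (C(X, ℝ) × B)) := by
    refine Set.disjoint_left.2 fun w hw hW => hn ⟨w, hW, fun x => hw.1 (mem_univ x), ?_⟩
    exact mem_ball_zero_iff.1 hw.2
  obtain ⟨f, u, h1, h2⟩ := geometric_hahn_banach_open hc hO W.convex hd
  have hu : u ≤ 0 := by simpa using h2 0 W.zero_mem
  have hW : ∀ w ∈ W, f w = 0 := fun w hw => by
    by_contra h0
    have := h2 (((u - 1) / f w) • w) (W.smul_mem _ hw)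
    rw [map_smul, smul_eq_mul, div_mul_cancel₀ _ h0] at this
    linarith
  have hpos : ∀ φ : C(X, ℝ), (∀ x, 1 < φ x) → f (φ, 0) < 0 := fun φ hφ =>
    (h1 (φ, 0) ⟨fun x _ => hφ x, mem_ball_self hδ⟩).trans_le hu
  have h2' : f (ContinuousMap.const X 2, 0) < 0 := hpos _ fun x => by simp
  have hnn : ∀ φ : C(X, ℝ), (∀ x, 0 ≤ φ x) → f (φ, 0) ≤ 0 := fun φ hφ => by
    by_contra h0
    have h0 := not_le.1 h0
    have ht : 0 ≤ -f (ContinuousMap.const X 2, 0) / f (φ, 0) := div_nonneg (by linarith) h0.le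
    have := hpos (ContinuousMap.const X 2 + (-f (ContinuousMap.const X 2, 0) / f (φ, 0)) • φ) fun x => by
      have := mul_nonneg ht (hφ x)
      simp only [ContinuousMap.add_apply, ContinuousMap.const_apply, ContinuousMap.smul_apply,
        smul_eq_mul]
      linarith
    have e : ((ContinuousMap.const X 2 + (-f (ContinuousMap.const X 2, 0) / f (φ, 0)) • φ, 0) :
        C(X, ℝ) × B) = (ContinuousMap.const X 2, 0)
          + (-f (ContinuousMap.const X 2, 0) / f (φ, 0)) • (φ, 0) := by simp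
    rw [e, map_add, map_smul, smul_eq_mul, div_mul_cancel₀ _ h0.ne'] at this
    linarith
  let Λ : C_c(X, ℝ) →ₚ[ℝ] ℝ :=
    { toFun g := -f (g.toContinuousMap, 0)
      map_add' g g' := by
        rw [← neg_add, ← map_add, Prod.mk_add_mk, add_zero]
        rfl
      map_smul' c g := by
        rw [RingHom.id_apply, smul_neg, ← map_smul, Prod.smul_mk, smul_zero]
        rfl
      monotone' g g' hgg' := by
        have := hnn (g'.toContinuousMap - g.toContinuousMap) fun x => sub_nonneg.2 (hgg' x)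
        have e : ((g'.toContinuousMap - g.toContinuousMap, 0) : C(X, ℝ) × B)
            = (g'.toContinuousMap, 0) - (g.toContinuousMap, 0) := by simp
        rw [e, map_sub] at this
        show -f (g.toContinuousMap, 0) ≤ -f (g'.toContinuousMap, 0)
        linarith }
  have hint : ∀ φ : C(X, ℝ), ∫ x, φ x ∂(RealRMK.rieszMeasure Λ) = -f (φ, 0) := fun φ =>
    RealRMK.integral_rieszMeasure Λ ⟨φ, HasCompactSupport.of_compactSpace _⟩
  refine ⟨RealRMK.rieszMeasure Λ, -f.comp (ContinuousLinearMap.inr ℝ _ _), inferInstance, fun h0 => ?_,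
    fun w hw => ?_⟩
  · have := hint (ContinuousMap.const X 2)
    rw [h0, integral_zero_measure] at this
    linarith
  · have := hW w hw
    have e : w = (w.1, 0) + (0, w.2) := by simp
    rw [e, map_add] at this
    rw [hint]
    simp only [neg_apply, ContinuousLinearMap.comp_apply,
      ContinuousLinearMap.inr_apply]
    linarith

namespace Geo

variable {M : Type*} [MetricSpace M] [CompactSpace M] [MeasurableSpace M] [BorelSpace M]
  {G : Geo M}

/-- the compact parameter space -/
abbrev HBX (G : Geo M) := Fin G.n × (closedBall (0 : E) 1 × sphere (0 : E) 1)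

/-- the point and unit vector attached to a parameter -/
def HBmap (G : Geo M) (y : G.HBX) : M × E :=
  ((G.κ y.1).symm y.2.1, G.T y.1 ((G.κ y.1).symm y.2.1) ((G.fr y.1).A' y.2.1 y.2.2))

theorem HB_mem (x : closedBall (0 : E) 1) : (x : E) ∈ ball (0 : E) 3 :=
  closedBall_subset_ball (by norm_num) x.2

theorem HBmap_eq (y : G.HBX) : (G.HBmap y).2 = G.U y.1 (G.HBmap y).1 y.2.2 := by
  simp only [HBmap, U, ContinuousLinearMap.comp_apply, map_symm (HB_mem y.2.1)]

theorem HBmap_uni (y : G.HBX) : Uni (G.U y.1 (G.HBmap y).1) := U_uni (symm_mem (HB_mem y.2.1))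

theorem HBmap_meas : Measurable G.HBmap := by
  refine measurable_from_prod_countable_right fun i => ?_
  have h1 : Continuous fun y : closedBall (0 : E) 1 × sphere (0 : E) 1 => (G.κ i).symm y.1 :=
    (G.κ i).continuousOn_symm.comp_continuous (by fun_prop) fun y => by
      rw [G.tgt]; exact HB_mem y.1
  have h2 : Continuous fun y : closedBall (0 : E) 1 × sphere (0 : E) 1 => (G.fr i).A' y.1 y.2 :=
    ((G.fr i).smooth'.continuous.comp (by fun_prop)).clm_apply (by fun_prop)
  have h3 : Continuous fun z : End × E => z.1 z.2 := continuous_fst.clm_apply continuous_snd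
  exact h1.measurable.prodMk
    (h3.measurable.comp (((G.T_meas i).comp h1.measurable).prodMk h2.measurable))

theorem HB_eval (η : M → Bil) (y : G.HBX) :
    η (G.HBmap y).1 (G.HBmap y).2 (J0 (G.HBmap y).2)
      = G.loc2 y.1 η y.2.1 ((G.fr y.1).A' y.2.1 y.2.2) ((G.fr y.1).A' y.2.1 (J0 y.2.2)) := by
  have := (HBmap_uni y).2 y.2.2
  rw [← HBmap_eq] at this
  rw [← this]
  simp only [HBmap, U, loc2, pb_apply, ContinuousLinearMap.comp_apply, map_symm (HB_mem y.2.1)]

theorem HB_cont {η : M → Bil} (h : G.S2 η) :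
    Continuous fun y : G.HBX => η (G.HBmap y).1 (G.HBmap y).2 (J0 (G.HBmap y).2) := by
  simp only [HB_eval]
  refine continuous_prod_of_discrete_left.2 fun i => ?_
  have h1 : Continuous fun y : closedBall (0 : E) 1 × sphere (0 : E) 1 => G.loc2 i η y.1 :=
    (h i).continuousOn.comp_continuous (by fun_prop) fun y => HB_mem y.1
  have h2 : Continuous fun y : closedBall (0 : E) 1 × sphere (0 : E) 1 => (G.fr i).A' y.1 :=
    (G.fr i).smooth'.continuous.comp (by fun_prop)
  exact (h1.clm_apply (h2.clm_apply (by fun_prop))).clm_apply (h2.clm_apply (by fun_prop))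

/-- (A) Hahn–Banach duality -/
theorem hahn_banach (G : Geo M) {δ : ℝ} (hδ : 0 < δ) :
    (∃ η, G.Z η ∧ (∀ p v, ‖v‖ = 1 → 1 < η p v (J0 v)) ∧ G.CB 1 (fun p => am (η p)) δ) ∨
    ∃ (ν : Measure (M × E)) (ψ : G.Cur), IsFiniteMeasure ν ∧ ν ≠ 0 ∧ (∀ᵐ z ∂ν, ‖z.2‖ = 1) ∧
      ∀ η, G.Z η → Tm ν η + ψ.N (fun p => am (η p)) = 0 := by
  obtain ⟨C, hC, hC'⟩ := G.CB_jet
  let W : Submodule ℝ (C(G.HBX, ℝ) × C(Fin G.n × closedBall (0 : E) 1, Bil × (Fin 4 → Bil))) :=
    { carrier := {w | ∃ η, G.Z η ∧ (∀ y, w.1 y = η (G.HBmap y).1 (G.HBmap y).2 (J0 (G.HBmap y).2)) ∧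
        w.2 = G.jet fun p => am (η p)}
      add_mem' := by
        rintro w w' ⟨η, h1, h2, h3⟩ ⟨ζ, h1', h2', h3'⟩
        refine ⟨η + ζ, h1.add h1', fun y => by simp [h2, h2'], ?_⟩
        rw [Prod.snd_add, h3, h3', ← jet_add h1.smooth.am h1'.smooth.am]
        congr 1
        funext p
        exact ((amL J0).map_add (η p) (ζ p)).symm
      zero_mem' := by
        refine ⟨0, Z.zero, fun y => by simp, ?_⟩
        have h0 : (fun p => am ((0 : M → Bil) p)) = (0 : ℝ) • (0 : M → Bil) := by
          funext p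
          rw [zero_smul]
          exact (amL J0).map_zero
        rw [h0, jet_smul S2.zero]
        ext1 y
        rw [ContinuousMap.smul_apply]
        exact (zero_smul ℝ (G.jet 0 y)).symm
      smul_mem' := by
        rintro c w ⟨η, h1, h2, h3⟩
        refine ⟨c • η, h1.smul c, fun y => by simp [h2], ?_⟩
        rw [Prod.smul_snd, h3, ← jet_smul h1.smooth.am]
        congr 1
        funext p
        exact ((amL J0).map_smul c (η p)).symm }
  have hC0 : 0 < C := by linarith
  rcases HB_abstract W (div_pos hδ hC0) with ⟨w, ⟨η, h1, h2, h3⟩, h4, h5⟩ | ⟨μ, ℓ, hμ, hμ0, h⟩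
  · refine Or.inl ⟨η, h1, fun p v hv => ?_, (hC' _ h1.smooth.am).mono le_rfl ?_⟩
    · have hp := G.ch_source p
      obtain ⟨v', rfl⟩ := (U_uni hp).surj v
      rw [(U_uni hp).1] at hv
      let y : G.HBX := (G.ch p, ⟨G.κ (G.ch p) p, mem_closedBall_zero_iff.2 (G.ch_lt p).le⟩,
        ⟨v', mem_sphere_zero_iff_norm.2 hv⟩)
      have e1 : (G.HBmap y).1 = p := symm_map hp
      have := h4 y
      rw [h2, HBmap_eq, e1] at this
      exact this
    · rw [← h3]
      rw [lt_div_iff₀ hC0] at h5
      linarith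
  · let ψ : G.Cur :=
      { N := fun g => ℓ (G.jet g)
        add := fun η ζ hη hζ => by rw [jet_add hη hζ, map_add]
        smul := fun c η hη => by rw [jet_smul hη, map_smul, smul_eq_mul]
        bound := ⟨‖ℓ‖, norm_nonneg _, fun η c hη hb => by
          rcases isEmpty_or_nonempty M with hM | ⟨⟨p⟩⟩
          · exfalso
            have : IsEmpty G.HBX := ⟨fun y => hM.false (G.HBmap y).1⟩
            exact hμ0 (Measure.eq_zero_of_isEmpty μ)
          · have hc : 0 ≤ c := (jn_nonneg 1 η p).trans (hb p)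
            exact (ℓ.le_opNorm _).trans
              (mul_le_mul_of_nonneg_left (norm_jet_le hη hc hb) (norm_nonneg _))⟩ }
    refine Or.inr ⟨μ.map G.HBmap, ψ, inferInstance, fun h0 => hμ0 ?_, ?_, fun η hη => ?_⟩
    · exact (Measure.map_eq_zero_iff HBmap_meas.aemeasurable).1 h0
    · refine (ae_map_iff HBmap_meas.aemeasurable ?_).2 (ae_of_all _ fun y => ?_)
      · exact measurableSet_eq_fun (by fun_prop) measurable_const
      · rw [HBmap_eq, (HBmap_uni y).1]
        exact mem_sphere_zero_iff_norm.1 y.2.2.2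
    · have h3 : Continuous fun z : Bil × E => z.1 z.2 (J0 z.2) :=
        (continuous_fst.clm_apply continuous_snd).clm_apply (J0.continuous.comp continuous_snd)
      have hm : Measurable fun z : M × E => η z.1 z.2 (J0 z.2) :=
        h3.measurable.comp ((hη.smooth.measurable.comp measurable_fst).prodMk measurable_snd)
      rw [Tm, integral_map HBmap_meas.aemeasurable hm.aestronglyMeasurable]
      exact h (⟨_, HB_cont hη.smooth⟩, G.jet fun p => am (η p)) ⟨η, hη, fun y => rfl, rfl⟩

end Geo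

end Crest.Agent.R240

end
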