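import Crest.Agent.R240.Defs

/-!
# Row 240: measure theoretic lemmas about ball averages
-/

set_option autoImplicit false
set_option linter.unusedSectionVars false
set_option linter.unusedVariables false

open MeasureTheory Metric Set Filter Topology
open scoped ContDiff ENNReal

noncomputable section

namespace Crest.Agent.R240

variable {X : Type*} [MetricSpace X] [SecondCountableTopology X] [MeasurableSpace X] [BorelSpace X]

theorem small_measurableSet (r : ℝ) : MeasurableSet {z : X × X | dist z.2 z.1 ≤ r} :=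
  measurableSet_le (measurable_snd.dist measurable_fst) measurable_const

theorem small_measurable (μ : Measure X) [SFinite μ] (r : ℝ) :
    Measurable fun x => μ.real (closedBall x r) :=
  (measurable_measure_prodMk_left (ν := μ) (small_measurableSet r)).ennreal_toReal

theorem measurable_measure_closedBall (μ : Measure X) [IsFiniteMeasure μ] (r : ℝ) :
    Measurable fun x => μ.real (closedBall x r) := small_measurable μ r

theorem small_left (V : Measure X) (f : X → ℝ) (r : ℝ) (x : X) :
    ∫ y, {z : X × X | dist z.2 z.1 ≤ r}.indicator (fun z => f z.2) (x, y) ∂V =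
      ∫ y in closedBall x r, f y ∂V := by
  rw [← integral_indicator measurableSet_closedBall]
  rfl

theorem small_right (μ : Measure X) (f : X → ℝ) (r : ℝ) (y : X) :
    ∫ x, {z : X × X | dist z.2 z.1 ≤ r}.indicator (fun z => f z.2) (x, y) ∂μ =
      f y * μ.real (closedBall y r) := by
  rw [mul_comm, ← smul_eq_mul, ← integral_indicator_const _ measurableSet_closedBall]
  refine integral_congr_ae (Eventually.of_forall fun x => ?_)
  simp only [indicator, mem_ofPred_eq, mem_closedBall, dist_comm]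

theorem measurable_setIntegral_closedBall (V : Measure X) [IsFiniteMeasure V] {f : X → ℝ}
    (hf : Measurable f) (r : ℝ) : Measurable fun x => ∫ y in closedBall x r, f y ∂V := by
  simp only [← small_left]
  exact ((hf.comp measurable_snd).indicator
    (small_measurableSet r)).stronglyMeasurable.integral_prod_right'.measurable

theorem small_swap (V μ : Measure X) [SFinite V] [SFinite μ] {f : X → ℝ} {r : ℝ}
    (hF : Integrable ({z : X × X | dist z.2 z.1 ≤ r}.indicator fun z => f z.2) (μ.prod V)) :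
    Integrable (fun x => ∫ y in closedBall x r, f y ∂V) μ ∧
    Integrable (fun y => f y * μ.real (closedBall y r)) V ∧
    ∫ x, (∫ y in closedBall x r, f y ∂V) ∂μ = ∫ y, f y * μ.real (closedBall y r) ∂V := by
  simp only [← small_left, ← small_right]
  exact ⟨hF.integral_prod_left, hF.integral_prod_right,
    (integral_prod _ hF).symm.trans (integral_prod_symm _ hF)⟩

/-- Fubini for the ball relation -/
theorem integral_ball_swap (V μ : Measure X) [SFinite V] [IsFiniteMeasure μ] {f : X → ℝ}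
    (hm : Measurable f) (hf : Integrable f V) (r : ℝ) :
    Integrable (fun x => ∫ y in closedBall x r, f y ∂V) μ ∧
    Integrable (fun y => f y * μ.real (closedBall y r)) V ∧
    ∫ x, (∫ y in closedBall x r, f y ∂V) ∂μ = ∫ y, f y * μ.real (closedBall y r) ∂V :=
  small_swap V μ ((hf.comp_snd μ).indicator (small_measurableSet r))

theorem integral_measure_ball_le (V μ : Measure X) [SFinite V] [IsFiniteMeasureOnCompacts V]
    [ProperSpace X] [IsFiniteMeasure μ] {r c : ℝ} (hV : ∀ x, V.real (closedBall x r) ≤ c) :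
    Integrable (fun y => μ.real (closedBall y r)) V ∧
      ∫ y, μ.real (closedBall y r) ∂V ≤ c * μ.real univ := by
  have h1 : Integrable (fun x => V.real (closedBall x r)) μ :=
    Integrable.of_bound (small_measurable V r).aestronglyMeasurable c
      (Eventually.of_forall fun x => by rw [Real.norm_of_nonneg measureReal_nonneg]; exact hV x)
  have hF : Integrable ({z : X × X | dist z.2 z.1 ≤ r}.indicator fun z => (fun _ => (1 : ℝ)) z.2)
      (μ.prod V) := by
    rw [integrable_prod_iff (measurable_const.indicator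
      (small_measurableSet r)).aestronglyMeasurable]
    refine ⟨Eventually.of_forall fun x => ?_, ?_⟩
    · exact (integrable_indicator_iff (s := closedBall x r) measurableSet_closedBall).2
        (integrableOn_const (isCompact_closedBall x r).measure_ne_top)
    · simp only [norm_indicator_eq_indicator_norm, norm_one]
      simp only [small_left V (fun _ => (1 : ℝ)), setIntegral_const, smul_eq_mul, mul_one]
      exact h1
  obtain ⟨-, h2, h3⟩ := small_swap V μ (f := fun _ => (1 : ℝ)) (r := r) hF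
  simp only [one_mul, setIntegral_const, smul_eq_mul, mul_one] at h2 h3
  refine ⟨h2, h3 ▸ (integral_mono h1 (integrable_const c) hV).trans ?_⟩
  rw [integral_const, smul_eq_mul, mul_comm]

theorem small_cs {Y : Type*} [MeasurableSpace Y] (ν : Measure Y) [IsFiniteMeasure ν] {f : Y → ℝ}
    (hf : MemLp f 2 ν) : (∫ y, f y ∂ν) ^ 2 ≤ ν.real univ * ∫ y, f y ^ 2 ∂ν := by
  have h1 : Integrable f ν := hf.integrable one_le_two
  have h2 : Integrable (fun y => f y ^ 2) ν := hf.integrable_sq
  have h3 := discrim_le_zero (a := ν.real univ) (b := 2 * ∫ y, f y ∂ν) (c := ∫ y, f y ^ 2 ∂ν)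
    fun t => by
      have h4 : 0 ≤ ∫ y, (t * t + 2 * t * f y + f y ^ 2) ∂ν :=
        integral_nonneg fun y => by
          have := sq_nonneg (t + f y)
          simp only [Pi.zero_apply]
          linarith
      have h5 : Integrable (fun y => t * t + 2 * t * f y) ν :=
        (integrable_const _).add (h1.const_mul _)
      rw [integral_add h5 h2,
        integral_add (integrable_const _) (h1.const_mul _), integral_const, integral_const_mul,
        smul_eq_mul] at h4
      linarith
  rw [discrim] at h3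
  linarith

/-- Schur test for ball averages -/
theorem schur_ball (V : Measure X) [IsFiniteMeasure V] {f : X → ℝ} (hm : Measurable f)
    (hf : MemLp f 2 V) {r c : ℝ} (hV : ∀ x, V.real (closedBall x r) ≤ c) :
    MemLp (fun x => ∫ y in closedBall x r, |f y| ∂V) 2 V ∧
      ∫ x, (∫ y in closedBall x r, |f y| ∂V) ^ 2 ∂V ≤ c ^ 2 * ∫ y, f y ^ 2 ∂V := by
  have h2 : Integrable (fun y => f y ^ 2) V := hf.integrable_sq
  obtain ⟨h3, h4, h5⟩ := integral_ball_swap V V (hm.pow_const 2) h2 r
  have h6 : ∀ x, (∫ y in closedBall x r, |f y| ∂V) ^ 2 ≤ c * ∫ y in closedBall x r, f y ^ 2 ∂V :=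
    fun x => by
      have h7 := small_cs (V.restrict (closedBall x r)) (hf.abs.restrict _)
      simp only [Pi.abs_apply, sq_abs, measureReal_restrict_apply_univ] at h7
      exact h7.trans (mul_le_mul_of_nonneg_right (hV x) (integral_nonneg fun y => sq_nonneg _))
  have hmeas := measurable_setIntegral_closedBall V hm.abs r
  have h8 : Integrable (fun x => (∫ y in closedBall x r, |f y| ∂V) ^ 2) V :=
    (h3.const_mul c).mono' (hmeas.pow_const 2).aestronglyMeasurable
      (Eventually.of_forall fun x => by rw [Real.norm_of_nonneg (sq_nonneg _)]; exact h6 x)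
  refine ⟨(memLp_two_iff_integrable_sq hmeas.aestronglyMeasurable).2 h8,
    (integral_mono h8 (h3.const_mul c) h6).trans ?_⟩
  rw [integral_const_mul, h5, ← integral_const_mul, ← integral_const_mul]
  refine integral_mono (h4.const_mul c) (h2.const_mul _) fun y => ?_
  have h9 : 0 ≤ c := measureReal_nonneg.trans (hV y)
  have := mul_le_mul_of_nonneg_left (hV y) (mul_nonneg h9 (sq_nonneg (f y)))
  simp only
  linarith

theorem small_trunc {Y : Type*} [MeasurableSpace Y] {V : Measure Y} {f : Y → ℝ} (hm : Measurable f)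
    (hf : MemLp f 2 V) {η : ℝ} (hη : 0 < η) : ∃ K : ℕ,
      Integrable (fun y => max (|f y| - K) 0 ^ 2) V ∧ ∫ y, max (|f y| - K) 0 ^ 2 ∂V < η := by
  have h1 : ∀ (K : ℕ) y, ‖max (|f y| - K) 0 ^ 2‖ ≤ f y ^ 2 := fun K y => by
    rw [Real.norm_of_nonneg (sq_nonneg _), ← sq_abs (f y)]
    exact pow_le_pow_left₀ (le_max_right _ _)
      (max_le (sub_le_self _ (Nat.cast_nonneg K)) (abs_nonneg _)) 2
  have h2 : ∀ K : ℕ, AEStronglyMeasurable (fun y => max (|f y| - K) 0 ^ 2) V := fun K =>
    (((hm.abs.sub_const _).max measurable_const).pow_const 2).aestronglyMeasurable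
  have h3 := tendsto_integral_of_dominated_convergence (f := fun _ => (0 : ℝ)) _ h2
    hf.integrable_sq (fun K => Eventually.of_forall (h1 K)) (Eventually.of_forall fun y => by
      refine tendsto_const_nhds.congr' ?_
      filter_upwards [eventually_ge_atTop ⌈|f y|⌉₊] with K hK
      rw [max_eq_right (sub_nonpos.2 (Nat.ceil_le.1 hK)), zero_pow two_ne_zero])
  rw [integral_zero] at h3
  obtain ⟨K, hK⟩ := (h3.eventually (gt_mem_nhds hη)).exists
  exact ⟨K, hf.integrable_sq.mono' (h2 K) (Eventually.of_forall (h1 K)), hK⟩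

/-- (L) `L²` functions do not see measures with bounded two-dimensional density -/
theorem tendsto_cross (V μ : Measure X) [SFinite V] [IsFiniteMeasureOnCompacts V] [ProperSpace X]
    [IsFiniteMeasure μ] {CV m C : ℝ} (hC : 0 < C)
    (hV : ∀ x r, 0 ≤ r → V.real (closedBall x r) ≤ CV * r ^ 4) (hμ : Mass μ 0 m)
    {f : X → ℝ} (hm : Measurable f) (hf : MemLp f 2 V) :
    (∀ ε, 0 < ε → Integrable (fun y => |f y| * μ.real (closedBall y (C * ε))) V) ∧
    Tendsto (fun ε : ℝ => ε⁻¹ ^ 3 * ∫ y, |f y| * μ.real (closedBall y (C * ε)) ∂V) (𝓝[>] 0)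
      (𝓝 0) := by
  have h1 := fun ε (hε : 0 < ε) => integral_measure_ball_le V μ
    fun x => hV x (C * ε) (mul_pos hC hε).le
  have h2 : ∀ ε, 0 < ε → ∀ y, μ.real (closedBall y (C * ε)) ≤ |m| * (C * ε) ^ 2 := fun ε hε y =>
    (hμ y _ (mul_pos hC hε) (mul_pos hC hε).le).trans
      (mul_le_mul_of_nonneg_right (le_abs_self m) (sq_nonneg _))
  have hint : ∀ ε, 0 < ε → Integrable (fun y => |f y| * μ.real (closedBall y (C * ε))) V := by
    intro ε hε
    refine (hf.integrable_sq.add ((h1 ε hε).1.const_mul (|m| * (C * ε) ^ 2))).mono'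
      (hm.abs.mul (small_measurable μ _)).aestronglyMeasurable (Eventually.of_forall fun y => ?_)
    have h3 : 0 ≤ μ.real (closedBall y (C * ε)) := measureReal_nonneg
    have h4 := mul_le_mul_of_nonneg_right (h2 ε hε y) h3
    rw [Real.norm_of_nonneg (mul_nonneg (abs_nonneg _) h3), Pi.add_apply, ← sq_abs (f y)]
    nlinarith [sq_nonneg (|f y| - μ.real (closedBall y (C * ε))), abs_nonneg (f y)]
  refine ⟨hint, ?_⟩
  set A : ℝ := CV * C ^ 4 * μ.real univ with hA
  set B : ℝ := |m| * C ^ 2 * |A| + 1 with hB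
  have hB0 : 0 < B := by positivity
  refine tendsto_order.2 ⟨fun a ha => ?_, fun η hη => ?_⟩
  · filter_upwards [self_mem_nhdsWithin] with ε (hε : 0 < ε)
    exact ha.trans_le (mul_nonneg (by positivity)
      (integral_nonneg fun y => mul_nonneg (abs_nonneg _) measureReal_nonneg))
  set δ : ℝ := η / 3 / B with hδ
  have hδ0 : 0 < δ := by positivity
  obtain ⟨K, hK1, hK2⟩ := small_trunc hm hf (η := δ * (η / 3)) (by positivity)
  have h5 : Tendsto (fun ε : ℝ => K * |A| * ε) (𝓝[>] 0) (𝓝 0) := by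
    have : Tendsto (fun ε : ℝ => K * |A| * ε) (𝓝 0) (𝓝 (K * |A| * 0)) :=
      tendsto_id.const_mul _
    rw [mul_zero] at this
    exact this.mono_left nhdsWithin_le_nhds
  filter_upwards [self_mem_nhdsWithin, h5.eventually (gt_mem_nhds (by positivity : 0 < η / 3))]
    with ε (hε : 0 < ε) h6
  obtain ⟨h7, h8⟩ := h1 ε hε
  set c : ℝ := K * ε⁻¹ ^ 3 + δ * (|m| * C ^ 2) * ε⁻¹ ^ 4 with hc
  have hc0 : 0 ≤ c := by positivity
  have h9 : ∀ y, ε⁻¹ ^ 3 * (|f y| * μ.real (closedBall y (C * ε))) ≤
      c * μ.real (closedBall y (C * ε)) + δ⁻¹ * max (|f y| - K) 0 ^ 2 := by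
    intro y
    have h3 : 0 ≤ μ.real (closedBall y (C * ε)) := measureReal_nonneg
    have h4 := h2 ε hε y
    have h10 : |f y| ≤ K + max (|f y| - K) 0 := by linarith [le_max_left (|f y| - K) 0]
    have h10' : 0 ≤ max (|f y| - K) 0 := le_max_right _ _
    generalize max (|f y| - K) 0 = h at h10 h10' ⊢
    generalize μ.real (closedBall y (C * ε)) = g at h3 h4 ⊢
    have h11 : ε⁻¹ ^ 3 * g ≤ |m| * C ^ 2 * ε⁻¹ := by
      refine (mul_le_mul_of_nonneg_left h4 (by positivity)).trans (le_of_eq ?_)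
      field_simp
    have h12 : 0 ≤ ε⁻¹ ^ 3 * g := by positivity
    have h13 : h * (ε⁻¹ ^ 3 * g) ≤ δ * (ε⁻¹ ^ 3 * g) ^ 2 + δ⁻¹ * h ^ 2 := by
      have h14 : 0 ≤ δ⁻¹ * (δ * (ε⁻¹ ^ 3 * g) - h) ^ 2 := by positivity
      have h15 : δ⁻¹ * (δ * (ε⁻¹ ^ 3 * g) - h) ^ 2 =
          δ * (ε⁻¹ ^ 3 * g) ^ 2 + δ⁻¹ * h ^ 2 - 2 * (h * (ε⁻¹ ^ 3 * g)) := by
        field_simp
        ring
      have := mul_nonneg h10' h12
      linarith
    have h16 := mul_le_mul_of_nonneg_right h10 h12
    have h17 := mul_le_mul_of_nonneg_left (mul_le_mul_of_nonneg_right h11 h12) hδ0.le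
    rw [hc]
    nlinarith
  have h18 := integral_mono ((hint ε hε).const_mul _) ((h7.const_mul c).add (hK1.const_mul δ⁻¹)) h9
  simp only [Pi.add_apply] at h18
  rw [integral_add (h7.const_mul c) (hK1.const_mul δ⁻¹), integral_const_mul, integral_const_mul,
    integral_const_mul] at h18
  have h19 : ∫ y, μ.real (closedBall y (C * ε)) ∂V ≤ |A| * ε ^ 4 := by
    refine h8.trans (le_trans (le_of_eq ?_)
      (mul_le_mul_of_nonneg_right (le_abs_self A) (by positivity)))
    rw [hA]; ring
  have h20 : c * (|A| * ε ^ 4) = K * |A| * ε + δ * (B - 1) := by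
    rw [hc, hB]; field_simp; ring
  have h21 : δ * B = η / 3 := by rw [hδ]; field_simp
  have h22 : δ⁻¹ * ∫ y, max (|f y| - K) 0 ^ 2 ∂V < η / 3 := (inv_mul_lt_iff₀ hδ0).2 hK2
  have h23 := mul_le_mul_of_nonneg_left h19 hc0
  linarith

theorem measurableSet_Lel (μ : Measure X) [IsFiniteMeasure μ] : MeasurableSet (Lel μ) := by
  have h1 := measurableSet_tendsto (l := atTop) (𝓝 (0 : ℝ))
    (f := fun (k : ℕ) x => μ.real (closedBall x (k : ℝ)⁻¹) / ((k : ℝ)⁻¹) ^ 2)
    fun k => (small_measurable μ _).div_const _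
  convert h1.compl using 1
  ext x
  refine not_congr ⟨fun h => h.comp (tendsto_inv_atTop_nhdsGT_zero.comp
    tendsto_natCast_atTop_atTop), fun h => ?_⟩
  have h2 := (Tendsto.comp h (tendsto_nat_floor_atTop.comp
    (tendsto_inv_nhdsGT_zero (𝕜 := ℝ)))).const_mul 4
  rw [mul_zero] at h2
  refine squeeze_zero' (Eventually.of_forall fun r => by positivity) ?_ h2
  filter_upwards [Ioc_mem_nhdsGT zero_lt_one] with r hr
  have h3 : 1 ≤ r⁻¹ := (one_le_inv₀ hr.1).2 hr.2
  have h4 : (1 : ℝ) ≤ ⌊r⁻¹⌋₊ := by exact_mod_cast (Nat.one_le_floor_iff _).2 h3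
  have h5 : (⌊r⁻¹⌋₊ : ℝ) ≤ r⁻¹ := Nat.floor_le (by linarith)
  have h6 : r⁻¹ ≤ 2 * ⌊r⁻¹⌋₊ := by linarith [Nat.lt_floor_add_one r⁻¹]
  have h7 : r ≤ (⌊r⁻¹⌋₊ : ℝ)⁻¹ := (le_inv_comm₀ hr.1 (by linarith)).2 h5
  simp only [Function.comp]
  rw [div_eq_mul_inv, div_eq_mul_inv, ← inv_pow, ← inv_pow, inv_inv, mul_left_comm]
  refine mul_le_mul (measureReal_mono (closedBall_subset_closedBall h7)) ?_ (sq_nonneg _)
    measureReal_nonneg
  nlinarith

theorem tendsto_of_not_mem_Lel {μ : Measure X} {x : X} (hx : x ∉ Lel μ) {C : ℝ} (hC : 0 < C) :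
    Tendsto (fun ε : ℝ => ε⁻¹ ^ 2 * μ.real (closedBall x (C * ε))) (𝓝[>] 0) (𝓝 0) := by
  have h1 : Tendsto (fun ε : ℝ => C * ε) (𝓝[>] 0) (𝓝[>] 0) := by
    refine tendsto_nhdsWithin_iff.2 ⟨?_, eventually_mem_nhdsWithin.mono fun ε hε => mul_pos hC hε⟩
    have : Tendsto (fun ε : ℝ => C * ε) (𝓝 0) (𝓝 (C * 0)) := tendsto_id.const_mul _
    rw [mul_zero] at this
    exact this.mono_left nhdsWithin_le_nhds
  have h2 := ((not_not.1 hx).comp h1).const_mul (C ^ 2)
  rw [mul_zero] at h2
  refine h2.congr fun ε => ?_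
  simp only [Function.comp]
  field_simp

/-- dominated convergence off `Lel μ` -/
theorem tendsto_integral_off_Lel (μ μ₁ : Measure X) [IsFiniteMeasure μ] [IsFiniteMeasure μ₁]
    {m : ℝ} (hμ : Mass μ 0 m) (h : ∀ᵐ x ∂μ₁, x ∉ Lel μ) {C : ℝ} (hC : 0 < C) :
    Tendsto (fun ε : ℝ => ε⁻¹ ^ 2 * ∫ x, μ.real (closedBall x (C * ε)) ∂μ₁) (𝓝[>] 0) (𝓝 0) := by
  have h1 := tendsto_integral_filter_of_dominated_convergence (μ := μ₁) (l := 𝓝[>] (0 : ℝ))
    (F := fun ε x => ε⁻¹ ^ 2 * μ.real (closedBall x (C * ε))) (f := fun _ => 0) (fun _ => m * C ^ 2)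
    (Eventually.of_forall fun ε => ((small_measurable μ _).const_mul _).aestronglyMeasurable)
    (eventually_mem_nhdsWithin.mono fun ε (hε : 0 < ε) => Eventually.of_forall fun x => by
      rw [Real.norm_of_nonneg (by positivity)]
      refine (mul_le_mul_of_nonneg_left (hμ x _ (mul_pos hC hε) (mul_pos hC hε).le)
        (by positivity)).trans (le_of_eq ?_)
      field_simp)
    (integrable_const _) (h.mono fun x hx => tendsto_of_not_mem_Lel hx hC)
  simpa only [integral_const_mul, integral_zero] using h1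

end Crest.Agent.R240

end
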