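import Crest.Agent.R240.CurC
import Crest.Agent.R240.Small

/-!
# Row 240: measures read in a chart
-/

set_option autoImplicit false
set_option linter.unusedSectionVars false
set_option linter.unusedVariables false

open MeasureTheory Metric Set Filter Topology
open scoped ContDiff ENNReal

noncomputable section

namespace Crest.Agent.R240

namespace Geo

variable {M : Type*} [MetricSpace M] [CompactSpace M] [MeasurableSpace M] [BorelSpace M]
  {G : Geo M}

variable {ν : Measure (M × E)} [IsFiniteMeasure ν]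

theorem Nuc_meas (i : Fin G.n) : MeasurableSet {z : M × E | z.1 ∈ G.K i (5 / 2)} :=
  (measurableSet_K i _).preimage measurable_fst

theorem aemeasurable_nuc (i : Fin G.n) (ν : Measure (M × E)) :
    AEMeasurable (fun z : M × E => (G.κ i z.1, (G.fr i).A (G.κ i z.1) (G.Ti i z.1 z.2)))
      (ν.restrict {z | z.1 ∈ G.K i (5 / 2)}) := by
  have hk : Measurable (G.ext0 i fun x : E => x) := measurable_ext0 i measurable_id
  have hA := (G.fr i).smooth.continuous
  have hc : Continuous fun w : E × End × E => (w.1, (G.fr i).A w.1 (w.2.1 w.2.2)) := by fun_prop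
  refine (hc.measurable.comp ((hk.comp measurable_fst).prodMk
    (((G.Ti_meas i).comp measurable_fst).prodMk measurable_snd))).aemeasurable.congr ?_
  filter_upwards [ae_restrict_mem (Nuc_meas i)] with z hz
  simp only [Function.comp, ext0, if_pos hz.1]

instance isFiniteMeasure_nuc (i : Fin G.n) : IsFiniteMeasure (G.nuc i ν) := by
  unfold nuc
  infer_instance

theorem nuc_unit (hν : ∀ᵐ z ∂ν, ‖z.2‖ = 1) (i : Fin G.n) : ∀ᵐ z ∂(G.nuc i ν), ‖z.2‖ = 1 := by
  refine (ae_map_iff (aemeasurable_nuc i ν)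
    (measurableSet_eq_fun (by fun_prop) measurable_const)).2 ?_
  filter_upwards [ae_restrict_mem (Nuc_meas i), ae_restrict_of_ae hν] with z hz h1
  exact ((uni_A_Ti hz.1).1 z.2).trans h1

theorem integral_nuc (i : Fin G.n) {f : E × E → ℝ} (hf : Measurable f) :
    ∫ z, f z ∂(G.nuc i ν) = ∫ z in {z : M × E | z.1 ∈ G.K i (5 / 2)},
      f (G.κ i z.1, (G.fr i).A (G.κ i z.1) (G.Ti i z.1 z.2)) ∂ν := by
  exact integral_map (aemeasurable_nuc i ν) hf.aestronglyMeasurable

theorem nuc_fst_apply (i : Fin G.n) {s : Set E} (hs : MeasurableSet s) :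
    (G.nuc i ν).fst s = ν.fst {p | p ∈ G.K i (5 / 2) ∧ G.κ i p ∈ s} := by
  have hk : Measurable (G.ext0 i fun x : E => x) := measurable_ext0 i measurable_id
  have e : {p | p ∈ G.K i (5 / 2) ∧ G.κ i p ∈ s} =
      G.K i (5 / 2) ∩ (G.ext0 i fun x : E => x) ⁻¹' s := by
    ext p
    refine and_congr_right fun hp => ?_
    simp only [mem_preimage, ext0, if_pos hp.1]
  have hm : MeasurableSet {p | p ∈ G.K i (5 / 2) ∧ G.κ i p ∈ s} :=
    e ▸ (measurableSet_K i _).inter (hk hs)
  rw [Measure.fst_apply hs, Measure.fst_apply hm, nuc,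
    Measure.map_apply_of_aemeasurable (aemeasurable_nuc i ν) (measurable_fst hs),
    Measure.restrict_apply' (Nuc_meas i), inter_comm]
  rfl

theorem Nuc_restrict (i : Fin G.n) {η : E → Bil} (hη : Continuous η)
    (h0 : ∀ x, 5 / 2 < ‖x‖ → η x = 0) {A : Set M} {B : Set E} (hA : MeasurableSet A)
    (hB : MeasurableSet B) (h : ∀ p ∈ (G.κ i).source, η (G.κ i p) ≠ 0 → (G.κ i p ∈ B ↔ p ∈ A)) :
    Tm (ν.restrict {z | z.1 ∈ A}) (G.ext2 i η)
      = Tl (G.fr i) ((G.nuc i ν).restrict {z | z.1 ∈ B}) η := by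
  have hA' : MeasurableSet {z : M × E | z.1 ∈ A} := measurable_fst hA
  have hB' : MeasurableSet {z : E × E | z.1 ∈ B} := measurable_fst hB
  have h1 := (G.fr i).smooth'.continuous
  have hc : Continuous fun z : E × E =>
      η z.1 ((G.fr i).A' z.1 z.2) ((G.fr i).A' z.1 (J0 z.2)) := by fun_prop
  rw [Tm, Tl, ← integral_indicator hA', ← integral_indicator hB',
    integral_nuc i (hc.measurable.indicator hB'),
    ← setIntegral_eq_integral_of_forall_compl_eq_zero (s := {z : M × E | z.1 ∈ G.K i (5 / 2)})]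
  · refine setIntegral_congr_fun (Nuc_meas i) fun z hz => ?_
    have e : G.ext2 i η z.1 z.2 (J0 z.2) = η (G.κ i z.1)
        ((G.fr i).A' (G.κ i z.1) ((G.fr i).A (G.κ i z.1) (G.Ti i z.1 z.2)))
        ((G.fr i).A' (G.κ i z.1) (J0 ((G.fr i).A (G.κ i z.1) (G.Ti i z.1 z.2)))) := by
      rw [ext2, if_pos hz.1, pb_apply, (G.fr i).mul', Ti_J hz.1]
      rfl
    by_cases h2 : η (G.κ i z.1) = 0
    · simp [indicator, e, h2]
    · have h3 := h z.1 hz.1 h2
      by_cases h4 : z.1 ∈ A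
      · simp [indicator, e, h4, h3.2 h4]
      · simp [indicator, h4, mt h3.1 h4]
  · intro z hz
    have e : G.ext2 i η z.1 = 0 := by
      rw [ext2]
      split_ifs with hp
      · rw [h0 _ (not_le.1 fun hle => hz ⟨hp, hle⟩), pb_zero]
      · rfl
    simp [indicator, e]

theorem Tm_ext2 (i : Fin G.n) {η : E → Bil} (hη : Continuous η)
    (h0 : ∀ x, 5 / 2 < ‖x‖ → η x = 0) :
    Tm ν (G.ext2 i η) = Tl (G.fr i) (G.nuc i ν) η := by
  simpa using Nuc_restrict (ν := ν) i hη h0 MeasurableSet.univ MeasurableSet.univ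
    fun _ _ _ => Iff.rfl

theorem Nuc_real (i : Fin G.n) {s : Set E} (hs : MeasurableSet s) :
    (G.nuc i ν).fst.real s = ν.fst.real {p | p ∈ G.K i (5 / 2) ∧ G.κ i p ∈ s} := by
  rw [measureReal_def, measureReal_def, nuc_fst_apply i hs]

/-- comparison of balls -/
theorem nuc_ball (G : Geo M) : ∃ L r0 : ℝ, 1 ≤ L ∧ 0 < r0 ∧
    ∀ (ν : Measure (M × E)) [IsFiniteMeasure ν], ∀ i, ∀ p ∈ G.K i 2,
      (∀ r, 0 ≤ r → (G.nuc i ν).fst.real (closedBall (G.κ i p) r)
        ≤ ν.fst.real (closedBall p (L * r))) ∧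
      ∀ r, 0 ≤ r → r ≤ r0 → ν.fst.real (closedBall p r)
        ≤ (G.nuc i ν).fst.real (closedBall (G.κ i p) (L * r)) := by
  obtain ⟨L, hL, h⟩ := G.exists_lip
  obtain ⟨δ, hδ, hn⟩ := G.near_K (r := 2) (r' := 5 / 2) (by norm_num) (by norm_num)
  refine ⟨L, δ, hL, hδ, fun ν _ i p hp => ⟨fun r hr => ?_, fun r hr hr' => ?_⟩⟩
  · rw [Nuc_real i measurableSet_closedBall]
    refine measureReal_mono fun q hq => ?_
    refine ((h i q hq.1 p (K_mono i (by norm_num) hp)).1).trans ?_
    exact mul_le_mul_of_nonneg_left (mem_closedBall_iff_norm.1 hq.2) (by linarith)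
  · rw [Nuc_real i measurableSet_closedBall]
    refine measureReal_mono fun q hq => ?_
    have hq' := hn i p hp q ((mem_closedBall'.1 hq).trans hr')
    refine ⟨hq', mem_closedBall_iff_norm.2 ?_⟩
    refine ((h i q hq' p (K_mono i (by norm_num) hp)).2).trans ?_
    exact mul_le_mul_of_nonneg_left hq (by linarith)

theorem nuc_mass (G : Geo M) : ∃ C : ℝ, 0 ≤ C ∧ ∀ (ν : Measure (M × E)) [IsFiniteMeasure ν],
    ∀ m, 0 ≤ m → Mass ν.fst 0 m → ∀ i, Mass (G.nuc i ν).fst 0 (C * m) := by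
  obtain ⟨L, hL, h⟩ := G.exists_lip
  refine ⟨4 * L ^ 2, by positivity, fun ν _ m hm hν i x r hr _ => ?_⟩
  rw [Nuc_real i measurableSet_closedBall]
  rcases eq_empty_or_nonempty {p | p ∈ G.K i (5 / 2) ∧ G.κ i p ∈ closedBall x r} with e | ⟨p, hp⟩
  · rw [e, measureReal_empty]
    positivity
  · have h1 : 0 < L * (2 * r) := by positivity
    refine (measureReal_mono fun q hq => ?_).trans ((hν p _ h1 h1.le).trans_eq (by ring))
    refine ((h i q hq.1 p hp.1).1).trans (mul_le_mul_of_nonneg_left ?_ (by linarith))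
    rw [← dist_eq_norm]
    linarith [dist_triangle_right (G.κ i q) (G.κ i p) x, mem_closedBall.1 hq.2,
      mem_closedBall.1 hp.2]

theorem mem_Lel_nuc (i : Fin G.n) {p : M} (hp : p ∈ G.K i 2) :
    G.κ i p ∈ Lel (G.nuc i ν).fst ↔ p ∈ Lel ν.fst := by
  obtain ⟨L, r0, hL, hr0, h⟩ := G.nuc_ball
  obtain ⟨h1, h2⟩ := h ν i p hp
  have hL0 : 0 < L := by linarith
  refine not_iff_not.1 ⟨fun hx hy => hy ?_, fun hx hy => hy ?_⟩
  · refine squeeze_zero' (Eventually.of_forall fun r => by positivity) ?_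
      (tendsto_of_not_mem_Lel hx hL0)
    filter_upwards [Ioc_mem_nhdsGT hr0] with r hr
    rw [div_eq_inv_mul, inv_pow]
    exact mul_le_mul_of_nonneg_left (h2 r hr.1.le hr.2) (by positivity)
  · refine squeeze_zero' (Eventually.of_forall fun r => by positivity) ?_
      (tendsto_of_not_mem_Lel hx hL0)
    filter_upwards [self_mem_nhdsWithin] with r hr
    rw [div_eq_inv_mul, inv_pow]
    exact mul_le_mul_of_nonneg_left (h1 r (le_of_lt hr)) (by positivity)

theorem Tl_nuc_restrict (i : Fin G.n) {η : E → Bil} (hη : Continuous η)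
    (h0 : ∀ x, 2 < ‖x‖ → η x = 0) :
    Tm (ν.restrict {z | z.1 ∈ Lel ν.fst}) (G.ext2 i η)
      = Tl (G.fr i) ((G.nuc i ν).restrict {z | z.1 ∈ Lel (G.nuc i ν).fst}) η := by
  exact Nuc_restrict i hη (fun x hx => h0 x (by linarith)) (measurableSet_Lel _)
    (measurableSet_Lel _) fun p hp hne => mem_Lel_nuc i ⟨hp, not_lt.1 fun hlt => hne (h0 _ hlt)⟩

end Geo

end Crest.Agent.R240

end
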