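import Crest.Agent.R240.Theta2
import Crest.Agent.R240.Small

/-!
# Row 240: almost monotonicity and the density
-/

set_option autoImplicit false
set_option linter.unusedSectionVars false
set_option linter.unusedVariables false

open MeasureTheory Metric Set Filter Topology
open scoped ContDiff ENNReal

noncomputable section

namespace Crest.Agent.R240

variable (Fr : Frame)

/-- the integrated monotonicity formula -/
theorem theta_mono' : ∃ C : ℝ, 1 ≤ C ∧ ∀ (ν : Measure (E × E)) [IsFiniteMeasure ν],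
    (∀ᵐ z ∂ν, ‖z.2‖ = 1) → ∀ x : E, ‖x‖ ≤ 2 → ∀ r R B m : ℝ, 0 < r → r ≤ R → R ≤ 1 →
      (∀ ε ∈ Icc r R, |Tl Fr ν (d1 (grad Fr ε x))| ≤ B * ε ^ 3 ∧
        ν.fst.real (closedBall x (C * ε)) ≤ m * ε ^ 2) →
      Theta Fr ν.fst r x + ∫ ε in r..R, Dt Fr ν ε x
        ≤ Theta Fr ν.fst R x + (B + C * m) * (R - r) := by
  obtain ⟨C, hC1, hC⟩ := theta_deriv Fr
  refine ⟨C, hC1, fun ν _ hν x hx r R B m hr hrR hR h => ?_⟩
  choose! D hD1 hD2 using fun ε (hε : ε ∈ Ioc (0 : ℝ) 1) => hC ν hν ε hε x hx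
  have hI : ∀ ε ∈ Icc r R, ε ∈ Ioc (0 : ℝ) 1 := fun ε hε => ⟨hr.trans_le hε.1, hε.2.trans hR⟩
  have hd : ∀ ε ∈ Icc r R, HasDerivAt (fun ε => Theta Fr ν.fst ε x + (B + C * m) * ε)
      (D ε + (B + C * m)) ε := fun ε hε => by
    simpa using (hD1 ε (hI ε hε)).fun_add ((hasDerivAt_id' ε).const_mul (B + C * m))
  have hc : ContinuousOn (fun ε => Dt Fr ν ε x) (Icc r R) :=
    (Dt_continuous Fr ν hν).comp (f := fun ε => (ε, x)) (by fun_prop)
      fun ε hε => ⟨(hI ε hε).1, mem_univ _⟩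
  have := intervalIntegral.integral_le_sub_of_hasDeriv_right_of_le hrR
    (fun ε hε => (hd ε hε).continuousAt.continuousWithinAt)
    (fun ε hε => (hd ε (Ioo_subset_Icc_self hε)).hasDerivWithinAt)
    (hc.integrableOn_compact isCompact_Icc) fun ε hε => ?_
  · linarith
  · have hε' := Ioo_subset_Icc_self hε
    have h0 := (hI ε hε').1
    obtain ⟨h1, h2⟩ := h ε hε'
    have h3 := (abs_le.1 (hD2 ε (hI ε hε'))).1
    have h4 : ε⁻¹ ^ 3 * Tl Fr ν (d1 (grad Fr ε x)) ≤ B := by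
      refine (mul_le_mul_of_nonneg_left ((le_abs_self _).trans h1) (by positivity)).trans
        (le_of_eq ?_)
      field_simp
    have h5 : C * ε⁻¹ ^ 2 * ν.fst.real (closedBall x (C * ε)) ≤ C * m := by
      refine (mul_le_mul_of_nonneg_left h2 (by positivity)).trans (le_of_eq ?_)
      field_simp
    linarith

theorem theta_nonneg (μ : Measure E) [IsFiniteMeasure μ] {ε : ℝ} (hε : 0 < ε) (x : E) :
    0 ≤ Theta Fr μ ε x := by
  obtain ⟨c, C, hc, -, h⟩ := theta_bounds Fr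
  exact le_trans (by positivity) (h μ ε hε x).1

theorem theta_mono : ∃ C : ℝ, 1 ≤ C ∧ ∀ (ν : Measure (E × E)) [IsFiniteMeasure ν],
    (∀ᵐ z ∂ν, ‖z.2‖ = 1) → ∀ x : E, ‖x‖ ≤ 2 → ∀ r R B m : ℝ, 0 < r → r ≤ R → R ≤ 1 →
      (∀ ε ∈ Icc r R, |Tl Fr ν (d1 (grad Fr ε x))| ≤ B * ε ^ 3 ∧
        ν.fst.real (closedBall x (C * ε)) ≤ m * ε ^ 2) →
      Theta Fr ν.fst r x ≤ Theta Fr ν.fst R x + (B + C * m) * (R - r) := by
  obtain ⟨C, hC1, hC⟩ := theta_mono' Fr
  refine ⟨C, hC1, fun ν _ hν x hx r R B m hr hrR hR h => ?_⟩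
  have h1 := hC ν hν x hx r R B m hr hrR hR h
  have h2 : 0 ≤ ∫ ε in r..R, Dt Fr ν ε x :=
    intervalIntegral.integral_nonneg hrR fun ε hε => Dt_nonneg Fr ν (hr.trans_le hε.1) x
  linarith

variable {ν : Measure (E × E)} [IsFiniteMeasure ν]

theorem theta_mono_mass (hν : ∀ᵐ z ∂ν, ‖z.2‖ = 1) {m B r0 : ℝ} (hm : Mass ν.fst 0 m)
    (hB : ∀ ε ∈ Ioc 0 r0, ∀ x : E, ‖x‖ ≤ 1 → |Tl Fr ν (d1 (grad Fr ε x))| ≤ B * ε ^ 3) :
    ∃ K : ℝ, ∀ x : E, ‖x‖ ≤ 1 → ∀ r R : ℝ, 0 < r → r ≤ R → R ≤ min r0 1 →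
      Theta Fr ν.fst r x + ∫ ε in r..R, Dt Fr ν ε x ≤ Theta Fr ν.fst R x + K * (R - r) := by
  obtain ⟨C, hC1, hC⟩ := theta_mono' Fr
  refine ⟨B + C * (m * C ^ 2), fun x hx r R hr hrR hR => hC ν hν x (by linarith) r R B _ hr hrR
    (hR.trans (min_le_right _ _)) fun ε hε => ?_⟩
  have h0 : 0 < ε := hr.trans_le hε.1
  have h1 : 0 < C * ε := by positivity
  exact ⟨hB ε ⟨h0, hε.2.trans (hR.trans (min_le_left _ _))⟩ x hx,
    (hm x _ h1 h1.le).trans (le_of_eq (by ring))⟩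

/-- the density exists and is positive exactly on `Lel` -/
theorem exists_density (hν : ∀ᵐ z ∂ν, ‖z.2‖ = 1) {m B r0 : ℝ} (hm : Mass ν.fst 0 m) (hr0 : 0 < r0)
    (hB : ∀ ε ∈ Ioc 0 r0, ∀ x : E, ‖x‖ ≤ 1 → |Tl Fr ν (d1 (grad Fr ε x))| ≤ B * ε ^ 3) :
    ∃ θ : E → ℝ, ∀ x : E, ‖x‖ ≤ 1 →
      Tendsto (fun ε => Theta Fr ν.fst ε x) (𝓝[>] 0) (𝓝 (θ x)) ∧ 0 ≤ θ x ∧
        (x ∈ Lel ν.fst ↔ 0 < θ x) := by
  obtain ⟨K, hK⟩ := theta_mono_mass Fr hν hm hB
  obtain ⟨c, C, hc, hC1, hb⟩ := theta_bounds Fr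
  have hlim : ∀ x : E, ‖x‖ ≤ 1 → ∃ t, Tendsto (fun ε => Theta Fr ν.fst ε x) (𝓝[>] 0) (𝓝 t) := by
    intro x hx
    have hmono : MonotoneOn (fun ε => Theta Fr ν.fst ε x + K * ε) (Ioo 0 (min r0 1)) := by
      intro r hr R hR hrR
      have h1 := hK x hx r R hr.1 hrR hR.2.le
      have h2 : 0 ≤ ∫ ε in r..R, Dt Fr ν ε x :=
        intervalIntegral.integral_nonneg hrR fun ε hε => Dt_nonneg Fr ν (hr.1.trans_le hε.1) x
      simp only
      linarith
    have hbdd : BddBelow ((fun ε => Theta Fr ν.fst ε x + K * ε) '' Ioo 0 (min r0 1)) := by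
      refine ⟨-|K|, ?_⟩
      rintro _ ⟨ε, hε, rfl⟩
      have h1 := theta_nonneg Fr ν.fst hε.1 x
      have h2 : ε ≤ 1 := hε.2.le.trans (min_le_right _ _)
      have h3 := neg_abs_le K
      have h4 := abs_nonneg K
      have h5 := hε.1
      simp only
      nlinarith
    have h1 := hmono.tendsto_nhdsWithin_Ioo_right (nonempty_Ioo.2 (lt_min hr0 one_pos)) hbdd
    have h2 : Tendsto (fun ε : ℝ => K * ε) (𝓝[>] 0) (𝓝 (K * 0)) :=
      (tendsto_id.const_mul K).mono_left nhdsWithin_le_nhds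
    exact ⟨_, (h1.sub h2).congr fun ε => by ring⟩
  choose! θ hθ using hlim
  refine ⟨θ, fun x hx => ?_⟩
  have h0 : 0 ≤ θ x := ge_of_tendsto (hθ x hx)
    (eventually_mem_nhdsWithin.mono fun ε hε => theta_nonneg Fr ν.fst hε x)
  refine ⟨hθ x hx, h0, fun hL => h0.lt_of_ne fun h => hL ?_, fun h => by_contra fun hL => ?_⟩
  · have h1 : Tendsto (fun r : ℝ => c⁻¹ * r) (𝓝[>] 0) (𝓝[>] 0) := by
      refine tendsto_nhdsWithin_iff.2
        ⟨?_, eventually_mem_nhdsWithin.mono fun r hr => mul_pos (inv_pos.2 hc) hr⟩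
      have : Tendsto (fun r : ℝ => c⁻¹ * r) (𝓝 0) (𝓝 (c⁻¹ * 0)) := tendsto_id.const_mul _
      rw [mul_zero] at this
      exact this.mono_left nhdsWithin_le_nhds
    have h2 := ((hθ x hx).comp h1).const_mul (c⁻¹ ^ 3)
    rw [← h, mul_zero] at h2
    refine squeeze_zero' (Eventually.of_forall fun r => by positivity)
      (eventually_mem_nhdsWithin.mono fun r (hr : 0 < r) => ?_) h2
    have h3 := (hb ν.fst (c⁻¹ * r) (by positivity) x).1
    rw [mul_inv_cancel_left₀ hc.ne'] at h3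
    refine le_trans (le_of_eq ?_) (mul_le_mul_of_nonneg_left h3 (by positivity))
    field_simp
  · have h1 := (tendsto_of_not_mem_Lel hL (C := C) (by linarith)).const_mul C
    rw [mul_zero] at h1
    have h2 : θ x ≤ 0 := le_of_tendsto_of_tendsto (hθ x hx) h1
      (eventually_mem_nhdsWithin.mono fun ε hε => (hb ν.fst ε hε x).2.trans_eq (mul_assoc _ _ _))
    linarith

/-- the radial defect is frequently small -/
theorem frequently_Dt_le (hν : ∀ᵐ z ∂ν, ‖z.2‖ = 1) {m B r0 : ℝ} (hm : Mass ν.fst 0 m)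
    (hr0 : 0 < r0)
    (hB : ∀ ε ∈ Ioc 0 r0, ∀ x : E, ‖x‖ ≤ 1 → |Tl Fr ν (d1 (grad Fr ε x))| ≤ B * ε ^ 3)
    {δ : ℝ} (hδ : 0 < δ) :
    ∃ᶠ ε in 𝓝[>] (0 : ℝ), ∫ x in closedBall (0 : E) 1, ε * Dt Fr ν ε x ∂ν.fst ≤ δ := by
  obtain ⟨K, hK⟩ := theta_mono_mass Fr hν hm hB
  obtain ⟨c, C, hc, hC1, hb⟩ := theta_bounds Fr
  by_contra hcon
  rw [not_frequently] at hcon
  obtain ⟨e1, he1, he⟩ := mem_nhdsGT_iff_exists_Ioc_subset.1 hcon
  set R : ℝ := min e1 (min r0 1) with hR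
  have hR0 : 0 < R := lt_min he1 (lt_min hr0 one_pos)
  have hR1 : R ≤ min r0 1 := min_le_right _ _
  have hR2 : R ≤ 1 := hR1.trans (min_le_right _ _)
  set A : ℝ := (C * (m * C ^ 2) + |K|) * ν.fst.real (closedBall (0 : E) 1) with hA
  set r : ℝ := R * Real.exp (-(|A| / δ + 1)) with hr
  have hr0' : 0 < r := by positivity
  have hrR : r ≤ R := mul_le_of_le_one_right hR0.le
    (Real.exp_le_one_iff.2 (neg_nonpos.2 (by positivity)))
  have hlog : Real.log (R / r) = |A| / δ + 1 := by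
    rw [hr, div_mul_cancel_left₀ hR0.ne', ← Real.exp_neg, neg_neg, Real.log_exp]
  have hint : Integrable (Function.uncurry fun ε x => Dt Fr ν ε x)
      ((volume.restrict (uIoc r R)).prod (ν.fst.restrict (closedBall 0 1))) := by
    rw [Measure.prod_restrict, uIoc_of_le hrR]
    refine IntegrableOn.mono_set (t := Icc r R ×ˢ closedBall 0 1) ?_
      (prod_mono Ioc_subset_Icc_self le_rfl)
    exact ((Dt_continuous Fr ν hν).mono fun z hz => ⟨hr0'.trans_le hz.1.1, mem_univ _⟩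
      ).integrableOn_compact (isCompact_Icc.prod (isCompact_closedBall _ _))
  have h1 : ∫ ε in r..R, δ * ε⁻¹ ≤
      ∫ ε in r..R, ∫ x in closedBall (0 : E) 1, Dt Fr ν ε x ∂ν.fst := by
    refine intervalIntegral.integral_mono_on_of_le_Ioo hrR ?_
      (intervalIntegrable_iff.2 hint.integral_prod_left) fun ε hε => ?_
    · refine (ContinuousOn.intervalIntegrable_of_Icc hrR ?_).const_mul δ
      exact continuousOn_inv₀.mono fun ε hε => (hr0'.trans_le hε.1).ne'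
    · have h0 : 0 < ε := hr0'.trans hε.1
      have h2 := not_le.1 (he ⟨h0, hε.2.le.trans (min_le_left _ _)⟩)
      rw [integral_const_mul] at h2
      rw [mul_inv_le_iff₀' h0]
      exact h2.le
  have h2 : ‖∫ x in closedBall (0 : E) 1, (∫ ε in r..R, Dt Fr ν ε x) ∂ν.fst‖ ≤ A := by
    refine norm_setIntegral_le_of_norm_le_const (measure_lt_top _ _) fun x hx => ?_
    have hx' := mem_closedBall_zero_iff.1 hx
    rw [Real.norm_of_nonneg (intervalIntegral.integral_nonneg hrR fun ε hε =>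
      Dt_nonneg Fr ν (hr0'.trans_le hε.1) x)]
    have h3 := hK x hx' r R hr0' hrR hR1
    have h4 := theta_nonneg Fr ν.fst hr0' x
    have h5 : Theta Fr ν.fst R x ≤ C * (m * C ^ 2) := by
      have h6 : 0 < C * R := by positivity
      refine (hb ν.fst R hR0 x).2.trans ((mul_le_mul_of_nonneg_left (hm x _ h6 h6.le)
        (by positivity)).trans (le_of_eq ?_))
      field_simp
    have h7 : K * (R - r) ≤ |K| := by
      have := le_abs_self K
      have := abs_nonneg K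
      nlinarith
    linarith
  rw [intervalIntegral_integral_swap hint, intervalIntegral.integral_const_mul,
    integral_inv_of_pos hr0' hR0, hlog, mul_add, mul_div_cancel₀ _ hδ.ne'] at h1
  have h3 := (le_abs_self _).trans h2
  have h4 := le_abs_self A
  linarith

end Crest.Agent.R240

end
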