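import Crest.Agent.R240.Taub
import Crest.Agent.R240.Nuc
import Crest.Agent.R240.ThetaLim

/-!
# Row 240: the mass ratio bound
-/

set_option autoImplicit false
set_option linter.unusedSectionVars false
set_option linter.unusedVariables false

open MeasureTheory Metric Set Filter Topology
open scoped ContDiff ENNReal

noncomputable section

namespace Crest.Agent.R240

namespace Geo

variable {M : Type*} [MetricSpace M] [CompactSpace M] [MeasurableSpace M] [BorelSpace M]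
  {G : Geo M}

variable {ν : Measure (M × E)} [IsFiniteMeasure ν]

/-- the closedness relation tested on the radial form -/
theorem Tl_grad_le (hν : ∀ᵐ z ∂ν, ‖z.2‖ = 1) (ψ : G.Cur)
    (hN : ∀ η, G.Z η → Tm ν η + ψ.N (fun p => am (η p)) = 0) {ε0 : ℝ} (hε0 : 0 < ε0)
    (i : Fin G.n) : ∃ C r0 : ℝ, 0 ≤ C ∧ 0 < r0 ∧ ∀ ε a, 0 < ε → 0 ≤ a → ψ.Bd ε0 ε a →
      ∀ t ∈ Icc ε r0, ∀ x : E, ‖x‖ ≤ 1 →
        |Tl (G.fr i) (G.nuc i ν) (d1 (grad (G.fr i) t x))| ≤ C * a * t ^ 3 := by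
  obtain ⟨Ct, hCt, htest⟩ := test_bounds (G.fr i)
  obtain ⟨Cd, rd, hCd, hrd, hdom⟩ := dom_ext2 G Ct
  refine ⟨Cd * Ct, min (min ε0 rd) (min 1 (1 / Ct)), by positivity, by positivity,
    fun ε a hε ha hb t ht x hx => ?_⟩
  have htp : 0 < t := hε.trans_le ht.1
  have ht1 : t ≤ ε0 := ht.2.trans ((min_le_left _ _).trans (min_le_left _ _))
  have ht2 : t ≤ rd := ht.2.trans ((min_le_left _ _).trans (min_le_right _ _))
  have ht3 : t ≤ 1 := ht.2.trans ((min_le_right _ _).trans (min_le_left _ _))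
  have ht4 : Ct * t ≤ 1 := by
    have : t ≤ 1 / Ct := ht.2.trans ((min_le_right _ _).trans (min_le_right _ _))
    rw [le_div_iff₀ (by linarith)] at this
    linarith
  obtain ⟨hs, -, hd0, -, -, hj⟩ := htest t ⟨htp, ht3⟩ x (by linarith)
  have hγ := grad_smooth (G.fr i) t x
  have hfar : ∀ y : E, 2 < ‖y‖ → Ct * t < ‖y - x‖ := fun y hy => by
    have := norm_le_norm_add_norm_sub' y x
    linarith
  have hγ0 : ∀ y ∈ ball (0 : E) 3, 2 < ‖y‖ → grad (G.fr i) t x y = 0 := fun y _ hy => by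
    refine image_eq_zero_of_notMem_tsupport fun h => ?_
    have := hs h
    rw [mem_closedBall, dist_eq_norm] at this
    linarith [hfar y hy]
  have hS1 : G.S1 (G.ext1 i (grad (G.fr i) t x)) := S1_ext1 i hγ.contDiffOn (by norm_num) hγ0
  have hD := D1_ext1 i hγ.contDiffOn (r := 2) (by norm_num) hγ0
  have hdsm : ContDiff ℝ ∞ (d1 (grad (G.fr i) t x)) :=
    contDiff_iff_contDiffAt.mpr fun y => R240.ContDiffAt.d1 hγ.contDiffAt
  have h1 := hN _ hS1.Z
  rw [hD, Tm_ext2 i hdsm.continuous fun y hy => hd0 y (hfar y (by linarith)).le] at h1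
  have h2 : (fun p => am (G.ext2 i (d1 (grad (G.fr i) t x)) p))
      = G.ext2 i fun y => amJ ((G.fr i).J y) (d1 (grad (G.fr i) t x) y) := by
    funext p; exact am_ext2 i _ p
  have hAm : G.Am fun p => am (G.ext2 i (d1 (grad (G.fr i) t x)) p) := by
    rw [← hD]; exact Am.of_am hS1.Z.smooth hS1.Z.alt
  have hsm : ContDiff ℝ ∞ fun y => amJ ((G.fr i).J y) (d1 (grad (G.fr i) t x) y) :=
    contDiff_iff_contDiffAt.mpr fun y =>
      R240.ContDiffAt.amJ hdsm.contDiffAt (G.fr i).J_smooth.contDiffAt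
  have h3 := hdom i t ⟨htp, ht2⟩ x (by linarith) _ hsm
    (fun y hy => by rw [hd0 y hy]; exact (amL _).map_zero) (Ct * t) (by positivity) hj
  rw [← h2] at h3
  have h4 := hb t ⟨ht.1, ht1⟩ _ _ hAm (by positivity) h3
  have h5 : Tl (G.fr i) (G.nuc i ν) (d1 (grad (G.fr i) t x))
      = -ψ.N fun p => am (G.ext2 i (d1 (grad (G.fr i) t x)) p) := by linarith
  rw [h5, abs_neg]
  refine h4.trans (le_of_eq ?_)
  ring

/-- the self-improving estimate in one chart -/
theorem mass_step (hν : ∀ᵐ z ∂ν, ‖z.2‖ = 1) (ψ : G.Cur)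
    (hN : ∀ η, G.Z η → Tm ν η + ψ.N (fun p => am (η p)) = 0) {ε0 : ℝ} (hε0 : 0 < ε0)
    (i : Fin G.n) : ∃ C : ℝ, 0 ≤ C ∧ ∀ ε a m, 0 < ε → 0 ≤ a → 0 ≤ m → ψ.Bd ε0 ε a →
      Mass ν.fst ε m → ∀ p ∈ G.K i 1, ∀ r, ε ≤ r →
        ν.fst.real (closedBall p r) ≤ (C * (1 + a) + m / 2) * r ^ 2 := by
  obtain ⟨B, rB, hB, hrB, hTl⟩ := Tl_grad_le hν ψ hN hε0 i
  obtain ⟨L, rL, hL, hrL, hball⟩ := nuc_ball G
  obtain ⟨c', Cb, hc', hCb, hθ'⟩ := theta_bounds (G.fr i)
  obtain ⟨Cm, hCm, hmono⟩ := theta_mono (G.fr i)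
  -- make the lower constant at most one
  set c := min c' 1 with hc
  have hcp : 0 < c := by positivity
  have hc1 : c ≤ 1 := min_le_right _ _
  have hθ : ∀ t, 0 < t → ∀ x, c * t⁻¹ ^ 2 * (G.nuc i ν).fst.real (closedBall x (c * t))
      ≤ Theta (G.fr i) (G.nuc i ν).fst t x := fun t ht x => by
    refine le_trans ?_ (hθ' _ t ht x).1
    have h1 : c ≤ c' := min_le_left _ _
    gcongr
    exact measure_ne_top _ _
  set A := L ^ 2 / c ^ 3 with hA
  have hAp : 0 < A := by positivity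
  set D := Cm * (L * Cm) ^ 2 with hD
  have hDp : 0 < D := by positivity
  set R := min (min rB 1) (1 / (2 * A * D)) with hR
  have hRp : 0 < R := by positivity
  have hR1 : R ≤ rB := (min_le_left _ _).trans (min_le_left _ _)
  have hR2 : R ≤ 1 := (min_le_left _ _).trans (min_le_right _ _)
  have hR3 : A * D * R ≤ 1 / 2 := by
    have : R ≤ 1 / (2 * A * D) := min_le_right _ _
    rw [le_div_iff₀ (by positivity)] at this
    linarith
  set r1 := min rL (R * c / L) with hr1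
  have hr1p : 0 < r1 := by positivity
  set Mt := ν.fst.real univ with hMt
  have hMt0 : 0 ≤ Mt := measureReal_nonneg
  set Mi := (G.nuc i ν).fst.real univ with hMi
  have hMi0 : 0 ≤ Mi := measureReal_nonneg
  refine ⟨Mt * r1⁻¹ ^ 2 + A * (Cb * R⁻¹ ^ 2 * Mi) + A * B, by positivity,
    fun ε a m hε ha hm hb hmass p hp r hr => ?_⟩
  have hrp : 0 < r := hε.trans_le hr
  have hK1 : 0 ≤ Mt * r1⁻¹ ^ 2 := by positivity
  have hK2 : 0 ≤ A * (Cb * R⁻¹ ^ 2 * Mi) := by positivity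
  have hK3 : 0 ≤ A * B := by positivity
  by_cases hbig : r1 ≤ r
  · have h1 : ν.fst.real (closedBall p r) ≤ Mt := measureReal_mono (subset_univ _)
    have h2 : Mt ≤ Mt * r1⁻¹ ^ 2 * r ^ 2 := by
      have h3 : 1 ≤ r1⁻¹ * r := by rw [inv_mul_eq_div, one_le_div hr1p]; exact hbig
      have h4 : 1 ≤ (r1⁻¹ * r) ^ 2 := one_le_pow₀ h3
      nlinarith
    refine h1.trans (h2.trans (mul_le_mul_of_nonneg_right ?_ (sq_nonneg r)))
    nlinarith [mul_nonneg hK1 ha, mul_nonneg hK2 ha, mul_nonneg hK3 ha]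
  push Not at hbig
  have hp2 : p ∈ G.K i 2 := K_mono i (by norm_num) hp
  obtain ⟨hb1, hb2⟩ := hball ν i p hp2
  set t := L * r / c with ht
  have htp : 0 < t := by positivity
  have hct : c * t = L * r := by rw [ht]; field_simp
  have hrt : r ≤ t := by
    rw [ht, le_div_iff₀ hcp]; nlinarith
  have htR : t ≤ R := by
    have h1 : r ≤ R * c / L := hbig.le.trans (min_le_right _ _)
    rw [le_div_iff₀ (by linarith)] at h1
    rw [ht, div_le_iff₀ hcp]
    linarith
  have h1 := hb2 r hrp.le (hbig.le.trans (min_le_left _ _))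
  have h2 := hθ t htp (G.κ i p)
  rw [hct] at h2
  have h3 := hmono (G.nuc i ν) (nuc_unit hν i) (G.κ i p) (by linarith [hp.2]) t R (B * a)
    (m * (L * Cm) ^ 2) htp htR hR2 fun s hs => by
      have hsp : 0 < s := htp.trans_le hs.1
      refine ⟨hTl ε a hε ha hb s ⟨(hr.trans hrt).trans hs.1, hs.2.trans hR1⟩ _ hp.2, ?_⟩
      refine (hb1 _ (by positivity)).trans ?_
      have h4 : s ≤ L * (Cm * s) := by nlinarith [mul_le_mul hL hCm zero_le_one (by linarith)]
      refine (hmass p _ (by positivity) (((hr.trans hrt).trans hs.1).trans h4)).trans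
        (le_of_eq ?_)
      ring
  have h4 : Theta (G.fr i) (G.nuc i ν).fst R (G.κ i p) ≤ Cb * R⁻¹ ^ 2 * Mi := by
    refine (hθ' _ R hRp _).2.trans ?_
    exact mul_le_mul_of_nonneg_left (measureReal_mono (subset_univ _)) (by positivity)
  have h5 : (B * a + Cm * (m * (L * Cm) ^ 2)) * (R - t) ≤ B * a + D * m * R := by
    have h6 : 0 ≤ B * a := by positivity
    have h7 : 0 ≤ D * m := by positivity
    have h8 : Cm * (m * (L * Cm) ^ 2) = D * m := by rw [hD]; ring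
    rw [h8]
    nlinarith [mul_nonneg h6 htp.le, mul_nonneg h7 htp.le]
  have h6 : ν.fst.real (closedBall p r)
      ≤ A * r ^ 2 * Theta (G.fr i) (G.nuc i ν).fst t (G.κ i p) := by
    refine h1.trans ?_
    have h7 : A * r ^ 2 * (c * t⁻¹ ^ 2) = 1 := by
      rw [hA, ht]; field_simp
    calc _ = A * r ^ 2 * (c * t⁻¹ ^ 2 * (G.nuc i ν).fst.real (closedBall (G.κ i p) (L * r))) := by
          rw [← mul_assoc, h7, one_mul]
      _ ≤ _ := mul_le_mul_of_nonneg_left h2 (by positivity)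
  have h7 : Theta (G.fr i) (G.nuc i ν).fst t (G.κ i p) ≤ Cb * R⁻¹ ^ 2 * Mi + B * a + D * m * R := by
    linarith
  refine h6.trans ?_
  rw [mul_assoc, mul_comm (r ^ 2), ← mul_assoc]
  refine mul_le_mul_of_nonneg_right ?_ (sq_nonneg r)
  have h8 := mul_le_mul_of_nonneg_left h7 hAp.le
  have h9 := mul_le_mul_of_nonneg_right hR3 hm
  nlinarith [mul_nonneg hK1 ha, mul_nonneg hK2 ha]

/-- (D4) -/
theorem mass_bound (hν : ∀ᵐ z ∂ν, ‖z.2‖ = 1) (ψ : G.Cur)
    (hN : ∀ η, G.Z η → Tm ν η + ψ.N (fun p => am (η p)) = 0) {ε0 : ℝ} (hε0 : 0 < ε0) :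
    ∃ C : ℝ, 0 ≤ C ∧ ∀ ε a, 0 < ε → 0 ≤ a → ψ.Bd ε0 ε a → Mass ν.fst ε (C * (1 + a)) := by
  choose C hC h using fun i => mass_step hν ψ hN hε0 i
  have hS : 0 ≤ ∑ i, C i := Finset.sum_nonneg fun i _ => hC i
  refine ⟨2 * ∑ i, C i, by positivity, fun ε a hε ha hb => ?_⟩
  set K := (∑ i, C i) * (1 + a) with hK
  have hK0 : 0 ≤ K := by positivity
  have step : ∀ m, 0 ≤ m → Mass ν.fst ε m → Mass ν.fst ε (K + m / 2) := by
    intro m hm hmass p r hr hεr
    refine (h (G.ch p) ε a m hε ha hm hb hmass p (G.mem_K_ch p) r hεr).trans ?_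
    have : C (G.ch p) ≤ ∑ i, C i :=
      Finset.single_le_sum (fun i _ => hC i) (Finset.mem_univ _)
    rw [hK]
    gcongr
  set m0 := ν.fst.real univ * ε⁻¹ ^ 2 with hm0
  have hm00 : 0 ≤ m0 := mul_nonneg measureReal_nonneg (by positivity)
  have key : ∀ j : ℕ, Mass ν.fst ε (2 * K + (1 / 2) ^ j * m0) := by
    intro j
    induction j with
    | zero =>
      intro p r hr hεr
      have h1 : ν.fst.real (closedBall p r) ≤ ν.fst.real univ := measureReal_mono (subset_univ _)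
      have h3 : 1 ≤ ε⁻¹ * r := by rw [inv_mul_eq_div, one_le_div hε]; exact hεr
      have h4 : 1 ≤ (ε⁻¹ * r) ^ 2 := one_le_pow₀ h3
      have h5 : 0 ≤ ν.fst.real univ := measureReal_nonneg
      have h6 : 0 ≤ K * r ^ 2 := by positivity
      rw [hm0]
      nlinarith
    | succ j ih =>
      have := step _ (by positivity) ih
      convert this using 1
      ring
  intro p r hr hεr
  have hlim : Tendsto (fun j : ℕ => (2 * K + (1 / 2) ^ j * m0) * r ^ 2) atTop
      (𝓝 ((2 * K + 0 * m0) * r ^ 2)) :=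
    (((tendsto_pow_atTop_nhds_zero_of_lt_one (by norm_num) (by norm_num)).mul_const _).const_add
      _).mul_const _
  rw [zero_mul, add_zero] at hlim
  have := ge_of_tendsto' hlim fun j => key j p r hr hεr
  rw [hK] at this
  linarith

end Geo

end Crest.Agent.R240

end
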