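import Crest.Agent.R240.CurC

/-!
# Row 240: Riesz representation
-/

set_option autoImplicit false
set_option linter.unusedSectionVars false
set_option linter.unusedVariables false

open MeasureTheory Metric Set Filter Topology
open scoped ContDiff ENNReal

noncomputable section

namespace Crest.Agent.R240

namespace RieszAux

theorem abstract {V H : Type*} [AddCommGroup V] [Module ℝ V] [NormedAddCommGroup H]
    [InnerProductSpace ℝ H] [CompleteSpace H] (ι : V →ₗ[ℝ] H) (f : V →ₗ[ℝ] ℝ) {C : ℝ}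
    (h : ∀ v, |f v| ≤ C * ‖ι v‖) :
    ∃ u : H, (∀ δ > 0, ∃ v, ‖u - ι v‖ < δ) ∧ ∀ v, f v = inner ℝ (ι v) u := by
  obtain ⟨s, hs⟩ := ι.rangeRestrict.exists_rightInverse_of_surjective ι.range_rangeRestrict
  have hs' : ∀ w : LinearMap.range ι, ι (s w) = w := fun w =>
    congrArg Subtype.val (LinearMap.congr_fun hs w)
  let f' : LinearMap.range ι →L[ℝ] ℝ := (f.comp s).mkContinuous C fun w => by
    have := h (s w)
    rw [hs'] at this
    exact this
  obtain ⟨g, hg, -⟩ := exists_extension_norm_eq (LinearMap.range ι) f'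
  have hfg : ∀ v, f v = g (ι v) := by
    intro v
    have h1 := hg ⟨ι v, LinearMap.mem_range_self ι v⟩
    have h2 := h (v - s ⟨ι v, LinearMap.mem_range_self ι v⟩)
    rw [map_sub ι, hs', sub_self, norm_zero, mul_zero, abs_nonpos_iff, map_sub, sub_eq_zero] at h2
    rw [h2]
    exact h1.symm
  let K : Submodule ℝ H := (LinearMap.range ι).topologicalClosure
  have : CompleteSpace K := (LinearMap.range ι).isClosed_topologicalClosure.completeSpace_coe
  refine ⟨K.starProjection ((InnerProductSpace.toDual ℝ H).symm g), fun δ hδ => ?_, fun v => ?_⟩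
  · have h1 : K.starProjection ((InnerProductSpace.toDual ℝ H).symm g)
        ∈ closure (LinearMap.range ι : Set H) := K.starProjection_apply_mem _
    obtain ⟨w, ⟨v, rfl⟩, hw⟩ := Metric.mem_closure_iff.1 h1 δ hδ
    exact ⟨v, by rwa [dist_eq_norm] at hw⟩
  · have h1 : ι v ∈ K := (LinearMap.range ι).le_topologicalClosure (LinearMap.mem_range_self ι v)
    rw [← K.inner_starProjection_left_eq_right, Submodule.starProjection_eq_self_iff.2 h1,
      real_inner_comm, InnerProductSpace.toDual_symm_apply, hfg]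

abbrev R2 := EuclideanSpace ℝ (Fin 2)

/-- the coordinates of an anti-invariant form -/
def c2 : Bil →L[ℝ] R2 := LinearMap.toContinuousLinearMap
  { toFun := fun β => !₂[β (e 0) (e 2), β (e 0) (e 3)]
    map_add' := by
      intro β γ
      ext a
      fin_cases a <;> simp
    map_smul' := by
      intro c β
      ext a
      fin_cases a <;> simp }

/-- the anti-invariant form with given coordinates -/
def o2 : R2 →L[ℝ] Bil := LinearMap.toContinuousLinearMap
  { toFun := fun w => w 0 • Om1 + w 1 • Om2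
    map_add' := by
      intro v w
      simp only [PiLp.add_apply, add_smul]
      abel
    map_smul' := by
      intro c w
      simp only [PiLp.smul_apply, smul_eq_mul, RingHom.id_apply, smul_add, mul_smul] }

theorem o2_apply (w : R2) : o2 w = w 0 • Om1 + w 1 • Om2 := rfl

theorem o2_c2 {β : Bil} (h : Anti J0 β) (ha : Alt β) : o2 (c2 β) = β := (h.eq_Om ha).symm

theorem norm_o2_sq (w : R2) : ‖o2 w‖ ^ 2 = ‖w‖ ^ 2 := by
  rw [o2_apply, norm_Om_sq, EuclideanSpace.real_norm_sq_eq, Fin.sum_univ_two]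

theorem wp_o2 (v w : R2) : wp (o2 v) (o2 w) = 2 * inner ℝ v w := by
  rw [o2_apply, o2_apply, wp_Om, PiLp.inner_apply, Fin.sum_univ_two]
  simp only [RCLike.inner_apply, conj_trivial]
  ring

theorem norm_sq_L2 {X : Type*} [MeasurableSpace X] {μ : Measure X} (w : Lp R2 2 μ) :
    ‖w‖ ^ 2 = ∫ p, ‖w p‖ ^ 2 ∂μ := by
  rw [← real_inner_self_eq_norm_sq, L2.inner_def]
  simp only [real_inner_self_eq_norm_sq]

end RieszAux

namespace Geo

open RieszAux

variable {M : Type*} [MetricSpace M] [CompactSpace M] [MeasurableSpace M] [BorelSpace M]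
  {G : Geo M}

theorem riesz_memLp {g : M → Bil} (hg : G.S2 g) : MemLp (fun p => c2 (g p)) 2 G.V := by
  obtain ⟨B, -, hB⟩ := hg.bdd
  have h1 : MemLp g 2 G.V :=
    MemLp.of_bound hg.measurable.aestronglyMeasurable B (Eventually.of_forall hB)
  exact c2.comp_memLp' h1

/-- smooth anti-invariant forms as elements of `L²` -/
def rieszι (G : Geo M) : G.AmS →ₗ[ℝ] Lp R2 2 G.V where
  toFun g := (riesz_memLp (Am.smooth g.2)).toLp _
  map_add' g g' := by
    rw [← MemLp.toLp_add]
    congr 1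
    funext p
    exact map_add c2 _ _
  map_smul' c g := by
    rw [RingHom.id_apply, ← MemLp.toLp_const_smul]
    congr 1
    funext p
    exact map_smul c2 _ _

theorem rieszι_ae (g : G.AmS) : G.rieszι g =ᵐ[G.V] fun p => c2 (g.1 p) :=
  (riesz_memLp (Am.smooth g.2)).coeFn_toLp

theorem rieszι_norm (g : G.AmS) : ‖G.rieszι g‖ = √(G.n2 g.1) := by
  rw [← Real.sqrt_sq (norm_nonneg (G.rieszι g)), norm_sq_L2, n2]
  congr 1
  refine integral_congr_ae ?_
  filter_upwards [rieszι_ae g] with p hp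
  rw [hp, ← norm_o2_sq, o2_c2 (Am.anti g.2 p) (Am.alt g.2 p)]

/-- (D6) Riesz representation -/
theorem riesz (ψ : G.Cur) {C : ℝ} (h : ∀ g, G.Am g → |ψ.N g| ≤ C * √(G.n2 g)) :
    ∃ Φ, G.L2Am Φ ∧ ∀ g, G.Am g → ψ.N g = ∫ p, wp (g p) (Φ p) ∂G.V := by
  let f : G.AmS →ₗ[ℝ] ℝ :=
    { toFun := fun g => ψ.N g.1
      map_add' := fun g g' => ψ.add _ _ (Am.smooth g.2) (Am.smooth g'.2)
      map_smul' := fun c g => ψ.smul c _ (Am.smooth g.2) }
  obtain ⟨u, hu1, hu2⟩ := abstract G.rieszι f (C := C) fun g => by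
    rw [rieszι_norm]
    exact h g.1 g.2
  refine ⟨fun p => o2 ((1 / 2 : ℝ) • u p), ⟨?_, ?_, ?_, ?_, ?_⟩, fun g hg => ?_⟩
  · exact o2.continuous.measurable.comp ((Lp.stronglyMeasurable u).const_smul (1 / 2 : ℝ)).measurable
  · exact o2.comp_memLp' ((Lp.memLp u).const_smul (1 / 2 : ℝ))
  · exact fun p => (Om_spec _ _).1
  · exact fun p => (Om_spec _ _).2
  · intro δ hδ
    obtain ⟨g, hg⟩ := hu1 (√δ) (Real.sqrt_pos.2 hδ)
    refine ⟨(1 / 2 : ℝ) • g.1, Am.smul g.2 _, ?_⟩
    have h1 : ‖u - G.rieszι g‖ ^ 2 ≤ δ := by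
      rw [← Real.sq_sqrt hδ.le]
      gcongr
    have h2 : ∫ p, ‖o2 ((1 / 2 : ℝ) • u p) - ((1 / 2 : ℝ) • g.1) p‖ ^ 2 ∂G.V
        = ∫ p, (1 / 4 : ℝ) * ‖(u - G.rieszι g) p‖ ^ 2 ∂G.V := by
      refine integral_congr_ae ?_
      filter_upwards [rieszι_ae g, Lp.coeFn_sub u (G.rieszι g)] with p hp hp'
      rw [hp', Pi.sub_apply, hp, Pi.smul_apply, ← o2_c2 (Am.anti g.2 p) (Am.alt g.2 p),
        ← map_smul, ← map_sub, norm_o2_sq, ← smul_sub, norm_smul, o2_c2 (Am.anti g.2 p) (Am.alt g.2 p)]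
      rw [mul_pow]
      norm_num
    rw [h2, integral_const_mul, ← norm_sq_L2]
    linarith
  · have h1 := hu2 ⟨g, hg⟩
    rw [L2.inner_def] at h1
    refine h1.trans (integral_congr_ae ?_)
    filter_upwards [rieszι_ae (G := G) ⟨g, hg⟩] with p hp
    rw [hp]
    conv_rhs => rw [← o2_c2 (hg.anti p) (hg.alt p), wp_o2, inner_smul_right]
    ring

end Geo

end Crest.Agent.R240

end
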