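import Crest.Agent.R240.Energy
import Crest.Agent.R240.Mass
import Crest.Agent.R240.Riesz

/-!
# Row 240: the anti-invariant part is square integrable
-/

set_option autoImplicit false
set_option linter.unusedSectionVars false
set_option linter.unusedVariables false

open MeasureTheory Metric Set Filter Topology
open scoped ContDiff ENNReal

noncomputable section

namespace Crest.Agent.R240

namespace Geo

variable {M : Type*} [MetricSpace M] [CompactSpace M] [MeasurableSpace M] [BorelSpace M]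
  {G : Geo M}

variable {ν : Measure (M × E)} [IsFiniteMeasure ν]

theorem Cur.Bd.mono {ψ : G.Cur} {ε0 ε ε' a a' : ℝ} (h : ψ.Bd ε0 ε a) (hε : ε ≤ ε') (ha : a ≤ a') :
    ψ.Bd ε0 ε' a' := fun t ht g c hg hc hd =>
  (h t ⟨hε.trans ht.1, ht.2⟩ g c hg hc hd).trans (mul_le_mul_of_nonneg_right ha hc)

theorem bd_of_trivial (ψ : G.Cur) {ε0 : ℝ} (h1 : ε0 ≤ 1) : ∃ C : ℝ, 0 ≤ C ∧ ∀ ε, 0 < ε →
    ψ.Bd ε0 ε (C * ε⁻¹ ^ 3) := by
  obtain ⟨C, hC, h⟩ := ψ.bd_trivial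
  refine ⟨C, hC, fun ε hε t ht g c hg hc hd => ?_⟩
  have ht0 : 0 < t := hε.trans_le ht.1
  refine (h t ⟨ht0, ht.2.trans h1⟩ g c hg.smooth hc hd).trans ?_
  have : t⁻¹ ≤ ε⁻¹ := inv_anti₀ hε ht.1
  gcongr

/-- the elementary inequality behind the iteration -/
theorem sqrt_energy_le {C Cm δ : ℝ} (hC : 0 ≤ C) (hCm : 0 ≤ Cm) (hδ : 0 < δ) :
    ∃ K : ℝ, 0 ≤ K ∧ ∀ t a x : ℝ, 0 ≤ t → 0 ≤ a →
      x ≤ C * (t ^ 2 * a ^ 2 + √(Cm * (1 + a)) * a + Cm * (1 + a)) →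
        √x ≤ (√C * t + δ) * a + K := by
  -- `√(Cm (1+a)) ≤ η (1+a) + Cm/η`
  set η := δ ^ 2 / (4 * (C + 1)) with hη
  have hη0 : 0 < η := by positivity
  set B := C * (η + Cm / η + Cm) with hB
  have hB0 : 0 ≤ B := by positivity
  refine ⟨B / δ + √(C * Cm), by positivity, fun t a x ht ha hx => ?_⟩
  have h1 : √(Cm * (1 + a)) ≤ η * (1 + a) + Cm / η := by
    refine Real.sqrt_le_iff.mpr ⟨by positivity, ?_⟩
    have : η * (1 + a) * (Cm / η) = Cm * (1 + a) := by field_simp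
    nlinarith [sq_nonneg (η * (1 + a)), sq_nonneg (Cm / η), mul_nonneg hCm (by linarith : 0 ≤ 1 + a)]
  have h2 : C * η ≤ δ ^ 2 / 4 := by
    rw [hη, mul_div_assoc', div_le_div_iff₀ (by positivity) (by positivity)]
    nlinarith [sq_nonneg δ]
  have h3 : x ≤ C * t ^ 2 * a ^ 2 + δ ^ 2 / 4 * a ^ 2 + B * a + C * Cm := by
    have h4 : √(Cm * (1 + a)) * a ≤ (η * (1 + a) + Cm / η) * a :=
      mul_le_mul_of_nonneg_right h1 ha
    have h5 : C * η * a ^ 2 ≤ δ ^ 2 / 4 * a ^ 2 := mul_le_mul_of_nonneg_right h2 (sq_nonneg a)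
    have h6 := mul_le_mul_of_nonneg_left h4 hC
    rw [hB]
    nlinarith
  refine Real.sqrt_le_iff.mpr ⟨by positivity, h3.trans ?_⟩
  have s1 : √C ^ 2 = C := Real.sq_sqrt hC
  have s2 : √(C * Cm) ^ 2 = C * Cm := Real.sq_sqrt (by positivity)
  have s3 : δ * (B / δ) = B := by field_simp
  have p1 : 0 ≤ √C * t := by positivity
  have p2 : 0 ≤ √(C * Cm) := Real.sqrt_nonneg _
  have p3 : 0 ≤ B / δ := by positivity
  have e : ((√C * t + δ) * a + (B / δ + √(C * Cm))) ^ 2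
      = √C ^ 2 * t ^ 2 * a ^ 2 + 2 * (√C * t) * δ * a ^ 2 + δ ^ 2 * a ^ 2
        + 2 * (√C * t) * a * (B / δ + √(C * Cm)) + 2 * (δ * (B / δ)) * a
        + 2 * δ * a * √(C * Cm) + (B / δ) ^ 2 + 2 * (B / δ) * √(C * Cm) + √(C * Cm) ^ 2 := by ring
  rw [e, s1, s2, s3]
  have q1 : 0 ≤ 2 * (√C * t) * δ * a ^ 2 := by positivity
  have q2 : 0 ≤ 2 * (√C * t) * a * (B / δ + √(C * Cm)) := by positivity
  have q3 : 0 ≤ 2 * δ * a * √(C * Cm) := by positivity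
  have q4 : 0 ≤ 2 * (B / δ) * √(C * Cm) := by positivity
  have q5 : 0 ≤ δ ^ 2 * a ^ 2 := by positivity
  have q6 : 0 ≤ B * a := by positivity
  nlinarith [sq_nonneg (B / δ)]

/-- one step of the Tauberian iteration -/
theorem bd_step (Kr : G.Ker) (hν : ∀ᵐ z ∂ν, ‖z.2‖ = 1) (ψ : G.Cur)
    (hN : ∀ η, G.Z η → Tm ν η + ψ.N (fun p => am (η p)) = 0) :
    ∃ κ C1 : ℝ, 0 < κ ∧ κ ≤ 1 ∧ 0 ≤ C1 ∧ ∀ ε a, 0 < ε → 0 ≤ a → ψ.Bd Kr.ε0 (κ * ε) a →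
      ψ.Bd Kr.ε0 ε (C1 + κ ^ 3 / 2 * a) := by
  obtain ⟨Ct, κ0, hCt, hκ0, hκ01, htau⟩ := Kr.tauber
  obtain ⟨Ce, hCe, hen⟩ := energy_estimate Kr hν ψ hN
  obtain ⟨Cm, hCm, hmass⟩ := mass_bound hν ψ hN Kr.ε0_pos
  obtain ⟨C0, hC0, htriv⟩ := bd_of_trivial ψ Kr.ε0_le
  set κ := min κ0 (1 / (4 * (Ct + 1))) with hκ
  have hκp : 0 < κ := by positivity
  have hκ1 : κ ≤ 1 := (min_le_left _ _).trans hκ01
  have hκ2 : Ct * κ ≤ 1 / 4 := by
    have h1 : κ ≤ 1 / (4 * (Ct + 1)) := min_le_right _ _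
    rw [le_div_iff₀ (by positivity)] at h1
    nlinarith
  set δ := κ ^ 3 / (8 * (24 * Ct + 1)) with hδ
  have hδp : 0 < δ := by positivity
  obtain ⟨K, hK, hsq⟩ := sqrt_energy_le hCe hCm hδp
  set ε1 := δ / (√Ce + 1) with hε1
  have hε1p : 0 < ε1 := by positivity
  refine ⟨κ, C0 * ε1⁻¹ ^ 3 + 24 * Ct * K, hκp, hκ1, by positivity,
    fun ε a hε ha hb ε' hε' g c hg hc hd => ?_⟩
  have hε'p : 0 < ε' := hε.trans_le hε'.1
  by_cases hbig : ε1 ≤ ε'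
  · refine (htriv ε1 hε1p ε' ⟨hbig, hε'.2⟩ g c hg hc hd).trans ?_
    refine mul_le_mul_of_nonneg_right ?_ hc
    have : 0 ≤ 24 * Ct * K + κ ^ 3 / 2 * a := by positivity
    linarith
  push Not at hbig
  set t := κ * ε' with ht
  have htp : 0 < t := by positivity
  have htε : t ≤ ε' := by rw [ht]; nlinarith
  have ht0 : t ≤ Kr.ε0 := htε.trans hε'.2
  have hbt : ψ.Bd Kr.ε0 t a :=
    hb.mono (mul_le_mul_of_nonneg_left hε'.1 hκp.le) le_rfl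
  have hb1 := hsq t a _ htp.le ha
    (hen t ⟨htp, ht0⟩ a _ ha (by positivity) hbt (hmass t a htp ha hbt))
  have hb2 : √Ce * t ≤ δ := by
    have h1 : ε1 * (√Ce + 1) = δ := by rw [hε1]; field_simp
    have h2 : 0 ≤ √Ce := Real.sqrt_nonneg _
    nlinarith
  set b := √(G.n2 fun q => am (ψ.amC.R (ktr (Kr.k t)) q)) with hbdef
  have hb3 : b ≤ 2 * δ * a + K := hb1.trans (by nlinarith)
  have hb0 : 0 ≤ b := Real.sqrt_nonneg _
  obtain ⟨hl, hdom⟩ := htau κ ⟨hκp, min_le_left _ _⟩ ε' ⟨hε'p, hε'.2⟩ g c hg hc hd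
  set P : (M → Bil) → M → Bil := fun u => u - Kr.Q t u with hP
  have hstep : ∀ l ≤ 4, |ψ.N g| ≤ l * (6 * b * (Ct * c)) + |ψ.N (P^[l] g)| := by
    intro l
    induction l with
    | zero => intro _; simp
    | succ l ih =>
      intro hl4
      have h1 := ih (by omega)
      obtain ⟨h2, h3⟩ := hl l (by omega)
      have h4 : ψ.N (P^[l + 1] g) = ψ.N (P^[l] g) - ψ.N (Kr.Q t (P^[l] g)) := by
        rw [Function.iterate_succ_apply']
        exact ψ.map_sub h2.smooth (Kr.Q_am t h2.smooth).smooth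
      have h5 := abs_N_Q_le Kr ψ t h2
      have h6 : 6 * b * √(G.n2 (P^[l] g)) ≤ 6 * b * (Ct * c) :=
        mul_le_mul_of_nonneg_left h3 (by positivity)
      have h7 : |ψ.N (P^[l] g)| ≤ |ψ.N (P^[l + 1] g)| + |ψ.N (Kr.Q t (P^[l] g))| := by
        rw [h4]
        calc _ = |ψ.N (P^[l] g) - ψ.N (Kr.Q t (P^[l] g)) + ψ.N (Kr.Q t (P^[l] g))| := by
              rw [sub_add_cancel]
          _ ≤ _ := abs_add_le _ _
      push_cast
      linarith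
  have h1 := hstep 4 le_rfl
  have h2 := hbt t ⟨le_rfl, ht0⟩ _ _ (hl 4 le_rfl).1 (by positivity) hdom
  have h3 : 24 * Ct * (2 * δ) ≤ κ ^ 3 / 4 := by
    rw [hδ, ← mul_div_assoc, ← mul_div_assoc, div_le_div_iff₀ (by positivity) (by positivity)]
    nlinarith [pow_pos hκp 3]
  have h4 : Ct * κ ^ 4 ≤ κ ^ 3 / 4 := by nlinarith [pow_pos hκp 3]
  have h5 : 24 * Ct * c * b ≤ 24 * Ct * c * (2 * δ * a + K) :=
    mul_le_mul_of_nonneg_left hb3 (by positivity)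
  have h6 := mul_le_mul_of_nonneg_right h3 (mul_nonneg ha hc)
  have h7 := mul_le_mul_of_nonneg_right h4 (mul_nonneg ha hc)
  have h8 : 0 ≤ C0 * ε1⁻¹ ^ 3 * c := by positivity
  push_cast at h1
  nlinarith

/-- (D5) -/
theorem exists_bd (Kr : G.Ker) (hν : ∀ᵐ z ∂ν, ‖z.2‖ = 1) (ψ : G.Cur)
    (hN : ∀ η, G.Z η → Tm ν η + ψ.N (fun p => am (η p)) = 0) :
    ∃ a, 0 ≤ a ∧ ∀ ε, 0 < ε → ψ.Bd Kr.ε0 ε a := by
  obtain ⟨κ, C1, hκ, hκ1, hC1, hstep⟩ := bd_step Kr hν ψ hN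
  obtain ⟨C0, hC0, htriv⟩ := bd_of_trivial ψ Kr.ε0_le
  have key : ∀ j : ℕ, ∀ ε, 0 < ε → ψ.Bd Kr.ε0 ε (2 * C1 + (1 / 2) ^ j * (C0 * ε⁻¹ ^ 3)) := by
    intro j
    induction j with
    | zero => intro ε hε; exact (htriv ε hε).mono le_rfl (by simp; linarith)
    | succ j ih =>
      intro ε hε
      refine (hstep ε _ hε (by positivity) (ih (κ * ε) (by positivity))).mono le_rfl ?_
      have h1 : κ ^ 3 / 2 * ((1 / 2) ^ j * (C0 * (κ * ε)⁻¹ ^ 3))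
          = (1 / 2) ^ (j + 1) * (C0 * ε⁻¹ ^ 3) := by
        field_simp
        ring
      have h2 : κ ^ 3 ≤ 1 := pow_le_one₀ hκ.le hκ1
      rw [mul_add, h1]
      nlinarith
  refine ⟨2 * C1, by positivity, fun ε hε t ht g c hg hc hd => ?_⟩
  have hlim : Tendsto (fun j : ℕ => (2 * C1 + (1 / 2) ^ j * (C0 * ε⁻¹ ^ 3)) * c) atTop
      (𝓝 ((2 * C1 + 0 * (C0 * ε⁻¹ ^ 3)) * c)) :=
    (((tendsto_pow_atTop_nhds_zero_of_lt_one (by norm_num) (by norm_num)).mul_const _).const_add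
      _).mul_const _
  rw [zero_mul, add_zero] at hlim
  exact ge_of_tendsto' hlim fun j => key j ε hε t ht g c hg hc hd

/-- (D) -/
theorem exists_L2 (Kr : G.Ker) (hν : ∀ᵐ z ∂ν, ‖z.2‖ = 1) (ψ : G.Cur)
    (hN : ∀ η, G.Z η → Tm ν η + ψ.N (fun p => am (η p)) = 0) :
    ∃ Φ m, G.L2Am Φ ∧ 0 ≤ m ∧ Mass ν.fst 0 m ∧
      ∀ η, G.Z η → Tm ν η + ∫ p, wp (η p) (Φ p) ∂G.V = 0 := by
  obtain ⟨a, ha, hb⟩ := exists_bd Kr hν ψ hN
  obtain ⟨Cd, hCd, hdom⟩ := dom_small G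
  obtain ⟨Cm, hCm, hmass⟩ := mass_bound hν ψ hN Kr.ε0_pos
  have hL2 : ∀ g, G.Am g → |ψ.N g| ≤ a * Cd * √(G.n2 g) := by
    intro g hg
    refine le_of_forall_pos_le_add fun δ hδ => ?_
    have hδ' : 0 < δ / (a + 1) := by positivity
    obtain ⟨ε, hε, hε'⟩ := ((hdom g hg.smooth _ hδ').and (Ioc_mem_nhdsGT Kr.ε0_pos)).exists
    have h1 := hb ε hε'.1 ε ⟨le_rfl, hε'.2⟩ g _ hg (by positivity) hε
    have h2 : a * (δ / (a + 1)) ≤ δ := by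
      rw [← mul_div_assoc, div_le_iff₀ (by positivity)]
      nlinarith
    nlinarith
  obtain ⟨Φ, hΦ, hrep⟩ := riesz ψ hL2
  refine ⟨Φ, Cm * (1 + a), hΦ, by positivity, fun x r hr _ => hmass r a hr ha (hb r hr) x r hr le_rfl,
    fun η hη => ?_⟩
  rw [← hN η hη, hrep _ (Am.of_am hη.smooth hη.alt)]
  congr 1
  refine integral_congr_ae (Eventually.of_forall fun p => ?_)
  exact (wp_am_left (hη.alt p) (hΦ.alt p) (hΦ.anti p)).symm

end Geo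

end Crest.Agent.R240

end
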