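import Crest.Agent.R240.KerA
import Crest.Agent.R240.OpL

/-!
# Row 240: blow-up of the kernel
-/

set_option autoImplicit false
set_option linter.unusedSectionVars false
set_option linter.unusedVariables false

open MeasureTheory Metric Set Filter Topology
open scoped ContDiff ENNReal

noncomputable section

namespace Crest.Agent.R240

namespace Geo

variable {M : Type*} [MetricSpace M] [CompactSpace M] [MeasurableSpace M] [BorelSpace M]
  {G : Geo M}

theorem SK.contDiff_cut {k : M → M → Quad} (hk : G.SK k) (i : Fin G.n) :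
    ContDiff ℝ ∞ fun z : E × E => (bump z.1 * bump z.2) • G.locQ i i k z := by
  have hb : ContDiff ℝ ∞ fun z : E × E => bump z.1 * bump z.2 :=
    (bump.contDiff.comp contDiff_fst).mul (bump.contDiff.comp contDiff_snd)
  have h0 : ∀ z : E × E, z ∉ closedBall (0 : E) (11 / 4) ×ˢ closedBall (0 : E) (11 / 4) →
      (bump z.1 * bump z.2) • G.locQ i i k z = 0 := by
    intro z hz
    rw [mem_prod, not_and_or, mem_closedBall_zero_iff, mem_closedBall_zero_iff] at hz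
    rcases hz with h | h
    · rw [bump_zero (not_le.1 h).le, zero_mul, zero_smul]
    · rw [bump_zero (not_le.1 h).le, mul_zero, zero_smul]
  have hs : closedBall (0 : E) (11 / 4) ×ˢ closedBall (0 : E) (11 / 4) ⊆ ball 0 3 ×ˢ ball 0 3 :=
    prod_mono (closedBall_subset_ball (by norm_num)) (closedBall_subset_ball (by norm_num))
  have h := contDiff_indicator_ball (isOpen_ball.prod isOpen_ball)
    (isClosed_closedBall.prod isClosed_closedBall) hs (hb.contDiffOn.smul (hk i i))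
    (fun z _ hz => h0 z hz)
  convert h using 1
  funext z
  by_cases hz : z ∈ ball (0 : E) 3 ×ˢ ball (0 : E) 3
  · rw [indicator_of_mem hz]; rfl
  · rw [indicator_of_notMem hz, h0 z fun h => hz (hs h)]

theorem Conn.exists_ft (c : G.Conn) (i : Fin G.n) : ∃ g : E × E × ℝ → E, ContDiff ℝ ∞ g ∧
    (∀ x w t, c.f i (x, x + t • w) = t • g (x, w, t)) ∧
    ∀ x ∈ ball (0 : E) (5 / 2), ∀ w, g (x, w, 0) = -(G.fr i).A x w := by
  have hφ : ContDiff ℝ ∞ fun z : (E × E) × ℝ => (z.1.1, z.1.1 + z.2 • z.1.2) := by fun_prop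
  obtain ⟨g, hg, h1, h2, -⟩ := hadamard ((c.f_smooth i).comp hφ)
  refine ⟨fun z => g ((z.1, z.2.1), z.2.2), hg.comp (by fun_prop), fun x w t => ?_,
    fun x hx w => ?_⟩
  · have h := h1 (x, w) t
    simpa [c.f_diag] using h
  · have ha : HasDerivAt (fun t : ℝ => (((x, w), t) : (E × E) × ℝ)) (0, 1) 0 :=
      (hasDerivAt_const _ _).prodMk (hasDerivAt_id _)
    have hb := (((c.f_smooth i).comp hφ).differentiable (by simp)
      ((x, w), 0)).hasFDerivAt.comp_hasDerivAt (0 : ℝ) ha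
    have hc : HasDerivAt (fun t : ℝ => ((x, x + t • w) : E × E)) (0, w) 0 := by
      simpa using (hasDerivAt_const (0 : ℝ) x).prodMk
        (((hasDerivAt_id (0 : ℝ)).smul_const w).const_add x)
    have hd : HasFDerivAt (c.f i) (fderiv ℝ (c.f i) (x, x)) (x, x + (0 : ℝ) • w) := by
      rw [zero_smul, add_zero]
      exact ((c.f_smooth i).differentiable (by simp) _).hasFDerivAt
    have hd' := hd.comp_hasDerivAt (0 : ℝ) hc
    have he := hb.unique hd'
    show g ((x, w), 0) = _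
    rw [h2, he, ← c.Qf_diag i hx w]
    rfl

theorem exists_A'_bound (G : Geo M) : ∃ B : ℝ, 0 < B ∧ ∀ i x w, ‖w‖ ≤ B * ‖(G.fr i).A x w‖ := by
  choose C hC using fun i => (G.fr i).bdd
  have h0 : ∀ i, 0 ≤ C i := fun i => (norm_nonneg _).trans (hC i 0).1
  refine ⟨1 + ∑ i, C i, by have := Finset.sum_nonneg fun i (_ : i ∈ Finset.univ) => h0 i; linarith,
    fun i x w => ?_⟩
  have h1 : C i ≤ ∑ i, C i := Finset.single_le_sum (fun i _ => h0 i) (Finset.mem_univ i)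
  calc ‖w‖ = ‖(G.fr i).A' x ((G.fr i).A x w)‖ := by rw [(G.fr i).mul']
    _ ≤ ‖(G.fr i).A' x‖ * ‖(G.fr i).A x w‖ := ContinuousLinearMap.le_opNorm _ _
    _ ≤ _ := mul_le_mul_of_nonneg_right (by linarith [(hC i x).2]) (norm_nonneg _)

/-- the kernel vanishes off a neighbourhood of size `R ε` of the diagonal -/
theorem Conn.locQ_far (c : G.Conn) : ∃ ε1 > 0, ∃ R > 0, ∀ ε ∈ Ioc (0 : ℝ) ε1, ∀ i,
    ∀ x ∈ closedBall (0 : E) 2, ∀ y ∈ ball (0 : E) 3, R * ε < ‖y - x‖ →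
      G.locQ i i (c.k ε) (x, y) = 0 := by
  obtain ⟨C, hC, hk⟩ := c.k_supp
  obtain ⟨L, hL, hl⟩ := G.exists_lip
  obtain ⟨δ, hδ, hn⟩ := G.near_K (r := 2) (r' := 5 / 2) (by norm_num) (by norm_num)
  refine ⟨δ / C, by positivity, L * C, by positivity, fun ε hε i x hx y hy hR => ?_⟩
  have hx' : ‖x‖ ≤ 2 := mem_closedBall_zero_iff.1 hx
  have hx3 : x ∈ ball (0 : E) 3 := mem_ball_zero_iff.2 (by linarith)
  have h0 : c.k ε ((G.κ i).symm x) ((G.κ i).symm y) = 0 := by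
    refine hk ε hε.1 _ _ (not_le.1 fun hd => ?_)
    have h1 : C * ε ≤ δ := by
      have := hε.2
      rwa [le_div_iff₀ (by positivity), mul_comm] at this
    have hp : (G.κ i).symm x ∈ G.K i 2 := symm_mem_K (by norm_num) hx'
    have h2 := (hl i _ (K_mono i (by norm_num) hp) _ (hn i _ hp _ (hd.trans h1))).2
    rw [map_symm hx3, map_symm hy, norm_sub_rev] at h2
    have h3 : L * dist ((G.κ i).symm x) ((G.κ i).symm y) ≤ L * (C * ε) :=
      mul_le_mul_of_nonneg_left hd (by linarith)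
    linarith [mul_assoc L C ε]
  show pbQL _ _ (c.k ε ((G.κ i).symm x) ((G.κ i).symm y)) = 0
  rw [h0, map_zero]

theorem Conn.locQ_near (c : G.Conn) (ε : ℝ) (i : Fin G.n) {x y : E} (hx : ‖x‖ ≤ 12 / 5)
    (hy : ‖y‖ ≤ 12 / 5) : G.locQ i i (c.k ε) (x, y)
      = (ε⁻¹ ^ 4 * ap (‖c.f i (x, y)‖ ^ 2 / ε ^ 2)) • G.locQ i i c.Vh (x, y)
        + (ε⁻¹ ^ 2 * bp (‖c.f i (x, y)‖ ^ 2 / ε ^ 2)) • G.locQ i i c.Wh (x, y) := by
  have h := c.norm_f i (symm_mem_K (i := i) (by norm_num) hx) (symm_mem_K (i := i) (by norm_num) hy)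
  rw [map_symm (mem_ball_zero_iff.2 (by linarith)), map_symm (mem_ball_zero_iff.2 (by linarith))]
    at h
  show pbQL _ _ (c.k ε ((G.κ i).symm x) ((G.κ i).symm y)) = _
  rw [c.k_eq, map_add, map_smul, map_smul, h]
  rfl

theorem Conn.locQ_Vh_diag (c : G.Conn) (i : Fin G.n) {x : E} (hx : x ∈ ball (0 : E) 3) :
    G.locQ i i c.Vh (x, x) = pbQ vol ((G.fr i).A x) ((G.fr i).A x) := by
  show pbQ (c.Vh ((G.κ i).symm x) ((G.κ i).symm x)) _ _ = _
  rw [c.Vh_diag, pbQ_vol, pbQ_vol, det_T (symm_mem hx), map_symm hx]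

/-- (C5) -/
theorem Conn.k_blow (c : G.Conn) : ∃ ε1 > 0, ∃ (C : ℝ) (Kb : Fin G.n → E × E × ℝ → Quad),
    (∀ i, IsK C (Kb i)) ∧
    (∀ ε ∈ Ioc (0 : ℝ) ε1, ∀ i, ∀ x ∈ closedBall (0 : E) 2, ∀ y ∈ ball (0 : E) 3,
      G.locQ i i (c.k ε) (x, y) = ε⁻¹ ^ 4 • Kb i (x, ε⁻¹ • (y - x), ε)) ∧
    ∀ i, ∀ x ∈ closedBall (0 : E) 2, ∀ w, Kb i (x, w, 0)
      = ap (‖(G.fr i).A x w‖ ^ 2) • pbQ vol ((G.fr i).A x) ((G.fr i).A x) := by
  obtain ⟨ε1, hε1, R0, hR0, hfar⟩ := c.locQ_far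
  obtain ⟨B, hB, hA⟩ := G.exists_A'_bound
  choose g hg hg1 hg0 using c.exists_ft
  obtain ⟨R, hR, hR1, hR2⟩ : ∃ R : ℝ, 0 < R ∧ R0 ≤ R ∧ B ≤ R :=
    ⟨R0 + B, by linarith, by linarith, by linarith⟩
  let ξ : ContDiffBump (0 : E) := ⟨R, 2 * R, hR, by linarith⟩
  have hξ1 : ∀ w : E, ‖w‖ ≤ R → ξ w = 1 := fun w hw =>
    ξ.one_of_mem_closedBall (mem_closedBall_zero_iff.2 hw)
  have hξ0 : ∀ w : E, 2 * R ≤ ‖w‖ → ξ w = 0 := fun w hw =>
    ξ.zero_of_le_dist (by rw [dist_zero_right]; exact hw)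
  let X : Fin G.n → E × E × ℝ → Quad := fun i z =>
    ap (‖g i z‖ ^ 2) • ((bump z.1 * bump (z.1 + z.2.2 • z.2.1)) •
        G.locQ i i c.Vh (z.1, z.1 + z.2.2 • z.2.1))
      + (z.2.2 ^ 2 * bp (‖g i z‖ ^ 2)) • ((bump z.1 * bump (z.1 + z.2.2 • z.2.1)) •
        G.locQ i i c.Wh (z.1, z.1 + z.2.2 • z.2.1))
  refine ⟨min ε1 (1 / (5 * R)), by positivity, 2 * R, fun i z => ξ z.2.1 • X i z,
    fun i => ⟨?_, fun x w t hw => ?_⟩, fun ε hε i x hx y hy => ?_, fun i x hx w => ?_⟩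
  · have hφ : ContDiff ℝ ∞ fun z : E × E × ℝ => (z.1, z.1 + z.2.2 • z.2.1) := by fun_prop
    have hn : ContDiff ℝ ∞ fun z => ‖g i z‖ ^ 2 := (hg i).norm_sq ℝ
    exact (ξ.contDiff.comp (contDiff_fst.comp contDiff_snd)).smul
      (((ap_smooth.comp hn).smul ((c.Vh_smooth.contDiff_cut i).comp hφ)).add
        ((((contDiff_snd.comp contDiff_snd).pow 2).mul (bp_smooth.comp hn)).smul
          ((c.Wh_smooth.contDiff_cut i).comp hφ)))
  · show ξ w • _ = _
    rw [hξ0 w hw, zero_smul]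
  · have hx' : ‖x‖ ≤ 2 := mem_closedBall_zero_iff.1 hx
    have hε0 := hε.1
    have hε2 : R * ε ≤ 1 / 5 := by
      have := hε.2.trans (min_le_right _ _)
      rw [le_div_iff₀ (by positivity)] at this
      linarith
    obtain ⟨w, hw⟩ : ∃ w, w = ε⁻¹ • (y - x) := ⟨_, rfl⟩
    have hyw : x + ε • w = y := by rw [hw, smul_inv_smul₀ hε0.ne', add_sub_cancel]
    have hn : ‖y - x‖ = ‖w‖ * ε := by
      rw [← hyw, add_sub_cancel_left, norm_smul, Real.norm_of_nonneg hε0.le, mul_comm]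
    rw [← hw]
    show _ = ε⁻¹ ^ 4 • ξ w • X i (x, w, ε)
    have h1 : R < ‖w‖ → G.locQ i i (c.k ε) (x, y) = 0 := fun h =>
      hfar ε ⟨hε0, hε.2.trans (min_le_left _ _)⟩ i x hx y hy
        (by rw [hn]; exact mul_lt_mul_of_pos_right (hR1.trans_lt h) hε0)
    have h2 : ‖w‖ ≤ 2 * R → G.locQ i i (c.k ε) (x, y) = ε⁻¹ ^ 4 • X i (x, w, ε) := fun h => by
      have hy' : ‖y‖ ≤ 12 / 5 := by
        have h3 : ‖y‖ ≤ ‖x‖ + ‖y - x‖ := norm_le_insert' y x
        have h4 : ‖w‖ * ε ≤ 2 * R * ε := mul_le_mul_of_nonneg_right h hε0.le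
        linarith
      have h5 : ‖c.f i (x, y)‖ ^ 2 / ε ^ 2 = ‖g i (x, w, ε)‖ ^ 2 := by
        rw [← hyw, hg1, norm_smul, Real.norm_of_nonneg hε0.le, mul_pow,
          mul_div_cancel_left₀ _ (pow_pos hε0 2).ne']
      have h6 : ε⁻¹ ^ 2 * bp (‖g i (x, w, ε)‖ ^ 2)
          = ε⁻¹ ^ 4 * (ε ^ 2 * bp (‖g i (x, w, ε)‖ ^ 2)) := by
        field_simp
      rw [c.locQ_near ε i (by linarith) hy', h5, h6]
      simp only [X, hyw]
      rw [bump_one (x := x) (by linarith), bump_one (x := y) (by linarith), one_mul, one_smul,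
        one_smul, smul_add, smul_smul, smul_smul]
    rcases le_or_gt ‖w‖ R with h | h
    · rw [hξ1 w h, one_smul, h2 (by linarith)]
    · rcases le_total ‖w‖ (2 * R) with h' | h'
      · rw [smul_comm, ← h2 h', h1 h, smul_zero]
      · rw [hξ0 w h', zero_smul, smul_zero, h1 h]
  · have hx' : ‖x‖ ≤ 2 := mem_closedBall_zero_iff.1 hx
    have h1 : X i (x, w, 0)
        = ap (‖(G.fr i).A x w‖ ^ 2) • pbQ vol ((G.fr i).A x) ((G.fr i).A x) := by
      simp only [X, zero_smul, add_zero]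
      rw [hg0 i x (mem_ball_zero_iff.2 (by linarith)), norm_neg, bump_one (x := x) (by linarith),
        c.locQ_Vh_diag i (mem_ball_zero_iff.2 (by linarith))]
      simp
    show ξ w • X i (x, w, 0) = _
    rw [h1]
    rcases le_or_gt ‖w‖ R with h | h
    · rw [hξ1 w h, one_smul]
    · have h2 : 1 ≤ ‖(G.fr i).A x w‖ := by
        by_contra h3
        have h4 := mul_le_mul_of_nonneg_left (not_le.1 h3).le hB.le
        linarith [hA i x w]
      rw [ap_zero (one_le_pow₀ h2), zero_smul, smul_zero]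

end Geo

end Crest.Agent.R240

end
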