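import Crest.Agent.R240.KerA

/-!
# Row 240: the kernel is exact
-/

set_option autoImplicit false
set_option linter.unusedSectionVars false
set_option linter.unusedVariables false

open MeasureTheory Metric Set Filter Topology
open scoped ContDiff ENNReal

noncomputable section

namespace Crest.Agent.R240

namespace Geo

variable {M : Type*} [MetricSpace M] [CompactSpace M] [MeasurableSpace M] [BorelSpace M]
  {G : Geo M}

namespace Conn
variable (c : G.Conn)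

/-- the rescaled profiles -/
def aε (ε s : ℝ) : ℝ := ε⁻¹ ^ 4 * ap (s / ε ^ 2)
def bε (ε s : ℝ) : ℝ := ε⁻¹ ^ 2 * bp (s / ε ^ 2)

theorem aε_smooth (ε : ℝ) : ContDiff ℝ ∞ (aε ε) :=
  contDiff_const.mul (ap_smooth.comp (contDiff_id.div_const _))

theorem bε_deriv (ε s : ℝ) : HasDerivAt (bε ε) (-(1 / 2) * aε ε s) s := by
  have h1 := ((hasDerivAt_bp (s / ε ^ 2)).comp s ((hasDerivAt_id s).div_const (ε ^ 2))).const_mul
    (ε⁻¹ ^ 2)
  have h2 : -(1 / 2) * aε ε s = ε⁻¹ ^ 2 * (-(1 / 2) * ap (s / ε ^ 2) * (1 / ε ^ 2)) := by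
    unfold aε
    rw [one_div (ε ^ 2), ← inv_pow]
    ring
  rw [h2]
  exact h1

/-- the local potential -/
def γj (ε : ℝ) (j : Fin G.n) (x X Y W y : E) : Cov :=
  (c.ζ (x - y) * G.loc0 j (G.rho j) y) • gam (c.f j) (aε ε) x X Y W y

open Classical in
/-- the global potential -/
def Γj (ε : ℝ) (j : Fin G.n) (p : M) (X Y W : E) : M → Cov :=
  if p ∈ (G.κ j).source then
    G.ext1 j (c.γj ε j (G.κ j p) (G.Ti j p X) (G.Ti j p Y) (G.Ti j p W)) else 0

theorem Γj_S1 (ε : ℝ) (j : Fin G.n) (p : M) (X Y W : E) : G.S1 (c.Γj ε j p X Y W) := by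
  unfold Γj
  split_ifs with hp
  · refine S1_ext1 j ?_ (r := 1) (by norm_num) fun y hy h1 => ?_
    · refine ContDiffOn.smul (ContDiffOn.mul ?_ (G.rho_S0 j j)) ?_
      · exact (c.ζ.contDiff.comp (contDiff_const.sub contDiff_id)).contDiffOn
      · exact (gam_smooth (c.f_smooth j) (aε_smooth ε) _ _ _ _).contDiffOn
    · simp [γj, loc0_rho_zero j hy h1.le]
  · exact S1.zero

theorem SK_kj (ε : ℝ) (j : Fin G.n) : G.SK (G.extQ j (c.Kj ε j)) := by
  refine SK_extQ j (c.Kj_contDiffOn ε j) (r := 2) (by norm_num) fun x hx y hy h => ?_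
  by_contra hne
  obtain ⟨h1, h2⟩ := c.Kj_supp ε j hy hne
  have h3 := norm_le_norm_add_norm_sub' x y
  have h4 := c.r1_le
  rcases h with h | h <;> linarith

theorem γj_supp {ε : ℝ} (hε : 0 < ε) (j : Fin G.n) {x X Y W y : E} (hy : y ∈ ball (0 : E) 3)
    (h : c.γj ε j x X Y W y ≠ 0) : ‖y‖ < 1 ∧ ‖x - y‖ < 2 * c.r1 ∧ c.c1 * ‖x - y‖ < ε := by
  have h1 : ‖y‖ < 1 := by
    by_contra hc
    exact h (by simp [γj, loc0_rho_zero j hy (not_lt.mp hc)])
  have h2 : ‖x - y‖ < 2 * c.r1 := by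
    by_contra hc
    have : c.ζ (x - y) = 0 := c.ζ.zero_of_le_dist (by simpa [ζ] using not_lt.mp hc)
    exact h (by simp [γj, this])
  refine ⟨h1, h2, ?_⟩
  by_contra hc
  have h3 := c.low j y (by simp; linarith) x h2.le
  have h4 : ε ≤ ‖c.f j (x, y)‖ := (not_lt.mp hc).trans h3
  have h5 : ap (‖c.f j (x, y)‖ ^ 2 / ε ^ 2) = 0 := by
    refine ap_zero ?_
    rw [le_div_iff₀ (by positivity), one_mul]
    exact pow_le_pow_left₀ hε.le h4 2
  exact h (by simp [γj, gam, aε, h5])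

theorem dist_lt_of_close {L : ℝ} (hL1 : 1 ≤ L)
    (hL : ∀ i, ∀ p ∈ G.K i (5 / 2), ∀ q ∈ G.K i (5 / 2),
      dist p q ≤ L * ‖G.κ i p - G.κ i q‖ ∧ ‖G.κ i p - G.κ i q‖ ≤ L * dist p q)
    {ε : ℝ} {j : Fin G.n} {p q : M} (hp : p ∈ (G.κ j).source) (hq : q ∈ (G.κ j).source)
    (h1 : ‖G.κ j q‖ < 1) (h2 : ‖G.κ j p - G.κ j q‖ < 2 * c.r1)
    (h3 : c.c1 * ‖G.κ j p - G.κ j q‖ < ε) : dist p q ≤ L / c.c1 * ε := by
  have h4 := norm_le_norm_add_norm_sub' (G.κ j p) (G.κ j q)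
  have h5 := c.r1_le
  have h6 := (hL j p ⟨hp, by linarith⟩ q ⟨hq, by linarith⟩).1
  have h7 : ‖G.κ j p - G.κ j q‖ ≤ ε / c.c1 := by
    rw [le_div_iff₀ c.c1_pos]; linarith
  calc dist p q ≤ L * (ε / c.c1) := h6.trans (mul_le_mul_of_nonneg_left h7 (by linarith))
    _ = _ := by ring

theorem qv_qswap_zero (v w : E) : qv (qswap 0) v w = 0 := by
  ext X Y
  rw [qv_qswap, qv_apply]
  simp

theorem loc2_kj (K : E × E → Quad) {j : Fin G.n} {q : M} (hq : q ∈ (G.κ j).source) (v w : E)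
    {x : E} (hx : x ∈ ball (0 : E) 3) :
    G.loc2 j (fun p' => qv (qswap (G.extQ j K p' q)) v w) x
      = qv (qswap (K (x, G.κ j q))) (G.Ti j q v) (G.Ti j q w) := by
  ext A B
  simp only [loc2, pb_apply, qv_qswap, extQ, symm_mem hx, hq, and_self, if_true, qv_pbQ, G.Ti_T,
    map_symm hx]

theorem alt_kj (ε : ℝ) (j : Fin G.n) (z : E × E) (v w : E) : Alt (qv (qswap (c.Kj ε j z)) v w) := by
  intro X Y
  have h1 := alt_Th (c.θ j z.2 v) (Pf (c.f j) z X) (Pf (c.f j) z Y)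
  have h2 := alt_Th (c.θ j z.2 w) (Pf (c.f j) z X) (Pf (c.f j) z Y)
  simp only [qv_qswap, Kj, qv_smul, qv_add, _root_.add_apply, _root_.smul_apply, qv_KV, qv_KW,
    smul_eq_mul, h1, h2]
  unfold det4
  ring

/-- the main case: both points in the chart and close to each other -/
theorem term_near (ε : ℝ) {j : Fin G.n} {p q : M} (hq : q ∈ G.K j (9 / 4))
    (hp : p ∈ G.K j (12 / 5)) (hpq : ‖G.κ j p - G.κ j q‖ < c.r1) (X Y W v w : E) :
    G.D2 (fun p' => qv (qswap (G.extQ j (c.Kj ε j) p' q)) v w) p X Y W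
      = G.D1 (c.Γj ε j p X Y W) q v w - aε ε (‖c.F p q‖ ^ 2) *
        (G.D0 (G.rho j) q v * det4 (c.Pg p q X) (c.Pg p q Y) (c.Pg p q W) (c.Dg p q w)
          - G.D0 (G.rho j) q w * det4 (c.Pg p q X) (c.Pg p q Y) (c.Pg p q W) (c.Dg p q v)) := by
  have hx := map_mem hp.1
  have hy := map_mem hq.1
  have hx' : G.κ j p ∈ ball (0 : E) (5 / 2) := by
    rw [mem_ball_zero_iff]; linarith [hp.2]
  have hy' : G.κ j q ∈ ball (0 : E) (5 / 2) := by
    rw [mem_ball_zero_iff]; linarith [hq.2]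
  have hS2 := (c.SK_kj ε j).fst q v w
  have halt : Alt (qv (qswap (G.extQ j (c.Kj ε j) p q)) v w) := by
    rw [← loc2_map hp.1 (fun p' => qv (qswap (G.extQ j (c.Kj ε j) p' q)) v w),
      loc2_kj _ hq.1 v w hx]
    exact (c.alt_kj ε j _ _ _).pb _
  rw [D2_eq hp.1 ((hS2.at hx).differentiableAt (by simp)) halt,
    D1_eq hq.1 (((c.Γj_S1 ε j p X Y W).at hy).differentiableAt (by simp)),
    D0_eq hq.1 (((G.rho_S0 j).at hy).differentiableAt (by simp))]
  have hζ : ∀ h : E, ‖h‖ < c.r1 → c.ζ h = 1 := fun h hh =>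
    c.ζ.one_of_mem_closedBall (by simpa [ζ] using hh.le)
  have e1 : G.loc2 j (fun p' => qv (qswap (G.extQ j (c.Kj ε j) p' q)) v w) =ᶠ[𝓝 (G.κ j p)]
      fun x' => qv (qswap (aε ε (‖c.f j (x', G.κ j q)‖ ^ 2) •
          KV (c.f j) (G.loc0 j (G.rho j)) (x', G.κ j q)
        + bε ε (‖c.f j (x', G.κ j q)‖ ^ 2) •
          KW (c.f j) (c.θ j) (G.loc0 j (G.rho j)) (x', G.κ j q))) (G.Ti j q v) (G.Ti j q w) := by
    have ho : ∀ᶠ x' in 𝓝 (G.κ j p), ‖x' - G.κ j q‖ < c.r1 :=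
      (continuous_id.sub continuous_const).norm.continuousAt.eventually_lt continuousAt_const hpq
    filter_upwards [isOpen_ball.mem_nhds hx, ho] with x' hx1 hx2
    rw [loc2_kj _ hq.1 v w hx1, Kj, hζ _ hx2, one_smul]
    rfl
  have e2 : G.loc1 j (c.Γj ε j p X Y W) =ᶠ[𝓝 (G.κ j q)] fun y' => G.loc0 j (G.rho j) y' •
      gam (c.f j) (aε ε) (G.κ j p) (G.Ti j p X) (G.Ti j p Y) (G.Ti j p W) y' := by
    have ho : ∀ᶠ y' in 𝓝 (G.κ j q), ‖G.κ j p - y'‖ < c.r1 :=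
      (continuous_const.sub continuous_id).norm.continuousAt.eventually_lt continuousAt_const hpq
    filter_upwards [isOpen_ball.mem_nhds hy, ho] with y' hy1 hy2
    rw [Γj, if_pos hp.1, loc1_ext1 hy1, γj, hζ _ hy2, one_mul]
  rw [d2_congr e1, d1_congr e2, exact_loc (c.f_smooth j) (c.skew j) (aε_smooth ε) (bε_deriv ε)
    ((G.rho_S0 j).at hy), pb_apply, c.norm_f j hp (K_mono j (by norm_num) hq)]
  have hU := U_uni hq.1
  have hP : ∀ Z, G.U j q (Pf (c.f j) (G.κ j p, G.κ j q) (G.Ti j p Z)) = c.Pg p q Z := fun Z => by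
    have := c.P_eq j _ hx' _ hy' (G.Ti j p Z)
    rwa [symm_map hp.1, symm_map hq.1, G.T_Ti] at this
  have hD : ∀ u, G.U j q (Qf (c.f j) (G.κ j p, G.κ j q) (G.Ti j q u)
      - c.θ j (G.κ j q) (G.Ti j q u) (c.f j (G.κ j p, G.κ j q))) = c.Dg p q u := fun u => by
    have := c.D_eq j _ hx' _ hy' (G.Ti j q u)
    rwa [symm_map hp.1, symm_map hq.1, G.T_Ti] at this
  rw [← hP X, ← hP Y, ← hP W, ← hD v, ← hD w, hU.det4, hU.det4]
  rfl

theorem term_zero {ε : ℝ} {j : Fin G.n} {p q : M} (X Y W v w : E)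
    (h1 : ∀ᶠ p' in 𝓝 p, G.extQ j (c.Kj ε j) p' q = 0)
    (h2 : ∀ᶠ q' in 𝓝 q, c.Γj ε j p X Y W q' = 0) :
    G.D2 (fun p' => qv (qswap (G.extQ j (c.Kj ε j) p' q)) v w) p X Y W
      = G.D1 (c.Γj ε j p X Y W) q v w := by
  have e1 : (fun p' => qv (qswap (G.extQ j (c.Kj ε j) p' q)) v w) =ᶠ[𝓝 p] (0 : M → Bil) := by
    filter_upwards [h1] with p' hp'
    rw [hp', qv_qswap_zero]; rfl
  have e2 : c.Γj ε j p X Y W =ᶠ[𝓝 q] (0 : M → Cov) := h2
  rw [D2_congr e1, D1_congr e2, D2_zero, D1_zero]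
  rfl

theorem extQ_ne_zero {K : E × E → Quad} {j : Fin G.n} {p q : M} (h : G.extQ j K p q ≠ 0) :
    p ∈ (G.κ j).source ∧ q ∈ (G.κ j).source ∧ K (G.κ j p, G.κ j q) ≠ 0 := by
  unfold extQ at h
  split_ifs at h with hpq
  · refine ⟨hpq.1, hpq.2, fun h0 => h ?_⟩
    rw [h0]
    exact (pbQL _ _).map_zero
  · exact absurd rfl h

theorem Γj_ne_zero {ε : ℝ} {j : Fin G.n} {p q : M} {X Y W : E} (h : c.Γj ε j p X Y W q ≠ 0) :
    p ∈ (G.κ j).source ∧ q ∈ (G.κ j).source ∧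
      c.γj ε j (G.κ j p) (G.Ti j p X) (G.Ti j p Y) (G.Ti j p W) (G.κ j q) ≠ 0 := by
  unfold Γj at h
  split_ifs at h with hp
  · unfold ext1 at h
    split_ifs at h with hq
    · refine ⟨hp, hq, fun h0 => h ?_⟩
      rw [h0]; simp
    · exact absurd rfl h
  · exact absurd rfl h

end Conn

/-- (C3) -/
theorem Conn.k_exact (c : G.Conn) : ∃ ε1 > 0, ∀ ε ∈ Ioc (0 : ℝ) ε1, ∀ p X Y W, ∃ Γ, G.S1 Γ ∧
    ∀ q v w, G.D2 (fun p' => qv (qswap (c.k ε p' q)) v w) p X Y W = G.D1 Γ q v w := by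
  obtain ⟨δ, hδ, hnear⟩ := c.exists_near
  obtain ⟨L, hL1, hL⟩ := G.exists_lip
  have hc1 := c.c1_pos
  refine ⟨δ * c.c1 / L, by positivity, fun ε hε p X Y W => ?_⟩
  have hεδ : L / c.c1 * ε ≤ δ := by
    have h1 := hε.2
    rw [le_div_iff₀ (by linarith)] at h1
    rw [div_mul_eq_mul_div, div_le_iff₀ hc1]
    linarith
  refine ⟨∑ j, c.Γj ε j p X Y W, S1.sum fun j _ => c.Γj_S1 ε j p X Y W, fun q v w => ?_⟩
  have e1 : (fun p' => qv (qswap (c.k ε p' q)) v w)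
      = ∑ j, fun p' => qv (qswap (G.extQ j (c.Kj ε j) p' q)) v w := by
    ext p' A B
    simp only [Finset.sum_apply, FunLike.coe_sum, qv_qswap, Conn.k, qv_sum]
  rw [e1, D2_sum fun j _ => (c.SK_kj ε j).fst q v w, D1_sum fun j _ => c.Γj_S1 ε j p X Y W]
  simp only [Finset.sum_apply, FunLike.coe_sum]
  by_cases hd : dist p q ≤ δ
  · have hterm : ∀ j, G.D2 (fun p' => qv (qswap (G.extQ j (c.Kj ε j) p' q)) v w) p X Y W
        = G.D1 (c.Γj ε j p X Y W) q v w - Conn.aε ε (‖c.F p q‖ ^ 2) *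
        (G.D0 (G.rho j) q v * det4 (c.Pg p q X) (c.Pg p q Y) (c.Pg p q W) (c.Dg p q w)
          - G.D0 (G.rho j) q w * det4 (c.Pg p q X) (c.Pg p q Y) (c.Pg p q W) (c.Dg p q v)) := by
      intro j
      by_cases hq : q ∈ G.K j (9 / 4)
      · obtain ⟨hp, hpq⟩ := hnear p q hd j hq
        exact c.term_near ε hq hp hpq X Y W v w
      · have hq1 : q ∉ G.K j 1 := fun h => hq (K_mono j (by norm_num) h)
        have ho : ∀ᶠ q' in 𝓝 q, q' ∉ G.K j 1 :=
          (isCompact_K j (by norm_num)).isClosed.isOpen_compl.mem_nhds hq1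
        have h0 : G.D0 (G.rho j) q = 0 := by
          rw [← D0_const (G := G) (0 : ℝ) q]
          exact D0_congr (ho.mono fun q' hq' => rho_eq_zero hq')
        rw [h0, c.term_zero X Y W v w (Eventually.of_forall fun p' => ?_) (ho.mono fun q' hq' => ?_)]
        · simp
        · by_contra hne
          obtain ⟨-, h2, h3⟩ := Conn.extQ_ne_zero hne
          exact hq1 ⟨h2, (c.Kj_supp ε j (map_mem h2) h3).1.le⟩
        · by_contra hne
          obtain ⟨-, h2, h3⟩ := c.Γj_ne_zero hne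
          exact hq' ⟨h2, (c.γj_supp hε.1 j (map_mem h2) h3).1.le⟩
    rw [Finset.sum_congr rfl fun j _ => hterm j, Finset.sum_sub_distrib, ← Finset.mul_sum,
      Finset.sum_sub_distrib, ← Finset.sum_mul, ← Finset.sum_mul]
    have hs : ∀ u, ∑ j, G.D0 (G.rho j) q u = 0 := fun u => by
      have := congrArg (fun L : E →L[ℝ] ℝ => L u) (G.sum_D0_rho q)
      simpa using this
    rw [hs, hs]
    simp
  · push Not at hd
    refine Finset.sum_congr rfl fun j _ => c.term_zero X Y W v w ?_ ?_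
    · have ho : ∀ᶠ p' in 𝓝 p, δ < dist p' q :=
        continuousAt_const.eventually_lt (continuous_id.dist continuous_const).continuousAt hd
      filter_upwards [ho] with p' hp'
      by_contra hne
      obtain ⟨h1, h2, h3⟩ := Conn.extQ_ne_zero hne
      obtain ⟨h4, h5⟩ := c.Kj_supp ε j (map_mem h2) h3
      have := c.dist_lt_of_close hL1 hL h1 h2 h4 h5 (c.Kj_supp' hε.1 j (map_mem h2) h3)
      linarith
    · have ho : ∀ᶠ q' in 𝓝 q, δ < dist p q' :=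
        continuousAt_const.eventually_lt (continuous_const.dist continuous_id).continuousAt hd
      filter_upwards [ho] with q' hq'
      by_contra hne
      obtain ⟨h1, h2, h3⟩ := c.Γj_ne_zero hne
      obtain ⟨h4, h5, h6⟩ := c.γj_supp hε.1 j (map_mem h2) h3
      have := c.dist_lt_of_close hL1 hL h1 h2 h4 h5 h6
      linarith

end Geo

end Crest.Agent.R240

end
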