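import Crest.Agent.R240.KerA
import Crest.Agent.R240.Par2

/-!
# Row 240: the kernel is almost positive
-/

set_option autoImplicit false
set_option linter.unusedSectionVars false
set_option linter.unusedVariables false

open MeasureTheory Metric Set Filter Topology
open scoped ContDiff ENNReal

noncomputable section

namespace Crest.Agent.R240

namespace KerPos

/-- smooth functions are Lipschitz off the diagonal -/
theorem diag_lip {F : Type*} [NormedAddCommGroup F] [NormedSpace ℝ F] {g : E × E → F}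
    (hg : ContDiff ℝ ∞ g) : ∃ C : ℝ, 0 ≤ C ∧ ∀ x ∈ closedBall (0 : E) (12 / 5),
      ∀ y ∈ closedBall (0 : E) (12 / 5), ‖g (x, y) - g (y, y)‖ ≤ C * ‖x - y‖ := by
  obtain ⟨K, hK⟩ := hg.contDiffOn.exists_lipschitzOnWith (by simp)
    ((convex_closedBall (0 : E) (12 / 5)).prod (convex_closedBall (0 : E) (12 / 5)))
    ((isCompact_closedBall _ _).prod (isCompact_closedBall _ _))
  refine ⟨K, K.2, fun x hx y hy => ?_⟩
  have := hK.norm_sub_le (x := (x, y)) (y := (y, y)) ⟨hx, hy⟩ ⟨hy, hy⟩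
  simpa using this

theorem diag_lip' {g : E × E → End} (hg : ContDiff ℝ ∞ g) :
    ∃ C : ℝ, 0 ≤ C ∧ ∀ x ∈ closedBall (0 : E) (12 / 5), ∀ y ∈ closedBall (0 : E) (12 / 5), ∀ v,
      ‖g (x, y) v - g (y, y) v‖ ≤ C * ‖x - y‖ * ‖v‖ := by
  obtain ⟨C, h0, h⟩ := diag_lip hg
  exact ⟨C, h0, fun x hx y hy v => ((g (x, y) - g (y, y)).le_opNorm v).trans
    (mul_le_mul_of_nonneg_right (h x hx y hy) (norm_nonneg _))⟩

/-- perturbed complex lines intersect almost positively -/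
theorem det4_close {h : ℝ} (h1 : h ≤ 1) {v w P P' Q Q' : E} (hv : ‖v‖ = 1) (hw : ‖w‖ = 1)
    (hP : ‖P - v‖ ≤ h) (hP' : ‖P' - J0 v‖ ≤ h) (hQ : ‖Q + w‖ ≤ h) (hQ' : ‖Q' + J0 w‖ ≤ h) :
    ang v w / 4 - 500 * h ^ 2 ≤ det4 P P' Q Q' := by
  have h0 : 0 ≤ h := (norm_nonneg _).trans hP
  have a1 : ‖P‖ ≤ 2 := by
    have := norm_add_le (P - v) v
    rw [sub_add_cancel] at this
    linarith
  have a2 : ‖Q‖ ≤ 2 := by
    have := norm_sub_le (Q + w) w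
    rw [add_sub_cancel_right] at this
    linarith
  have a3 : ‖P' - J0 P‖ ≤ 2 * h := by
    have e : P' - J0 P = (P' - J0 v) - J0 (P - v) := by rw [map_sub]; abel
    have := norm_sub_le (P' - J0 v) (J0 (P - v))
    rw [← e, norm_J0] at this
    linarith
  have a4 : ‖Q' - J0 Q‖ ≤ 2 * h := by
    have e : Q' - J0 Q = (Q' + J0 w) - J0 (Q + w) := by rw [map_add]; abel
    have := norm_sub_le (Q' + J0 w) (J0 (Q + w))
    rw [← e, norm_J0] at this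
    linarith
  have b1 := det4_ge P Q (P' - J0 P) (Q' - J0 Q)
  rw [add_sub_cancel, add_sub_cancel] at b1
  have b2 := sqrt_ang_le v (-w) P Q
  rw [ang_neg, norm_neg, hw, norm_sub_rev, show -w - Q = -(Q + w) by abel, norm_neg] at b2
  have b3 : ‖P‖ * ‖Q + w‖ ≤ 2 * h := mul_le_mul a1 hQ (norm_nonneg _) zero_le_two
  have b4 : √(ang v w) ≤ √(ang P Q) + 3 * h := by linarith
  have b5 : √(ang v w) ^ 2 ≤ (√(ang P Q) + 3 * h) ^ 2 := pow_le_pow_left₀ (Real.sqrt_nonneg _) b4 2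
  have b6 := Real.sq_sqrt (ang_nonneg P Q)
  rw [Real.sq_sqrt (ang_nonneg v w)] at b5
  have b7 : ang v w ≤ 2 * ang P Q + 18 * h ^ 2 := by nlinarith [sq_nonneg (√(ang P Q) - 3 * h)]
  have c1 : (‖P' - J0 P‖ * ‖Q‖ + ‖Q' - J0 Q‖ * ‖P‖) ^ 2 ≤ (2 * h * 2 + 2 * h * 2) ^ 2 := by gcongr
  have c2 : ‖P‖ * ‖Q‖ * ‖P' - J0 P‖ * ‖Q' - J0 Q‖ ≤ 2 * 2 * (2 * h) * (2 * h) := by gcongr
  nlinarith [sq_nonneg h]

end KerPos

namespace Geo

variable {M : Type*} [MetricSpace M] [CompactSpace M] [MeasurableSpace M] [BorelSpace M]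
  {G : Geo M}

/-- first order closeness of `Pg`, `Dg` to the identity, read in a chart -/
theorem Conn.close (c : G.Conn) : ∃ C : ℝ, 0 ≤ C ∧ ∀ i, ∀ x ∈ closedBall (0 : E) (12 / 5),
    ∀ y ∈ closedBall (0 : E) (12 / 5), ∀ v,
      ‖Pf (c.f i) (x, y) ((G.fr i).A' x v) - v‖ ≤ C * ‖x - y‖ * ‖v‖ ∧
      ‖Qf (c.f i) (x, y) ((G.fr i).A' y v) + v‖ ≤ C * ‖x - y‖ * ‖v‖ ∧
      ‖c.f i (x, y)‖ ≤ C * ‖x - y‖ ∧
      ‖c.θ i y ((G.fr i).A' y v) (c.f i (x, y))‖ ≤ C * ‖x - y‖ * ‖v‖ := by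
  choose C1 h1 k1 using fun i => KerPos.diag_lip'
    ((Pf_smooth (c.f_smooth i)).clm_comp ((G.fr i).smooth'.comp contDiff_fst))
  choose C2 h2 k2 using fun i => KerPos.diag_lip'
    ((Qf_smooth (c.f_smooth i)).clm_comp ((G.fr i).smooth'.comp contDiff_snd))
  choose C3 h3 k3 using fun i => KerPos.diag_lip (c.f_smooth i)
  choose C4 h4 k4 using fun i => KerPos.diag_lip'
    (((ContinuousLinearMap.apply ℝ E).contDiff.comp (c.f_smooth i)).clm_comp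
      (((c.θ_smooth i).comp contDiff_snd).clm_comp ((G.fr i).smooth'.comp contDiff_snd)))
  have h0 : ∀ i, 0 ≤ C1 i + C2 i + C3 i + C4 i := fun i => by
    linarith [h1 i, h2 i, h3 i, h4 i]
  refine ⟨∑ i, (C1 i + C2 i + C3 i + C4 i), Finset.sum_nonneg fun i _ => h0 i,
    fun i x hx y hy v => ?_⟩
  have hle := Finset.single_le_sum (f := fun i => C1 i + C2 i + C3 i + C4 i) (fun i _ => h0 i)
    (Finset.mem_univ i)
  have hy' : y ∈ ball (0 : E) (5 / 2) := closedBall_subset_ball (by norm_num) hy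
  have a1 := k1 i x hx y hy v
  have a2 := k2 i x hx y hy v
  have a3 := k3 i x hx y hy
  have a4 := k4 i x hx y hy v
  simp only [Function.comp_apply, ContinuousLinearMap.comp_apply, ContinuousLinearMap.apply_apply,
    c.f_diag, map_zero, zero_apply, sub_zero] at a1 a2 a3 a4
  rw [c.f_deriv i y hy', (G.fr i).mul] at a1
  rw [c.Qf_diag i hy', (G.fr i).mul, sub_neg_eq_add] at a2
  beta_reduce at hle
  refine ⟨a1.trans ?_, a2.trans ?_, a3.trans ?_, a4.trans ?_⟩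
  all_goals
    gcongr
    linarith [h1 i, h2 i, h3 i, h4 i]

theorem Conn.close_dist (c : G.Conn) : ∃ C : ℝ, 0 ≤ C ∧ ∀ i, ∀ p ∈ G.K i (12 / 5),
    ∀ q ∈ G.K i (12 / 5), ∀ v, ‖v‖ = 1 →
      ‖c.Pg p q (G.U i p v) - G.U i q v‖ ≤ C * dist p q ∧
      ‖c.Dg p q (G.U i q v) + G.U i q v‖ ≤ C * dist p q ∧
      ‖G.U i q (c.θ i (G.κ i q) (G.Ti i q v) (c.f i (G.κ i p, G.κ i q)))‖ ≤ C * dist p q := by
  obtain ⟨C, hC, h⟩ := c.close
  obtain ⟨L, hL, hlip⟩ := G.exists_lip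
  refine ⟨2 * C * L, by positivity, fun i p hp q hq v hv => ?_⟩
  have hx : G.κ i p ∈ closedBall (0 : E) (12 / 5) := mem_closedBall_zero_iff.2 hp.2
  have hy : G.κ i q ∈ closedBall (0 : E) (12 / 5) := mem_closedBall_zero_iff.2 hq.2
  have hx' : G.κ i p ∈ ball (0 : E) (5 / 2) := closedBall_subset_ball (by norm_num) hx
  have hy' : G.κ i q ∈ ball (0 : E) (5 / 2) := closedBall_subset_ball (by norm_num) hy
  have hU := U_uni hq.1
  have hd : C * ‖G.κ i p - G.κ i q‖ ≤ C * L * dist p q := by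
    rw [mul_assoc]
    exact mul_le_mul_of_nonneg_left
      (hlip i p (K_mono i (by norm_num) hp) q (K_mono i (by norm_num) hq)).2 hC
  have hd0 : 0 ≤ C * L * dist p q := by positivity
  obtain ⟨a1, a2, -, a4⟩ := h i _ hx _ hy v
  rw [hv, mul_one] at a1 a2 a4
  refine ⟨?_, ?_, ?_⟩
  · have e := c.P_eq i _ hx' _ hy' ((G.fr i).A' (G.κ i p) v)
    rw [symm_map hp.1, symm_map hq.1] at e
    rw [show G.U i p v = G.T i p ((G.fr i).A' (G.κ i p) v) from rfl, ← e, ← map_sub, hU.1]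
    linarith
  · have e := c.D_eq i _ hx' _ hy' ((G.fr i).A' (G.κ i q) v)
    rw [symm_map hp.1, symm_map hq.1] at e
    rw [show c.Dg p q (G.U i q v) = c.Dg p q (G.T i q ((G.fr i).A' (G.κ i q) v)) from rfl, ← e,
      ← map_add, hU.1, sub_add_eq_add_sub]
    refine (norm_sub_le _ _).trans ?_
    linarith
  · obtain ⟨-, -, -, b4⟩ := h i _ hx _ hy ((G.fr i).A (G.κ i q) (G.Ti i q v))
    have e : ‖(G.fr i).A (G.κ i q) (G.Ti i q v)‖ = ‖v‖ := (uni_A_Ti hq.1).1 v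
    rw [(G.fr i).mul', e, hv, mul_one] at b4
    rw [hU.1]
    linarith

theorem Conn.Vh_ge (c : G.Conn) : ∃ δ > 0, ∃ C : ℝ, 0 ≤ C ∧ ∀ p q, dist p q ≤ δ →
    ∀ i, p ∈ G.K i (12 / 5) → q ∈ G.K i (12 / 5) → ∀ v w, ‖v‖ = 1 → ‖w‖ = 1 →
      ang v w / 4 - C * dist p q ^ 2 ≤
        qv (c.Vh p q) (G.U i p v) (J0 (G.U i p v)) (G.U i q w) (J0 (G.U i q w)) := by
  obtain ⟨C, hC, h⟩ := c.close_dist
  obtain ⟨δ1, hδ1, h1⟩ := c.exists_near
  obtain ⟨δ2, hδ2, h2⟩ := c.qv_Vh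
  refine ⟨min (min δ1 δ2) (1 / (2 * C + 1)), by positivity, 500 * (2 * C) ^ 2, by positivity,
    fun p q hpq i hp hq v w hv hw => ?_⟩
  simp only [le_min_iff] at hpq
  obtain ⟨⟨d1, d2⟩, d3⟩ := hpq
  have hUp := U_uni hp.1
  have hUq := U_uni hq.1
  have hd0 : 0 ≤ C * dist p q := by positivity
  have hh : 2 * C * dist p q ≤ 1 := by
    rw [le_div_iff₀ (by positivity)] at d3
    nlinarith [dist_nonneg (x := p) (y := q)]
  rw [h2 p q d2, ← one_mul (ang v w / 4 - _), ← G.sum_rho q, Finset.sum_mul]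
  refine Finset.sum_le_sum fun j _ => ?_
  by_cases hj : G.rho j q = 0
  · rw [hj, zero_mul, zero_mul]
  refine mul_le_mul_of_nonneg_left ?_ (G.rho_nonneg j q)
  have hqj : q ∈ G.K j 1 := ⟨(rho_ne_zero hj).1, (rho_ne_zero hj).2.le⟩
  have hpj := (h1 p q d1 j (K_mono j (by norm_num) hqj)).1
  have hqj' : q ∈ G.K j (12 / 5) := K_mono j (by norm_num) hqj
  have key : ∀ w, ‖w‖ = 1 → ‖c.Dg p q (G.U i q w) + G.U j q (c.θ j (G.κ j q)
      (G.Ti j q (G.U i q w)) (c.f j (G.κ j p, G.κ j q))) + G.U i q w‖ ≤ 2 * C * dist p q := by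
    intro w hw
    have a1 := (h i p hp q hq w hw).2.1
    have a2 := (h j p hpj q hqj' (G.U i q w) ((hUq.1 w).trans hw)).2.2
    rw [add_right_comm]
    refine (norm_add_le _ _).trans ?_
    linarith
  have hJv : ‖J0 v‖ = 1 := (norm_J0 v).trans hv
  have hJw : ‖J0 w‖ = 1 := (norm_J0 w).trans hw
  have b1 := (h i p hp q hq v hv).1
  have b2 := (h i p hp q hq _ hJv).1
  have b3 := key w hw
  have b4 := key _ hJw
  rw [hUp.2, hUq.2] at b2
  rw [hUq.2] at b4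
  have := KerPos.det4_close hh ((hUq.1 v).trans hv) ((hUq.1 w).trans hw) (b1.trans (by linarith))
    (b2.trans (by linarith)) b3 b4
  rw [hUq.ang] at this
  refine le_trans (le_of_eq ?_) this
  ring

theorem Conn.k_ge (c : G.Conn) {C0 : ℝ} (hC0 : 0 < C0) : ∃ ε1 > 0, ∃ C1 : ℝ, 0 ≤ C1 ∧
    ∀ ε ∈ Ioc (0 : ℝ) ε1, ∀ p q, dist p q ≤ C0 * ε →
      ∀ i, p ∈ G.K i (12 / 5) → q ∈ G.K i (12 / 5) → ∀ v w, ‖v‖ = 1 → ‖w‖ = 1 →
        ap (‖c.F p q‖ ^ 2 / ε ^ 2) / 4 * ε⁻¹ ^ 4 * ang v w - C1 * ε⁻¹ ^ 2 ≤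
          qv (c.k ε p q) (G.U i p v) (J0 (G.U i p v)) (G.U i q w) (J0 (G.U i q w)) := by
  obtain ⟨δ, hδ, C, hC, h⟩ := c.Vh_ge
  obtain ⟨B, hB, hW⟩ := c.Wh_smooth.bdd
  obtain ⟨Cp, hCp, hp⟩ := prof_bdd
  refine ⟨δ / C0, by positivity, Cp * (C * C0 ^ 2) + Cp * (16 * B), by positivity,
    fun ε hε p q hpq i hpi hqi v w hv hw => ?_⟩
  have hε0 := hε.1
  have h1 := h p q (hpq.trans (by rw [mul_comm, ← le_div_iff₀ hC0]; exact hε.2)) i hpi hqi v w hv hw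
  have nv : ‖G.U i p v‖ = 1 := ((U_uni hpi.1).1 v).trans hv
  have nw : ‖G.U i q w‖ = 1 := ((U_uni hqi.1).1 w).trans hw
  have h2 : |qv (c.Wh p q) (G.U i p v) (J0 (G.U i p v)) (G.U i q w) (J0 (G.U i q w))| ≤ 16 * B := by
    refine (abs_apply_le _ _ _).trans ?_
    have := norm_qv_le (c.Wh p q) (G.U i p v) (J0 (G.U i p v))
    rw [norm_J0, nv, mul_one, mul_one] at this
    rw [norm_J0, nw, mul_one, mul_one]
    linarith [hW p q]
  obtain ⟨b1, a1, -⟩ := hp (‖c.F p q‖ ^ 2 / ε ^ 2) (by positivity)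
  have b0 := bp_nonneg (‖c.F p q‖ ^ 2 / ε ^ 2)
  have a0 := ap_nonneg (‖c.F p q‖ ^ 2 / ε ^ 2)
  rw [c.k_eq, qv_add, qv_smul, qv_smul]
  simp only [add_apply, smul_apply, smul_eq_mul]
  generalize ap (‖c.F p q‖ ^ 2 / ε ^ 2) = a at a0 a1 ⊢
  generalize bp (‖c.F p q‖ ^ 2 / ε ^ 2) = b at b0 b1 ⊢
  generalize qv (c.Vh p q) (G.U i p v) (J0 (G.U i p v)) (G.U i q w) (J0 (G.U i q w)) = V at h1 ⊢
  generalize qv (c.Wh p q) (G.U i p v) (J0 (G.U i p v)) (G.U i q w) (J0 (G.U i q w)) = W at h2 ⊢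
  have e1 : ε⁻¹ ^ 4 * a * (ang v w / 4 - C * dist p q ^ 2) ≤ ε⁻¹ ^ 4 * a * V :=
    mul_le_mul_of_nonneg_left h1 (by positivity)
  have e2 : ε⁻¹ ^ 4 * a * (C * dist p q ^ 2) ≤ ε⁻¹ ^ 4 * Cp * (C * (C0 * ε) ^ 2) := by gcongr
  have e3 : ε⁻¹ ^ 4 * Cp * (C * (C0 * ε) ^ 2) = Cp * (C * C0 ^ 2) * ε⁻¹ ^ 2 := by field_simp
  have e4 : ε⁻¹ ^ 2 * b * -W ≤ ε⁻¹ ^ 2 * Cp * (16 * B) :=
    (mul_le_mul_of_nonneg_left ((neg_le_abs W).trans h2) (by positivity)).trans (by gcongr)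
  nlinarith

/-- (C4) -/
theorem Conn.k_pos (c : G.Conn) : ∃ ε1 > 0, ∃ C1 : ℝ, 0 ≤ C1 ∧ ∃ c2 > 0,
    (∀ ε ∈ Ioc (0 : ℝ) ε1, ∀ p q v w, ‖v‖ = 1 → ‖w‖ = 1 →
      -(C1 * ε⁻¹ ^ 2) ≤ qv (c.k ε p q) v (J0 v) w (J0 w)) ∧
    ∀ ε ∈ Ioc (0 : ℝ) ε1, ∀ i, ∀ p ∈ G.K i 2, ∀ q ∈ G.K i (9 / 4),
      ‖G.κ i q - G.κ i p‖ ≤ c2 * ε → ∀ v w, ‖v‖ = 1 → ‖w‖ = 1 →
        c2 * ε⁻¹ ^ 4 * ang v w - C1 * ε⁻¹ ^ 2 ≤
          qv (c.k ε p q) (G.U i p v) (J0 (G.U i p v)) (G.U i q w) (J0 (G.U i q w)) := by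
  obtain ⟨C0, hC0, hsupp⟩ := c.k_supp
  have hC0' : 0 < C0 := by linarith
  obtain ⟨ε1, hε1, C1, hC1, h⟩ := c.k_ge hC0'
  obtain ⟨δ, hδ, hnear⟩ := c.exists_near
  obtain ⟨C, hC, hcl⟩ := c.close
  obtain ⟨L, hL, hlip⟩ := G.exists_lip
  obtain ⟨a, ha, hlow⟩ := prof_lower
  refine ⟨min ε1 (δ / C0), by positivity, C1, hC1, min (a / 4) (min (1 / L) (1 / (2 * C + 1))),
    by positivity, fun ε hε p q v w hv hw => ?_, fun ε hε i p hp q hq hpq v w hv hw => ?_⟩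
  · have hε0 := hε.1
    obtain ⟨e1, e2⟩ := le_min_iff.1 hε.2
    rcases lt_or_ge (C0 * ε) (dist p q) with hd | hd
    · rw [hsupp ε hε0 p q hd, qv_apply]
      simp only [Pi.zero_apply, zero_apply, mul_zero, Finset.sum_const_zero,
        neg_nonpos]
      positivity
    · have hq := G.mem_K_ch q
      have hp := (hnear p q (hd.trans (by rw [mul_comm, ← le_div_iff₀ hC0']; exact e2)) _
        (K_mono _ (by norm_num) hq)).1
      have h1 := h ε ⟨hε0, e1⟩ p q hd _ hp (K_mono _ (by norm_num) hq) _ _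
        (((uni_A_Ti hp.1).1 v).trans hv) (((uni_A_Ti hq.1).1 w).trans hw)
      simp only [ContinuousLinearMap.comp_apply, U_A_Ti] at h1
      refine le_trans ?_ h1
      rw [le_sub_iff_add_le, neg_add_cancel]
      exact mul_nonneg (mul_nonneg (div_nonneg (ap_nonneg _) (by norm_num)) (by positivity))
        (ang_nonneg _ _)
  · have hε0 := hε.1
    obtain ⟨e1, -⟩ := le_min_iff.1 hε.2
    generalize hc2 : min (a / 4) (min (1 / L) (1 / (2 * C + 1))) = c2 at hpq ⊢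
    have k0 : 0 < c2 := by rw [← hc2]; positivity
    have k1 : c2 ≤ a / 4 := hc2 ▸ min_le_left _ _
    have k2 : c2 * L ≤ 1 := by
      rw [← le_div_iff₀ (by positivity), ← hc2]
      exact (min_le_right _ _).trans (min_le_left _ _)
    have k3 : c2 * (2 * C + 1) ≤ 1 := by
      rw [← le_div_iff₀ (by positivity), ← hc2]
      exact (min_le_right _ _).trans (min_le_right _ _)
    have hp' : p ∈ G.K i (12 / 5) := K_mono i (by norm_num) hp
    have hq' : q ∈ G.K i (12 / 5) := K_mono i (by norm_num) hq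
    rw [norm_sub_rev] at hpq
    have hd : dist p q ≤ C0 * ε := by
      refine (hlip i p (K_mono i (by norm_num) hp) q (K_mono i (by norm_num) hq)).1.trans ?_
      calc L * ‖G.κ i p - G.κ i q‖ ≤ L * (c2 * ε) := by gcongr
        _ = c2 * L * ε := by ring
        _ ≤ C0 * ε := by gcongr; linarith
    have hF : ‖c.F p q‖ ≤ ε / 2 := by
      rw [← c.norm_f i hp' hq']
      refine (hcl i _ (mem_closedBall_zero_iff.2 hp'.2) _
        (mem_closedBall_zero_iff.2 hq'.2) 0).2.2.1.trans ?_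
      calc C * ‖G.κ i p - G.κ i q‖ ≤ C * (c2 * ε) := by gcongr
        _ = c2 * C * ε := by ring
        _ ≤ 1 / 2 * ε := by gcongr; linarith
        _ = ε / 2 := by ring
    have hF' : ‖c.F p q‖ ^ 2 / ε ^ 2 ≤ 1 / 4 := by
      rw [div_le_iff₀ (by positivity)]
      nlinarith [norm_nonneg (c.F p q)]
    have h1 := (hlow _ (by positivity) hF').2
    refine le_trans ?_ (h ε ⟨hε0, e1⟩ p q hd i hp' hq' v w hv hw)
    have := ang_nonneg v w
    gcongr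
    linarith

end Geo

end Crest.Agent.R240

end
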