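import Crest.Agent.R240.Conn
import Crest.Agent.R240.KerExact
import Crest.Agent.R240.KerPos
import Crest.Agent.R240.KerBlow

/-!
# Row 240: existence of the kernels
-/

set_option autoImplicit false
set_option linter.unusedSectionVars false
set_option linter.unusedVariables false

open MeasureTheory Metric Set Filter Topology
open scoped ContDiff ENNReal

noncomputable section

namespace Crest.Agent.R240

namespace Geo

variable {M : Type*} [MetricSpace M] [CompactSpace M] [MeasurableSpace M] [BorelSpace M]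
  {G : Geo M}

theorem _root_.Crest.Agent.R240.IsK.mono {F : Type*} [NormedAddCommGroup F] [NormedSpace ℝ F]
    {C C' : ℝ} {K : E × E × ℝ → F} (h : IsK C K) (hC : C ≤ C') : IsK C' K :=
  ⟨h.smooth, fun x w t hw => h.supp x w t (hC.trans hw)⟩

/-- (C) -/
theorem exists_ker (G : Geo M) : Nonempty G.Ker := by
  obtain ⟨c⟩ := exists_conn G
  obtain ⟨Cs, hCs, hsupp⟩ := c.k_supp
  obtain ⟨e1, he1, hex⟩ := c.k_exact
  obtain ⟨e2, he2, C1, hC1, c2, hc2, hpos, hpos'⟩ := c.k_pos
  obtain ⟨e3, he3, Cb, Kb, hK, hKeq, hK0⟩ := c.k_blow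
  obtain ⟨δ, hδ, hnear⟩ := near_K G (show (2 : ℝ) < 9 / 4 by norm_num) (by norm_num)
  set C0 := max Cs Cb with hC0
  have hC01 : 1 ≤ C0 := hCs.trans (le_max_left _ _)
  have hC0p : 0 < C0 := lt_of_lt_of_le one_pos hC01
  set ε0 := min (min (min e1 e2) (min e3 1)) (min (1 / (10 * C0)) (δ / C0)) with hε0
  have h1 : ε0 ≤ e1 := (min_le_left _ _).trans ((min_le_left _ _).trans (min_le_left _ _))
  have h2 : ε0 ≤ e2 := (min_le_left _ _).trans ((min_le_left _ _).trans (min_le_right _ _))
  have h3 : ε0 ≤ e3 := (min_le_left _ _).trans ((min_le_right _ _).trans (min_le_left _ _))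
  have h4 : ε0 ≤ 1 := (min_le_left _ _).trans ((min_le_right _ _).trans (min_le_right _ _))
  have h5 : ε0 ≤ 1 / (10 * C0) := (min_le_right _ _).trans (min_le_left _ _)
  have h6 : ε0 ≤ δ / C0 := (min_le_right _ _).trans (min_le_right _ _)
  have h0 : 0 < ε0 := by positivity
  have hsupp' : ∀ ε ∈ Ioc 0 ε0, ∀ p q, C0 * ε < dist p q → c.k ε p q = 0 := fun ε hε p q h =>
    hsupp ε hε.1 p q (lt_of_le_of_lt (mul_le_mul_of_nonneg_right (le_max_left _ _) hε.1.le) h)
  refine ⟨{
    ε0 := ε0
    C0 := C0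
    C1 := C1
    c2 := c2
    ε0_pos := h0
    ε0_le := h4
    C0_ge := hC01
    C1_nonneg := hC1
    c2_pos := hc2
    small := ?_
    k := c.k
    a := fun w => ap (‖w‖ ^ 2)
    Kb := Kb
    smooth := c.k_smooth
    alt1 := c.k_alt1
    alt2 := c.k_alt2
    supp := hsupp'
    out := ?_
    exact := fun ε hε => hex ε ⟨hε.1, hε.2.trans h1⟩
    pos := fun ε hε => hpos ε ⟨hε.1, hε.2.trans h2⟩
    pos' := fun ε hε => hpos' ε ⟨hε.1, hε.2.trans h2⟩
    Kb_isK := fun i => (hK i).mono (le_max_right _ _)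
    Kb_eq := fun ε hε => hKeq ε ⟨hε.1, hε.2.trans h3⟩
    a_cont := ap_smooth.continuous.comp (by fun_prop)
    a_supp := ?_
    a_int := integral_ap
    Kb_zero := hK0 }⟩
  · rw [le_div_iff₀ (by positivity)] at h5
    linarith
  · intro ε hε i p hp q hq
    refine hsupp' ε hε p q ?_
    by_contra hcon
    push Not at hcon
    apply hq
    refine hnear i p hp q ?_
    rw [le_div_iff₀ hC0p] at h6
    nlinarith [hε.2]
  · refine HasCompactSupport.intro (isCompact_closedBall (0 : E) 1) fun w hw => ap_zero ?_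
    have : 1 < ‖w‖ := by simpa using hw
    nlinarith

end Geo

end Crest.Agent.R240

end
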