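import Crest.Agent.R240.Pole
import Crest.Agent.R240.Iter
import Crest.Agent.R240.KerAll
import Crest.Agent.R240.Corr
import Crest.Agent.R240.HB

/-!
# Row 240: the theorem on the model
-/

set_option autoImplicit false
set_option linter.unusedSectionVars false
set_option linter.unusedVariables false

open MeasureTheory Metric Set Filter Topology
open scoped ContDiff ENNReal

noncomputable section

namespace Crest.Agent.R240

namespace Geo

variable {M : Type*} [MetricSpace M] [CompactSpace M] [MeasurableSpace M] [BorelSpace M]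
  {G : Geo M}

theorem Tm_add {ν : Measure (M × E)} [IsFiniteMeasure ν] (hν : ∀ᵐ z ∂ν, ‖z.2‖ = 1) {η : M → Bil}
    (hη : G.S2 η) {s : Set (M × E)} (hs : MeasurableSet s) :
    Tm (ν.restrict s) η + Tm (ν.restrict sᶜ) η = Tm ν η := by
  obtain ⟨C, -, hC⟩ := hη.bdd
  exact integral_add_compl hs (integrable_Tm hν hη.measurable hC)

theorem mass_restrict {ν : Measure (M × E)} [IsFiniteMeasure ν] {m : ℝ} (hm : Mass ν.fst 0 m)
    (s : Set (M × E)) : Mass (ν.restrict s).fst 0 m := by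
  intro x r hr hr'
  refine le_trans ?_ (hm x r hr hr')
  have h1 : (ν.restrict s).fst ≤ ν.fst := Measure.fst_mono Measure.restrict_le_self
  exact ENNReal.toReal_mono (measure_ne_top _ _) (h1 _)

/-- (F) -/
theorem Tm_eq_zero {ν : Measure (M × E)} [IsFiniteMeasure ν] (hν : ∀ᵐ z ∂ν, ‖z.2‖ = 1) (ψ : G.Cur)
    (hN : ∀ η, G.Z η → Tm ν η + ψ.N (fun p => am (η p)) = 0) {η : M → Bil} (hη : G.Z η) :
    Tm ν η = 0 := by
  obtain ⟨Kr⟩ := exists_ker G
  obtain ⟨Φ, m, hΦ, hm0, hm, hN'⟩ := exists_L2 Kr hν ψ hN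
  have hS : MeasurableSet {z : M × E | z.1 ∈ Lel ν.fst} :=
    measurable_fst (measurableSet_Lel ν.fst)
  set ν₁ := ν.restrict {z : M × E | z.1 ∈ Lel ν.fst}ᶜ with hν₁def
  have hν₁ : ∀ᵐ z ∂ν₁, ‖z.2‖ = 1 := ae_restrict_of_ae hν
  have hm₁ : Mass ν₁.fst 0 m := mass_restrict hm _
  have hN₁ : ∀ γ, G.S1 γ → Tm ν₁ (G.D1 γ) + ∫ p, wp (G.D1 γ p) (Φ p) ∂G.V = 0 := by
    intro γ hγ
    have h1 := Tm_add hν hγ.Z.smooth hS
    rw [closed_Lel Kr hν hm0 hm hΦ hN' hγ, zero_add] at h1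
    rw [hν₁def, h1]
    exact hN' _ hγ.Z
  have hT := tendsto_TT Kr hν hν₁ hm hm₁ hΦ hN' hN₁
  have hae : ∀ᵐ x ∂ν₁.fst, x ∉ Lel ν.fst := by
    refine (ae_map_iff measurable_fst.aemeasurable (measurableSet_Lel ν.fst).compl).mpr ?_
    exact ae_restrict_mem hS.compl
  have hC0 : 0 < Kr.C0 := lt_of_lt_of_le one_pos Kr.C0_ge
  have hlim := tendsto_integral_off_Lel ν.fst ν₁.fst hm hae hC0
  have hlim' := (hlim.const_mul Kr.C1).neg
  have hle : -(Kr.C1 * 0) ≤ -(2 * G.n2 Φ) := by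
    refine le_of_tendsto_of_tendsto hlim' hT ?_
    filter_upwards [Ioc_mem_nhdsGT Kr.ε0_pos] with ε hε
    exact TT_ge Kr hν hν₁ hε
  have hn : G.n2 Φ = 0 := le_antisymm (by linarith) (n2_nonneg Φ)
  have h2 := (abs_integral_wp_le (hη.smooth.memLp 2) hΦ.mem).2
  rw [hn, Real.sqrt_zero, mul_zero] at h2
  have h3 := hN' η hη
  rw [abs_nonpos_iff.mp h2, add_zero] at h3
  exact h3

theorem pos_of_unit {β : Bil} (h : ∀ v, ‖v‖ = 1 → 0 < β v (J0 v)) (v : E) (hv : v ≠ 0) :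
    0 < β v (J0 v) := by
  have hn : 0 < ‖v‖ := norm_pos_iff.mpr hv
  have h1 := h (‖v‖⁻¹ • v) (by rw [norm_smul, norm_inv, norm_norm, inv_mul_cancel₀ hn.ne'])
  simp only [map_smul, _root_.smul_apply, smul_eq_mul] at h1
  have h2 : 0 < ‖v‖⁻¹ := inv_pos.mpr hn
  exact pos_of_mul_pos_of_pos_aux h1 h2
where
  pos_of_mul_pos_of_pos_aux {a b : ℝ} (h1 : 0 < a * (a * b)) (h2 : 0 < a) : 0 < b := by
    by_contra hb
    push Not at hb
    nlinarith [mul_nonneg h2.le (mul_nonneg h2.le (neg_nonneg.mpr hb))]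

theorem main (G : Geo M) {α : M → Bil} (hα : G.Z α) (ht : ∀ p v, v ≠ 0 → 0 < α p v (J0 v)) :
    ∃ η, G.Z η ∧ (∀ p v, v ≠ 0 → 0 < η p v (J0 v)) ∧
      ∀ p u v, η p (J0 u) (J0 v) = η p u v := by
  obtain ⟨C, hC0, hC⟩ := correction G
  have hδ : 0 < 1 / (C + 1) := by positivity
  rcases hahn_banach G hδ with ⟨η, hη, hpos, hb⟩ | ⟨ν, ψ, hfin, hne, hν, hN⟩
  · obtain ⟨η', hη', ham, hs⟩ := hC η hη _ hδ.le hb
    refine ⟨η - η', hη.sub hη', fun p => pos_of_unit fun v hv => ?_, fun p => ?_⟩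
    · have h1 := hpos p v hv
      have h2 := abs_apply_le (η' p) v (J0 v)
      rw [norm_J0, hv, mul_one, mul_one] at h2
      have h3 := hs p
      have h4 : C * (1 / (C + 1)) ≤ 1 := by
        rw [mul_one_div, div_le_one (by positivity)]; linarith
      have h5 := le_abs_self (η' p v (J0 v))
      simp only [Pi.sub_apply, _root_.sub_apply]
      linarith
    · have h1 : am ((η - η') p) = 0 := by
        rw [Pi.sub_apply, am_sub, ham, sub_self]
      exact (amJ_eq_zero_iff J0 _).mp h1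
  · exfalso
    have h0 := Tm_eq_zero hν ψ hN hα
    obtain ⟨B, -, hB⟩ := hα.smooth.bdd
    have hint := integrable_Tm hν hα.smooth.measurable hB
    have hp : ∀ᵐ z ∂ν, 0 < α z.1 z.2 (J0 z.2) := by
      filter_upwards [hν] with z hz
      exact ht _ _ (by intro h; rw [h, norm_zero] at hz; exact zero_ne_one hz)
    have h1 := (integral_eq_zero_iff_of_nonneg_ae (hp.mono fun z hz => hz.le) hint).mp h0
    have h2 : ∀ᵐ z ∂ν, False := by
      filter_upwards [hp, h1] with z hz hz'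
      exact hz.ne' hz'
    exact hne (by simpa [ae_iff] using h2)

end Geo

end Crest.Agent.R240

end
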