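import Crest.Agent.R240.Prof
import Crest.Agent.R240.Par2

/-!
# Row 240: a metric adapted to the charts
-/

set_option autoImplicit false
set_option linter.unusedSectionVars false
set_option linter.unusedVariables false

open MeasureTheory Metric Set Filter Topology
open scoped ContDiff ENNReal

noncomputable section

namespace Crest.Agent.R240

namespace MetricAux

/-- the cut-off chart -/
def Φ (x : E) : E × ℝ := (bump x • x, bump x)

theorem contDiff_Φ : ContDiff ℝ ∞ Φ := (bump.contDiff.smul contDiff_id).prodMk bump.contDiff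

theorem Φ_zero {x : E} (hx : 11 / 4 ≤ ‖x‖) : Φ x = 0 := by
  simp [Φ, bump_zero hx]

theorem Φ_one {x : E} (hx : ‖x‖ ≤ 5 / 2) : Φ x = (x, 1) := by
  simp [Φ, bump_one hx]

variable {M : Type*} [TopologicalSpace M] (G : PreGeo M)

open Classical in
/-- the embedding -/
def ι (p : M) (j : Fin G.n) : E × ℝ := if p ∈ (G.κ j).source then Φ (G.κ j p) else 0

theorem ι_of_mem {p : M} {j : Fin G.n} (h : p ∈ (G.κ j).source) : ι G p j = Φ (G.κ j p) := by
  simp [ι, h]

theorem ι_of_not_mem {p : M} {j : Fin G.n} (h : p ∉ (G.κ j).source) : ι G p j = 0 := by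
  simp [ι, h]

theorem ι_ev_of_mem {p : M} {j : Fin G.n} (h : p ∈ (G.κ j).source) :
    (fun q => ι G q j) =ᶠ[𝓝 p] fun q => Φ (G.κ j q) := by
  filter_upwards [(G.κ j).open_source.mem_nhds h] with q hq using ι_of_mem G hq

theorem ι_ev_of_not_mem [T2Space M] {p : M} {j : Fin G.n} (h : p ∉ (G.κ j).source) :
    (fun q => ι G q j) =ᶠ[𝓝 p] fun _ => 0 := by
  have hsub : closedBall (0 : E) (11 / 4) ⊆ (G.κ j).target := by
    rw [G.tgt]
    exact closedBall_subset_ball (by norm_num)
  have hK : IsCompact ((G.κ j).symm '' closedBall (0 : E) (11 / 4)) :=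
    (isCompact_closedBall _ _).image_of_continuousOn ((G.κ j).continuousOn_symm.mono hsub)
  have hp : p ∈ ((G.κ j).symm '' closedBall (0 : E) (11 / 4))ᶜ := by
    rintro ⟨x, hx, rfl⟩
    exact h ((G.κ j).map_target (hsub hx))
  filter_upwards [hK.isClosed.isOpen_compl.mem_nhds hp] with q hq
  by_cases hq' : q ∈ (G.κ j).source
  · rw [ι_of_mem G hq']
    apply Φ_zero
    by_contra hlt
    exact hq ⟨G.κ j q, mem_closedBall_zero_iff.2 (not_le.1 hlt).le, (G.κ j).left_inv hq'⟩
  · exact ι_of_not_mem G hq'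

theorem continuous_ι [T2Space M] : Continuous (ι G) := by
  refine continuous_pi fun j => continuous_iff_continuousAt.2 fun p => ?_
  by_cases h : p ∈ (G.κ j).source
  · refine ContinuousAt.congr ?_ (ι_ev_of_mem G h).symm
    exact contDiff_Φ.continuous.continuousAt.comp ((G.κ j).continuousAt h)
  · exact ContinuousAt.congr continuousAt_const (ι_ev_of_not_mem G h).symm

theorem injective_ι : Function.Injective (ι G) := by
  intro p q hpq
  obtain ⟨i, hp, hlt⟩ := G.cover p
  have h1 : ι G p i = (G.κ i p, 1) := by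
    rw [ι_of_mem G hp, Φ_one (by linarith)]
  have h2 : ι G q i = (G.κ i p, 1) := by rw [← hpq, h1]
  by_cases hq : q ∈ (G.κ i).source
  · rw [ι_of_mem G hq] at h2
    have h3 : bump (G.κ i q) = 1 := congrArg Prod.snd h2
    have h4 : bump (G.κ i q) • G.κ i q = G.κ i p := congrArg Prod.fst h2
    rw [h3, one_smul] at h4
    exact (G.κ i).injOn hp hq h4.symm
  · rw [ι_of_not_mem G hq] at h2
    have h3 : (0 : ℝ) = 1 := congrArg Prod.snd h2
    exact absurd h3 zero_ne_one

theorem contDiffOn_ι [T2Space M] (i : Fin G.n) :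
    ContDiffOn ℝ ∞ (fun x => ι G ((G.κ i).symm x)) (ball 0 3) := by
  refine contDiffOn_pi.2 fun j x hx => ContDiffAt.contDiffWithinAt ?_
  have hx' : x ∈ (G.κ i).target := by rw [G.tgt]; exact hx
  have hc : ContinuousAt (G.κ i).symm x := (G.κ i).continuousAt_symm hx'
  by_cases h : (G.κ i).symm x ∈ (G.κ j).source
  · have h1 := G.smooth_tr i j _ ((G.κ i).map_target hx') h
    rw [(G.κ i).right_inv hx'] at h1
    exact (contDiff_Φ.contDiffAt.comp x h1).congr_of_eventuallyEq
      (hc.eventually (ι_ev_of_mem G h))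
  · exact contDiffAt_const.congr_of_eventuallyEq (hc.eventually (ι_ev_of_not_mem G h))

end MetricAux

/-- a metric adapted to the charts -/
theorem PreGeo.exists_metric {M : Type*} [t : TopologicalSpace M] [T2Space M] [CompactSpace M]
    (G : PreGeo M) : ∃ m : MetricSpace M, m.toPseudoMetricSpace.toUniformSpace.toTopologicalSpace = t ∧
      ∃ C : ℝ, ∀ i, ∀ x ∈ closedBall (0 : E) (5 / 2), ∀ y ∈ closedBall (0 : E) (5 / 2),
        m.dist ((G.κ i).symm x) ((G.κ i).symm y) ≤ C * ‖x - y‖ ∧
          ‖x - y‖ ≤ C * m.dist ((G.κ i).symm x) ((G.κ i).symm y) := by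
  have hemb : IsEmbedding (MetricAux.ι G) :=
    ((MetricAux.continuous_ι G).isClosedEmbedding (MetricAux.injective_ι G)).isEmbedding
  refine ⟨hemb.comapMetricSpace _, rfl, ?_⟩
  have hsub : closedBall (0 : E) (5 / 2) ⊆ ball 0 3 := closedBall_subset_ball (by norm_num)
  have hL : ∀ i, ∃ K, LipschitzOnWith K (fun x => MetricAux.ι G ((G.κ i).symm x))
      (closedBall (0 : E) (5 / 2)) := fun i =>
    ((MetricAux.contDiffOn_ι G i).mono hsub).exists_lipschitzOnWith (by simp)
      (convex_closedBall _ _) (isCompact_closedBall _ _)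
  choose K hK using hL
  refine ⟨1 + ∑ i, (K i : ℝ), fun i x hx y hy => ?_⟩
  have hsum : (K i : ℝ) ≤ ∑ i, (K i : ℝ) :=
    Finset.single_le_sum (f := fun i => (K i : ℝ)) (fun i _ => (K i).2) (Finset.mem_univ i)
  have hK0 : (0 : ℝ) ≤ K i := (K i).2
  show dist (MetricAux.ι G ((G.κ i).symm x)) (MetricAux.ι G ((G.κ i).symm y)) ≤ _ ∧
    _ ≤ _ * dist (MetricAux.ι G ((G.κ i).symm x)) (MetricAux.ι G ((G.κ i).symm y))
  constructor
  · have h1 := (hK i).dist_le_mul x hx y hy
    rw [dist_eq_norm x y] at h1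
    refine h1.trans (mul_le_mul_of_nonneg_right (by linarith) (norm_nonneg _))
  · have key : ∀ x ∈ closedBall (0 : E) (5 / 2),
        MetricAux.ι G ((G.κ i).symm x) i = (x, 1) := by
      intro x hx
      have hx' : x ∈ (G.κ i).target := by rw [G.tgt]; exact hsub hx
      rw [MetricAux.ι_of_mem G ((G.κ i).map_target hx'), (G.κ i).right_inv hx',
        MetricAux.Φ_one (mem_closedBall_zero_iff.1 hx)]
    have h1 := dist_le_pi_dist (MetricAux.ι G ((G.κ i).symm x)) (MetricAux.ι G ((G.κ i).symm y)) i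
    rw [key x hx, key y hy, Prod.dist_eq, dist_eq_norm x y] at h1
    have h2 : ‖x - y‖ ≤ dist (MetricAux.ι G ((G.κ i).symm x)) (MetricAux.ι G ((G.κ i).symm y)) :=
      (le_max_left _ _).trans h1
    refine h2.trans (le_mul_of_one_le_left dist_nonneg (by linarith))

end Crest.Agent.R240

end
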