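import Crest.Agent.R240.GeoOf
import Crest.Agent.R240.Metric
import Crest.Agent.R240.Main

/-!
# Row 240: the theorem for families of local forms
-/

set_option autoImplicit false
set_option linter.unusedSectionVars false
set_option linter.unusedVariables false

open MeasureTheory Metric Set Filter Topology
open scoped ContDiff ENNReal

noncomputable section

namespace Crest.Agent.R240

theorem PreGeo.main {M : Type*} [t : TopologicalSpace M] [T2Space M] [CompactSpace M]
    (G : PreGeo M) {α : Fin G.n → E → Bil} (h : G.Fam α) :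
    ∃ η : Fin G.n → E → Bil, G.Fam η ∧ ∀ i, ∀ x ∈ ball (0 : E) 3, ∀ u v,
      η i x ((G.fr i).J x u) ((G.fr i).J x v) = η i x u v := by
  obtain ⟨m, hm, hl⟩ := G.exists_metric
  subst hm
  letI : MeasurableSpace M := borel M
  haveI : BorelSpace M := ⟨rfl⟩
  obtain ⟨G', rfl⟩ := G.exists_geo hl
  obtain ⟨α', hα, ht⟩ := G'.exists_of_fam h
  obtain ⟨η, hη, hηt, hηi⟩ := G'.main hα ht
  exact ⟨_, G'.fam_of_Z hη hηt hηi⟩

end Crest.Agent.R240

end
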