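import Crest.Agent.R240.BridgeD
import Crest.Agent.R240.Charts
import Crest.Agent.R240.PreMain

/-!
# Row 240: the final assembly
-/

set_option autoImplicit false
set_option linter.unusedSectionVars false
set_option linter.unusedVariables false

open MeasureTheory Metric Set Filter Topology
open scoped ContDiff ENNReal

noncomputable section

namespace Crest.Agent.R240

open scoped Manifold
open Crest.GeometryTopology.TwoForm

variable {M : Type*} [TopologicalSpace M] [ChartedSpace E M] [IsManifold (𝓡 4) ∞ M]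

theorem fam_lrep [T2Space M]
    {α : Π x : M, TangentSpace (𝓡 4) x →L[ℝ] TangentSpace (𝓡 4) x →L[ℝ] ℝ}
    {J : Π x : M, TangentSpace (𝓡 4) x →L[ℝ] TangentSpace (𝓡 4) x}
    (hα : IsSmoothTwoForm (𝓡 4) M α) (hc : IsClosedTwoForm (𝓡 4) M α) (ht : Tames (𝓡 4) M α J)
    (G : PreGeo M) (hκ : ∀ i, G.κ i ∈ IsManifold.maximalAtlas (𝓡 4) ∞ M)
    (hJ : ∀ i, ∀ x ∈ ball (0 : E) 3, (G.fr i).J x = jrep (G.κ i) J x) :
    G.Fam fun i => lrep (G.κ i) α where
  smooth := fun i => G.tgt i ▸ lrep_contDiffOn (hκ i) hα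
  alt := fun i x _ => lrep_alt hα x
  closed := fun i x hx u v w => d2_lrep (hκ i) hα hc (by rw [G.tgt]; exact hx) u v w
  tr := fun i j p hi hj => lrep_tr (hκ i) (hκ j) hi hj α
  tames := fun i x hx v hv => by
    rw [hJ i x hx]
    exact lrep_tames (hκ i) ht (by rw [G.tgt]; exact hx) hv

theorem exists_form_of_fam (G : PreGeo M) (hκ : ∀ i, G.κ i ∈ IsManifold.maximalAtlas (𝓡 4) ∞ M)
    {η : Fin G.n → E → Bil} (h : G.Fam η) :
    ∃ α : Π x : M, TangentSpace (𝓡 4) x →L[ℝ] TangentSpace (𝓡 4) x →L[ℝ] ℝ,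
      ∀ i, ∀ x ∈ ball (0 : E) 3, lrep (G.κ i) α x = η i x := by
  choose j hj _ using G.cover
  refine ⟨fun p => pb (η (j p) (G.κ (j p) p)) (mDi (G.κ (j p)) p), fun i x hx => ?_⟩
  have hx' : x ∈ (G.κ i).target := by rw [G.tgt]; exact hx
  have hp : (G.κ i).symm x ∈ (G.κ i).source := (G.κ i).map_target hx'
  have hxx : G.κ i ((G.κ i).symm x) = x := (G.κ i).right_inv hx'
  have h1 := h.tr i (j ((G.κ i).symm x)) _ hp (hj _)
  rw [hxx] at h1
  rw [h1]
  ext u v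
  have h2 := fun w => fderiv_tr (hκ i) (hκ (j ((G.κ i).symm x))) hp (hj _) w
  rw [hxx] at h2
  simp only [lrep, pb_apply, h2]

theorem donaldson [T2Space M] [CompactSpace M]
    (J : Π x : M, TangentSpace (𝓡 4) x →L[ℝ] TangentSpace (𝓡 4) x)
    (hJ : IsAlmostComplexStructure (𝓡 4) M J)
    (hα : ∃ α : Π x : M, TangentSpace (𝓡 4) x →L[ℝ] TangentSpace (𝓡 4) x →L[ℝ] ℝ,
      IsSmoothTwoForm (𝓡 4) M α ∧ IsClosedTwoForm (𝓡 4) M α ∧ Tames (𝓡 4) M α J) :
    ∃ α' : Π x : M, TangentSpace (𝓡 4) x →L[ℝ] TangentSpace (𝓡 4) x →L[ℝ] ℝ,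
      IsSmoothTwoForm (𝓡 4) M α' ∧ IsClosedTwoForm (𝓡 4) M α' ∧
        IsCompatible (𝓡 4) M α' J := by
  obtain ⟨α, hs, hc, ht⟩ := hα
  obtain ⟨G, hκ, hGJ⟩ := exists_preGeo hJ hs ht
  obtain ⟨η, hη, hinv⟩ := G.main (fam_lrep hs hc ht G hκ hGJ)
  obtain ⟨α', hα'⟩ := exists_form_of_fam G hκ hη
  have hmem : ∀ {i p}, p ∈ (G.κ i).source → G.κ i p ∈ ball (0 : E) 3 := fun {i p} hp => by
    rw [← G.tgt i]; exact (G.κ i).map_source hp
  have hev : ∀ {i p}, p ∈ (G.κ i).source → lrep (G.κ i) α' =ᶠ[𝓝 (G.κ i p)] η i :=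
    fun {i p} hp => by
      filter_upwards [isOpen_ball.mem_nhds (hmem hp)] with x hx using hα' i x hx
  have hval : ∀ {i p}, p ∈ (G.κ i).source → ∀ u v : E,
      α' p u v = η i (G.κ i p) (mDi (G.κ i) p u) (mDi (G.κ i) p v) := fun {i p} hp u v => by
    rw [← hα' i _ (hmem hp)]
    simp only [lrep, pb_apply, mD_mDi (hκ i) hp]
    rw [(G.κ i).left_inv hp]
    rfl
  have hJval : ∀ {i p}, p ∈ (G.κ i).source → ∀ u : E,
      mDi (G.κ i) p (J p u) = (G.fr i).J (G.κ i p) (mDi (G.κ i) p u) := fun {i p} hp u => by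
    rw [hGJ i _ (hmem hp)]
    simp only [jrep, ContinuousLinearMap.comp_apply, mD_mDi (hκ i) hp]
    rw [(G.κ i).left_inv hp]
    rfl
  have hsm : IsSmoothTwoForm (𝓡 4) M α' := by
    refine isSmoothTwoForm_of_lrep (fun p v => ?_) fun p => ?_
    · obtain ⟨i, hi, -⟩ := G.cover p
      rw [hval hi]
      exact (hη.alt i _ (hmem hi)).self _
    · obtain ⟨i, hi, -⟩ := G.cover p
      exact ⟨_, hκ i, hi, ((hη.smooth i).contDiffAt
        (isOpen_ball.mem_nhds (hmem hi))).congr_of_eventuallyEq (hev hi)⟩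
  refine ⟨α', hsm, isClosed_of_lrep hsm fun p => ?_, fun p v hv => ?_, fun p u v => ?_⟩
  · obtain ⟨i, hi, -⟩ := G.cover p
    exact ⟨_, hκ i, hi, fun u v w => by
      rw [d2_congr (hev hi)]; exact hη.closed i _ (hmem hi) u v w⟩
  · obtain ⟨i, hi, -⟩ := G.cover p
    rw [hval hi, hJval hi]
    refine hη.tames i _ (hmem hi) _ fun h0 => hv ?_
    have := mD_mDi (hκ i) hi v
    rw [h0, map_zero] at this
    exact this.symm
  · obtain ⟨i, hi, -⟩ := G.cover p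
    rw [hval hi, hval hi, hJval hi, hJval hi]
    exact hinv i _ (hmem hi) _ _

end Crest.Agent.R240

end
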