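import Crest.Agent.R240.Bridge

/-!
# Row 240: charts and unitary frames on the manifold
-/

set_option autoImplicit false
set_option linter.unusedSectionVars false
set_option linter.unusedVariables false

open MeasureTheory Metric Set Filter Topology
open scoped ContDiff ENNReal

noncomputable section

namespace Crest.Agent.R240

open scoped Manifold
open Crest.GeometryTopology.TwoForm

variable {M : Type*} [TopologicalSpace M] [ChartedSpace E M] [IsManifold (𝓡 4) ∞ M]

namespace FramesAux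

/-- the coordinate map of a unitary frame `u, J u, w, J w` -/
def mkB (g : Bil) (J : End) (u w : E) : End :=
  (g u).smulRight (e 0) + (g (J u)).smulRight (e 1) + (g w).smulRight (e 2) +
    (g (J w)).smulRight (e 3)

/-- the inverse map -/
def mkB' (J : End) (u w : E) : End :=
  (dx 0).smulRight u + (dx 1).smulRight (J u) + (dx 2).smulRight w + (dx 3).smulRight (J w)

theorem mkB_0 (g : Bil) (J : End) (u w v : E) : mkB g J u w v 0 = g u v := by
  simp [mkB]
theorem mkB_1 (g : Bil) (J : End) (u w v : E) : mkB g J u w v 1 = g (J u) v := by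
  simp [mkB]
theorem mkB_2 (g : Bil) (J : End) (u w v : E) : mkB g J u w v 2 = g w v := by
  simp [mkB]
theorem mkB_3 (g : Bil) (J : End) (u w v : E) : mkB g J u w v 3 = g (J w) v := by
  simp [mkB]

theorem mkB'_apply (J : End) (u w c : E) :
    mkB' J u w c = c 0 • u + c 1 • J u + c 2 • w + c 3 • J w := by
  simp [mkB']

theorem E_ext {a b : E} (h0 : a 0 = b 0) (h1 : a 1 = b 1) (h2 : a 2 = b 2) (h3 : a 3 = b 3) :
    a = b := by
  ext i
  fin_cases i
  · exact h0
  · exact h1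
  · exact h2
  · exact h3

theorem pointwise {g : Bil} {J : End} {u w : E} (hJJ : ∀ v, J (J v) = -v)
    (hsymm : ∀ u v, g u v = g v u) (hinv : ∀ u v, g (J u) (J v) = g u v)
    (hu : g u u = 1) (hw : g w w = 1) (huw : g u w = 0) (hJuw : g (J u) w = 0) :
    (∀ v, mkB g J u w (mkB' J u w v) = v) ∧ (∀ v, mkB' J u w (mkB g J u w v) = v) ∧
      (∀ v, mkB g J u w (J v) = J0 (mkB g J u w v)) ∧
      (∀ a b, inner ℝ (mkB g J u w a) (mkB g J u w b) = g a b) := by
  have hanti : ∀ a b, g a (J b) = -g (J a) b := by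
    intro a b
    rw [← hinv a (J b), hJJ, map_neg]
  have hself : ∀ a, g (J a) a = 0 := by
    intro a
    have h1 := hanti a a
    rw [hsymm a (J a)] at h1
    linarith
  have hself' : ∀ a, g a (J a) = 0 := fun a => by rw [hsymm, hself]
  have hwu : g w u = 0 := by rw [hsymm, huw]
  have hwJu : g w (J u) = 0 := by rw [hsymm, hJuw]
  have huJw : g u (J w) = 0 := by rw [hanti, hJuw, neg_zero]
  have hJwu : g (J w) u = 0 := by rw [hsymm, huJw]
  have hJuJu : g (J u) (J u) = 1 := by rw [hinv, hu]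
  have hJwJw : g (J w) (J w) = 1 := by rw [hinv, hw]
  have hJuJw : g (J u) (J w) = 0 := by rw [hinv, huw]
  have hJwJu : g (J w) (J u) = 0 := by rw [hinv, hwu]
  have h1 : ∀ v, mkB g J u w (mkB' J u w v) = v := by
    intro v
    apply E_ext
    · rw [mkB_0, mkB'_apply]
      simp [hu, hself', huw, huJw]
    · rw [mkB_1, mkB'_apply]
      simp [hself, hJuJu, hJuw, hJuJw]
    · rw [mkB_2, mkB'_apply]
      simp [hwu, hwJu, hw, hself']
    · rw [mkB_3, mkB'_apply]
      simp [hJwu, hJwJu, hself, hJwJw]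
  have h2 : ∀ v, mkB' J u w (mkB g J u w v) = v := by
    have hinj : Function.Injective (mkB' J u w) := Function.LeftInverse.injective h1
    have hsurj : Function.Surjective (mkB' J u w) :=
      (LinearMap.injective_iff_surjective (f := (mkB' J u w : E →ₗ[ℝ] E))).1 hinj
    intro v
    obtain ⟨c, rfl⟩ := hsurj v
    rw [h1]
  refine ⟨h1, h2, ?_, ?_⟩
  · intro v
    apply E_ext
    · rw [mkB_0, J0_0, mkB_1, hanti]
    · rw [mkB_1, J0_1, mkB_0, hinv]
    · rw [mkB_2, J0_2, mkB_3, hanti]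
    · rw [mkB_3, J0_3, mkB_2, hinv]
  · intro a b
    conv_rhs => rw [← h2 a]
    rw [inner_eq, mkB'_apply]
    simp only [map_add, map_smul, add_apply, smul_apply,
      smul_eq_mul, mkB_0, mkB_1, mkB_2, mkB_3]

theorem exists_not_span (a b : E) : ∃ z : E, ∀ s t : ℝ, z ≠ s • a + t • b := by
  by_contra hcon
  push Not at hcon
  have htop : Submodule.span ℝ ({a, b} : Set E) = ⊤ := by
    rw [eq_top_iff]
    intro z _
    obtain ⟨s, t, rfl⟩ := hcon z
    exact Submodule.mem_span_pair.2 ⟨s, t, rfl⟩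
  have h1 : Module.finrank ℝ (Submodule.span ℝ ({a, b} : Set E)) ≤ 2 := by
    classical
    have := finrank_span_finset_le_card (R := ℝ) ({a, b} : Finset E)
    have h2 : ((({a, b} : Finset E) : Set E)) = {a, b} := by simp
    rw [Set.finrank, h2] at this
    exact this.trans Finset.card_le_two
  rw [htop, finrank_top] at h1
  simp at h1

theorem normalize {g : Bil} {v : E} (h : 0 < g v v) :
    g ((Real.sqrt (g v v))⁻¹ • v) ((Real.sqrt (g v v))⁻¹ • v) = 1 := by
  simp only [map_smul, smul_apply, smul_eq_mul]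
  have h1 : 0 < Real.sqrt (g v v) := Real.sqrt_pos.2 h
  have h2 : Real.sqrt (g v v) * Real.sqrt (g v v) = g v v := Real.mul_self_sqrt h.le
  field_simp
  nlinarith

theorem contDiffOn_normalize {g : E → Bil} {v : E → E} {O : Set E} (hg : ContDiffOn ℝ ∞ g O)
    (hv : ContDiffOn ℝ ∞ v O) (h : ∀ x ∈ O, 0 < g x (v x) (v x)) :
    ContDiffOn ℝ ∞ (fun x => (Real.sqrt (g x (v x) (v x)))⁻¹ • v x) O := by
  have h1 : ContDiffOn ℝ ∞ (fun x => g x (v x) (v x)) O := (hg.clm_apply hv).clm_apply hv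
  have h2 : ContDiffOn ℝ ∞ (fun x => Real.sqrt (g x (v x) (v x))) O :=
    h1.sqrt fun x hx => (h x hx).ne'
  exact (h2.inv fun x hx => (Real.sqrt_pos.2 (h x hx)).ne').smul hv

theorem contDiffOn_smulRight {φ : E → Cov} {v : E → E} {O : Set E} (hφ : ContDiffOn ℝ ∞ φ O)
    (hv : ContDiffOn ℝ ∞ v O) : ContDiffOn ℝ ∞ (fun x => (φ x).smulRight (v x)) O := by
  have h := ((ContinuousLinearMap.smulRightL ℝ E E).contDiff.comp_contDiffOn hφ).clm_apply hv
  exact h

theorem contDiffOn_mkB {g : E → Bil} {J : E → End} {u w : E → E} {O : Set E}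
    (hg : ContDiffOn ℝ ∞ g O) (hJ : ContDiffOn ℝ ∞ J O) (hu : ContDiffOn ℝ ∞ u O)
    (hw : ContDiffOn ℝ ∞ w O) : ContDiffOn ℝ ∞ (fun x => mkB (g x) (J x) (u x) (w x)) O := by
  unfold mkB
  exact (((contDiffOn_smulRight (hg.clm_apply hu) contDiffOn_const).add
    (contDiffOn_smulRight (hg.clm_apply (hJ.clm_apply hu)) contDiffOn_const)).add
    (contDiffOn_smulRight (hg.clm_apply hw) contDiffOn_const)).add
    (contDiffOn_smulRight (hg.clm_apply (hJ.clm_apply hw)) contDiffOn_const)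

theorem contDiffOn_mkB' {J : E → End} {u w : E → E} {O : Set E}
    (hJ : ContDiffOn ℝ ∞ J O) (hu : ContDiffOn ℝ ∞ u O)
    (hw : ContDiffOn ℝ ∞ w O) : ContDiffOn ℝ ∞ (fun x => mkB' (J x) (u x) (w x)) O := by
  unfold mkB'
  exact (((contDiffOn_smulRight contDiffOn_const hu).add
    (contDiffOn_smulRight contDiffOn_const (hJ.clm_apply hu))).add
    (contDiffOn_smulRight contDiffOn_const hw)).add
    (contDiffOn_smulRight contDiffOn_const (hJ.clm_apply hw))

theorem det_ne_zero {B B' : End} (h : ∀ v, B (B' v) = v) : B.det ≠ 0 := by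
  have h1 : (B : E →ₗ[ℝ] E) * (B' : E →ₗ[ℝ] E) = 1 := LinearMap.ext h
  have h2 := congrArg LinearMap.det h1
  rw [map_mul, map_one] at h2
  intro h0
  have h3 : LinearMap.det (B : E →ₗ[ℝ] E) = 0 := h0
  rw [h3, zero_mul] at h2
  exact zero_ne_one h2

end FramesAux

/-- local unitary frames in `ℝ⁴`: `g` is a field of `J`-invariant inner products near `x₀` -/
theorem exists_local_frame {J : E → End} {g : E → Bil} {x₀ : E} {O : Set E} (hO : IsOpen O)
    (hx : x₀ ∈ O) (hJ : ContDiffOn ℝ ∞ J O) (hg : ContDiffOn ℝ ∞ g O)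
    (hJJ : ∀ x ∈ O, ∀ v, J x (J x v) = -v) (hsymm : ∀ x ∈ O, ∀ u v, g x u v = g x v u)
    (hpos : ∀ x ∈ O, ∀ v, v ≠ 0 → 0 < g x v v)
    (hinv : ∀ x ∈ O, ∀ u v, g x (J x u) (J x v) = g x u v) :
    ∃ (r : ℝ) (B B' : E → End), 0 < r ∧ ball x₀ r ⊆ O ∧ ContDiffOn ℝ ∞ B (ball x₀ r) ∧
      ContDiffOn ℝ ∞ B' (ball x₀ r) ∧ ∀ x ∈ ball x₀ r, (∀ v, B x (B' x v) = v) ∧
        (∀ v, B' x (B x v) = v) ∧ (∀ v, B x (J x v) = J0 (B x v)) ∧
        (∀ u v, inner ℝ (B x u) (B x v) = g x u v) ∧ 0 < (B x).det * (B x₀).det := by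
  have he0 : (e 0 : E) ≠ 0 := by
    intro h
    have := norm_e 0
    rw [h, norm_zero] at this
    exact zero_ne_one this
  obtain ⟨u, hu, huu⟩ : ∃ u : E → E, ContDiffOn ℝ ∞ u O ∧ ∀ x ∈ O, g x (u x) (u x) = 1 :=
    ⟨fun x => (Real.sqrt (g x (e 0) (e 0)))⁻¹ • e 0,
      FramesAux.contDiffOn_normalize hg contDiffOn_const fun x hx => hpos x hx _ he0,
      fun x hx => FramesAux.normalize (hpos x hx _ he0)⟩
  obtain ⟨z, hz⟩ := FramesAux.exists_not_span (u x₀) (J x₀ (u x₀))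
  set w' : E → E := fun x => z - g x (u x) z • u x - g x (J x (u x)) z • J x (u x) with hw'_def
  have hw' : ContDiffOn ℝ ∞ w' O :=
    (contDiffOn_const.sub (((hg.clm_apply hu).clm_apply contDiffOn_const).smul hu)).sub
      (((hg.clm_apply (hJ.clm_apply hu)).clm_apply contDiffOn_const).smul (hJ.clm_apply hu))
  have hw0 : w' x₀ ≠ 0 := by
    intro h
    apply hz (g x₀ (u x₀) z) (g x₀ (J x₀ (u x₀)) z)
    have : w' x₀ = z - (g x₀ (u x₀) z • u x₀ + g x₀ (J x₀ (u x₀)) z • J x₀ (u x₀)) := by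
      simp only [hw'_def]; abel
    rw [this] at h
    exact sub_eq_zero.1 h
  -- the open set where `w'` does not vanish
  set O' : Set E := O ∩ w' ⁻¹' {0}ᶜ with hO'_def
  have hO' : IsOpen O' := hw'.continuousOn.isOpen_inter_preimage hO isOpen_compl_singleton
  have hx' : x₀ ∈ O' := ⟨hx, hw0⟩
  have hsub : O' ⊆ O := inter_subset_left
  have hw'pos : ∀ x ∈ O', 0 < g x (w' x) (w' x) := fun x hx => hpos x hx.1 _ hx.2
  set w : E → E := fun x => (Real.sqrt (g x (w' x) (w' x)))⁻¹ • w' x with hw_def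
  have hw : ContDiffOn ℝ ∞ w O' :=
    FramesAux.contDiffOn_normalize (hg.mono hsub) (hw'.mono hsub) hw'pos
  have hww : ∀ x ∈ O', g x (w x) (w x) = 1 := fun x hx => FramesAux.normalize (hw'pos x hx)
  have hself : ∀ x ∈ O, ∀ a, g x (J x a) a = 0 := by
    intro x hx a
    have h1 := hinv x hx a (J x a)
    rw [hJJ x hx, map_neg, hsymm x hx a (J x a)] at h1
    linarith
  have huw' : ∀ x ∈ O, g x (u x) (w' x) = 0 := by
    intro x hx
    have h1 : g x (u x) (J x (u x)) = 0 := by rw [hsymm x hx, hself x hx]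
    show g x (u x) (z - g x (u x) z • u x - g x (J x (u x)) z • J x (u x)) = 0
    rw [map_sub, map_sub, map_smul, map_smul, huu x hx, h1]
    simp
  have hJuw' : ∀ x ∈ O, g x (J x (u x)) (w' x) = 0 := by
    intro x hx
    have h1 : g x (J x (u x)) (J x (u x)) = 1 := by rw [hinv x hx, huu x hx]
    show g x (J x (u x)) (z - g x (u x) z • u x - g x (J x (u x)) z • J x (u x)) = 0
    rw [map_sub, map_sub, map_smul, map_smul, hself x hx, h1]
    simp
  have huw : ∀ x ∈ O, g x (u x) (w x) = 0 := by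
    intro x hx
    show g x (u x) ((Real.sqrt (g x (w' x) (w' x)))⁻¹ • w' x) = 0
    rw [map_smul, huw' x hx, smul_zero]
  have hJuw : ∀ x ∈ O, g x (J x (u x)) (w x) = 0 := by
    intro x hx
    show g x (J x (u x)) ((Real.sqrt (g x (w' x) (w' x)))⁻¹ • w' x) = 0
    rw [map_smul, hJuw' x hx, smul_zero]
  set B : E → End := fun x => FramesAux.mkB (g x) (J x) (u x) (w x) with hB_def
  set B' : E → End := fun x => FramesAux.mkB' (J x) (u x) (w x) with hB'_def
  have hB : ContDiffOn ℝ ∞ B O' :=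
    FramesAux.contDiffOn_mkB (hg.mono hsub) (hJ.mono hsub) (hu.mono hsub) hw
  have hB' : ContDiffOn ℝ ∞ B' O' := FramesAux.contDiffOn_mkB' (hJ.mono hsub) (hu.mono hsub) hw
  have hpt : ∀ x ∈ O', (∀ v, B x (B' x v) = v) ∧ (∀ v, B' x (B x v) = v) ∧
      (∀ v, B x (J x v) = J0 (B x v)) ∧ (∀ a b, inner ℝ (B x a) (B x b) = g x a b) :=
    fun x hx => FramesAux.pointwise (hJJ x hx.1) (hsymm x hx.1) (hinv x hx.1) (huu x hx.1)
      (hww x hx) (huw x hx.1) (hJuw x hx.1)
  have hdet : ContinuousOn (fun x => (B x).det * (B x₀).det) O' :=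
    (ContinuousLinearMap.continuous_det.comp_continuousOn hB.continuousOn).mul continuousOn_const
  have hO'' : IsOpen (O' ∩ (fun x => (B x).det * (B x₀).det) ⁻¹' Ioi 0) :=
    hdet.isOpen_inter_preimage hO' isOpen_Ioi
  have hx'' : x₀ ∈ O' ∩ (fun x => (B x).det * (B x₀).det) ⁻¹' Ioi 0 :=
    ⟨hx', mul_self_pos.2 (FramesAux.det_ne_zero (hpt x₀ hx').1)⟩
  obtain ⟨r, hr, hball⟩ := Metric.isOpen_iff.1 hO'' x₀ hx''
  have hball' : ball x₀ r ⊆ O' := fun x hx => (hball hx).1
  refine ⟨r, B, B', hr, hball'.trans hsub, hB.mono hball', hB'.mono hball', fun x hx => ?_⟩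
  obtain ⟨h1, h2, h3, h4⟩ := hpt x (hball' hx)
  exact ⟨h1, h2, h3, h4, (hball hx).2⟩

/-- a frame on `ball 0 4` extends from `ball 0 3` to a global frame -/
theorem exists_frame {B B' : E → End} (hB : ContDiffOn ℝ ∞ B (ball 0 4))
    (hB' : ContDiffOn ℝ ∞ B' (ball 0 4))
    (h : ∀ x ∈ ball (0 : E) 4, (∀ v, B x (B' x v) = v) ∧ (∀ v, B' x (B x v) = v) ∧ 0 < (B x).det) :
    ∃ Fr : Frame, ∀ x ∈ ball (0 : E) 3, Fr.A x = B x ∧ Fr.A' x = B' x := by
  let χ : ContDiffBump (0 : E) := ⟨3, 7 / 2, by norm_num, by norm_num⟩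
  let s : E → E := fun x => χ x • x
  have hs : ContDiff ℝ ∞ s := χ.contDiff.smul contDiff_id
  have hsK : ∀ x, s x ∈ closedBall (0 : E) (7 / 2) := by
    intro x
    rw [mem_closedBall_zero_iff]
    by_cases hx : ‖x‖ ≤ 7 / 2
    · show ‖χ x • x‖ ≤ 7 / 2
      rw [norm_smul, Real.norm_of_nonneg χ.nonneg]
      have h1 : χ x ≤ 1 := χ.le_one
      have h2 : 0 ≤ χ x := χ.nonneg
      nlinarith [norm_nonneg x]
    · have h0 : χ x = 0 := χ.zero_of_le_dist (by
        rw [dist_zero_right]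
        exact (not_le.1 hx).le)
      show ‖χ x • x‖ ≤ 7 / 2
      rw [h0, zero_smul, norm_zero]
      norm_num
  have hK4 : closedBall (0 : E) (7 / 2) ⊆ ball 0 4 := closedBall_subset_ball (by norm_num)
  have hs4 : ∀ x, s x ∈ ball (0 : E) 4 := fun x => hK4 (hsK x)
  have hs3 : ∀ x ∈ ball (0 : E) 3, s x = x := by
    intro x hx
    have h1 : χ x = 1 := χ.one_of_mem_closedBall (ball_subset_closedBall hx)
    show χ x • x = x
    rw [h1, one_smul]
  obtain ⟨C, hC⟩ := (isCompact_closedBall (0 : E) (7 / 2)).exists_bound_of_continuousOn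
    (hB.continuousOn.mono hK4)
  obtain ⟨C', hC'⟩ := (isCompact_closedBall (0 : E) (7 / 2)).exists_bound_of_continuousOn
    (hB'.continuousOn.mono hK4)
  refine ⟨⟨fun x => B (s x), fun x => B' (s x), hB.comp_contDiff hs hs4,
    hB'.comp_contDiff hs hs4, fun x => (h _ (hs4 x)).1, fun x => (h _ (hs4 x)).2.1,
    fun x => (h _ (hs4 x)).2.2, max C C', fun x => ⟨(hC _ (hsK x)).trans (le_max_left _ _),
      (hC' _ (hsK x)).trans (le_max_right _ _)⟩⟩, fun x hx => ?_⟩
  exact ⟨by show B (s x) = B x; rw [hs3 x hx], by show B' (s x) = B' x; rw [hs3 x hx]⟩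

end Crest.Agent.R240

end
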