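import Crest.Agent.R240.ChartD

/-!
# Row 240: from charts and frames to the model
-/

set_option autoImplicit false
set_option linter.unusedSectionVars false
set_option linter.unusedVariables false

open MeasureTheory Metric Set Filter Topology
open scoped ContDiff ENNReal

noncomputable section

namespace Crest.Agent.R240

theorem GeoOf_exists_sel {M : Type*} [MeasurableSpace M] {n : ℕ} (S : Fin n → Set M)
    (hS : ∀ k, MeasurableSet (S k)) (hc : ∀ p, ∃ k, p ∈ S k) :
    ∃ j : M → Fin n, (∀ p, p ∈ S (j p)) ∧ ∀ F : Fin n → M → End, (∀ k, Measurable (F k)) →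
      Measurable fun p => F (j p) p := by
  classical
  have h : ∀ p, ∃ m : ℕ, ∃ hm : m < n, p ∈ S ⟨m, hm⟩ := fun p => by
    obtain ⟨k, hk⟩ := hc p
    exact ⟨k.1, k.2, hk⟩
  refine ⟨fun p => ⟨Nat.find (h p), (Nat.find_spec (h p)).1⟩, fun p => (Nat.find_spec (h p)).2,
    fun F hF => ?_⟩
  have h1 := Measurable.find (f := fun m p => if hm : m < n then F ⟨m, hm⟩ p else 0)
    (p := fun m p => ∃ hm : m < n, p ∈ S ⟨m, hm⟩) (fun m => by
      by_cases hm : m < n
      · simpa only [hm, dif_pos] using hF ⟨m, hm⟩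
      · simpa only [hm, dif_neg, not_false_eq_true] using measurable_const) (fun m => by
      by_cases hm : m < n
      · simpa only [hm, exists_true_left, Set.ofPred_mem_eq] using hS ⟨m, hm⟩
      · simp [hm]) h
  convert h1 using 2 with p
  rw [dif_pos (Nat.find_spec (h p)).1]

namespace PreGeo

variable {M : Type*} [TopologicalSpace M] (G : PreGeo M)

/-- derivative of the transition map -/
def DT (i k : Fin G.n) (p : M) : End := fderiv ℝ (fun x => G.κ k ((G.κ i).symm x)) (G.κ i p)

variable {G}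

theorem DT_self {i : Fin G.n} {p : M} (hi : p ∈ (G.κ i).source) (v : E) : G.DT i i p v = v := by
  have h : (fun x => G.κ i ((G.κ i).symm x)) =ᶠ[𝓝 (G.κ i p)] id :=
    (G.κ i).eventually_right_inverse' hi
  rw [DT, h.fderiv_eq, fderiv_id]
  rfl

theorem DT_comp {i k l : Fin G.n} {p : M} (hi : p ∈ (G.κ i).source) (hk : p ∈ (G.κ k).source)
    (hl : p ∈ (G.κ l).source) (v : E) : G.DT k l p (G.DT i k p v) = G.DT i l p v := by
  have h1 : DifferentiableAt ℝ (fun x => G.κ k ((G.κ i).symm x)) (G.κ i p) :=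
    (G.smooth_tr i k p hi hk).differentiableAt (by simp)
  have h2 : DifferentiableAt ℝ (fun x => G.κ l ((G.κ k).symm x))
      ((fun x => G.κ k ((G.κ i).symm x)) (G.κ i p)) := by
    simp only [(G.κ i).left_inv hi]
    exact (G.smooth_tr k l p hk hl).differentiableAt (by simp)
  have h3 : Tendsto (G.κ i).symm (𝓝 (G.κ i p)) (𝓝 p) := (G.κ i).tendsto_symm hi
  have h : (fun x => G.κ l ((G.κ i).symm x)) =ᶠ[𝓝 (G.κ i p)]
      (fun x => G.κ l ((G.κ k).symm x)) ∘ (fun x => G.κ k ((G.κ i).symm x)) := by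
    filter_upwards [h3.eventually ((G.κ k).open_source.mem_nhds hk)] with x hx
    simp only [Function.comp_apply, (G.κ k).left_inv hx]
  have h4 := fderiv_comp (G.κ i p) h2 h1
  simp only [(G.κ i).left_inv hi] at h4
  rw [DT, DT, DT, h.fderiv_eq, h4]
  rfl

theorem DT_continuousOn (i k : Fin G.n) :
    ContinuousOn (G.DT i k) ((G.κ i).source ∩ (G.κ k).source) := by
  intro p hp
  have h1 : ContinuousAt (fderiv ℝ (fun x => G.κ k ((G.κ i).symm x))) (G.κ i p) :=
    ((G.smooth_tr i k p hp.1 hp.2).fderiv_right (m := 0) (by simp)).continuousAt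
  exact (ContinuousAt.comp (f := G.κ i) h1 ((G.κ i).continuousAt hp.1)).continuousWithinAt

end PreGeo

/-- measurable reference frames -/
theorem PreGeo.exists_geo {M : Type*} [MetricSpace M] [CompactSpace M] [MeasurableSpace M]
    [BorelSpace M] (G : PreGeo M) (hl : G.Lip) : ∃ G' : Geo M, G'.toPreGeo = G := by
  classical
  obtain ⟨j, hj, hm⟩ := GeoOf_exists_sel (fun k => (G.κ k).source)
    (fun k => (G.κ k).open_source.measurableSet) (fun p => (G.cover p).imp fun _ h => h.1)
  let F : Fin G.n → Fin G.n → M → End := fun i k =>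
    ((G.κ i).source ∩ (G.κ k).source).piecewise
      (fun p => ((G.fr k).A (G.κ k p)).comp (G.DT i k p)) (fun _ => ContinuousLinearMap.id ℝ E)
  let F' : Fin G.n → Fin G.n → M → End := fun i k =>
    ((G.κ i).source ∩ (G.κ k).source).piecewise
      (fun p => (G.DT k i p).comp ((G.fr k).A' (G.κ k p))) (fun _ => ContinuousLinearMap.id ℝ E)
  have hF : ∀ i p, p ∈ (G.κ i).source →
      F i (j p) p = ((G.fr (j p)).A (G.κ (j p) p)).comp (G.DT i (j p) p) := fun i p hp =>
    piecewise_eq_of_mem _ _ _ ⟨hp, hj p⟩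
  have hF' : ∀ i p, p ∈ (G.κ i).source →
      F' i (j p) p = (G.DT (j p) i p).comp ((G.fr (j p)).A' (G.κ (j p) p)) := fun i p hp =>
    piecewise_eq_of_mem _ _ _ ⟨hp, hj p⟩
  have hN : ∀ i p, p ∉ (G.κ i).source → F i (j p) p = ContinuousLinearMap.id ℝ E :=
    fun i p hp => piecewise_eq_of_notMem _ _ _ fun h => hp h.1
  have hN' : ∀ i p, p ∉ (G.κ i).source → F' i (j p) p = ContinuousLinearMap.id ℝ E :=
    fun i p hp => piecewise_eq_of_notMem _ _ _ fun h => hp h.1
  have hmeas : ∀ i k, MeasurableSet ((G.κ i).source ∩ (G.κ k).source) := fun i k =>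
    ((G.κ i).open_source.inter (G.κ k).open_source).measurableSet
  refine ⟨{ toPreGeo := G
            T := fun i p => F i (j p) p
            Ti := fun i p => F' i (j p) p
            T_Ti := fun i p v => ?_
            Ti_T := fun i p v => ?_
            T_meas := fun i => hm (F i) fun k => ?_
            Ti_meas := fun i => hm (F' i) fun k => ?_
            T_tr := fun i k p hi hk => ?_
            uni := fun i p hi => ?_
            lip := hl }, rfl⟩
  · by_cases hp : p ∈ (G.κ i).source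
    · rw [hF i p hp, hF' i p hp]
      simp only [ContinuousLinearMap.comp_apply]
      rw [PreGeo.DT_comp (hj p) hp (hj p), PreGeo.DT_self (hj p), (G.fr (j p)).mul]
    · rw [hN i p hp, hN' i p hp]
      rfl
  · by_cases hp : p ∈ (G.κ i).source
    · rw [hF i p hp, hF' i p hp]
      simp only [ContinuousLinearMap.comp_apply]
      rw [(G.fr (j p)).mul', PreGeo.DT_comp hp (hj p) hp, PreGeo.DT_self hp]
    · rw [hN i p hp, hN' i p hp]
      rfl
  · refine ContinuousOn.measurable_piecewise ?_ continuousOn_const (hmeas i k)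
    exact ((G.fr k).smooth.continuous.comp_continuousOn
      ((G.κ k).continuousOn.mono inter_subset_right)).clm_comp (PreGeo.DT_continuousOn i k)
  · refine ContinuousOn.measurable_piecewise ?_ continuousOn_const (hmeas i k)
    refine ContinuousOn.clm_comp ?_ ((G.fr k).smooth'.continuous.comp_continuousOn
      ((G.κ k).continuousOn.mono inter_subset_right))
    rw [inter_comm]
    exact PreGeo.DT_continuousOn k i
  · rw [hF i p hi, hF k p hk]
    ext1 v
    simp only [ContinuousLinearMap.comp_apply]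
    exact congrArg _ (PreGeo.DT_comp hi hk (hj p) v)
  · rw [hF i p hi]
    exact G.uni_tr i (j p) p hi (hj p)

/-- families of local forms are global forms -/
theorem Geo.exists_of_fam {M : Type*} [MetricSpace M] [CompactSpace M] [MeasurableSpace M]
    [BorelSpace M] (G : Geo M) {α : Fin G.n → E → Bil} (h : G.toPreGeo.Fam α) :
    ∃ α' : M → Bil, G.Z α' ∧ ∀ p v, v ≠ 0 → 0 < α' p v (J0 v) := by
  set α' : M → Bil := fun p => pb (α (G.ch p) (G.κ (G.ch p) p)) (G.Ti (G.ch p) p) with hα'
  have hloc : ∀ i, ∀ x ∈ ball (0 : E) 3, G.loc2 i α' x = α i x := by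
    intro i x hx
    have hi := Geo.symm_mem (i := i) hx
    have h1 := h.tr i (G.ch ((G.κ i).symm x)) _ hi (G.ch_source _)
    rw [Geo.map_symm hx] at h1
    rw [h1, Geo.loc2, hα', pb_pb]
    congr 1
    ext1 v
    have h2 := Geo.T_tr' hi (G.ch_source _) v
    rw [Geo.map_symm hx] at h2
    rw [ContinuousLinearMap.comp_apply, ← h2, G.Ti_T]
    rfl
  refine ⟨α', Geo.Z_of_loc (fun i => (h.smooth i).congr (hloc i)) (fun p u v => ?_)
    (fun i x hx u v w => ?_), fun p v hv => ?_⟩
  · exact h.alt _ _ (Geo.map_mem (G.ch_source p)) _ _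
  · have hx3 : x ∈ ball (0 : E) 3 := ball_subset_ball (by norm_num) hx
    rw [d2_congr (η' := α i)]
    · exact h.closed i x hx3 u v w
    · filter_upwards [isOpen_ball.mem_nhds hx3] with y hy using hloc i y hy
  · change 0 < α (G.ch p) (G.κ (G.ch p) p) (G.Ti (G.ch p) p v) (G.Ti (G.ch p) p (J0 v))
    rw [Geo.Ti_J (G.ch_source p)]
    refine h.tames _ _ (Geo.map_mem (G.ch_source p)) _ fun h0 => hv ?_
    rw [← G.T_Ti (G.ch p) p v, h0, map_zero]

theorem Geo.fam_of_Z {M : Type*} [MetricSpace M] [CompactSpace M] [MeasurableSpace M]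
    [BorelSpace M] (G : Geo M) {η : M → Bil} (h : G.Z η) (ht : ∀ p v, v ≠ 0 → 0 < η p v (J0 v))
    (hi : ∀ p u v, η p (J0 u) (J0 v) = η p u v) :
    G.toPreGeo.Fam (fun i => G.loc2 i η) ∧ ∀ i, ∀ x ∈ ball (0 : E) 3, ∀ u v,
      G.loc2 i η x ((G.fr i).J x u) ((G.fr i).J x v) = G.loc2 i η x u v := by
  have hJ : ∀ i, ∀ x ∈ ball (0 : E) 3, ∀ v, G.T i ((G.κ i).symm x) ((G.fr i).J x v) =
      J0 (G.T i ((G.κ i).symm x) v) := by
    intro i x hx v
    have := Geo.T_J (Geo.symm_mem (i := i) hx) v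
    rwa [Geo.map_symm hx] at this
  refine ⟨⟨h.smooth, fun i x hx u v => h.alt _ _ _, fun i x hx => h.d2_loc i hx,
    fun i j p hi' hj => (Geo.loc2_tr hi' hj η).self_of_nhds.trans ?_, fun i x hx v hv => ?_⟩,
    fun i x hx u v => ?_⟩
  · simp only [Geo.tr_map hi']
    rfl
  · change 0 < η _ (G.T i ((G.κ i).symm x) v) (G.T i ((G.κ i).symm x) ((G.fr i).J x v))
    rw [hJ i x hx]
    refine ht _ _ fun h0 => hv ?_
    rw [← G.Ti_T i ((G.κ i).symm x) v, h0, map_zero]
  · change η _ (G.T i ((G.κ i).symm x) ((G.fr i).J x u)) (G.T i ((G.κ i).symm x) ((G.fr i).J x v))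
      = η _ (G.T i ((G.κ i).symm x) u) (G.T i ((G.κ i).symm x) v)
    rw [hJ i x hx, hJ i x hx, hi]

end Crest.Agent.R240

end
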