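import Crest.Agent.R240.ChartD
import Crest.Agent.R240.OpL

/-!
# Row 240: jet norms
-/

set_option autoImplicit false
set_option linter.unusedSectionVars false
set_option linter.unusedVariables false

open MeasureTheory Metric Set Filter Topology
open scoped ContDiff ENNReal

noncomputable section

namespace Crest.Agent.R240

namespace Jet

variable {F F' : Type*} [NormedAddCommGroup F] [NormedSpace ℝ F] [NormedAddCommGroup F']
  [NormedSpace ℝ F']

/-- a constant that works for finitely many indices -/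
theorem exists_unif {ι : Type*} [Finite ι] {P : ι → ℝ → Prop}
    (hm : ∀ i C C', C ≤ C' → P i C → P i C') (h : ∀ i, ∃ C, P i C) :
    ∃ C : ℝ, 1 ≤ C ∧ ∀ i, P i C := by
  choose C hC using h
  obtain ⟨B, hB⟩ := Finite.exists_le C
  exact ⟨max 1 B, le_max_left _ _, fun i => hm i _ _ ((hB i).trans (le_max_right _ _)) (hC i)⟩

theorem jb_apply {A : E → F →L[ℝ] F'} {K : Set E} (hK : IsCompact K)
    (hA : ∀ x ∈ K, ContDiffAt ℝ ∞ A x) (s : ℕ) :
    ∃ C : ℝ, 0 ≤ C ∧ ∀ x ∈ K, ∀ g : E → F, ContDiffAt ℝ ∞ g x → ∀ c, JB s g x c →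
      JB s (fun y => A y (g y)) x (C * c) := by
  obtain ⟨a, ha0, ha⟩ := exists_bound_iteratedFDeriv hK hA s
  exact ⟨2 ^ s * a, by positivity, fun x hx g hg c hc =>
    norm_iteratedFDeriv_apply_le (hA x hx) hg (ha x hx) hc⟩

theorem jb_smul {φ : E → ℝ} {K : Set E} (hK : IsCompact K)
    (hφ : ∀ x ∈ K, ContDiffAt ℝ ∞ φ x) (s : ℕ) :
    ∃ C : ℝ, 0 ≤ C ∧ ∀ x ∈ K, ∀ g : E → F, ContDiffAt ℝ ∞ g x → ∀ c, JB s g x c →
      JB s (fun y => φ y • g y) x (C * c) :=
  jb_apply (A := fun y => ContinuousLinearMap.lsmul ℝ ℝ (φ y)) hK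
    (fun x hx => (ContinuousLinearMap.lsmul ℝ ℝ : ℝ →L[ℝ] F →L[ℝ] F).contDiff.contDiffAt.comp x
      (hφ x hx)) s

theorem jb_comp {φ : E → E} {K : Set E} (hK : IsCompact K)
    (hφ : ∀ x ∈ K, ContDiffAt ℝ ∞ φ x) (s : ℕ) :
    ∃ C : ℝ, 0 ≤ C ∧ ∀ x ∈ K, ∀ g : E → F, ContDiffAt ℝ ∞ g (φ x) → ∀ c, JB s g (φ x) c →
      JB s (fun y => g (φ y)) x (C * c) := by
  obtain ⟨a, ha0, ha⟩ := exists_bound_iteratedFDeriv hK hφ s
  exact ⟨s.factorial * (max 1 a) ^ s, by positivity, fun x hx g hg c hc =>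
    norm_iteratedFDeriv_comp_le' (hφ x hx) hg (le_max_left _ _)
      (fun j _ hj => (ha x hx j hj).trans (le_max_right _ _)) hc⟩

theorem mem_ball_of_le {x : E} {r : ℝ} (hr : r < 3) (hx : ‖x‖ ≤ r) : x ∈ ball (0 : E) 3 :=
  mem_ball_zero_iff.2 (hx.trans_lt hr)

theorem le_top (j : ℕ) : (j : WithTop ℕ∞) ≤ (∞ : WithTop ℕ∞) := by exact_mod_cast _root_.le_top

end Jet

open Jet

namespace Geo

variable {M : Type*} [MetricSpace M] [CompactSpace M] [MeasurableSpace M] [BorelSpace M]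
  {G : Geo M}

theorem jn_nonneg (s : ℕ) (g : M → Bil) (p : M) : 0 ≤ G.jn s g p := by
  refine Finset.sum_nonneg fun i _ => ?_
  split_ifs
  · exact Finset.sum_nonneg fun j _ => norm_nonneg _
  · exact le_rfl
theorem jn_mono {s s' : ℕ} (h : s ≤ s') (g : M → Bil) (p : M) : G.jn s g p ≤ G.jn s' g p := by
  refine Finset.sum_le_sum fun i _ => ?_
  split_ifs
  · exact Finset.sum_le_sum_of_subset_of_nonneg (Finset.range_mono (by omega))
      fun j _ _ => norm_nonneg _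
  · exact le_rfl
theorem jn_zero (s : ℕ) (p : M) : G.jn s 0 p = 0 := by
  refine Finset.sum_eq_zero fun i _ => ?_
  have : G.loc2 i 0 = fun _ => 0 := by
    funext x
    simp [loc2]
  simp [this]
theorem jn_add {g g' : M → Bil} (h : G.S2 g) (h' : G.S2 g') (s : ℕ) (p : M) :
    G.jn s (g + g') p ≤ G.jn s g p + G.jn s g' p := by
  simp only [jn, ← Finset.sum_add_distrib]
  refine Finset.sum_le_sum fun i _ => ?_
  split_ifs with hp
  · rw [← Finset.sum_add_distrib]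
    refine Finset.sum_le_sum fun j _ => ?_
    rw [loc2_add, fun_iteratedFDeriv_add_apply ((h.at (map_mem hp.1)).of_le (le_top j))
      ((h'.at (map_mem hp.1)).of_le (le_top j))]
    exact norm_add_le _ _
  · simp
theorem jn_sub {g g' : M → Bil} (h : G.S2 g) (h' : G.S2 g') (s : ℕ) (p : M) :
    G.jn s (g - g') p ≤ G.jn s g p + G.jn s g' p := by
  simp only [jn, ← Finset.sum_add_distrib]
  refine Finset.sum_le_sum fun i _ => ?_
  split_ifs with hp
  · rw [← Finset.sum_add_distrib]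
    refine Finset.sum_le_sum fun j _ => ?_
    rw [loc2_sub, fun_iteratedFDeriv_sub_apply ((h.at (map_mem hp.1)).of_le (le_top j))
      ((h'.at (map_mem hp.1)).of_le (le_top j))]
    exact norm_sub_le _ _
  · simp
theorem jn_smul {g : M → Bil} (h : G.S2 g) (c : ℝ) (s : ℕ) (p : M) :
    G.jn s (c • g) p = |c| * G.jn s g p := by
  simp only [jn, Finset.mul_sum]
  refine Finset.sum_congr rfl fun i _ => ?_
  split_ifs with hp
  · rw [Finset.mul_sum]
    refine Finset.sum_congr rfl fun j _ => ?_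
    rw [loc2_smul, iteratedFDeriv_const_smul_apply' ((h.at (map_mem hp.1)).of_le (le_top j)),
      norm_smul, Real.norm_eq_abs]
  · simp
theorem jn_sum {ι : Type*} {t : Finset ι} {g : ι → M → Bil} (h : ∀ j ∈ t, G.S2 (g j)) (s : ℕ)
    (p : M) : G.jn s (∑ j ∈ t, g j) p ≤ ∑ j ∈ t, G.jn s (g j) p := by
  classical
  induction t using Finset.induction_on with
  | empty => simp [jn_zero]
  | insert a t ha ih =>
    rw [Finset.sum_insert ha, Finset.sum_insert ha]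
    have h' : ∀ j ∈ t, G.S2 (g j) := fun j hj => h j (Finset.mem_insert_of_mem hj)
    exact (jn_add (h a (Finset.mem_insert_self _ _)) (S2.sum h') s p).trans
      (add_le_add le_rfl (ih h'))
theorem jn_congr {g g' : M → Bil} {p : M} (h : g =ᶠ[𝓝 p] g') (s : ℕ) :
    G.jn s g p = G.jn s g' p := by
  refine Finset.sum_congr rfl fun i _ => ?_
  split_ifs with hp
  · have he : G.loc2 i g =ᶠ[𝓝 (G.κ i p)] G.loc2 i g' := by
      filter_upwards [((G.κ i).tendsto_symm hp.1).eventually h] with x hx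
      simp only [loc2, hx]
    refine Finset.sum_congr rfl fun j _ => ?_
    rw [(he.iteratedFDeriv ℝ j).eq_of_nhds]
  · rfl
theorem jb_of_mem_K {i : Fin G.n} {p : M} (hp : p ∈ G.K i 1) (s : ℕ) (g : M → Bil) :
    JB s (G.loc2 i g) (G.κ i p) (G.jn s g p) := by
  classical
  intro j hj
  refine le_trans ?_ (Finset.single_le_sum (f := fun i => if p ∈ G.K i 1 then
    ∑ j ∈ Finset.range (s + 1), ‖iteratedFDeriv ℝ j (G.loc2 i g) (G.κ i p)‖ else 0)
    (fun i _ => ?_) (Finset.mem_univ i))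
  · simp only [if_pos hp]
    exact Finset.single_le_sum (f := fun j => ‖iteratedFDeriv ℝ j (G.loc2 i g) (G.κ i p)‖)
      (fun j _ => norm_nonneg _) (Finset.mem_range.2 (by omega))
  · split_ifs
    · exact Finset.sum_nonneg fun j _ => norm_nonneg _
    · exact le_rfl
theorem jn_le_of_jb {s : ℕ} {g : M → Bil} {p : M} {c : ℝ} (hc : 0 ≤ c)
    (h : ∀ i, p ∈ G.K i 1 → JB s (G.loc2 i g) (G.κ i p) c) :
    G.jn s g p ≤ G.n * (s + 1) * c := by
  refine (Finset.sum_le_card_nsmul _ _ ((s + 1) * c) fun i _ => ?_).trans (le_of_eq ?_)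
  · split_ifs with hp
    · refine (Finset.sum_le_card_nsmul _ _ c fun j hj => h i hp j ?_).trans (le_of_eq ?_)
      · have := Finset.mem_range.1 hj
        omega
      · simp
    · positivity
  · simp [mul_assoc]
theorem CB.mono {s s' : ℕ} {g : M → Bil} {c c' : ℝ} (h : G.CB s g c) (hs : s' ≤ s) (hc : c ≤ c') :
    G.CB s' g c' := fun p => ((jn_mono hs g p).trans (h p)).trans hc
theorem S2.exists_CB {g : M → Bil} (h : G.S2 g) (s : ℕ) : ∃ c, 0 ≤ c ∧ G.CB s g c := by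
  obtain ⟨C, hC1, hC⟩ := exists_unif (ι := Fin G.n)
    (P := fun i C => ∀ x ∈ closedBall (0 : E) 1, JB s (G.loc2 i g) x C)
    (fun i C C' hh hP x hx => (hP x hx).mono le_rfl hh) fun i => by
      obtain ⟨C, -, hC⟩ := exists_bound_iteratedFDeriv (isCompact_closedBall (0 : E) 1)
        (fun x hx => h.at (i := i) (mem_ball_of_le (by norm_num) (mem_closedBall_zero_iff.1 hx))) s
      exact ⟨C, hC⟩
  refine ⟨G.n * (s + 1) * C, by positivity, fun p => jn_le_of_jb (by linarith) fun i hp => ?_⟩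
  exact hC i _ (mem_closedBall_zero_iff.2 hp.2)

/-- (J0) order zero is the pointwise norm -/
theorem jn_zero_equiv (G : Geo M) : ∃ C : ℝ, 1 ≤ C ∧ ∀ (g : M → Bil) (p : M),
    ‖g p‖ ≤ C * G.jn 0 g p ∧ G.jn 0 g p ≤ C * ‖g p‖ := by
  obtain ⟨T, hT1, hT⟩ := G.exists_T_bound
  have hn : (0 : ℝ) ≤ G.n := Nat.cast_nonneg _
  have hT2 : 1 ≤ T ^ 2 := one_le_pow₀ hT1
  refine ⟨(G.n + 1) * T ^ 2, by nlinarith, fun g p => ⟨?_, ?_⟩⟩
  · have h1 := (jb_of_mem_K (G.mem_K_ch p) 0 g).norm_le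
    have h2 := norm_pb_le (G.loc2 (G.ch p) g (G.κ (G.ch p) p)) (G.Ti (G.ch p) p)
    rw [loc2_map (G.ch_source p)] at h2
    have h3 : ‖G.Ti (G.ch p) p‖ ^ 2 ≤ T ^ 2 :=
      pow_le_pow_left₀ (norm_nonneg _) (hT _ _ (G.ch_source p)).2 2
    have h0 := jn_nonneg (G := G) 0 g p
    calc ‖g p‖ ≤ G.jn 0 g p * T ^ 2 := h2.trans (mul_le_mul h1 h3 (by positivity) h0)
      _ ≤ _ := by nlinarith [mul_nonneg hn (mul_nonneg h0 (zero_le_one.trans hT2))]
  · have h1 := jn_le_of_jb (G := G) (s := 0) (g := g) (p := p) (c := ‖g p‖ * T ^ 2)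
      (by positivity) fun i hp j hj => by
        obtain rfl : j = 0 := by omega
        rw [norm_iteratedFDeriv_zero, loc2, symm_map hp.1]
        exact (norm_pb_le _ _).trans (mul_le_mul_of_nonneg_left
          (pow_le_pow_left₀ (norm_nonneg _) (hT _ _ hp.1).1 2) (norm_nonneg _))
    refine h1.trans ?_
    have : 0 ≤ ‖g p‖ * T ^ 2 := by positivity
    push_cast
    nlinarith

/-- change of chart -/
theorem jb_tr (G : Geo M) (s : ℕ) : ∃ C : ℝ, 1 ≤ C ∧ ∀ ij : Fin G.n × Fin G.n, ∀ g, G.S2 g →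
    ∀ p ∈ G.K ij.1 (11 / 4), p ∈ G.K ij.2 (11 / 4) → ∀ c, JB s (G.loc2 ij.2 g) (G.κ ij.2 p) c →
      JB s (G.loc2 ij.1 g) (G.κ ij.1 p) (C * c) := by
  refine exists_unif (fun ij C C' hh hP g hg p hi hj c hc =>
    (hP g hg p hi hj c hc).mono le_rfl (mul_le_mul_of_nonneg_right hh hc.nonneg)) ?_
  rintro ⟨i, j⟩
  have hK : IsCompact (G.κ i '' (G.K i (11 / 4) ∩ G.K j (11 / 4))) :=
    ((isCompact_K i (by norm_num)).inter_right
      (isCompact_K j (by norm_num)).isClosed).image_of_continuousOn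
      ((G.κ i).continuousOn.mono fun p hp => hp.1.1)
  have hφ : ∀ x ∈ G.κ i '' (G.K i (11 / 4) ∩ G.K j (11 / 4)), ContDiffAt ℝ ∞ (G.tr i j) x := by
    rintro _ ⟨p, hp, rfl⟩
    exact tr_contDiffAt hp.1.1 hp.2.1
  obtain ⟨C1, h10, h1⟩ := jb_comp (F := Bil) hK hφ s
  obtain ⟨C2, h20, h2⟩ := jb_apply (A := fun x => pbL (fderiv ℝ (G.tr i j) x)) hK
    (fun x hx => ContDiffAt.pbL ((hφ x hx).fderiv_right (m := ∞) le_rfl)) s
  refine ⟨C2 * C1, fun g hg p hi hj c hc => ?_⟩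
  have hx : G.κ i p ∈ G.κ i '' (G.K i (11 / 4) ∩ G.K j (11 / 4)) := ⟨p, ⟨hi, hj⟩, rfl⟩
  have hg' : ContDiffAt ℝ ∞ (G.loc2 j g) (G.tr i j (G.κ i p)) := by
    rw [tr_map hi.1]
    exact hg.at (map_mem hj.1)
  have h3 := h1 _ hx (G.loc2 j g) hg' c (by rw [tr_map hi.1]; exact hc)
  have h4 := h2 _ hx _ (hg'.comp _ (hφ _ hx)) _ h3
  rw [mul_assoc]
  exact h4.congr (loc2_tr hi.1 hj.1 g)

/-- (J1) the jet norm controls the jets in every chart -/
theorem jb_le_jn (G : Geo M) (s : ℕ) : ∃ C : ℝ, 1 ≤ C ∧ ∀ g, G.S2 g → ∀ i,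
    ∀ p ∈ G.K i (11 / 4), JB s (G.loc2 i g) (G.κ i p) (C * G.jn s g p) := by
  obtain ⟨C, hC1, hC⟩ := G.jb_tr s
  exact ⟨C, hC1, fun g hg i p hp => hC (i, G.ch p) g hg p hp
    (K_mono _ (by norm_num) (G.mem_K_ch p)) _ (jb_of_mem_K (G.mem_K_ch p) s g)⟩

/-- (J2) the jets in one chart control the jet norm -/
theorem jn_le_jb (G : Geo M) (s : ℕ) : ∃ C : ℝ, 1 ≤ C ∧ ∀ g, G.S2 g → ∀ i,
    ∀ p ∈ G.K i (11 / 4), ∀ c, JB s (G.loc2 i g) (G.κ i p) c → G.jn s g p ≤ C * c := by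
  obtain ⟨C, hC1, hC⟩ := G.jb_tr s
  have hn : (0 : ℝ) ≤ G.n * (s + 1) := by positivity
  refine ⟨(G.n * (s + 1) + 1) * C, by nlinarith, fun g hg i p hp c hc => ?_⟩
  have h0 : 0 ≤ C * c := mul_nonneg (by linarith) hc.nonneg
  have := jn_le_of_jb (G := G) (s := s) (g := g) (p := p) h0 fun j hj =>
    hC (j, i) g hg p (K_mono _ (by norm_num) hj) hp c hc
  nlinarith

/-- (J3) multiplication by a function -/
theorem jn_fsmul {φ : M → ℝ} (hφ : G.S0 φ) (s : ℕ) : ∃ C : ℝ, 0 ≤ C ∧ ∀ g, G.S2 g → ∀ p,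
    G.jn s (fun q => φ q • g q) p ≤ C * G.jn s g p := by
  obtain ⟨C, hC1, hC⟩ := exists_unif (ι := Fin G.n)
    (P := fun i C => ∀ x ∈ closedBall (0 : E) 1, ∀ g : E → Bil, ContDiffAt ℝ ∞ g x → ∀ c,
      JB s g x c → JB s (fun y => G.loc0 i φ y • g y) x (C * c))
    (fun i C C' hh hP x hx g hg c hc =>
      (hP x hx g hg c hc).mono le_rfl (mul_le_mul_of_nonneg_right hh hc.nonneg)) fun i => by
      obtain ⟨C, -, hC⟩ := jb_smul (F := Bil) (isCompact_closedBall (0 : E) 1)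
        (fun x hx => hφ.at (i := i) (mem_ball_of_le (by norm_num) (mem_closedBall_zero_iff.1 hx))) s
      exact ⟨C, hC⟩
  refine ⟨G.n * (s + 1) * C, by positivity, fun g hg p => ?_⟩
  rw [mul_assoc]
  refine jn_le_of_jb (mul_nonneg (by linarith) (jn_nonneg s g p)) fun i hp => ?_
  rw [loc2_fsmul]
  exact hC i _ (mem_closedBall_zero_iff.2 hp.2) _ (hg.at (map_mem hp.1)) _ (jb_of_mem_K hp s g)

theorem jn_am (G : Geo M) (s : ℕ) : ∃ C : ℝ, 1 ≤ C ∧ ∀ g, G.S2 g → ∀ p,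
    G.jn s (fun q => am (g q)) p ≤ C * G.jn s g p := by
  obtain ⟨C, hC1, hC⟩ := exists_unif (ι := Fin G.n)
    (P := fun i C => ∀ x ∈ closedBall (0 : E) 1, ∀ g : E → Bil, ContDiffAt ℝ ∞ g x → ∀ c,
      JB s g x c → JB s (fun y => amL ((G.fr i).J y) (g y)) x (C * c))
    (fun i C C' hh hP x hx g hg c hc =>
      (hP x hx g hg c hc).mono le_rfl (mul_le_mul_of_nonneg_right hh hc.nonneg)) fun i => by
      obtain ⟨C, -, hC⟩ := jb_apply (A := fun y => amL ((G.fr i).J y))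
        (isCompact_closedBall (0 : E) 1)
        (fun x hx => ContDiffAt.amL (G.fr i).J_smooth.contDiffAt) s
      exact ⟨C, hC⟩
  have hn : (0 : ℝ) ≤ G.n * (s + 1) := by positivity
  refine ⟨(G.n * (s + 1) + 1) * C, by nlinarith, fun g hg p => ?_⟩
  have h0 : 0 ≤ C * G.jn s g p := mul_nonneg (by linarith) (jn_nonneg s g p)
  have := jn_le_of_jb (G := G) (s := s) (g := fun q => am (g q)) (p := p) h0 fun i hp => by
    refine (hC i _ (mem_closedBall_zero_iff.2 hp.2) _ (hg.at (map_mem hp.1)) _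
      (jb_of_mem_K hp s g)).congr ?_
    filter_upwards [isOpen_ball.mem_nhds (map_mem hp.1)] with x hx
    exact loc2_am hx g
  nlinarith

theorem jb_rep2 (G : Geo M) (s : ℕ) : ∃ C : ℝ, 1 ≤ C ∧ ∀ g, G.S2 g → ∀ c, 0 ≤ c → G.CB s g c →
    ∀ i x, JB s (G.rep2 i g) x (C * c) := by
  obtain ⟨C1, h11, h1⟩ := G.jb_le_jn s
  obtain ⟨C2, h20, h2⟩ := jb_smul (F := Bil) (φ := fun y => bump y)
    (isCompact_closedBall (0 : E) (11 / 4)) (fun x _ => bump.contDiff.contDiffAt) s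
  refine ⟨(C2 + 1) * C1, by nlinarith, fun g hg c hc hb i x => ?_⟩
  have h0 : 0 ≤ C1 * c := mul_nonneg (by linarith) hc
  by_cases hx : ‖x‖ ≤ 11 / 4
  · have hx' : x ∈ ball (0 : E) 3 := mem_ball_of_le (by norm_num) hx
    have h3 := h1 g hg i _ (symm_mem_K (by norm_num) hx)
    rw [map_symm hx'] at h3
    have h4 := h2 x (mem_closedBall_zero_iff.2 hx) _ (hg.at hx') (C1 * c)
      (h3.mono le_rfl (mul_le_mul_of_nonneg_left (hb _) (by linarith)))
    exact h4.mono le_rfl (by nlinarith)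
  · refine (JB.of_eventually_zero ?_).mono le_rfl (by nlinarith)
    filter_upwards [(isOpen_lt continuous_const continuous_norm).mem_nhds (not_le.1 hx)] with y hy
    simp only [rep2, bump_zero (le_of_lt hy), zero_smul]

/-- extension by zero -/
theorem jn_ext2 (G : Geo M) (s : ℕ) : ∃ C : ℝ, 1 ≤ C ∧ ∀ i, ∀ η : E → Bil, ContDiff ℝ ∞ η →
    (∀ x, 5 / 2 < ‖x‖ → η x = 0) → ∀ p c, 0 ≤ c →
      (p ∈ G.K i (11 / 4) → JB s η (G.κ i p) c) → G.jn s (G.ext2 i η) p ≤ C * c := by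
  obtain ⟨C, hC1, hC⟩ := G.jn_le_jb s
  refine ⟨C, hC1, fun i η hη h0 p c hc h => ?_⟩
  by_cases hp : p ∈ G.K i (11 / 4)
  · refine hC _ (S2_ext2 i hη.contDiffOn (r := 5 / 2) (by norm_num) fun x _ hx => h0 x hx) i p hp c
      ((h hp).congr ?_)
    filter_upwards [isOpen_ball.mem_nhds (map_mem hp.1)] with x hx
    exact loc2_ext2 hx η
  · have he : G.ext2 i η =ᶠ[𝓝 p] 0 := by
      filter_upwards [(isCompact_K (G := G) i (r := 5 / 2) (by norm_num)).isClosed.isOpen_compl.mem_nhds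
        fun hp' => hp (K_mono i (by norm_num) hp')] with q hq
      simp only [ext2, Pi.zero_apply]
      split_ifs with hs
      · rw [h0 _ (not_le.1 fun hh => hq ⟨hs, hh⟩), pb_zero]
      · rfl
    rw [jn_congr he, jn_zero]
    exact mul_nonneg (by linarith) hc

/-- series of smooth forms -/
theorem S2_tsum (G : Geo M) {u : ℕ → M → Bil} (hu : ∀ n, G.S2 (u n))
    (h : ∀ s, ∃ c : ℕ → ℝ, Summable c ∧ ∀ n, G.CB s (u n) (c n)) :
    (∀ p, Summable fun n => u n p) ∧ G.S2 (fun p => ∑' n, u n p) ∧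
      ∀ s, ∀ c : ℕ → ℝ, Summable c → (∀ n, G.CB s (u n) (c n)) →
        G.CB s (fun p => ∑' n, u n p) (∑' n, c n) := by
  classical
  have hsum : ∀ p, Summable fun n => u n p := by
    intro p
    obtain ⟨C, hC1, hC⟩ := G.jn_zero_equiv
    obtain ⟨c, hc, hb⟩ := h 0
    exact Summable.of_norm_bounded (hc.mul_left C) fun n =>
      (hC (u n) p).1.trans (mul_le_mul_of_nonneg_left (hb n p) (by linarith))
  have hrep : ∀ i, G.rep2 i (fun p => ∑' n, u n p) = fun x => ∑' n, G.rep2 i (u n) x := by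
    intro i
    funext x
    exact (bump x • pbL (G.T i ((G.κ i).symm x))).map_tsum (hsum _)
  choose c hc hb using h
  choose C hC1 hC using G.jb_rep2
  have hbd : ∀ (p : M) i (k n : ℕ) (x : E), (k : ℕ∞) ≤ ⊤ →
      ‖iteratedFDeriv ℝ k (G.rep2 i (u n)) x‖ ≤ C k * c k n := fun p i k n x _ =>
    hC k (u n) (hu n) (c k n) ((jn_nonneg k (u n) p).trans (hb k n p)) (hb k n) i x k le_rfl
  have hv : ∀ k : ℕ, (k : ℕ∞) ≤ ⊤ → Summable fun n => C k * c k n := fun k _ => (hc k).mul_left _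
  refine ⟨hsum, S2_of_loc fun p => ⟨G.ch p, G.ch_source p, ?_⟩, fun s c' hc' hb' p => ?_⟩
  · have h1 : ContDiff ℝ ∞ (G.rep2 (G.ch p) fun p => ∑' n, u n p) := by
      rw [hrep]
      exact contDiff_tsum (N := ⊤) (fun n => (hu n).rep2 _) hv (hbd p _)
    exact h1.contDiffAt.congr_of_eventuallyEq
      (rep2_eventuallyEq _ _ ((G.ch_lt p).trans (by norm_num))).symm
  · have hs1 : ∀ i, p ∈ G.K i 1 → ∀ j ∈ Finset.range (s + 1),
        Summable fun n => ‖iteratedFDeriv ℝ j (G.loc2 i (u n)) (G.κ i p)‖ := fun i hp j hj =>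
      Summable.of_nonneg_of_le (fun n => norm_nonneg _) (fun n =>
        (jb_of_mem_K hp s (u n) j (Nat.lt_succ_iff.1 (Finset.mem_range.1 hj))).trans (hb' n p)) hc'
    have hs2 : ∀ i ∈ (Finset.univ : Finset (Fin G.n)), Summable fun n => if p ∈ G.K i 1 then
        ∑ j ∈ Finset.range (s + 1), ‖iteratedFDeriv ℝ j (G.loc2 i (u n)) (G.κ i p)‖ else 0 := by
      intro i _
      split_ifs with hp
      · exact summable_sum (hs1 i hp)
      · exact summable_zero
    refine le_trans ?_ (Summable.tsum_le_tsum (f := fun n => G.jn s (u n) p) (fun n => hb' n p)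
      (summable_sum hs2) hc')
    simp only [jn]
    rw [Summable.tsum_finsetSum hs2]
    refine Finset.sum_le_sum fun i _ => ?_
    split_ifs with hp
    · rw [Summable.tsum_finsetSum (hs1 i hp)]
      refine Finset.sum_le_sum fun j hj => ?_
      have hx : ‖G.κ i p‖ < 5 / 2 := hp.2.trans_lt (by norm_num)
      have e : ∀ g, iteratedFDeriv ℝ j (G.loc2 i g) (G.κ i p)
          = iteratedFDeriv ℝ j (G.rep2 i g) (G.κ i p) := fun g =>
        ((rep2_eventuallyEq i g hx).iteratedFDeriv ℝ j).eq_of_nhds.symm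
      have hs := hs1 i hp j hj
      simp only [e] at hs ⊢
      rw [hrep, iteratedFDeriv_tsum_apply (N := ⊤) (fun n => (hu n).rep2 _) hv (hbd p _)
        _root_.le_top]
      exact norm_tsum_le_tsum_norm hs
    · simp

end Geo

end Crest.Agent.R240

end
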