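import Crest.Agent.R240.Jet

/-!
# Row 240: currents as functionals on a Banach space of jets
-/

set_option autoImplicit false
set_option linter.unusedSectionVars false
set_option linter.unusedVariables false

open MeasureTheory Metric Set Filter Topology
open scoped ContDiff ENNReal

noncomputable section

namespace Crest.Agent.R240

namespace Geo

variable {M : Type*} [MetricSpace M] [CompactSpace M] [MeasurableSpace M] [BorelSpace M]
  {G : Geo M}

namespace JetRep

theorem mem_ball3 (x : closedBall (0 : E) 1) : (x : E) ∈ ball (0 : E) 3 :=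
  closedBall_subset_ball (by norm_num) x.2

theorem diffAt {η : M → Bil} (h : G.S2 η) (i : Fin G.n) (x : closedBall (0 : E) 1) :
    DifferentiableAt ℝ (G.loc2 i η) x :=
  (h.at (mem_ball3 x)).differentiableAt (by simp)

theorem continuous_jetF {η : M → Bil} (h : G.S2 η) : Continuous (G.jetF η) := by
  rw [continuous_prod_of_discrete_left]
  intro i
  have h1 : Continuous fun x : closedBall (0 : E) 1 => G.loc2 i η x :=
    (h i).continuousOn.comp_continuous continuous_subtype_val mem_ball3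
  have h2 : Continuous fun x : closedBall (0 : E) 1 => fderiv ℝ (G.loc2 i η) x :=
    ((h i).continuousOn_fderiv_of_isOpen isOpen_ball (by simp)).comp_continuous
      continuous_subtype_val mem_ball3
  exact h1.prodMk (continuous_pi fun a => h2.clm_apply continuous_const)

theorem norm_le_of_e {F : Type*} [NormedAddCommGroup F] [NormedSpace ℝ F] (L : E →L[ℝ] F) {c : ℝ}
    (hc : 0 ≤ c) (h : ∀ a, ‖L (e a)‖ ≤ c) : ‖L‖ ≤ 4 * c := by
  refine L.opNorm_le_bound (by positivity) fun v => ?_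
  conv_lhs => rw [← sum_e v, map_sum]
  refine (norm_sum_le _ _).trans ?_
  have : ∀ a ∈ (Finset.univ : Finset (Fin 4)), ‖L (v a • e a)‖ ≤ c * ‖v‖ := by
    intro a _
    rw [map_smul, norm_smul, mul_comm]
    exact mul_le_mul (h a) (PiLp.norm_apply_le v a) (norm_nonneg _) hc
  refine (Finset.sum_le_sum this).trans ?_
  simp only [Finset.sum_const, Finset.card_univ, Fintype.card_fin, nsmul_eq_mul]
  push_cast
  linarith

end JetRep

open JetRep

theorem jet_apply {η : M → Bil} (h : G.S2 η) (y : Fin G.n × closedBall (0 : E) 1) :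
    G.jet η y = G.jetF η y := by
  unfold jet
  rw [ContinuousMap.mkD_of_continuous (continuous_jetF h)]
  rfl

theorem jet_add {η ζ : M → Bil} (h : G.S2 η) (h' : G.S2 ζ) :
    G.jet (η + ζ) = G.jet η + G.jet ζ := by
  refine ContinuousMap.ext fun y => ?_
  rw [ContinuousMap.add_apply, jet_apply h, jet_apply h', jet_apply (h.add h')]
  unfold jetF
  rw [loc2_add, fderiv_fun_add (diffAt h y.1 y.2) (diffAt h' y.1 y.2)]
  rfl

theorem jet_smul {η : M → Bil} (h : G.S2 η) (c : ℝ) : G.jet (c • η) = c • G.jet η := by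
  refine ContinuousMap.ext fun y => ?_
  rw [ContinuousMap.smul_apply, jet_apply h, jet_apply (h.smul c)]
  unfold jetF
  rw [loc2_smul, fderiv_fun_const_smul (diffAt h y.1 y.2)]
  rfl

theorem norm_jet_le {η : M → Bil} (h : G.S2 η) {c : ℝ} (hc : 0 ≤ c) (hb : G.CB 1 η c) :
    ‖G.jet η‖ ≤ c := by
  rw [ContinuousMap.norm_le _ hc]
  rintro ⟨i, x⟩
  rw [jet_apply h]
  have hx : ‖(x : E)‖ ≤ 1 := mem_closedBall_zero_iff.mp x.2
  have hp := symm_mem_K (G := G) (i := i) (by norm_num : (1 : ℝ) < 3) hx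
  have hj := jb_of_mem_K hp 1 η
  rw [map_symm (mem_ball3 x)] at hj
  have h0 := (hj 0 (by norm_num)).trans (hb _)
  have h1 := (hj 1 le_rfl).trans (hb _)
  rw [norm_iteratedFDeriv_zero] at h0
  rw [norm_iteratedFDeriv_one] at h1
  unfold jetF
  rw [Prod.norm_def]
  refine max_le h0 ?_
  rw [pi_norm_le_iff_of_nonneg hc]
  intro a
  refine (ContinuousLinearMap.le_opNorm _ _).trans ?_
  rw [norm_e, mul_one]
  exact h1

theorem CB_jet (G : Geo M) : ∃ C : ℝ, 1 ≤ C ∧ ∀ η, G.S2 η → G.CB 1 η (C * ‖G.jet η‖) := by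
  refine ⟨8 * G.n + 1, by have : (0 : ℝ) ≤ G.n := Nat.cast_nonneg _; linarith, fun η h p => ?_⟩
  have hn := norm_nonneg (G.jet η)
  have h1 : G.jn 1 η p ≤ G.n * ((1 : ℕ) + 1) * (4 * ‖G.jet η‖) := by
    refine jn_le_of_jb (by positivity) fun i hp => ?_
    have hx : G.κ i p ∈ closedBall (0 : E) 1 := mem_closedBall_zero_iff.mpr hp.2
    have h2 := (G.jet η).norm_coe_le_norm (i, ⟨_, hx⟩)
    rw [jet_apply h] at h2
    unfold jetF at h2
    rw [Prod.norm_def, max_le_iff] at h2
    intro j hj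
    interval_cases j
    · rw [norm_iteratedFDeriv_zero]
      linarith [h2.1]
    · rw [norm_iteratedFDeriv_one]
      exact norm_le_of_e _ hn fun a => (norm_le_pi_norm _ a).trans h2.2
  refine h1.trans ?_
  push_cast
  nlinarith

namespace JetRep

/-- the smooth forms as a submodule -/
def sub (G : Geo M) : Submodule ℝ (M → Bil) where
  carrier := {η | G.S2 η}
  add_mem' := fun h h' => S2.add h h'
  zero_mem' := S2.zero
  smul_mem' := fun c _ h => S2.smul h c

/-- the jet as a linear map -/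
def jetL (G : Geo M) :
    sub G →ₗ[ℝ] C(Fin G.n × closedBall (0 : E) 1, Bil × (Fin 4 → Bil)) where
  toFun η := G.jet η
  map_add' η ζ := jet_add η.2 ζ.2
  map_smul' c η := jet_smul η.2 c

/-- a current as a linear map -/
def curL (N : G.Cur) : sub G →ₗ[ℝ] ℝ where
  toFun η := N.N η
  map_add' η ζ := N.add _ _ η.2 ζ.2
  map_smul' c η := N.smul c _ η.2

theorem factor {S X : Type*} [AddCommGroup S] [Module ℝ S] [NormedAddCommGroup X]
    [NormedSpace ℝ X] (j : S →ₗ[ℝ] X) (f : S →ₗ[ℝ] ℝ) (C : ℝ) (h : ∀ s, |f s| ≤ C * ‖j s‖) :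
    ∃ ℓ : X →L[ℝ] ℝ, ∀ s, f s = ℓ (j s) := by
  have hk : LinearMap.ker j ≤ LinearMap.ker f := by
    intro s hs
    have := h s
    rw [LinearMap.mem_ker] at hs ⊢
    rw [hs, norm_zero, mul_zero] at this
    exact abs_nonpos_iff.mp this
  let g : LinearMap.range j →ₗ[ℝ] ℝ :=
    ((LinearMap.ker j).liftQ f hk).comp j.quotKerEquivRange.symm.toLinearMap
  have hg : ∀ s, g ⟨j s, LinearMap.mem_range_self j s⟩ = f s := by
    intro s
    simp only [g, LinearMap.comp_apply, LinearEquiv.coe_coe]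
    rw [LinearMap.quotKerEquivRange_symm_apply_image]
    rfl
  have hb : ∀ x : LinearMap.range j, ‖g x‖ ≤ C * ‖x‖ := by
    rintro ⟨_, s, rfl⟩
    rw [hg]
    exact h s
  obtain ⟨ℓ, hℓ, -⟩ := exists_extension_norm_eq (LinearMap.range j) (g.mkContinuous C hb)
  refine ⟨ℓ, fun s => ?_⟩
  rw [← hg]
  exact (hℓ ⟨j s, LinearMap.mem_range_self j s⟩).symm

end JetRep

/-- Hahn–Banach extension -/
theorem Cur.exists_rep (N : G.Cur) :
    ∃ ℓ : C(Fin G.n × closedBall (0 : E) 1, Bil × (Fin 4 → Bil)) →L[ℝ] ℝ,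
      ∀ η, G.S2 η → N.N η = ℓ (G.jet η) := by
  obtain ⟨C, hC, hb⟩ := N.bound
  obtain ⟨C', hC', hj⟩ := CB_jet G
  obtain ⟨ℓ, hℓ⟩ := factor (jetL G) (curL N) (C * C') fun η => by
    rw [mul_assoc]
    exact hb η _ η.2 (hj η η.2)
  exact ⟨ℓ, fun η h => hℓ ⟨η, h⟩⟩

theorem Cur.map_zero (N : G.Cur) : N.N 0 = 0 := (curL N).map_zero
theorem Cur.map_sub (N : G.Cur) {η ζ : M → Bil} (h : G.S2 η) (h' : G.S2 ζ) :
    N.N (η - ζ) = N.N η - N.N ζ := (curL N).map_sub ⟨η, h⟩ ⟨ζ, h'⟩
theorem Cur.map_sum (N : G.Cur) {ι : Type*} {s : Finset ι} {η : ι → M → Bil}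
    (h : ∀ j ∈ s, G.S2 (η j)) : N.N (∑ j ∈ s, η j) = ∑ j ∈ s, N.N (η j) := by
  classical
  induction s using Finset.induction_on with
  | empty => simpa using N.map_zero
  | insert a s ha ih =>
    rw [Finset.sum_insert ha, Finset.sum_insert ha,
      N.add _ _ (h a (Finset.mem_insert_self _ _))
        (S2.sum fun j hj => h j (Finset.mem_insert_of_mem hj)),
      ih fun j hj => h j (Finset.mem_insert_of_mem hj)]

end Geo

end Crest.Agent.R240

end
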