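import Crest.Agent.R240.Pull
import Crest.Agent.R240.Prof

/-!
# Row 240: the local exactness identity for the kernel
-/

set_option autoImplicit false
set_option linter.unusedSectionVars false
set_option linter.unusedVariables false

open MeasureTheory Metric Set Filter Topology
open scoped ContDiff ENNReal

noncomputable section

namespace Crest.Agent.R240

theorem Pf_apply (f : E × E → E) (z : E × E) (X : E) : Pf f z X = fderiv ℝ f z (X, 0) := rfl
theorem Qf_apply (f : E × E → E) (z : E × E) (v : E) : Qf f z v = fderiv ℝ f z (0, v) := rfl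
theorem Pf_smooth {f : E × E → E} (hf : ContDiff ℝ ∞ f) : ContDiff ℝ ∞ (Pf f) :=
  (hf.fderiv_right (m := ∞) le_rfl).clm_comp contDiff_const
theorem Qf_smooth {f : E × E → E} (hf : ContDiff ℝ ∞ f) : ContDiff ℝ ∞ (Qf f) :=
  (hf.fderiv_right (m := ∞) le_rfl).clm_comp contDiff_const
theorem qv_KV (f : E × E → E) (ρ : E → ℝ) (z : E × E) (X Y v w : E) :
    qv (KV f ρ z) X Y v w = ρ z.2 * det4 (Pf f z X) (Pf f z Y) (Qf f z v) (Qf f z w) := by
  rw [KV, qv_smul, ← qv_vol, ← qv_pbQ]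
  rfl
theorem qv_KW (f : E × E → E) (θ : E → E →L[ℝ] End) (ρ : E → ℝ) (z : E × E) (X Y v w : E) :
    qv (KW f θ ρ z) X Y v w = Th (θ z.2 v) (Pf f z X) (Pf f z Y) * fderiv ℝ ρ z.2 w
      - fderiv ℝ ρ z.2 v * Th (θ z.2 w) (Pf f z X) (Pf f z Y) := by
  rw [qv_apply, ← pb_apply (Th (θ z.2 v)), ← pb_apply (Th (θ z.2 w)), bil_apply (pb _ _) X Y,
    bil_apply (pb _ _) X Y, Finset.sum_mul, Finset.mul_sum, ← Finset.sum_sub_distrib]
  refine Finset.sum_congr rfl fun a _ => ?_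
  rw [Finset.sum_mul, Finset.mul_sum, ← Finset.sum_sub_distrib]
  refine Finset.sum_congr rfl fun b _ => ?_
  rw [KW, wedge_apply, Th_cov, Th_cov, pb_apply, pb_apply]
  ring
theorem KV_contDiffAt {f : E × E → E} (hf : ContDiff ℝ ∞ f) {ρ : E → ℝ} {z : E × E}
    (hρ : ContDiffAt ℝ ∞ ρ z.2) : ContDiffAt ℝ ∞ (KV f ρ) z :=
  (hρ.comp z contDiffAt_snd).smul
    (ContDiffAt.pbQ contDiffAt_const (Pf_smooth hf).contDiffAt (Qf_smooth hf).contDiffAt)
theorem KW_contDiffAt {f : E × E → E} (hf : ContDiff ℝ ∞ f) {θ : E → E →L[ℝ] End}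
    (hθ : ContDiff ℝ ∞ θ) {ρ : E → ℝ} {z : E × E} (hρ : ContDiffAt ℝ ∞ ρ z.2) :
    ContDiffAt ℝ ∞ (KW f θ ρ) z := by
  refine contDiffAt_pi.2 fun a => contDiffAt_pi.2 fun b => ?_
  refine ContDiffAt.wedge (ContDiffAt.cov fun c => ?_)
    ((hρ.fderiv_right (m := ∞) le_rfl).comp z contDiffAt_snd)
  exact ((ContDiffAt.Th ((hθ.contDiffAt.comp z contDiffAt_snd).clm_apply contDiffAt_const)).clm_apply
    ((Pf_smooth hf).contDiffAt.clm_apply contDiffAt_const)).clm_apply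
    ((Pf_smooth hf).contDiffAt.clm_apply contDiffAt_const)

/-- the `(3,1)` part of the pulled back Thom form -/
def gam (f : E × E → E) (a : ℝ → ℝ) (x X Y W y : E) : Cov :=
  a (‖f (x, y)‖ ^ 2) •
    cov fun c => det4 (Pf f (x, y) X) (Pf f (x, y) Y) (Pf f (x, y) W) (Qf f (x, y) (e c))

theorem gam_apply (f : E × E → E) (a : ℝ → ℝ) (x X Y W y v : E) :
    gam f a x X Y W y v = a (‖f (x, y)‖ ^ 2) *
      det4 (Pf f (x, y) X) (Pf f (x, y) Y) (Pf f (x, y) W) (Qf f (x, y) v) := by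
  have h := cov_self ((qv vol (Pf f (x, y) X) (Pf f (x, y) Y) (Pf f (x, y) W)).comp (Qf f (x, y)))
  simp only [ContinuousLinearMap.comp_apply, qv_vol] at h
  rw [gam, h, _root_.smul_apply, ContinuousLinearMap.comp_apply, qv_vol, smul_eq_mul]

theorem gam_smooth {f : E × E → E} (hf : ContDiff ℝ ∞ f) {a : ℝ → ℝ} (ha : ContDiff ℝ ∞ a)
    (x X Y W : E) : ContDiff ℝ ∞ (gam f a x X Y W) := by
  have hc : ContDiff ℝ ∞ fun y : E => ((x, y) : E × E) := contDiff_const.prodMk contDiff_id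
  have hP := (Pf_smooth hf).comp hc
  have hQ := (Qf_smooth hf).comp hc
  refine contDiff_iff_contDiffAt.2 fun y => ?_
  exact (ha.comp ((hf.comp hc).norm_sq ℝ)).contDiffAt.smul (ContDiffAt.cov fun c =>
    ContDiffAt.det4 (hP.contDiffAt.clm_apply contDiffAt_const)
      (hP.contDiffAt.clm_apply contDiffAt_const) (hP.contDiffAt.clm_apply contDiffAt_const)
      (hQ.contDiffAt.clm_apply contDiffAt_const))

/-! ### derivatives along lines -/

theorem kE_fderiv_of_line {g : E → ℝ} {x u : E} {c : ℝ} (hg : DifferentiableAt ℝ g x)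
    (h : HasDerivAt (fun t : ℝ => g (x + t • u)) c 0) : fderiv ℝ g x u = c := by
  rw [← hg.lineDeriv_eq_fderiv]
  exact HasLineDerivAt.lineDeriv h

theorem kE_hasDerivAt_det4 {p q r s : ℝ → E} {p' q' r' s' : E} {t : ℝ} (hp : HasDerivAt p p' t)
    (hq : HasDerivAt q q' t) (hr : HasDerivAt r r' t) (hs : HasDerivAt s s' t) :
    HasDerivAt (fun t => det4 (p t) (q t) (r t) (s t))
      (det4 p' (q t) (r t) (s t) + det4 (p t) q' (r t) (s t) + det4 (p t) (q t) r' (s t)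
        + det4 (p t) (q t) (r t) s') t := by
  have hc : ∀ {u : ℝ → E} {u' : E}, HasDerivAt u u' t → ∀ i : Fin 4,
      HasDerivAt (fun t => u t i) (u' i) t := fun hu i =>
    (EuclideanSpace.proj (𝕜 := ℝ) i).hasFDerivAt.comp_hasDerivAt t hu
  have hm : ∀ {u v : ℝ → E} {u' v' : E}, HasDerivAt u u' t → HasDerivAt v v' t → ∀ i j : Fin 4,
      HasDerivAt (fun t => u t i * v t j - u t j * v t i)
        (u' i * v t j + u t i * v' j - (u' j * v t i + u t j * v' i)) t := fun hu hv i j =>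
    ((hc hu i).mul (hc hv j)).sub ((hc hu j).mul (hc hv i))
  refine HasDerivAt.congr_deriv (((((((hm hp hq 0 1).mul (hm hr hs 2 3)).sub
    ((hm hp hq 0 2).mul (hm hr hs 1 3))).add ((hm hp hq 0 3).mul (hm hr hs 1 2))).add
    ((hm hp hq 1 2).mul (hm hr hs 0 3))).sub ((hm hp hq 1 3).mul (hm hr hs 0 2))).add
    ((hm hp hq 2 3).mul (hm hr hs 0 1))) ?_
  unfold det4
  ring

theorem kE_hasDerivAt_bil (β : Bil) {p q : ℝ → E} {p' q' : E} {t : ℝ} (hp : HasDerivAt p p' t)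
    (hq : HasDerivAt q q' t) :
    HasDerivAt (fun t => β (p t) (q t)) (β p' (q t) + β (p t) q') t :=
  (β.hasFDerivAt.comp_hasDerivAt t hp).clm_apply hq

theorem kE_line_f {f : E × E → E} (hf : ContDiff ℝ ∞ f) {γ : ℝ → E × E} {u : E × E}
    (hγ : HasDerivAt γ u 0) : HasDerivAt (fun t => f (γ t)) (fderiv ℝ f (γ 0) u) 0 :=
  (hf.differentiable (by simp) (γ 0)).hasFDerivAt.comp_hasDerivAt 0 hγ

theorem kE_line_D {f : E × E → E} (hf : ContDiff ℝ ∞ f) {γ : ℝ → E × E} {u : E × E}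
    (hγ : HasDerivAt γ u 0) (p : E × E) :
    HasDerivAt (fun t => fderiv ℝ f (γ t) p) (fderiv ℝ (fderiv ℝ f) (γ 0) u p) 0 := by
  have h1 := ((hf.fderiv_right (m := ∞) le_rfl).differentiable (by simp)
    (γ 0)).hasFDerivAt.comp_hasDerivAt 0 hγ
  simpa using h1.clm_apply (hasDerivAt_const (0 : ℝ) p)

theorem kE_line_prof {f : E × E → E} (hf : ContDiff ℝ ∞ f) {γ : ℝ → E × E} {u : E × E}
    (hγ : HasDerivAt γ u 0) {a : ℝ → ℝ} {a' : ℝ} (ha : HasDerivAt a a' (‖f (γ 0)‖ ^ 2)) :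
    HasDerivAt (fun t => a (‖f (γ t)‖ ^ 2))
      (a' * (2 * inner ℝ (f (γ 0)) (fderiv ℝ f (γ 0) u))) 0 :=
  ha.comp (0 : ℝ) (kE_line_f hf hγ).norm_sq

theorem kE_line_left (x y u : E) :
    HasDerivAt (fun t : ℝ => ((x + t • u, y) : E × E)) (u, 0) 0 := by
  have h := ((hasDerivAt_id (0 : ℝ)).smul_const u).const_add x
  rw [one_smul] at h
  exact h.prodMk (hasDerivAt_const (0 : ℝ) y)

theorem kE_line_right (x y u : E) :
    HasDerivAt (fun t : ℝ => ((x, y + t • u) : E × E)) (0, u) 0 := by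
  have h := ((hasDerivAt_id (0 : ℝ)).smul_const u).const_add y
  rw [one_smul] at h
  exact (hasDerivAt_const (0 : ℝ) x).prodMk h

theorem kE_det_H (p q r c d hXY hXW hYW hXv hXw hYv hYw hWv hWw hvw : E) :
    (det4 hXY r c d + det4 q hXW c d + det4 q r hXv d + det4 q r c hXw)
      + (det4 hYW p c d + det4 r hXY c d + det4 r p hYv d + det4 r p c hYw)
      + (det4 hXW q c d + det4 p hYW c d + det4 p q hWv d + det4 p q c hWw)
    = (det4 hXv q r d + det4 p hYv r d + det4 p q hWv d + det4 p q r hvw)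
      - (det4 hXw q r c + det4 p hYw r c + det4 p q hWw c + det4 p q r hvw) := by
  unfold det4
  ring

theorem kE_det_swap (p q r s : E) : det4 p q r s = -det4 q p r s := by
  unfold det4
  ring

theorem kE_det_sub (p q r s s' : E) : det4 p q r (s - s') = det4 p q r s - det4 p q r s' := by
  unfold det4
  simp only [PiLp.sub_apply]
  ring

/-- (C2) `d_x K = d_y (ρ γ) - dρ ∧ γ^{cov}` -/
theorem exact_loc {f : E × E → E} (hf : ContDiff ℝ ∞ f) {θ : E → E →L[ℝ] End}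
    (hsk : ∀ y v a b, inner ℝ (θ y v a) b = -inner ℝ a (θ y v b)) {a b : ℝ → ℝ}
    (ha : ContDiff ℝ ∞ a) (hb : ∀ s, HasDerivAt b (-(1 / 2) * a s) s) {ρ : E → ℝ} {x y : E}
    (hρ : ContDiffAt ℝ ∞ ρ y) (X Y W v w : E) :
    d2 (fun x' => qv (qswap (a (‖f (x', y)‖ ^ 2) • KV f ρ (x', y)
        + b (‖f (x', y)‖ ^ 2) • KW f θ ρ (x', y))) v w) x X Y W
      = d1 (fun y' => ρ y' • gam f a x X Y W y') y v w
        - a (‖f (x, y)‖ ^ 2) *
          (fderiv ℝ ρ y v * det4 (Pf f (x, y) X) (Pf f (x, y) Y) (Pf f (x, y) W)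
              (Qf f (x, y) w - θ y w (f (x, y)))
            - fderiv ℝ ρ y w * det4 (Pf f (x, y) X) (Pf f (x, y) Y) (Pf f (x, y) W)
              (Qf f (x, y) v - θ y v (f (x, y)))) := by
  have hbs : ContDiff ℝ ∞ b := by
    refine contDiff_infty_iff_deriv.2 ⟨fun s => (hb s).differentiableAt, ?_⟩
    rw [show deriv b = fun s => -(1 / 2) * a s from funext fun s => (hb s).deriv]
    exact contDiff_const.mul ha
  have ha' : ∀ s, HasDerivAt a (deriv a s) s := fun s =>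
    (ha.differentiable (by simp) s).hasDerivAt
  have hρd : DifferentiableAt ℝ ρ y := hρ.differentiableAt (by simp)
  set η : E → Bil := fun x' => qv (qswap (a (‖f (x', y)‖ ^ 2) • KV f ρ (x', y)
    + b (‖f (x', y)‖ ^ 2) • KW f θ ρ (x', y))) v w with hη
  have hηe : ∀ x' p q, η x' p q =
      a (‖f (x', y)‖ ^ 2) * (ρ y * det4 (fderiv ℝ f (x', y) (p, 0)) (fderiv ℝ f (x', y) (q, 0))
        (fderiv ℝ f (x', y) (0, v)) (fderiv ℝ f (x', y) (0, w)))
      + b (‖f (x', y)‖ ^ 2) *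
        (Th (θ y v) (fderiv ℝ f (x', y) (p, 0)) (fderiv ℝ f (x', y) (q, 0)) * fderiv ℝ ρ y w
          - fderiv ℝ ρ y v *
            Th (θ y w) (fderiv ℝ f (x', y) (p, 0)) (fderiv ℝ f (x', y) (q, 0))) := by
    intro x' p q
    rw [hη]
    simp only [qv_qswap, qv_add, qv_smul, _root_.add_apply,
      _root_.smul_apply, smul_eq_mul, qv_KV, qv_KW, Pf_apply, Qf_apply]
  have hc : ContDiff ℝ ∞ fun x' : E => ((x', y) : E × E) := contDiff_id.prodMk contDiff_const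
  have hD : ∀ p : E × E, ContDiffAt ℝ ∞ (fun x' : E => fderiv ℝ f (x', y) p) x := fun p =>
    (((hf.fderiv_right (m := ∞) le_rfl).comp hc).clm_apply contDiff_const).contDiffAt
  have hηc : ∀ p q, ContDiffAt ℝ ∞ (fun x' => η x' p q) x := by
    intro p q
    simp only [hηe]
    have hn := (hf.comp hc).norm_sq ℝ
    exact ((ha.comp hn).contDiffAt.mul (contDiffAt_const.mul
      (ContDiffAt.det4 (hD _) (hD _) (hD _) (hD _)))).add ((hbs.comp hn).contDiffAt.mul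
        ((((contDiffAt_const.clm_apply (hD _)).clm_apply (hD _)).mul contDiffAt_const).sub
          (contDiffAt_const.mul ((contDiffAt_const.clm_apply (hD _)).clm_apply (hD _)))))
  have hηd : DifferentiableAt ℝ η x :=
    (contDiffAt_bil fun a b => hηc (e a) (e b)).differentiableAt (by simp)
  set D := fderiv ℝ f (x, y) with hDdef
  set H := fderiv ℝ (fderiv ℝ f) (x, y) with hHdef
  have hH : ∀ p q, H p q = H q p := fun p q =>
    (hf.contDiffAt.isSymmSndFDerivAt (x := (x, y))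
      (by simp only [minSmoothness_of_isRCLikeNormedField]; exact WithTop.coe_le_coe.2 le_top)).eq p q
  have hL : ∀ u p q, fderiv ℝ η x u p q =
      (deriv a (‖f (x, y)‖ ^ 2) * (2 * inner ℝ (f (x, y)) (D (u, 0)))) *
          (ρ y * det4 (D (p, 0)) (D (q, 0)) (D (0, v)) (D (0, w)))
        + a (‖f (x, y)‖ ^ 2) * (ρ y *
          (det4 (H (u, 0) (p, 0)) (D (q, 0)) (D (0, v)) (D (0, w))
            + det4 (D (p, 0)) (H (u, 0) (q, 0)) (D (0, v)) (D (0, w))
            + det4 (D (p, 0)) (D (q, 0)) (H (u, 0) (0, v)) (D (0, w))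
            + det4 (D (p, 0)) (D (q, 0)) (D (0, v)) (H (u, 0) (0, w))))
        + ((-(1 / 2) * a (‖f (x, y)‖ ^ 2) * (2 * inner ℝ (f (x, y)) (D (u, 0)))) *
          (Th (θ y v) (D (p, 0)) (D (q, 0)) * fderiv ℝ ρ y w
            - fderiv ℝ ρ y v * Th (θ y w) (D (p, 0)) (D (q, 0)))
        + b (‖f (x, y)‖ ^ 2) *
          ((Th (θ y v) (H (u, 0) (p, 0)) (D (q, 0)) + Th (θ y v) (D (p, 0)) (H (u, 0) (q, 0)))
              * fderiv ℝ ρ y w
            - fderiv ℝ ρ y v * (Th (θ y w) (H (u, 0) (p, 0)) (D (q, 0))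
              + Th (θ y w) (D (p, 0)) (H (u, 0) (q, 0))))) := by
    intro u p q
    rw [fderiv_bil_apply hηd]
    refine kE_fderiv_of_line ((hηc p q).differentiableAt (by simp)) ?_
    simp only [hηe]
    have hγ := kE_line_left x y u
    have hd := kE_line_D hf hγ
    have h := ((kE_line_prof hf hγ (ha' _)).mul ((kE_hasDerivAt_det4 (hd (p, 0)) (hd (q, 0))
      (hd (0, v)) (hd (0, w))).const_mul (ρ y))).add ((kE_line_prof hf hγ (hb _)).mul
        (((kE_hasDerivAt_bil (Th (θ y v)) (hd (p, 0)) (hd (q, 0))).mul_const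
          (fderiv ℝ ρ y w)).sub ((kE_hasDerivAt_bil (Th (θ y w)) (hd (p, 0))
            (hd (q, 0))).const_mul (fderiv ℝ ρ y v))))
    refine HasDerivAt.congr_deriv h ?_
    simp only [zero_smul, add_zero, Pi.sub_apply, hDdef, hHdef]
  have hgd : DifferentiableAt ℝ (fun y' => ρ y' • gam f a x X Y W y') y :=
    hρd.smul ((gam_smooth hf ha x X Y W).differentiable (by simp) y)
  have hR : ∀ u p, fderiv ℝ (fun y' => ρ y' • gam f a x X Y W y') y u p =
      fderiv ℝ ρ y u * (a (‖f (x, y)‖ ^ 2) * det4 (D (X, 0)) (D (Y, 0)) (D (W, 0)) (D (0, p)))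
        + ρ y * ((deriv a (‖f (x, y)‖ ^ 2) * (2 * inner ℝ (f (x, y)) (D (0, u)))) *
            det4 (D (X, 0)) (D (Y, 0)) (D (W, 0)) (D (0, p))
          + a (‖f (x, y)‖ ^ 2) *
            (det4 (H (0, u) (X, 0)) (D (Y, 0)) (D (W, 0)) (D (0, p))
              + det4 (D (X, 0)) (H (0, u) (Y, 0)) (D (W, 0)) (D (0, p))
              + det4 (D (X, 0)) (D (Y, 0)) (H (0, u) (W, 0)) (D (0, p))
              + det4 (D (X, 0)) (D (Y, 0)) (D (W, 0)) (H (0, u) (0, p)))) := by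
    intro u p
    rw [fderiv_cov_apply hgd]
    refine kE_fderiv_of_line (hgd.clm_apply (differentiableAt_const p)) ?_
    simp only [_root_.smul_apply, smul_eq_mul, gam_apply, Pf_apply, Qf_apply]
    have hγ := kE_line_right x y u
    have hd := kE_line_D hf hγ
    have hr : HasDerivAt (fun t : ℝ => ρ (y + t • u)) (fderiv ℝ ρ y u) 0 :=
      hρd.hasFDerivAt.hasLineDerivAt u
    have h := hr.mul ((kE_line_prof hf hγ (ha' _)).mul (kE_hasDerivAt_det4 (hd (X, 0))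
      (hd (Y, 0)) (hd (W, 0)) (hd (0, p))))
    refine HasDerivAt.congr_deriv h ?_
    simp only [zero_smul, add_zero, Pi.mul_apply, hDdef, hHdef]
  rw [d2, d1_apply, hL, hL, hL, hR, hR]
  simp only [Pf_apply, Qf_apply, ← hDdef, kE_det_sub]
  rw [hH (Y, 0) (X, 0), hH (W, 0) (X, 0), hH (W, 0) (Y, 0), hH (0, v) (X, 0), hH (0, v) (Y, 0),
    hH (0, v) (W, 0), hH (0, w) (X, 0), hH (0, w) (Y, 0), hH (0, w) (W, 0), hH (0, w) (0, v)]
  have e1 := kE_det_H (D (X, 0)) (D (Y, 0)) (D (W, 0)) (D (0, v)) (D (0, w)) (H (X, 0) (Y, 0))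
    (H (X, 0) (W, 0)) (H (Y, 0) (W, 0)) (H (X, 0) (0, v)) (H (X, 0) (0, w)) (H (Y, 0) (0, v))
    (H (Y, 0) (0, w)) (H (W, 0) (0, v)) (H (W, 0) (0, w)) (H (0, v) (0, w))
  have e2 := det4_five (f (x, y)) (D (X, 0)) (D (Y, 0)) (D (W, 0)) (D (0, v)) (D (0, w))
  have e3 := kE_det_swap (D (W, 0)) (D (X, 0)) (D (0, v)) (D (0, w))
  have e4 := Th_cyc (hsk y v) (f (x, y)) (D (X, 0)) (D (Y, 0)) (D (W, 0))
  have e5 := Th_cyc (hsk y w) (f (x, y)) (D (X, 0)) (D (Y, 0)) (D (W, 0))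
  rw [e3, alt_Th (θ y v) (D (W, 0)) (H (X, 0) (Y, 0)), alt_Th (θ y v) (D (Y, 0)) (H (X, 0) (W, 0)),
    alt_Th (θ y v) (D (X, 0)) (H (Y, 0) (W, 0)), alt_Th (θ y w) (D (W, 0)) (H (X, 0) (Y, 0)),
    alt_Th (θ y w) (D (Y, 0)) (H (X, 0) (W, 0)), alt_Th (θ y w) (D (X, 0)) (H (Y, 0) (W, 0))]
  linear_combination (a (‖f (x, y)‖ ^ 2) * ρ y) * e1 + (2 * deriv a (‖f (x, y)‖ ^ 2) * ρ y) * e2
    - (a (‖f (x, y)‖ ^ 2) * fderiv ℝ ρ y w) * e4 + (a (‖f (x, y)‖ ^ 2) * fderiv ℝ ρ y v) * e5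

end Crest.Agent.R240

end
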