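import Crest.Agent.R240.ChartD
import Crest.Agent.R240.KerE

/-!
# Row 240: the kernel: smoothness and support
-/

set_option autoImplicit false
set_option linter.unusedSectionVars false
set_option linter.unusedVariables false

open MeasureTheory Metric Set Filter Topology
open scoped ContDiff ENNReal

noncomputable section

namespace Crest.Agent.R240

namespace Geo

variable {M : Type*} [MetricSpace M] [CompactSpace M] [MeasurableSpace M] [BorelSpace M]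
  {G : Geo M}

namespace KerAux

theorem KV_zero (f : E × E → E) (j : Fin G.n) (x : E) {y : E} (hy : y ∈ ball (0 : E) 3)
    (h : 1 ≤ ‖y‖) : KV f (G.loc0 j (G.rho j)) (x, y) = 0 := by
  simp [KV, loc0_rho_zero j hy h]

theorem KW_zero (f : E × E → E) (θ : E → E →L[ℝ] End) (j : Fin G.n) (x : E) {y : E}
    (hy : y ∈ ball (0 : E) 3) (h : 1 ≤ ‖y‖) : KW f θ (G.loc0 j (G.rho j)) (x, y) = 0 := by
  funext a b
  ext u v
  simp [KW, fderiv_loc0_rho_zero j hy h]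

theorem qv_zero (X Y v w : E) : qv 0 X Y v w = 0 := by simp [qv_apply]

theorem extQ_pos {j : Fin G.n} (k : E × E → Quad) {p q : M} (hp : p ∈ (G.κ j).source)
    (hq : q ∈ (G.κ j).source) :
    G.extQ j k p q = pbQL (G.Ti j p) (G.Ti j q) (k (G.κ j p, G.κ j q)) := by
  rw [extQ, if_pos ⟨hp, hq⟩, pbQL_apply]

theorem extQ_neg {j : Fin G.n} (k : E × E → Quad) {p q : M}
    (h : ¬ (p ∈ (G.κ j).source ∧ q ∈ (G.κ j).source)) : G.extQ j k p q = 0 := by
  rw [extQ, if_neg h]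

/-- alternating in both pairs of slots -/
def AltQ (k : Quad) : Prop :=
  ∀ X Y v w, qv k X Y v w = -qv k Y X v w ∧ qv k X Y v w = -qv k X Y w v

theorem AltQ.zero : AltQ 0 := fun X Y v w => by simp [qv_zero]

theorem AltQ.add {k k' : Quad} (h : AltQ k) (h' : AltQ k') : AltQ (k + k') := fun X Y v w => by
  have a := h X Y v w
  have b := h' X Y v w
  simp only [qv_add, _root_.add_apply]
  constructor <;> linarith [a.1, a.2, b.1, b.2]

theorem AltQ.smul {k : Quad} (h : AltQ k) (t : ℝ) : AltQ (t • k) := fun X Y v w => by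
  have a := h X Y v w
  simp only [qv_smul, _root_.smul_apply, smul_eq_mul]
  exact ⟨by rw [a.1, mul_neg], by rw [a.2, mul_neg]⟩

theorem AltQ.extQ {j : Fin G.n} {k : E × E → Quad} (h : ∀ z, AltQ (k z)) (p q : M) :
    AltQ (G.extQ j k p q) := by
  by_cases hpq : p ∈ (G.κ j).source ∧ q ∈ (G.κ j).source
  · intro X Y v w
    simp only [extQ_pos k hpq.1 hpq.2, pbQL_apply, qv_pbQ]
    exact h _ _ _ _ _
  · rw [extQ_neg k hpq]
    exact AltQ.zero

theorem altQ_KV (f : E × E → E) (ρ : E → ℝ) (z : E × E) : AltQ (KV f ρ z) := fun X Y v w => by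
  simp only [qv_KV, det4]
  constructor <;> ring

theorem altQ_KW (f : E × E → E) (θ : E → E →L[ℝ] End) (ρ : E → ℝ) (z : E × E) :
    AltQ (KW f θ ρ z) := fun X Y v w => by
  simp only [qv_KW]
  rw [alt_Th _ (Pf f z Y), alt_Th _ (Pf f z Y)]
  constructor <;> ring

theorem mem_ball_of_K {i : Fin G.n} {p : M} (hp : p ∈ G.K i (12 / 5)) :
    G.κ i p ∈ ball (0 : E) (5 / 2) := mem_ball_zero_iff.2 (hp.2.trans_lt (by norm_num))

end KerAux

open KerAux

namespace Conn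
variable (c : G.Conn)

theorem zeta_zero {u : E} (h : 2 * c.r1 ≤ ‖u‖) : c.ζ u = 0 :=
  c.ζ.zero_of_le_dist (by rwa [dist_zero_right])

theorem zeta_one {u : E} (h : ‖u‖ ≤ c.r1) : c.ζ u = 1 :=
  c.ζ.one_of_mem_closedBall (mem_closedBall_zero_iff.2 h)

theorem zeta_smooth : ContDiff ℝ ∞ fun z : E × E => c.ζ (z.1 - z.2) :=
  c.ζ.contDiff.comp (contDiff_fst.sub contDiff_snd)

theorem Kj_contDiffOn (ε : ℝ) (j : Fin G.n) :
    ContDiffOn ℝ ∞ (c.Kj ε j) (ball 0 3 ×ˢ ball 0 3) := by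
  intro z hz
  have hρ := (rho_S0 G j).at (i := j) hz.2
  have hs : ContDiff ℝ ∞ fun z => ‖c.f j z‖ ^ 2 / ε ^ 2 :=
    ((c.f_smooth j).norm_sq ℝ).div_const _
  exact (c.zeta_smooth.contDiffAt.smul
    (((contDiff_const.mul (ap_smooth.comp hs)).contDiffAt.smul
      (KV_contDiffAt (c.f_smooth j) hρ)).add
    ((contDiff_const.mul (bp_smooth.comp hs)).contDiffAt.smul
      (KW_contDiffAt (c.f_smooth j) (c.θ_smooth j) hρ)))).contDiffWithinAt

theorem Kj_supp (ε : ℝ) (j : Fin G.n) {x y : E} (hy : y ∈ ball (0 : E) 3)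
    (h : c.Kj ε j (x, y) ≠ 0) : ‖y‖ < 1 ∧ ‖x - y‖ < 2 * c.r1 := by
  refine ⟨not_le.1 fun h1 => h ?_, not_le.1 fun h1 => h ?_⟩
  · simp [Kj, KV_zero _ j x hy h1, KW_zero _ _ j x hy h1]
  · simp [Kj, c.zeta_zero h1]

theorem Kj_supp' {ε : ℝ} (hε : 0 < ε) (j : Fin G.n) {x y : E} (hy : y ∈ ball (0 : E) 3)
    (h : c.Kj ε j (x, y) ≠ 0) : c.c1 * ‖x - y‖ < ε := by
  obtain ⟨h1, h2⟩ := c.Kj_supp ε j hy h
  refine not_le.1 fun h3 => h ?_
  have h4 := h3.trans (c.low j y (mem_closedBall_zero_iff.2 (by linarith)) x h2.le)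
  have h5 : 1 ≤ ‖c.f j (x, y)‖ ^ 2 / ε ^ 2 :=
    (one_le_div (by positivity)).2 (pow_le_pow_left₀ hε.le h4 2)
  simp [Kj, ap_zero h5, bp_zero h5]

theorem SK_cut (j : Fin G.n) {k : E × E → Quad} (h : ContDiffOn ℝ ∞ k (ball 0 3 ×ˢ ball 0 3))
    (h0 : ∀ x, ∀ y ∈ ball (0 : E) 3, k (x, y) ≠ 0 → ‖y‖ < 1 ∧ ‖x - y‖ < 2 * c.r1) :
    G.SK (G.extQ j k) := by
  refine SK_extQ j h (r := 2) (by norm_num) fun x _ y hy hr => ?_
  by_contra hne
  obtain ⟨h1, h2⟩ := h0 x y hy hne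
  have h3 := norm_sub_norm_le x y
  have := c.r1_le
  rcases hr with hr | hr <;> linarith

theorem k_smooth (ε : ℝ) : G.SK (c.k ε) :=
  SK.sum fun j _ => c.SK_cut j (c.Kj_contDiffOn ε j) fun x y hy h => c.Kj_supp ε j hy h

theorem Vh_smooth : G.SK c.Vh := by
  refine SK.sum fun j _ => c.SK_cut j (fun z hz => (c.zeta_smooth.contDiffAt.smul
    (KV_contDiffAt (c.f_smooth j) ((rho_S0 G j).at hz.2))).contDiffWithinAt) fun x y hy h => ?_
  refine ⟨not_le.1 fun h1 => h ?_, not_le.1 fun h1 => h ?_⟩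
  · simp [KV_zero _ j x hy h1]
  · simp [c.zeta_zero h1]

theorem Wh_smooth : G.SK c.Wh := by
  refine SK.sum fun j _ => c.SK_cut j (fun z hz => (c.zeta_smooth.contDiffAt.smul
    (KW_contDiffAt (c.f_smooth j) (c.θ_smooth j) ((rho_S0 G j).at hz.2))).contDiffWithinAt)
    fun x y hy h => ?_
  refine ⟨not_le.1 fun h1 => h ?_, not_le.1 fun h1 => h ?_⟩
  · simp [KW_zero _ _ j x hy h1]
  · simp [c.zeta_zero h1]

theorem k_altQ (ε : ℝ) (p q : M) : AltQ (c.k ε p q) :=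
  Finset.sum_induction _ AltQ (fun _ _ => AltQ.add) AltQ.zero fun j _ =>
    AltQ.extQ (fun z => (((altQ_KV _ _ z).smul _).add ((altQ_KW _ _ _ z).smul _)).smul _) p q

theorem k_alt1 (ε : ℝ) (p q : M) (a b : Fin 4) : c.k ε p q a b = -c.k ε p q b a := by
  ext v w
  simpa using (c.k_altQ ε p q (e a) (e b) v w).1

theorem k_alt2 (ε : ℝ) (p q : M) (a b : Fin 4) : Alt (c.k ε p q a b) := fun v w => by
  simpa using (c.k_altQ ε p q (e a) (e b) v w).2

theorem norm_f (i : Fin G.n) {p q : M} (hp : p ∈ G.K i (12 / 5)) (hq : q ∈ G.K i (12 / 5)) :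
    ‖c.f i (G.κ i p, G.κ i q)‖ = ‖c.F p q‖ := by
  have h := c.f_eq i _ (mem_ball_of_K hp) _ (mem_ball_of_K hq)
  rw [symm_map hp.1, symm_map hq.1] at h
  rw [← h, (U_uni hq.1).1]

theorem k_eq (ε : ℝ) (p q : M) :
    c.k ε p q = (ε⁻¹ ^ 4 * ap (‖c.F p q‖ ^ 2 / ε ^ 2)) • c.Vh p q
      + (ε⁻¹ ^ 2 * bp (‖c.F p q‖ ^ 2 / ε ^ 2)) • c.Wh p q := by
  rw [k, Vh, Wh, Finset.smul_sum, Finset.smul_sum, ← Finset.sum_add_distrib]
  refine Finset.sum_congr rfl fun j _ => ?_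
  by_cases h : p ∈ (G.κ j).source ∧ q ∈ (G.κ j).source
  · rw [extQ_pos _ h.1 h.2, extQ_pos _ h.1 h.2, extQ_pos _ h.1 h.2, ← map_smul, ← map_smul,
      ← map_add, Kj]
    congr 1
    rcases le_or_gt 1 ‖G.κ j q‖ with h1 | h1
    · simp [KV_zero _ j _ (map_mem h.2) h1, KW_zero _ _ j _ (map_mem h.2) h1]
    rcases le_or_gt (2 * c.r1) ‖G.κ j p - G.κ j q‖ with h2 | h2
    · simp [c.zeta_zero h2]
    have h3 := norm_sub_norm_le (G.κ j p) (G.κ j q)
    have := c.r1_le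
    rw [c.norm_f j ⟨h.1, by linarith⟩ ⟨h.2, by linarith⟩, smul_add, smul_comm,
      smul_comm (c.ζ _)]
  · simp [extQ_neg _ h]

theorem k_supp : ∃ C : ℝ, 1 ≤ C ∧ ∀ ε, 0 < ε → ∀ p q, C * ε < dist p q → c.k ε p q = 0 := by
  obtain ⟨L, hL, h1⟩ := G.exists_lip
  refine ⟨max 1 (L / c.c1), le_max_left _ _, fun ε hε p q hd => Finset.sum_eq_zero fun j _ => ?_⟩
  by_cases h : p ∈ (G.κ j).source ∧ q ∈ (G.κ j).source
  · rw [extQ_pos _ h.1 h.2]
    by_contra hne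
    have hne' : c.Kj ε j (G.κ j p, G.κ j q) ≠ 0 := fun e => hne (by rw [e, map_zero])
    obtain ⟨h2, h3⟩ := c.Kj_supp ε j (map_mem h.2) hne'
    have h4 := c.Kj_supp' hε j (map_mem h.2) hne'
    have h5 := norm_sub_norm_le (G.κ j p) (G.κ j q)
    have := c.r1_le
    have h6 := (h1 j p ⟨h.1, by linarith⟩ q ⟨h.2, by linarith⟩).1
    have h7 : L * ‖G.κ j p - G.κ j q‖ ≤ L / c.c1 * ε := by
      rw [div_mul_eq_mul_div, mul_div_assoc]
      exact mul_le_mul_of_nonneg_left ((le_div_iff₀' c.c1_pos).2 h4.le) (by linarith)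
    have h8 := mul_le_mul_of_nonneg_right (le_max_right 1 (L / c.c1)) hε.le
    linarith
  · exact extQ_neg _ h

/-- close points: every chart that sees `q` sees `p`, and the cut-off equals one -/
theorem exists_near : ∃ δ > 0, ∀ p q, dist p q ≤ δ → ∀ j, q ∈ G.K j (9 / 4) →
    p ∈ G.K j (12 / 5) ∧ ‖G.κ j p - G.κ j q‖ < c.r1 := by
  obtain ⟨L, hL, h1⟩ := G.exists_lip
  obtain ⟨δ, hδ, h2⟩ := G.near_K (r := 9 / 4) (r' := 12 / 5) (by norm_num) (by norm_num)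
  have hr := c.r1_pos
  refine ⟨min δ (c.r1 / (2 * L)), by positivity, fun p q hd j hq => ?_⟩
  have hp := h2 j q hq p (by rw [dist_comm]; exact hd.trans (min_le_left _ _))
  refine ⟨hp, ?_⟩
  have h3 := (h1 j p (K_mono j (by norm_num) hp) q (K_mono j (by norm_num) hq)).2
  have h4 := (le_div_iff₀ (by positivity)).1 (hd.trans (min_le_right _ _))
  linarith

/-- the main part near the diagonal -/
theorem qv_Vh : ∃ δ > 0, ∀ p q, dist p q ≤ δ → ∀ X Y v w,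
    qv (c.Vh p q) X Y v w = ∑ j, G.rho j q * det4 (c.Pg p q X) (c.Pg p q Y)
      (c.Dg p q v + G.U j q (c.θ j (G.κ j q) (G.Ti j q v) (c.f j (G.κ j p, G.κ j q))))
      (c.Dg p q w + G.U j q (c.θ j (G.κ j q) (G.Ti j q w) (c.f j (G.κ j p, G.κ j q)))) := by
  obtain ⟨δ, hδ, h1⟩ := c.exists_near
  refine ⟨δ, hδ, fun p q hd X Y v w => ?_⟩
  rw [Vh, qv_sum, _root_.sum_apply, _root_.sum_apply]
  refine Finset.sum_congr rfl fun j _ => ?_
  by_cases hρ : G.rho j q = 0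
  · rw [hρ, zero_mul]
    by_cases h : p ∈ (G.κ j).source ∧ q ∈ (G.κ j).source
    · simp [extQ_pos _ h.1 h.2, qv_pbQ, qv_smul, qv_KV, loc0_map h.2, hρ]
    · rw [extQ_neg _ h, qv_zero]
  · obtain ⟨hq, hq1⟩ := rho_ne_zero hρ
    obtain ⟨hp, h2⟩ := h1 p q hd j ⟨hq, by linarith⟩
    have hx := mem_ball_of_K hp
    have hy : G.κ j q ∈ ball (0 : E) (5 / 2) := mem_ball_zero_iff.2 (by linarith)
    have hP := fun X => c.P_eq j _ hx _ hy (G.Ti j p X)
    have hD := fun v => c.D_eq j _ hx _ hy (G.Ti j q v)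
    simp only [symm_map hp.1, symm_map hq, G.T_Ti, map_sub, sub_eq_iff_eq_add] at hP hD
    rw [extQ_pos _ hp.1 hq, pbQL_apply, qv_pbQ, c.zeta_one h2.le, one_smul, qv_KV, loc0_map hq,
      ← (U_uni hq).det4, hP, hP, hD, hD]

theorem Qf_diag (i : Fin G.n) {y : E} (hy : y ∈ ball (0 : E) (5 / 2)) (v : E) :
    Qf (c.f i) (y, y) v = -(G.fr i).A y v := by
  have h1 := ((c.f_smooth i).differentiable (by simp) (y, y)).hasFDerivAt.comp
    (f := fun x : E => (x, x)) y ((hasFDerivAt_id y).prodMk (hasFDerivAt_id y))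
  have h2 : (c.f i ∘ fun x : E => (x, x)) = fun _ => 0 := funext fun x => c.f_diag i x
  rw [h2] at h1
  have h3 := congrArg (fun L : End => L v) (h1.unique (hasFDerivAt_const (0 : E) y))
  have h4 : ((v, v) : E × E) = (v, 0) + (0, v) := by simp
  simp only [ContinuousLinearMap.comp_apply, ContinuousLinearMap.prod_apply,
    ContinuousLinearMap.id_apply, _root_.zero_apply] at h3
  rw [h4, map_add, ← Pf_apply, ← Qf_apply, c.f_deriv i y hy] at h3
  exact eq_neg_of_add_eq_zero_right h3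

theorem Pg_diag (p : M) (X : E) : c.Pg p p X = X := by
  have hy : G.κ (G.ch p) p ∈ ball (0 : E) (5 / 2) :=
    mem_ball_zero_iff.2 ((G.ch_lt p).trans (by norm_num))
  have h := c.P_eq (G.ch p) _ hy _ hy (G.Ti (G.ch p) p X)
  rw [symm_map (G.ch_source p), G.T_Ti, c.f_deriv _ _ hy, U_A_Ti] at h
  exact h.symm

theorem Dg_diag (p : M) (v : E) : c.Dg p p v = -v := by
  have hy : G.κ (G.ch p) p ∈ ball (0 : E) (5 / 2) :=
    mem_ball_zero_iff.2 ((G.ch_lt p).trans (by norm_num))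
  have h := c.D_eq (G.ch p) _ hy _ hy (G.Ti (G.ch p) p v)
  rw [symm_map (G.ch_source p), G.T_Ti, c.Qf_diag _ hy, c.f_diag, map_zero, sub_zero, map_neg,
    U_A_Ti] at h
  exact h.symm

theorem Vh_diag (p : M) : c.Vh p p = vol := by
  obtain ⟨δ, hδ, h⟩ := c.qv_Vh
  refine quad_ext fun X Y v w => ?_
  rw [h p p (by simpa using hδ.le), qv_vol]
  simp only [c.f_diag, map_zero, add_zero, c.Pg_diag, c.Dg_diag]
  rw [← Finset.sum_mul, sum_rho, one_mul]
  simp only [det4, PiLp.neg_apply]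
  ring

end Conn

end Geo

end Crest.Agent.R240

end
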