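import Crest.Agent.R240.OpL

/-!
# Row 240: jet estimates for `Op K t`
-/

set_option autoImplicit false
set_option linter.unusedSectionVars false
set_option linter.unusedVariables false

open MeasureTheory Metric Set Filter Topology
open scoped ContDiff ENNReal

noncomputable section

namespace Crest.Agent.R240

section op
variable {F F' : Type*} [NormedAddCommGroup F] [NormedSpace ℝ F] [CompleteSpace F]
  [NormedAddCommGroup F'] [NormedSpace ℝ F'] [CompleteSpace F']
  {C : ℝ} {K : E × E × ℝ → F →L[ℝ] F'}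

theorem IsK.opL2_bound (hK : IsK C K) (s : ℕ) (R : ℝ) : ∃ a : ℝ, 0 ≤ a ∧
    ∀ (x w : E) (t : ℝ), ‖x‖ ≤ R → ‖w‖ ≤ C → t ∈ Icc (0 : ℝ) 1 → ∀ j ≤ s,
      ‖iteratedFDeriv ℝ j K (x, w, t)‖ ≤ a := by
  obtain ⟨a, ha, h⟩ := exists_bound_iteratedFDeriv (f := K)
    ((isCompact_closedBall (0 : E) R).prod ((isCompact_closedBall (0 : E) C).prod
      (isCompact_Icc (a := (0 : ℝ)) (b := 1)))) (fun _ _ => hK.smooth.contDiffAt) s
  exact ⟨a, ha, fun x w t hx hw ht =>
    h (x, w, t) ⟨mem_closedBall_zero_iff.2 hx, mem_closedBall_zero_iff.2 hw, ht⟩⟩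

theorem IsK.opL2_core (hK : IsK C K) (s : ℕ) (R : ℝ) : ∃ C' : ℝ, 0 ≤ C' ∧
    ∀ h : E × E → F, ContDiff ℝ ∞ h → ∀ t ∈ Icc (0 : ℝ) 1, ∀ x : E, ‖x‖ ≤ R → ∀ c : ℝ,
      (∀ w, ‖w‖ ≤ C → JB s (fun x => h (x, w)) x c) →
        JB s (fun x => ∫ w, K (x, w, t) (h (x, w))) x (C' * c) := by
  obtain ⟨a, ha, hb⟩ := hK.opL2_bound s R
  refine ⟨2 ^ s * a * volume.real (closedBall (0 : E) C), by positivity, ?_⟩
  intro h hh t ht x hx c hc j hj
  have hL : LocC fun z : E × E => K (z.1, z.2, t) (h z) :=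
    ⟨(hK.smooth.comp (contDiff_fst.prodMk (contDiff_snd.prodMk contDiff_const))).clm_apply hh,
      fun _ => ⟨closedBall 0 C, isCompact_closedBall _ _, Eventually.of_forall fun p y hy => by
        rw [hK.supp p y t (le_of_lt (by simpa using hy))]
        rfl⟩⟩
  rw [(hL.iteratedFDeriv_integral volume j x).2,
    ← setIntegral_eq_integral_of_forall_compl_eq_zero (s := closedBall (0 : E) C) fun w hw => by
      simp only [hK.supp _ w t (le_of_lt (by simpa using hw)), zero_apply,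
        iteratedFDeriv_fun_zero, Pi.zero_apply]]
  refine (norm_setIntegral_le_of_norm_le_const (C := 2 ^ s * a * c) measure_closedBall_lt_top
    fun w hw => ?_).trans_eq (by ring)
  have hw' := mem_closedBall_zero_iff.1 hw
  exact norm_iteratedFDeriv_apply_le (A := fun x => K (x, w, t)) (g := fun x => h (x, w))
    (hK.smooth.comp (contDiff_id.prodMk contDiff_const)).contDiffAt
    (hh.comp (contDiff_id.prodMk contDiff_const)).contDiffAt
    (fun i hi => (norm_iteratedFDeriv_slice_le hK.smooth.contDiffAt i).trans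
      (hb x w t hx hw' ht i hi)) (hc w hw') j hj

theorem opL2_norm_le {t : ℝ} (ht : 0 ≤ t) {w : E} (hw : ‖w‖ ≤ C) (x : E) :
    ‖x + t • w - x‖ ≤ C * t := by
  rw [add_sub_cancel_left, norm_smul, Real.norm_of_nonneg ht, mul_comm]
  exact mul_le_mul_of_nonneg_right hw ht

/-- (O2) no loss of derivatives -/
theorem IsK.jb_op (hK : IsK C K) (s : ℕ) (R : ℝ) : ∃ C' : ℝ, 0 ≤ C' ∧
    ∀ g : E → F, ContDiff ℝ ∞ g → ∀ t ∈ Icc (0 : ℝ) 1, ∀ x : E, ‖x‖ ≤ R → ∀ c : ℝ,
      (∀ y, ‖y - x‖ ≤ C * t → JB s g y c) → JB s (Op K t g) x (C' * c) := by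
  obtain ⟨C', h0, h⟩ := hK.opL2_core s R
  refine ⟨C', h0, fun g hg t ht x hx c hc => h (fun z => g (z.1 + t • z.2))
    (hg.comp (contDiff_fst.add (contDiff_snd.const_smul t))) t ht x hx c fun w hw j hj => ?_⟩
  dsimp only
  rw [iteratedFDeriv_comp_add_right]
  exact hc _ (opL2_norm_le ht.1 hw x) j hj

/-- (O3) smoothing -/
theorem IsK.jb_op_smoothing (hK : IsK C K) (s : ℕ) (R : ℝ) : ∃ C' : ℝ, 0 ≤ C' ∧
    ∀ g : E → F, ContDiff ℝ ∞ g → ∀ t ∈ Ioc (0 : ℝ) 1, ∀ x : E, ‖x‖ ≤ R → ∀ j ≤ s,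
      ‖iteratedFDeriv ℝ j (Op K t g) x‖
        ≤ C' * t⁻¹ ^ (j + 4) * ∫ y in closedBall x (C * t), ‖g y‖ := by
  obtain ⟨a, ha, hb⟩ := hK.opL2_bound s R
  refine ⟨a, ha, fun g hg t ht x hx j hj => ?_⟩
  have ht0 := ht.1
  have hti : 0 < t⁻¹ := inv_pos.2 ht0
  have hti1 : 1 ≤ t⁻¹ := (one_le_inv₀ ht0).2 ht.2
  have hz : ∀ p y : E, C * t ≤ ‖y - p‖ → K (p, t⁻¹ • (y - p), t) = 0 := fun p y h =>
    hK.supp _ _ _ (by
      rw [norm_smul, Real.norm_of_nonneg hti.le, le_inv_mul_iff₀ ht0, mul_comm]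
      exact h)
  have hL : LocC fun z : E × E => K (z.1, t⁻¹ • (z.2 - z.1), t) (g z.2) :=
    ⟨(hK.smooth.comp (contDiff_fst.prodMk (((contDiff_snd.sub contDiff_fst).const_smul _).prodMk
      contDiff_const))).clm_apply (hg.comp contDiff_snd),
      fun p₀ => ⟨closedBall p₀ (C * t + 1), isCompact_closedBall _ _, by
        filter_upwards [ball_mem_nhds p₀ one_pos] with p hp y hy
        rw [hz p y]
        · rfl
        · rw [mem_closedBall, not_le] at hy
          have := dist_triangle y p p₀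
          rw [← dist_eq_norm]
          linarith [mem_ball.1 hp]⟩⟩
  have hop : Op K t g = fun p => t⁻¹ ^ 4 • ∫ y, K (p, t⁻¹ • (y - p), t) (g y) := by
    funext p
    have h1 := Measure.integral_comp_smul volume
      (fun u : E => K (p, t⁻¹ • (p + u - p), t) (g (p + u))) t
    rw [integral_add_left_eq_self (fun y : E => K (p, t⁻¹ • (y - p), t) (g y)) p] at h1
    simp only [add_sub_cancel_left, inv_smul_smul₀ ht0.ne', finrank_euclideanSpace,
      Fintype.card_fin] at h1
    rw [Op, h1, abs_of_pos (by positivity), inv_pow]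
  rw [hop, iteratedFDeriv_const_smul_apply'
    ((hL.contDiff_integral volume).of_le (by exact_mod_cast le_top)).contDiffAt,
    (hL.iteratedFDeriv_integral volume j x).2,
    ← setIntegral_eq_integral_of_forall_compl_eq_zero (s := closedBall x (C * t)) fun y hy => ?_]
  · rw [norm_smul, Real.norm_of_nonneg (by positivity), pow_add, ← mul_assoc, mul_comm _ (t⁻¹ ^ 4),
      mul_assoc, ← integral_const_mul]
    refine mul_le_mul_of_nonneg_left (norm_integral_le_of_norm_le
      ((hg.continuous.norm.continuousOn.integrableOn_compact (isCompact_closedBall _ _)).const_mul _)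
      ((ae_restrict_iff' measurableSet_closedBall).2 (Eventually.of_forall fun y hy => ?_)))
      (by positivity)
    let L : E →L[ℝ] E × E × ℝ :=
      (ContinuousLinearMap.id ℝ E).prod ((-t⁻¹ • ContinuousLinearMap.id ℝ E).prod 0)
    have hLn : ‖L‖ ≤ t⁻¹ := L.opNorm_le_bound hti.le fun v => by
      have h1 : ‖v‖ ≤ t⁻¹ * ‖v‖ := le_mul_of_one_le_left (norm_nonneg _) hti1
      have h2 : 0 ≤ t⁻¹ * ‖v‖ := by positivity
      simp [L, Prod.norm_def, norm_smul, abs_of_pos ht0, h1, h2]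
    have hLe : ∀ p : E, L p + (0, t⁻¹ • y, t) = (p, t⁻¹ • (y - p), t) := fun p => by
      simp [L, sub_eq_neg_add]
    have hs : ContDiff ℝ ∞ fun z => K (z + (0, t⁻¹ • y, t)) :=
      hK.smooth.comp (contDiff_id.add contDiff_const)
    have h1 : (fun p : E => K (p, t⁻¹ • (y - p), t)) = (fun z => K (z + (0, t⁻¹ • y, t))) ∘ L :=
      funext fun p => by simp only [Function.comp, hLe]
    have h2 : ‖iteratedFDeriv ℝ j (fun p : E => K (p, t⁻¹ • (y - p), t)) x‖ ≤ a * t⁻¹ ^ j := by
      rw [h1, L.iteratedFDeriv_comp_right hs x (by exact_mod_cast le_top),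
        iteratedFDeriv_comp_add_right, hLe]
      refine (ContinuousMultilinearMap.norm_compContinuousLinearMap_le _ _).trans
        (mul_le_mul (hb _ _ _ hx ?_ ⟨ht0.le, ht.2⟩ j hj) ?_ (by positivity) ha)
      · rw [norm_smul, Real.norm_of_nonneg hti.le, inv_mul_le_iff₀ ht0, mul_comm, ← dist_eq_norm]
        exact hy
      · rw [Finset.prod_const, Finset.card_fin]
        exact pow_le_pow_left₀ (norm_nonneg _) hLn j
    have h3 : ContDiff ℝ ∞ fun p : E => K (p, t⁻¹ • (y - p), t) := by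
      rw [h1]
      exact hs.comp L.contDiff
    have h4 := norm_iteratedFDeriv_clm_apply_const (n := j) (c := g y) (x := x) h3.contDiffAt
      (by exact_mod_cast le_top)
    rw [mul_comm] at h4
    exact h4.trans (mul_le_mul_of_nonneg_right h2 (norm_nonneg _))
  · refine norm_le_zero_iff.1 (JB.of_eventually_zero (s := j) ?_ j le_rfl)
    have : ∀ᶠ p in 𝓝 x, C * t < ‖y - p‖ :=
      (continuous_const.sub continuous_id).norm.continuousAt.eventually (lt_mem_nhds (by
        rw [mem_closedBall, not_le, dist_eq_norm] at hy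
        exact hy))
    filter_upwards [this] with p hp
    rw [hz p y hp.le]
    rfl

/-- (O4) approximation -/
theorem IsK.jb_op_sub (hK : IsK C K) (s : ℕ) (R : ℝ) : ∃ C' : ℝ, 0 ≤ C' ∧
    ∀ g : E → F, ContDiff ℝ ∞ g → ∀ t ∈ Icc (0 : ℝ) 1, ∀ x : E, ‖x‖ ≤ R → ∀ c : ℝ,
      (∀ y, ‖y - x‖ ≤ C * t → JB (s + 1) g y c) →
        JB s (fun y => Op K t g y - Op K 0 g y) x (C' * t * c) := by
  obtain ⟨K', hK', hKK⟩ := hK.hadamard
  obtain ⟨C1, h1, H1⟩ := hK.opL2_core s R
  obtain ⟨C2, h2, H2⟩ := hK'.jb_op s R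
  refine ⟨C1 * |C| + C2, by positivity, fun g hg t ht x hx c hc => ?_⟩
  have hK0 : IsK C fun z : E × E × ℝ => K (z.1, z.2.1, 0) :=
    ⟨hK.smooth.comp (contDiff_fst.prodMk (contDiff_snd.fst.prodMk contDiff_const)),
      fun x w _ => hK.supp x w 0⟩
  have e1 : (fun y => ∫ w, K (y, w, 0) (g (y + t • w) - g y)) = fun y =>
      Op (fun z : E × E × ℝ => K (z.1, z.2.1, 0)) t g y - Op K 0 g y := by
    funext y
    rw [Op, Op, ← integral_sub (hK0.integrable hg.continuous t y) (hK.integrable hg.continuous 0 y)]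
    simp
  have e2 : (fun y => Op K t g y - Op K 0 g y) = fun y =>
      (Op (fun z : E × E × ℝ => K (z.1, z.2.1, 0)) t g y - Op K 0 g y) + t • Op K' t g y := by
    funext y
    rw [sub_add_eq_add_sub]
    congr 1
    have h3 : Integrable fun w => t • K' (y, w, t) (g (y + t • w)) :=
      (hK'.integrable hg.continuous t y).smul t
    rw [Op, Op, Op, ← integral_smul, ← integral_add (hK0.integrable hg.continuous t y) h3]
    simp only [hKK y _ t, add_apply, smul_apply]
  have j1 := H1 (fun z => g (z.1 + t • z.2) - g z.1)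
    ((hg.comp (contDiff_fst.add (contDiff_snd.const_smul t))).sub (hg.comp contDiff_fst)) 0
    ⟨le_rfl, zero_le_one⟩ x hx (|C| * t * c) fun w hw j hj => by
      have hC : 0 ≤ C := (norm_nonneg _).trans hw
      have hx0 : x ∈ closedBall x (C * t) := mem_closedBall_self (mul_nonneg hC ht.1)
      have hgj : ContDiff ℝ j g := hg.of_le (by exact_mod_cast le_top)
      change ‖iteratedFDeriv ℝ j ((fun x => g (x + t • w)) - g) x‖ ≤ _
      rw [iteratedFDeriv_sub_apply (f := fun x => g (x + t • w)) (g := g)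
        (hgj.comp (contDiff_id.add contDiff_const)).contDiffAt hgj.contDiffAt,
        iteratedFDeriv_comp_add_right]
      refine ((convex_closedBall x (C * t)).norm_image_sub_le_of_norm_fderiv_le (𝕜 := ℝ) (C := c)
        (fun y _ => (hg.differentiable_iteratedFDeriv (by exact_mod_cast WithTop.coe_lt_top _)) y)
        (fun y hy => ?_) hx0 (mem_closedBall_iff_norm.2 (opL2_norm_le ht.1 hw x))).trans ?_
      · rw [norm_fderiv_iteratedFDeriv]
        exact hc y (mem_closedBall_iff_norm.1 hy) (j + 1) (by omega)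
      · rw [abs_of_nonneg hC, mul_comm]
        exact mul_le_mul_of_nonneg_right (opL2_norm_le ht.1 hw x)
          (hc x (mem_closedBall_iff_norm.1 hx0)).nonneg
  rw [e1] at j1
  have j2 := (H2 g hg t ht x hx c fun y hy => (hc y hy).mono s.le_succ le_rfl).const_smul
    (hK'.contDiff_op' hg t).contDiffAt t
  rw [e2]
  refine (j1.add j2 ((hK0.contDiff_op' hg t).sub (hK.contDiff_op' hg 0)).contDiffAt
    ((hK'.contDiff_op' hg t).const_smul t).contDiffAt).mono le_rfl (le_of_eq ?_)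
  rw [abs_of_nonneg ht.1]
  ring

end op

end Crest.Agent.R240

end
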