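import Crest.Agent.R240.ParGlobA

/-!
# Row 240: the global parametrix
-/

set_option autoImplicit false
set_option linter.unusedSectionVars false
set_option linter.unusedVariables false

open MeasureTheory Metric Set Filter Topology
open scoped ContDiff ENNReal

noncomputable section

namespace Crest.Agent.R240

namespace PG

variable {M : Type*} [MetricSpace M] [CompactSpace M] [MeasurableSpace M] [BorelSpace M]
  {G : Geo M}

/-- no loss of derivatives, uniformly in the chart -/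
theorem jb_op_gi (G : Geo M) {F' : Type*} [NormedAddCommGroup F'] [NormedSpace ℝ F']
    [CompleteSpace F'] {C : ℝ} {K : Fin G.n → E × E × ℝ → Bil →L[ℝ] F'} (hK : ∀ i, IsK C (K i))
    (s : ℕ) : ∃ A : ℝ, 0 ≤ A ∧ ∀ g, G.S2 g → ∀ c, 0 ≤ c → G.CB s g c → ∀ i, ∀ t ∈ Icc (0 : ℝ) 1,
      ∀ x : E, ‖x‖ ≤ 3 → JB s (Op (K i) t (gi G i g)) x (A * c) := by
  obtain ⟨C1, hC1, h1⟩ := jb_gi G s
  obtain ⟨C2, hC2, h2⟩ := exists_common (n := G.n)
    (P := fun i C' => ∀ g : E → Bil, ContDiff ℝ ∞ g → ∀ t ∈ Icc (0 : ℝ) 1, ∀ x : E, ‖x‖ ≤ 3 →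
      ∀ c : ℝ, (∀ y, ‖y - x‖ ≤ C * t → JB s g y c) → 0 ≤ c → JB s (Op (K i) t g) x (C' * c))
    (fun i c c' hcc h g hg t ht x hx d hd hd0 => (h g hg t ht x hx d hd hd0).mono le_rfl
      (mul_le_mul_of_nonneg_right hcc hd0))
    (fun i => by
      obtain ⟨C', hC', h⟩ := (hK i).jb_op s 3
      exact ⟨C', hC', fun g hg t ht x hx c hc _ => h g hg t ht x hx c hc⟩)
  refine ⟨C2 * C1, by positivity, fun g hg c hc hb i t ht x hx => ?_⟩
  have := h2 i _ (gi_smooth hg i) t ht x hx (C1 * c) (fun y _ => h1 g hg c hc hb i y)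
    (by positivity)
  rwa [← mul_assoc] at this

/-- smoothing, uniformly in the chart -/
theorem jb_op_gi_far (G : Geo M) {F' : Type*} [NormedAddCommGroup F'] [NormedSpace ℝ F']
    [CompleteSpace F'] {C : ℝ} (hC : 0 ≤ C) {K : Fin G.n → E × E × ℝ → Bil →L[ℝ] F'}
    (hK : ∀ i, IsK C (K i)) (s : ℕ) {a : ℝ} (ha : 0 < a) :
    ∃ B : ℝ, 0 ≤ B ∧ ∀ g, G.S2 g → ∀ c0, 0 ≤ c0 → (∀ p, ‖g p‖ ≤ c0) → ∀ i, ∀ t ∈ Icc a 1,
      ∀ x : E, ‖x‖ ≤ 3 → JB s (Op (K i) t (gi G i g)) x (B * c0) := by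
  obtain ⟨C1, hC1, h1⟩ := norm_gi G
  obtain ⟨C2, hC2, h2⟩ := exists_common (n := G.n)
    (P := fun i B => ∀ g : E → Bil, ContDiff ℝ ∞ g → ∀ c0 : ℝ, 0 ≤ c0 → (∀ y, ‖g y‖ ≤ c0) →
      ∀ t ∈ Icc a 1, ∀ x : E, ‖x‖ ≤ 3 → JB s (Op (K i) t g) x (B * c0))
    (fun i c c' hcc h g hg d hd0 hd t ht x hx => (h g hg d hd0 hd t ht x hx).mono le_rfl
      (mul_le_mul_of_nonneg_right hcc hd0))
    (fun i => jb_op_far (hK i) hC s 3 ha)
  refine ⟨C2 * C1, by positivity, fun g hg c hc hb i t ht x hx => ?_⟩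
  have := h2 i _ (gi_smooth hg i) (C1 * c) (by positivity) (h1 g hg c hc hb i) t ht x hx
  rwa [← mul_assoc] at this

/-- the glued integrated operator, small in `C^s` -/
theorem cb_glue_iop (G : Geo M) {C : ℝ} (hC : 0 ≤ C) {K : Fin G.n → E × E × ℝ → Bil →L[ℝ] Bil}
    (hK : ∀ i, IsK C (K i)) (s : ℕ) : ∃ A : ℝ, 0 ≤ A ∧ ∀ g, G.S2 g → ∀ c, 0 ≤ c → G.CB s g c →
      ∀ b, 0 ≤ b → b ≤ 1 → C * b ≤ 1 / 2 →
        G.CB s (glue G fun i => IOp (K i) 0 b (gi G i g)) (A * b * c) := by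
  obtain ⟨A1, hA1, h1⟩ := jb_op_gi G hK s
  obtain ⟨A2, hA2, h2⟩ := cb_glue G s
  refine ⟨A2 * A1, by positivity, fun g hg c hc hb b hb0 hb1 hCb => ?_⟩
  have := h2 (fun i => IOp (K i) 0 b (gi G i g)) (fun i => contDiff_iop (hK i) (gi_smooth hg i) _ _)
    (fun i x hx => iop_vanish (hK i) hC (gi_zero g i) le_rfl hb0 hCb hx) (A1 * c * (b - 0))
    (by rw [sub_zero]; positivity)
    (fun i x hx => jb_iop (hK i) (gi_smooth hg i) hb0
      fun t ht => h1 g hg c hc hb i t ⟨ht.1, ht.2.trans hb1⟩ x hx)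
  convert this using 1
  ring

/-- the glued integrated operator away from `t = 0` is smoothing -/
theorem cb_glue_iop_far (G : Geo M) {C : ℝ} (hC : 0 ≤ C)
    {K : Fin G.n → E × E × ℝ → Bil →L[ℝ] Bil} (hK : ∀ i, IsK C (K i)) (s : ℕ) {a : ℝ}
    (ha : 0 < a) : ∃ B : ℝ, 0 ≤ B ∧ ∀ g, G.S2 g → ∀ c0, 0 ≤ c0 → (∀ p, ‖g p‖ ≤ c0) →
      ∀ b, a ≤ b → b ≤ 1 → C * b ≤ 1 / 2 →
        G.CB s (glue G fun i => IOp (K i) a b (gi G i g)) (B * c0) := by
  obtain ⟨A1, hA1, h1⟩ := jb_op_gi_far G hC hK s ha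
  obtain ⟨A2, hA2, h2⟩ := cb_glue G s
  refine ⟨A2 * A1, by positivity, fun g hg c hc hb b hb0 hb1 hCb => ?_⟩
  have := h2 (fun i => IOp (K i) a b (gi G i g)) (fun i => contDiff_iop (hK i) (gi_smooth hg i) _ _)
    (fun i x hx => iop_vanish (hK i) hC (gi_zero g i) ha.le hb0 hCb hx) (A1 * c)
    (by positivity)
    (fun i x hx => (jb_iop (hK i) (gi_smooth hg i) hb0
      fun t ht => h1 g hg c hc hb i t ⟨ht.1, ht.2.trans hb1⟩ x hx).mono le_rfl
        (mul_le_of_le_one_right (by positivity) (by linarith)))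
  rwa [← mul_assoc] at this

theorem exists_local (G : Geo M) :
    ∃ (C : ℝ) (kS : Fin G.n → E × E × ℝ → Bil →L[ℝ] Bil), 0 ≤ C ∧
    (∀ i, IsK C (kE (G.fr i))) ∧ (∀ i, IsK C (kQ (G.fr i))) ∧ (∀ i, IsK C (kS i)) ∧
    ∀ i, ∀ g : E → Bil, ContDiff ℝ ∞ g → (∀ x, Alt (g x)) → (∀ x, Anti ((G.fr i).J x) (g x)) →
      ∀ δ : ℝ, 0 ≤ δ → ∀ x,
        amJ ((G.fr i).J x) (d1 (IOp (kE (G.fr i)) 0 δ g) x)
          = g x - Op (kQ (G.fr i)) δ g x + IOp (kS i) 0 δ g x := by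
  choose C kS hC hE hQ hS h using fun i => parametrix_loc (G.fr i)
  have hle : ∀ i, C i ≤ ∑ j, C j := fun i =>
    Finset.single_le_sum (f := C) (fun j _ => by linarith [hC j]) (Finset.mem_univ i)
  exact ⟨∑ j, C j, kS, Finset.sum_nonneg fun j _ => by linarith [hC j],
    fun i => isK_mono (hE i) (hle i), fun i => isK_mono (hQ i) (hle i),
    fun i => isK_mono (hS i) (hle i), h⟩

/-- a small positive number -/
theorem exists_small (A b : ℝ) (hA : 0 ≤ A) (hb : 0 < b) {δ : ℝ} (hδ : 0 < δ) :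
    ∃ d, 0 < d ∧ d ≤ δ ∧ A * d ≤ b := by
  refine ⟨min δ (b / (A + 1)), lt_min hδ (by positivity), min_le_left _ _, ?_⟩
  calc A * min δ (b / (A + 1)) ≤ (A + 1) * (b / (A + 1)) :=
        mul_le_mul (by linarith) (min_le_right _ _) (le_min hδ.le (by positivity)) (by positivity)
    _ = b := by field_simp

end PG

namespace Geo

variable {M : Type*} [MetricSpace M] [CompactSpace M] [MeasurableSpace M] [BorelSpace M]
  {G : Geo M}

open PG in
/-- (B2) -/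
theorem parametrix (G : Geo M) : ∃ (Ee : G.AmS → M → Cov) (Q S : G.AmS →ₗ[ℝ] G.AmS),
    (∀ g, G.S1 (Ee g)) ∧
    (∀ g p, am (G.D1 (Ee g) p) = g.1 p - (Q g).1 p + (S g).1 p) ∧
    (∃ C : ℝ, 0 ≤ C ∧ ∀ (g : G.AmS) (c : ℝ), 0 ≤ c → G.CB 1 g.1 c →
      ∀ p, ‖G.D1 (Ee g) p‖ ≤ C * c) ∧
    (∀ (g : G.AmS) (c0 : ℝ), 0 ≤ c0 → (∀ p, ‖g.1 p‖ ≤ c0) → ∀ p, ‖(S g).1 p‖ ≤ 1 / 4 * c0) ∧
    (∀ s : ℕ, ∃ C : ℝ, 0 ≤ C ∧ ∀ (g : G.AmS) (c c0 : ℝ), 0 ≤ c → 0 ≤ c0 → G.CB s g.1 c →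
      (∀ p, ‖g.1 p‖ ≤ c0) → G.CB s (S g).1 (1 / 2 * c + C * c0)) ∧
    (∀ s : ℕ, ∃ C : ℝ, 0 ≤ C ∧ ∀ (g : G.AmS) (c0 : ℝ), 0 ≤ c0 →
      (∀ p, ‖g.1 p‖ ≤ c0) → G.CB s (Q g).1 (C * c0)) := by
  obtain ⟨C, kS, hC, hE, hQ, hS, hid⟩ := exists_local G
  obtain ⟨A0, hA0, hA⟩ := cb_glue_iop G hC hS 0
  obtain ⟨Z1, hZ1, hz1⟩ := cb_zero_of_norm G
  obtain ⟨Z2, hZ2, hz2⟩ := G.jn_zero_equiv
  have hZ2' : 0 ≤ Z2 := by linarith
  obtain ⟨δ1, hδ1, hδ11, hδ12⟩ := exists_small C (1 / 2) hC (by norm_num) one_pos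
  obtain ⟨δ, hδ, hδδ, hδA⟩ := exists_small (Z2 * A0 * Z1) (1 / 4) (by positivity) (by norm_num) hδ1
  have hδ1' : δ ≤ 1 := hδδ.trans hδ11
  have hCδ : C * δ ≤ 1 / 2 := (mul_le_mul_of_nonneg_left hδδ hC).trans hδ12
  have hAm : ∀ g : G.AmS, G.Am g.1 := fun g => g.2
  -- local facts
  have hγs : ∀ (g : G.AmS) i, ContDiff ℝ ∞ (IOp (kE (G.fr i)) 0 δ (gi G i g.1)) := fun g i =>
    contDiff_iop (hE i) (gi_smooth (hAm g).smooth i) _ _
  have hγ0 : ∀ (g : G.AmS) i, ∀ x ∈ ball (0 : E) 3, 2 < ‖x‖ →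
      IOp (kE (G.fr i)) 0 δ (gi G i g.1) x = 0 := fun g i x _ hx =>
    iop_vanish (hE i) hC (gi_zero g.1 i) le_rfl hδ.le hCδ (by linarith)
  have hloc : ∀ (g : G.AmS) i x, amJ ((G.fr i).J x) (d1 (IOp (kE (G.fr i)) 0 δ (gi G i g.1)) x)
      = gi G i g.1 x - Op (kQ (G.fr i)) δ (gi G i g.1) x + IOp (kS i) 0 δ (gi G i g.1) x :=
    fun g i x => hid i _ (gi_smooth (hAm g).smooth i) (gi_alt (hAm g) i) (gi_anti (hAm g) i)
      δ hδ.le x
  have hSeq : ∀ (g : G.AmS) i x, IOp (kS i) 0 δ (gi G i g.1) x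
      = amJ ((G.fr i).J x) (d1 (IOp (kE (G.fr i)) 0 δ (gi G i g.1)) x) - gi G i g.1 x
        + Op (kQ (G.fr i)) δ (gi G i g.1) x := fun g i x => by
    rw [hloc]; abel
  have hQAm : ∀ g : G.AmS, G.Am (glue G fun i => Op (kQ (G.fr i)) δ (gi G i g.1)) := fun g =>
    am_glue (fun i => (hQ i).contDiff_op' (gi_smooth (hAm g).smooth i) δ)
      (fun i x hx => op_vanish (hQ i) (gi_zero g.1 i) hδ.le hCδ hx)
      (fun i x => alt_op_kQ _ (hQ i) (gi_smooth (hAm g).smooth i) (gi_alt (hAm g) i) δ x)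
      (fun i x => anti_op_kQ _ (hQ i) (gi_smooth (hAm g).smooth i) δ x)
  have hSAm : ∀ g : G.AmS, G.Am (glue G fun i => IOp (kS i) 0 δ (gi G i g.1)) := fun g =>
    am_glue (fun i => contDiff_iop (hS i) (gi_smooth (hAm g).smooth i) _ _)
      (fun i x hx => iop_vanish (hS i) hC (gi_zero g.1 i) le_rfl hδ.le hCδ hx)
      (fun i x => by
        rw [hSeq]
        exact (((alt_d1 _ _).amJ _).sub (gi_alt (hAm g) i x)).add
          (alt_op_kQ _ (hQ i) (gi_smooth (hAm g).smooth i) (gi_alt (hAm g) i) δ x))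
      (fun i x => by
        rw [hSeq]
        exact ((anti_amJ ((G.fr i).J_J x) _).sub (gi_anti (hAm g) i x)).add
          (anti_op_kQ _ (hQ i) (gi_smooth (hAm g).smooth i) δ x))
  let Q : G.AmS →ₗ[ℝ] G.AmS :=
    { toFun := fun g => ⟨glue G fun i => Op (kQ (G.fr i)) δ (gi G i g.1), hQAm g⟩
      map_add' := fun g g' => by
        apply Subtype.ext
        change glue G _ = glue G _ + glue G _
        rw [← glue_add]
        congr 1
        funext i x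
        rw [Submodule.coe_add, gi_add]
        exact (hQ i).op_add (gi_smooth (hAm g).smooth i).continuous
          (gi_smooth (hAm g').smooth i).continuous δ x
      map_smul' := fun c g => by
        apply Subtype.ext
        change glue G _ = c • glue G _
        rw [← glue_smul]
        congr 1
        funext i x
        rw [Submodule.coe_smul, gi_smul]
        exact op_smul _ _ c δ x }
  let S : G.AmS →ₗ[ℝ] G.AmS :=
    { toFun := fun g => ⟨glue G fun i => IOp (kS i) 0 δ (gi G i g.1), hSAm g⟩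
      map_add' := fun g g' => by
        apply Subtype.ext
        change glue G _ = glue G _ + glue G _
        rw [← glue_add]
        congr 1
        funext i x
        rw [Submodule.coe_add, gi_add]
        exact iop_add (hS i) (gi_smooth (hAm g).smooth i) (gi_smooth (hAm g').smooth i) 0 δ x
      map_smul' := fun c g => by
        apply Subtype.ext
        change glue G _ = c • glue G _
        rw [← glue_smul]
        congr 1
        funext i x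
        rw [Submodule.coe_smul, gi_smul]
        exact iop_smul _ _ c 0 δ x }
  have hQe : ∀ g, (Q g).1 = glue G fun i => Op (kQ (G.fr i)) δ (gi G i g.1) := fun g => rfl
  have hSe : ∀ g, (S g).1 = glue G fun i => IOp (kS i) 0 δ (gi G i g.1) := fun g => rfl
  have hS1 : ∀ (g : G.AmS) i, G.S1 (G.ext1 i (IOp (kE (G.fr i)) 0 δ (gi G i g.1))) := fun g i =>
    S1_ext1 i (hγs g i).contDiffOn (r := 2) (by norm_num) (hγ0 g i)
  have hD : ∀ g : G.AmS, G.D1 (∑ i, G.ext1 i (IOp (kE (G.fr i)) 0 δ (gi G i g.1)))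
      = glue G fun i => d1 (IOp (kE (G.fr i)) 0 δ (gi G i g.1)) := fun g => by
    rw [D1_sum fun i _ => hS1 g i, glue]
    exact Finset.sum_congr rfl fun i _ =>
      D1_ext1 i (hγs g i).contDiffOn (r := 2) (by norm_num) (hγ0 g i)
  refine ⟨fun g => ∑ i, G.ext1 i (IOp (kE (G.fr i)) 0 δ (gi G i g.1)), Q, S,
    fun g => S1.sum fun i _ => hS1 g i, fun g p => ?_, ?_, fun g c0 hc0 hb p => ?_, fun s => ?_,
    fun s => ?_⟩
  · -- the identity
    have hsum : ∀ β : Fin G.n → Bil, am (∑ i, β i) = ∑ i, am (β i) := fun β =>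
      map_sum (amL J0) β Finset.univ
    rw [hD, hQe, hSe, glue_apply, glue_apply, glue_apply, hsum]
    conv_rhs => rw [← sum_ext2_gi (G := G) g.1 p]
    rw [← Finset.sum_sub_distrib, ← Finset.sum_add_distrib]
    refine Finset.sum_congr rfl fun i _ => ?_
    rw [am_ext2, ← ext2_sub, ← ext2_add]
    congr 1
    funext x
    exact hloc g i x
  · -- the bound for `D1`
    obtain ⟨A1, hA1, h1⟩ := jb_op_gi G hE 1
    obtain ⟨N, hN, hn⟩ := norm_glue G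
    refine ⟨N * (2 * A1), by positivity, fun g c hc hb p => ?_⟩
    rw [hD, mul_assoc]
    refine hn _ _ (by positivity) (fun i x hx => ?_) p
    refine (norm_d1_le _ _).trans ?_
    have h2 : JB (0 + 1) (IOp (kE (G.fr i)) 0 δ (gi G i g.1)) x (A1 * c * (δ - 0)) :=
      jb_iop (hE i) (gi_smooth (hAm g).smooth i) hδ.le
        fun t ht => h1 g.1 (hAm g).smooth c hc hb i t ⟨ht.1, ht.2.trans hδ1'⟩ x hx
    have h3 := h2.norm_fderiv_le
    have h4 : A1 * c * (δ - 0) ≤ A1 * c := mul_le_of_le_one_right (by positivity) (by linarith)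
    linarith
  · -- the sup bound for `S`
    have h1 := hA g.1 (hAm g).smooth (Z1 * c0) (by positivity) (hz1 g.1 c0 hb) δ hδ.le hδ1' hCδ p
    rw [hSe]
    calc _ ≤ Z2 * (A0 * δ * (Z1 * c0)) :=
          (hz2 _ p).1.trans (mul_le_mul_of_nonneg_left h1 hZ2')
      _ = Z2 * A0 * Z1 * δ * c0 := by ring
      _ ≤ 1 / 4 * c0 := mul_le_mul_of_nonneg_right hδA hc0
  · -- the `C^s` bound for `S`
    obtain ⟨As, hAs, has⟩ := cb_glue_iop G hC hS s
    obtain ⟨d, hd, hdδ, hdA⟩ := exists_small As (1 / 2) hAs (by norm_num) hδ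
    obtain ⟨B, hB, hb'⟩ := cb_glue_iop_far G hC hS s hd
    have hCd : C * d ≤ 1 / 2 := (mul_le_mul_of_nonneg_left hdδ hC).trans hCδ
    refine ⟨B, hB, fun g c c0 hc hc0 hb hb0 p => ?_⟩
    have h1 := has g.1 (hAm g).smooth c hc hb d hd.le (hdδ.trans hδ1') hCd p
    have h2 := hb' g.1 (hAm g).smooth c0 hc0 hb0 δ hdδ hδ1' hCδ p
    have h3 : (S g).1 = (glue G fun i => IOp (kS i) 0 d (gi G i g.1))
        + glue G fun i => IOp (kS i) d δ (gi G i g.1) := by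
      rw [hSe, ← glue_add]
      congr 1
      funext i x
      exact iop_split (hS i) (gi_smooth (hAm g).smooth i) 0 d δ x
    have h4 : G.S2 (glue G fun i => IOp (kS i) 0 d (gi G i g.1)) :=
      S2.sum fun i _ => S2_ext2' i (contDiff_iop (hS i) (gi_smooth (hAm g).smooth i) _ _)
        fun x hx => iop_vanish (hS i) hC (gi_zero g.1 i) le_rfl hd.le hCd hx
    have h5 : G.S2 (glue G fun i => IOp (kS i) d δ (gi G i g.1)) :=
      S2.sum fun i _ => S2_ext2' i (contDiff_iop (hS i) (gi_smooth (hAm g).smooth i) _ _)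
        fun x hx => iop_vanish (hS i) hC (gi_zero g.1 i) hd.le hdδ hCδ hx
    rw [h3]
    refine (jn_add h4 h5 s p).trans (add_le_add (h1.trans ?_) h2)
    exact mul_le_mul_of_nonneg_right hdA hc
  · -- the `C^s` bound for `Q`
    obtain ⟨B, hB, hb'⟩ := jb_op_gi_far G hC hQ s hδ
    obtain ⟨A2, hA2, h2⟩ := cb_glue G s
    refine ⟨A2 * B, by positivity, fun g c0 hc0 hb0 => ?_⟩
    rw [hQe, mul_assoc]
    exact h2 _ (fun i => (hQ i).contDiff_op' (gi_smooth (hAm g).smooth i) δ)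
      (fun i x hx => op_vanish (hQ i) (gi_zero g.1 i) hδ.le hCδ hx) _ (by positivity)
      fun i x hx => hb' g.1 (hAm g).smooth c0 hc0 hb0 i δ ⟨le_rfl, hδ1'⟩ x hx

end Geo

end Crest.Agent.R240

end
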