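import Crest.Agent.R240.ParLoc
import Crest.Agent.R240.OpL2
import Crest.Agent.R240.Jet

/-!
# Row 240: auxiliary lemmas for the global parametrix
-/

set_option autoImplicit false
set_option linter.unusedSectionVars false
set_option linter.unusedVariables false

open MeasureTheory Metric Set Filter Topology
open scoped ContDiff ENNReal

noncomputable section

namespace Crest.Agent.R240

namespace PG

theorem isK_mono {F : Type*} [NormedAddCommGroup F] [NormedSpace ℝ F] {C C' : ℝ}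
    {K : E × E × ℝ → F} (hK : IsK C K) (h : C ≤ C') : IsK C' K :=
  ⟨hK.smooth, fun x w t hw => hK.supp x w t (h.trans hw)⟩

theorem integral_apply₂ {f : E → Bil} (hf : Integrable f) (u v : E) :
    (∫ w, f w) u v = ∫ w, f w u v := by
  rw [ContinuousLinearMap.integral_apply hf u,
    ContinuousLinearMap.integral_apply (hf.apply_continuousLinearMap u) v]

theorem alt_integral {f : E → Bil} (hf : Integrable f) (h : ∀ w, Alt (f w)) : Alt (∫ w, f w) := by
  intro u v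
  rw [integral_apply₂ hf, integral_apply₂ hf, ← integral_neg]
  exact integral_congr_ae (Eventually.of_forall fun w => h w u v)

theorem anti_integral {J : End} {f : E → Bil} (hf : Integrable f) (h : ∀ w, Anti J (f w)) :
    Anti J (∫ w, f w) := by
  intro u v
  rw [integral_apply₂ hf, integral_apply₂ hf, ← integral_neg]
  exact integral_congr_ae (Eventually.of_forall fun w => h w u v)

section op
variable {F F' : Type*} [NormedAddCommGroup F] [NormedSpace ℝ F] [CompleteSpace F]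
  [NormedAddCommGroup F'] [NormedSpace ℝ F'] [CompleteSpace F']
  {C : ℝ} {K : E × E × ℝ → F →L[ℝ] F'}

/-- the integrated operator -/
def IOp (K : E × E × ℝ → F →L[ℝ] F') (a b : ℝ) (g : E → F) (x : E) : F' :=
  ∫ t in a..b, Op K t g x

theorem op_zero (K : E × E × ℝ → F →L[ℝ] F') (t : ℝ) (x : E) :
    Op K t (fun _ => (0 : F)) x = 0 := by
  simp [Op]

theorem op_vanish (hK : IsK C K) {g : E → F} (hg : ∀ y, 1 ≤ ‖y‖ → g y = 0) {t : ℝ} (ht : 0 ≤ t)
    (hCt : C * t ≤ 1 / 2) {x : E} (hx : 3 / 2 ≤ ‖x‖) : Op K t g x = 0 := by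
  rw [← op_zero K t x]
  refine hK.op_congr ht fun y hy => hg y ?_
  have h1 : ‖x‖ ≤ ‖y‖ + ‖y - x‖ := by
    calc ‖x‖ = ‖y - (y - x)‖ := by congr 1; abel
      _ ≤ ‖y‖ + ‖y - x‖ := norm_sub_le _ _
  linarith

theorem continuous_op_t (hK : IsK C K) {g : E → F} (hg : ContDiff ℝ ∞ g) (x : E) :
    Continuous fun t => Op K t g x :=
  (hK.contDiff_op hg).continuous.comp (continuous_const.prodMk continuous_id)

theorem contDiff_iop (hK : IsK C K) {g : E → F} (hg : ContDiff ℝ ∞ g) (a b : ℝ) :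
    ContDiff ℝ ∞ (IOp K a b g) :=
  contDiff_intervalIntegral (Φ := fun z : E × ℝ => Op K z.2 g z.1) (hK.contDiff_op hg) a b

theorem iop_vanish (hK : IsK C K) (hC : 0 ≤ C) {g : E → F} (hg : ∀ y, 1 ≤ ‖y‖ → g y = 0)
    {a b : ℝ} (ha : 0 ≤ a) (hab : a ≤ b) (hCb : C * b ≤ 1 / 2) {x : E} (hx : 3 / 2 ≤ ‖x‖) :
    IOp K a b g x = 0 := by
  unfold IOp
  rw [← intervalIntegral.integral_zero (a := a) (b := b) (μ := volume)]
  refine intervalIntegral.integral_congr fun t ht => ?_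
  rw [uIcc_of_le hab] at ht
  exact op_vanish hK hg (ha.trans ht.1) ((mul_le_mul_of_nonneg_left ht.2 hC).trans hCb) hx

theorem iop_add (hK : IsK C K) {g g' : E → F} (hg : ContDiff ℝ ∞ g) (hg' : ContDiff ℝ ∞ g')
    (a b : ℝ) (x : E) : IOp K a b (fun y => g y + g' y) x = IOp K a b g x + IOp K a b g' x := by
  unfold IOp
  rw [← intervalIntegral.integral_add ((continuous_op_t hK hg x).intervalIntegrable a b)
    ((continuous_op_t hK hg' x).intervalIntegrable a b)]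
  exact intervalIntegral.integral_congr fun t _ => hK.op_add hg.continuous hg'.continuous t x

theorem iop_smul (K : E × E × ℝ → F →L[ℝ] F') (g : E → F) (c a b : ℝ) (x : E) :
    IOp K a b (fun y => c • g y) x = c • IOp K a b g x := by
  unfold IOp
  rw [← intervalIntegral.integral_smul]
  exact intervalIntegral.integral_congr fun t _ => op_smul K g c t x

theorem iop_split (hK : IsK C K) {g : E → F} (hg : ContDiff ℝ ∞ g) (a b c : ℝ) (x : E) :
    IOp K a c g x = IOp K a b g x + IOp K b c g x :=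
  (intervalIntegral.integral_add_adjacent_intervals
    ((continuous_op_t hK hg x).intervalIntegrable a b)
    ((continuous_op_t hK hg x).intervalIntegrable b c)).symm

theorem jb_iop (hK : IsK C K) {g : E → F} (hg : ContDiff ℝ ∞ g) {a b : ℝ} (hab : a ≤ b) {s : ℕ}
    {x : E} {c : ℝ} (h : ∀ t ∈ Icc a b, JB s (Op K t g) x c) :
    JB s (IOp K a b g) x (c * (b - a)) := fun j hj =>
  norm_iteratedFDeriv_intervalIntegral_le (Φ := fun z : E × ℝ => Op K z.2 g z.1)
    (hK.contDiff_op hg) hab j x fun t ht => h t ht j hj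

/-- uniform smoothing bound on `t ∈ [a, 1]` -/
theorem jb_op_far (hK : IsK C K) (hC : 0 ≤ C) (s : ℕ) (R : ℝ) {a : ℝ} (ha : 0 < a) :
    ∃ B : ℝ, 0 ≤ B ∧ ∀ g : E → F, ContDiff ℝ ∞ g → ∀ c0 : ℝ, 0 ≤ c0 → (∀ y, ‖g y‖ ≤ c0) →
      ∀ t ∈ Icc a 1, ∀ x : E, ‖x‖ ≤ R → JB s (Op K t g) x (B * c0) := by
  obtain ⟨C', hC', h⟩ := hK.jb_op_smoothing s R
  obtain ⟨v, hv, hvol⟩ := volume_closedBall_real
  refine ⟨C' * a⁻¹ ^ (s + 4) * (v * C ^ 4), by positivity, fun g hg c0 hc0 hb t ht x hx j hj => ?_⟩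
  have ht0 : 0 < t := ha.trans_le ht.1
  refine (h g hg t ⟨ht0, ht.2⟩ x hx j hj).trans ?_
  have h1 : t⁻¹ ^ (j + 4) ≤ a⁻¹ ^ (s + 4) := by
    have h2 : 1 ≤ t⁻¹ := (one_le_inv₀ ht0).2 ht.2
    have h3 : t⁻¹ ≤ a⁻¹ := inv_anti₀ ha ht.1
    calc t⁻¹ ^ (j + 4) ≤ t⁻¹ ^ (s + 4) := pow_le_pow_right₀ h2 (by omega)
      _ ≤ a⁻¹ ^ (s + 4) := pow_le_pow_left₀ (by positivity) h3 _
  have h4 : ∫ y in closedBall x (C * t), ‖g y‖ ≤ v * C ^ 4 * c0 := by
    have h5 : ‖∫ y in closedBall x (C * t), ‖g y‖‖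
        ≤ c0 * (volume : Measure E).real (closedBall x (C * t)) :=
      norm_setIntegral_le_of_norm_le_const measure_closedBall_lt_top
        fun y _ => by simpa using hb y
    rw [hvol x _ (by positivity)] at h5
    have h6 : (C * t) ^ 4 ≤ C ^ 4 :=
      pow_le_pow_left₀ (by positivity) (mul_le_of_le_one_right hC ht.2) _
    calc ∫ y in closedBall x (C * t), ‖g y‖ ≤ c0 * (v * (C * t) ^ 4) := (le_abs_self _).trans h5
      _ ≤ c0 * (v * C ^ 4) := by gcongr
      _ = v * C ^ 4 * c0 := by ring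
  have h7 : 0 ≤ ∫ y in closedBall x (C * t), ‖g y‖ := integral_nonneg fun y => norm_nonneg _
  calc C' * t⁻¹ ^ (j + 4) * ∫ y in closedBall x (C * t), ‖g y‖
      ≤ C' * a⁻¹ ^ (s + 4) * (v * C ^ 4 * c0) := by gcongr
    _ = C' * a⁻¹ ^ (s + 4) * (v * C ^ 4) * c0 := by ring

end op

/-- a common bound for finitely many constants -/
theorem exists_common {n : ℕ} {P : Fin n → ℝ → Prop}
    (hmono : ∀ i c c', c ≤ c' → P i c → P i c') (h : ∀ i, ∃ c, 0 ≤ c ∧ P i c) :
    ∃ c, 0 ≤ c ∧ ∀ i, P i c := by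
  choose c hc0 hc using h
  exact ⟨∑ i, c i, Finset.sum_nonneg fun i _ => hc0 i, fun i =>
    hmono i _ _ (Finset.single_le_sum (fun j _ => hc0 j) (Finset.mem_univ i)) (hc i)⟩

theorem alt_op_kQ (Fr : Frame) {C : ℝ} (hK : IsK C (kQ Fr)) {g : E → Bil} (hg : ContDiff ℝ ∞ g)
    (ha : ∀ x, Alt (g x)) (t : ℝ) (x : E) : Alt (Op (kQ Fr) t g x) := by
  refine alt_integral (hK.integrable hg.continuous t x) fun w => ?_
  simp only [kQ, smul_apply, amL_apply]
  exact ((ha _).amJ _).smul _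

theorem anti_op_kQ (Fr : Frame) {C : ℝ} (hK : IsK C (kQ Fr)) {g : E → Bil} (hg : ContDiff ℝ ∞ g)
    (t : ℝ) (x : E) : Anti (Fr.J x) (Op (kQ Fr) t g x) := by
  refine anti_integral (hK.integrable hg.continuous t x) fun w => ?_
  simp only [kQ, smul_apply, amL_apply]
  exact (anti_amJ (Fr.J_J x) _).smul _

variable {M : Type*} [MetricSpace M] [CompactSpace M] [MeasurableSpace M] [BorelSpace M]
  {G : Geo M}

theorem ext2_add (i : Fin G.n) (η ζ : E → Bil) (p : M) :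
    G.ext2 i (fun x => η x + ζ x) p = G.ext2 i η p + G.ext2 i ζ p := by
  unfold Geo.ext2
  split_ifs
  · exact pb_add _ _ _
  · simp

theorem ext2_sub (i : Fin G.n) (η ζ : E → Bil) (p : M) :
    G.ext2 i (fun x => η x - ζ x) p = G.ext2 i η p - G.ext2 i ζ p := by
  unfold Geo.ext2
  split_ifs
  · exact pb_sub _ _ _
  · simp

theorem ext2_smul (i : Fin G.n) (c : ℝ) (η : E → Bil) (p : M) :
    G.ext2 i (fun x => c • η x) p = c • G.ext2 i η p := by
  unfold Geo.ext2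
  split_ifs
  · exact pb_smul _ _ _
  · simp

/-- the localised form -/
def gi (G : Geo M) (i : Fin G.n) (g : M → Bil) : E → Bil := G.rep2 i fun p => G.rho i p • g p

theorem gi_smooth {g : M → Bil} (hg : G.S2 g) (i : Fin G.n) : ContDiff ℝ ∞ (gi G i g) :=
  (Geo.S2.fsmul (G.rho_S0 i) hg).rep2 i

theorem gi_alt {g : M → Bil} (hg : G.Am g) (i : Fin G.n) (x : E) : Alt (gi G i g x) :=
  (((hg.alt _).smul _).pb _).smul _

theorem gi_anti {g : M → Bil} (hg : G.Am g) (i : Fin G.n) (x : E) :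
    Anti ((G.fr i).J x) (gi G i g x) := by
  unfold gi Geo.rep2
  by_cases hx : x ∈ ball (0 : E) 3
  · exact (Geo.anti_loc2 hx ((hg.anti _).smul _)).smul _
  · have : bump x = 0 := bump_zero (by
      rw [mem_ball_zero_iff, not_lt] at hx
      linarith)
    rw [this, zero_smul]
    exact Anti.zero _

theorem gi_zero (g : M → Bil) (i : Fin G.n) (x : E) (hx : 1 ≤ ‖x‖) : gi G i g x = 0 := by
  unfold gi Geo.rep2
  by_cases hx3 : x ∈ ball (0 : E) 3
  · rw [Geo.loc2_fsmul]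
    simp [Geo.loc0_rho_zero i hx3 hx]
  · have : bump x = 0 := bump_zero (by
      rw [mem_ball_zero_iff, not_lt] at hx3
      linarith)
    rw [this, zero_smul]

theorem gi_add (i : Fin G.n) (g g' : M → Bil) :
    gi G i (g + g') = fun x => gi G i g x + gi G i g' x := by
  funext x
  simp only [gi, Geo.rep2, Geo.loc2, Pi.add_apply, smul_add, pb_add]

theorem gi_smul (i : Fin G.n) (c : ℝ) (g : M → Bil) :
    gi G i (c • g) = fun x => c • gi G i g x := by
  funext x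
  simp only [gi, Geo.rep2, Geo.loc2, Pi.smul_apply, pb_smul, smul_smul]
  congr 1
  ring

theorem ext2_gi (i : Fin G.n) (g : M → Bil) (p : M) :
    G.ext2 i (gi G i g) p = G.rho i p • g p := by
  by_cases h : G.rho i p = 0
  · rw [h, zero_smul]
    unfold Geo.ext2
    split_ifs with hp
    · simp only [gi, Geo.rep2, Geo.loc2, Geo.symm_map hp, h, zero_smul, pb_zero, smul_zero]
    · rfl
  · obtain ⟨hp, h1⟩ := Geo.rho_ne_zero h
    unfold Geo.ext2
    rw [if_pos hp, gi, Geo.rep2_eq i _ (by linarith), Geo.loc2_map hp]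

theorem sum_ext2_gi (g : M → Bil) (p : M) : ∑ i, G.ext2 i (gi G i g) p = g p := by
  simp only [ext2_gi, ← Finset.sum_smul, G.sum_rho, one_smul]

theorem jb_gi (G : Geo M) (s : ℕ) : ∃ C : ℝ, 0 ≤ C ∧ ∀ g, G.S2 g → ∀ c, 0 ≤ c → G.CB s g c →
    ∀ i x, JB s (gi G i g) x (C * c) := by
  obtain ⟨C1, hC1, h1⟩ := G.jb_rep2 s
  obtain ⟨C2, hC2, h2⟩ := exists_common (n := G.n)
    (P := fun i C => ∀ g, G.S2 g → ∀ p, G.jn s (fun q => G.rho i q • g q) p ≤ C * G.jn s g p)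
    (fun i c c' hcc h g hg p => (h g hg p).trans
      (mul_le_mul_of_nonneg_right hcc (Geo.jn_nonneg s g p)))
    (fun i => Geo.jn_fsmul (G.rho_S0 i) s)
  refine ⟨C1 * C2, by positivity, fun g hg c hc hb i x => ?_⟩
  have := h1 _ (Geo.S2.fsmul (G.rho_S0 i) hg) (C2 * c) (by positivity)
    (fun p => (h2 i g hg p).trans (mul_le_mul_of_nonneg_left (hb p) hC2)) i x
  rwa [← mul_assoc] at this

theorem cb_zero_of_norm (G : Geo M) : ∃ C : ℝ, 0 ≤ C ∧ ∀ (g : M → Bil) (c0 : ℝ),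
    (∀ p, ‖g p‖ ≤ c0) → G.CB 0 g (C * c0) := by
  obtain ⟨C, hC, h⟩ := G.jn_zero_equiv
  exact ⟨C, by linarith, fun g c0 hb p =>
    (h g p).2.trans (mul_le_mul_of_nonneg_left (hb p) (by linarith))⟩

theorem norm_gi (G : Geo M) : ∃ C : ℝ, 0 ≤ C ∧ ∀ g, G.S2 g → ∀ c0, 0 ≤ c0 → (∀ p, ‖g p‖ ≤ c0) →
    ∀ i x, ‖gi G i g x‖ ≤ C * c0 := by
  obtain ⟨C1, hC1, h1⟩ := jb_gi G 0
  obtain ⟨C2, hC2, h2⟩ := cb_zero_of_norm G
  refine ⟨C1 * C2, by positivity, fun g hg c0 hc0 hb i x => ?_⟩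
  have := (h1 g hg (C2 * c0) (by positivity) (h2 g c0 hb) i x).norm_le
  rwa [← mul_assoc] at this

/-- gluing of local forms -/
def glue (G : Geo M) (η : Fin G.n → E → Bil) : M → Bil := ∑ i, G.ext2 i (η i)

theorem glue_apply (η : Fin G.n → E → Bil) (p : M) : glue G η p = ∑ i, G.ext2 i (η i) p := by
  simp [glue, Finset.sum_apply]

theorem S2_ext2' (i : Fin G.n) {η : E → Bil} (h : ContDiff ℝ ∞ η)
    (h0 : ∀ x, 3 / 2 ≤ ‖x‖ → η x = 0) : G.S2 (G.ext2 i η) :=
  Geo.S2_ext2 i h.contDiffOn (r := 2) (by norm_num) fun x _ hx => h0 x (by linarith)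

theorem am_glue {η : Fin G.n → E → Bil} (h : ∀ i, ContDiff ℝ ∞ (η i))
    (h0 : ∀ i x, 3 / 2 ≤ ‖x‖ → η i x = 0) (ha : ∀ i x, Alt (η i x))
    (hb : ∀ i x, Anti ((G.fr i).J x) (η i x)) : G.Am (glue G η) where
  smooth := Geo.S2.sum fun i _ => S2_ext2' i (h i) (h0 i)
  alt p := by
    rw [glue_apply]
    exact Alt.sum fun i _ => Geo.alt_ext2 i (fun x _ => ha i x) p
  anti p := by
    rw [glue_apply]
    exact Anti.sum fun i _ => Geo.anti_ext2 i (fun x _ => hb i x) p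

theorem glue_add (η ζ : Fin G.n → E → Bil) :
    glue G (fun i x => η i x + ζ i x) = glue G η + glue G ζ := by
  funext p
  simp only [glue_apply, Pi.add_apply, ext2_add, Finset.sum_add_distrib]

theorem glue_smul (c : ℝ) (η : Fin G.n → E → Bil) :
    glue G (fun i x => c • η i x) = c • glue G η := by
  funext p
  simp only [glue_apply, Pi.smul_apply, ext2_smul, Finset.smul_sum]

theorem cb_glue (G : Geo M) (s : ℕ) : ∃ C : ℝ, 0 ≤ C ∧ ∀ η : Fin G.n → E → Bil,
    (∀ i, ContDiff ℝ ∞ (η i)) → (∀ i x, 3 / 2 ≤ ‖x‖ → η i x = 0) → ∀ c, 0 ≤ c →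
      (∀ i x, ‖x‖ ≤ 3 → JB s (η i) x c) → G.CB s (glue G η) (C * c) := by
  obtain ⟨C, hC, h⟩ := G.jn_ext2 s
  refine ⟨G.n * C, by positivity, fun η hη h0 c hc hb p => ?_⟩
  refine (Geo.jn_sum (fun i _ => S2_ext2' i (hη i) (h0 i)) s p).trans ?_
  calc ∑ i, G.jn s (G.ext2 i (η i)) p ≤ ∑ _i : Fin G.n, C * c :=
        Finset.sum_le_sum fun i _ => h i (η i) (hη i) (fun x hx => h0 i x (by linarith)) p c hc
          fun hp => hb i _ (by linarith [hp.2])
    _ = G.n * C * c := by simp [mul_assoc]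

theorem norm_glue (G : Geo M) : ∃ C : ℝ, 0 ≤ C ∧ ∀ η : Fin G.n → E → Bil, ∀ c, 0 ≤ c →
      (∀ i x, ‖x‖ ≤ 3 → ‖η i x‖ ≤ c) → ∀ p, ‖glue G η p‖ ≤ C * c := by
  obtain ⟨C, hC, h⟩ := G.exists_T_bound
  refine ⟨G.n * C ^ 2, by positivity, fun η c hc hb p => ?_⟩
  rw [glue_apply]
  refine (norm_sum_le _ _).trans ?_
  calc ∑ i, ‖G.ext2 i (η i) p‖ ≤ ∑ _i : Fin G.n, C ^ 2 * c := by
        refine Finset.sum_le_sum fun i _ => ?_
        unfold Geo.ext2
        split_ifs with hp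
        · refine (norm_pb_le _ _).trans ?_
          have h1 := hb i _ (mem_ball_zero_iff.1 (Geo.map_mem hp)).le
          have h2 := (h i p hp).2
          calc ‖η i (G.κ i p)‖ * ‖G.Ti i p‖ ^ 2 ≤ c * C ^ 2 := by gcongr
            _ = C ^ 2 * c := by ring
        · rw [norm_zero]; positivity
    _ = G.n * C ^ 2 * c := by simp [mul_assoc]

end PG

end Crest.Agent.R240

end
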