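import Crest.Agent.R240.OpL
import Crest.Agent.R240.Pull

/-!
# Row 240: the local parametrix
-/

set_option autoImplicit false
set_option linter.unusedSectionVars false
set_option linter.unusedVariables false

open MeasureTheory Metric Set Filter Topology
open scoped ContDiff ENNReal

noncomputable section

namespace Crest.Agent.R240

/-- kernel of the local homotopy operator -/
def kE (Fr : Frame) (z : E × E × ℝ) : Bil →L[ℝ] Cov :=
  (-2 * ap (‖Fr.A z.1 z.2.1‖ ^ 2) * (Fr.A z.1).det) • ContinuousLinearMap.apply ℝ Cov z.2.1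

/-- kernel of the local approximate identity -/
def kQ (Fr : Frame) (z : E × E × ℝ) : Bil →L[ℝ] Bil :=
  (ap (‖Fr.A z.1 z.2.1‖ ^ 2) * (Fr.A z.1).det) • amL (Fr.J z.1)

namespace ParLoc

section isk
variable {F : Type*} [NormedAddCommGroup F] [NormedSpace ℝ F] {C C' : ℝ} {K : E × E × ℝ → F}

theorem mono (hK : IsK C K) (h : C ≤ C') : IsK C' K :=
  ⟨hK.smooth, fun x w t hw => hK.supp x w t (h.trans hw)⟩

theorem fd (hK : IsK C K) (v : E × E × ℝ) : IsK (C + 1) fun z => fderiv ℝ K z v := by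
  refine ⟨(hK.smooth.fderiv_right (m := ∞) le_rfl).clm_apply contDiff_const, fun x w t hw => ?_⟩
  have : K =ᶠ[𝓝 (x, w, t)] fun _ => 0 := by
    have : IsOpen {z : E × E × ℝ | C < ‖z.2.1‖} := isOpen_lt continuous_const (by fun_prop)
    filter_upwards [this.mem_nhds (show C < ‖w‖ by linarith)] with z hz
      using hK.supp z.1 z.2.1 z.2.2 hz.le
  rw [this.fderiv_eq]; simp

theorem slice_w (hK : ContDiff ℝ ∞ K) (x w v : E) (t : ℝ) :
    fderiv ℝ (fun w => K (x, w, t)) w v = fderiv ℝ K (x, w, t) (0, v, 0) := by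
  have h : HasFDerivAt (fun w : E => ((x, w, t) : E × E × ℝ))
      ((0 : E →L[ℝ] E).prod ((ContinuousLinearMap.id ℝ E).prod (0 : E →L[ℝ] ℝ))) w :=
    (hasFDerivAt_const x w).prodMk ((hasFDerivAt_id w).prodMk (hasFDerivAt_const t w))
  exact congrArg (· v) ((hK.differentiable (by simp) (x, w, t)).hasFDerivAt.comp w h).fderiv

theorem slice_t (hK : ContDiff ℝ ∞ K) (h : ∀ x w t, K (x, w, t) = K (x, w, 0)) (z : E × E × ℝ) :
    fderiv ℝ K z (0, 0, 1) = 0 := by
  obtain ⟨x, w, t⟩ := z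
  have h1 : HasDerivAt (fun t : ℝ => ((x, w, t) : E × E × ℝ)) (0, 0, 1) t :=
    (hasDerivAt_const t x).prodMk ((hasDerivAt_const t w).prodMk (hasDerivAt_id t))
  have h2 := (hK.differentiable (by simp) (x, w, t)).hasFDerivAt.comp_hasDerivAt t h1
  have h3 : HasDerivAt (K ∘ fun t : ℝ => ((x, w, t) : E × E × ℝ)) 0 t := by
    rw [show (K ∘ fun t : ℝ => ((x, w, t) : E × E × ℝ)) = fun _ => K (x, w, 0) from
      funext fun t => h x w t]
    exact hasDerivAt_const _ _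
  exact h2.unique h3

theorem slice_x {Φ : E × ℝ → F} (h : ContDiff ℝ ∞ Φ) (x v : E) (t : ℝ) :
    fderiv ℝ (fun x => Φ (x, t)) x v = fderiv ℝ Φ (x, t) (v, 0) := by
  exact congrArg (· v) ((h.differentiable (by simp) (x, t)).hasFDerivAt.comp x
    (hasFDerivAt_prodMk_left (𝕜 := ℝ) x t)).fderiv

end isk

/-- `dx a ∧ ·` -/
def wL (a : Fin 4) : Cov →L[ℝ] Bil := LinearMap.toContinuousLinearMap
  { toFun := wedge (dx a)
    map_add' := fun φ ψ => by ext u v; simp; ring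
    map_smul' := fun c φ => by ext u v; simp; ring }

theorem d1_eq (γ : E → Cov) (x : E) : d1 γ x = ∑ a, wL a (fderiv ℝ γ x (e a)) := by
  ext u v
  have h : ∀ u v : E, fderiv ℝ γ x u v = ∑ a, u a * fderiv ℝ γ x (e a) v := fun u v => by
    conv_lhs => rw [← sum_e u]
    simp
  rw [d1_apply, h u v, h v u, ← Finset.sum_sub_distrib]
  simp only [wL, sum_apply, LinearMap.coe_toContinuousLinearMap',
    LinearMap.coe_mk, AddHom.coe_mk, wedge_apply, dx_apply]
  exact Finset.sum_congr rfl fun a _ => by ring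

/-- the weight -/
def q (Fr : Frame) (z : E × E × ℝ) : ℝ := ap (‖Fr.A z.1 z.2.1‖ ^ 2) * (Fr.A z.1).det

theorem isK_q (Fr : Frame) : ∃ C : ℝ, 1 ≤ C ∧ IsK C (q Fr) := by
  obtain ⟨C, hC⟩ := Fr.bdd
  have hA : ContDiff ℝ ∞ fun z : E × E × ℝ => Fr.A z.1 := Fr.smooth.comp contDiff_fst
  refine ⟨max 1 C, le_max_left _ _, (ap_smooth.comp ((hA.clm_apply (by fun_prop)).norm_sq ℝ)).mul
    (contDiff_iff_contDiffAt.2 fun z => ContDiffAt.det hA.contDiffAt), fun x w t hw => ?_⟩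
  have h1 : ‖w‖ ≤ max 1 C * ‖Fr.A x w‖ := by
    conv_lhs => rw [← Fr.mul' x w]
    exact (Fr.A' x).le_of_opNorm_le ((hC x).2.trans (le_max_right _ _)) _
  have h2 : 1 ≤ ‖Fr.A x w‖ := by
    have : 0 < max 1 C := lt_of_lt_of_le one_pos (le_max_left _ _)
    nlinarith
  rw [q, ap_zero (by nlinarith), zero_mul]

theorem amL_smooth (Fr : Frame) : ContDiff ℝ ∞ fun x => amL (Fr.J x) :=
  contDiff_iff_contDiffAt.2 fun _ => ContDiffAt.amL Fr.J_smooth.contDiffAt

end ParLoc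

open ParLoc

theorem exists_isK_kE_kQ (Fr : Frame) : ∃ C : ℝ, 1 ≤ C ∧ IsK C (kE Fr) ∧ IsK C (kQ Fr) := by
  obtain ⟨C, h1, hq⟩ := isK_q Fr
  have e1 : kE Fr = fun z => (-2 * q Fr z) • ContinuousLinearMap.apply ℝ Cov z.2.1 := by
    funext z; rw [kE, q, mul_assoc]
  refine ⟨C, h1, ⟨?_, fun x w t hw => ?_⟩, ⟨?_, fun x w t hw => ?_⟩⟩
  · rw [e1]
    exact (contDiff_const.mul hq.smooth).smul
      ((ContinuousLinearMap.apply ℝ Cov (E := E)).contDiff.comp (by fun_prop))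
  · simp [e1, hq.supp x w t hw]
  · exact hq.smooth.smul ((amL_smooth Fr).comp contDiff_fst)
  · change q Fr _ • _ = _
    rw [hq.supp x w t hw]
    exact ContinuousLinearMap.ext fun β => zero_smul ℝ (_ : Bil)

/-- the symbol identity `π d_w e(x,w)[G] = - div_w (q w) G` -/
theorem kE_symbol (Fr : Frame) (x w : E) (t : ℝ) {β : Bil} (ha : Alt β) (h : Anti (Fr.J x) β) :
    amJ (Fr.J x) (d1 (fun w => kE Fr (x, w, t) β) w)
      = -(∑ a, fderiv ℝ (fun w => (ap (‖Fr.A x w‖ ^ 2) * (Fr.A x).det) * w a) w (e a)) • β := by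
  set A := Fr.A x with hA
  set s := ‖A w‖ ^ 2 with hs
  have hq : HasFDerivAt (fun w => ap (‖A w‖ ^ 2) * A.det)
      ((2 * A.det * deriv ap s) • (innerSL ℝ (A w)).comp A) w := by
    have h1 := ((ap_smooth.differentiable (by simp) s).hasDerivAt.comp_hasFDerivAt w
      A.hasFDerivAt.norm_sq).mul_const A.det
    refine h1.congr_fderiv ?_
    ext v; simp; ring
  have hw : amJ (Fr.J x) (wedge ((innerSL ℝ (A w)).comp A) (β w)) = (1 / 2 * s) • β := by
    have e1 : pb (wedge ((innerSL ℝ (A w)).comp A) (β w)) (Fr.A' x) =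
        wedge (innerSL ℝ (A w)) (pb β (Fr.A' x) (A w)) := by
      ext u v; simp [hA, Fr.mul, Fr.mul']
    rw [Fr.amJ_eq, e1, am_wedge_anti (ha.pb _) fun u v => by
      rw [pb_apply, pb_apply, ← Fr.J_A', ← Fr.J_A', h], pb_smul, pb_pb,
      pb_of_id _ fun v => Fr.mul' x v]
  have hd : d1 (fun w => β w) w = (2 : ℝ) • β := by
    ext u v; rw [d1_apply, β.fderiv, ha v u]; simp; ring
  have hk : (fun w => kE Fr (x, w, t) β) = fun w => (-2 * (ap (‖A w‖ ^ 2) * A.det)) • β w := by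
    funext w; simp [kE, mul_assoc, hA]
  have hdiv : ∀ a, fderiv ℝ (fun w => (ap (‖A w‖ ^ 2) * A.det) * w a) w (e a) =
      ap s * A.det + 2 * A.det * deriv ap s * inner ℝ (A w) (A (w a • e a)) := fun a => by
    refine (congrArg (· (e a)) (hq.mul (dx a).hasFDerivAt).fderiv).trans ?_
    simp [inner_smul_right, ← hs]; ring
  rw [hk, d1_smul (hq.const_mul _).differentiableAt β.differentiableAt, (hq.const_mul _).fderiv, hd]
  have e2 : ∀ (c : ℝ) (φ ψ : Cov), wedge (c • φ) ψ = c • wedge φ ψ := fun c φ ψ => by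
    ext u v; simp; ring
  simp only [hdiv, Finset.sum_add_distrib, ← Finset.mul_sum, ← inner_sum, ← map_sum, sum_e,
    real_inner_self_eq_norm_sq, ← hs]
  rw [smul_smul, e2, smul_smul, ← amL_apply, map_add, map_smul, map_smul, amL_apply, amL_apply, hw,
    h.amJ, smul_smul, ← add_smul]
  congr 1
  simp; ring

namespace ParLoc

theorem int_comb {X Y : Fin 4 → E → Cov} {Z : Fin 4 → E → Bil} {S : E → Bil}
    (P : Fin 4 → Cov →L[ℝ] Bil) (t : ℝ) (hX : ∀ a, Integrable (X a)) (hY : ∀ a, Integrable (Y a))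
    (hZ : ∀ a, Integrable (Z a))
    (h : ∀ w, t • S w = ∑ a, (t • P a (X a w) - P a (Y a w) - Z a w)) :
    t • ∫ w, S w = ∑ a, (t • P a (∫ w, X a w) - P a (∫ w, Y a w) - ∫ w, Z a w) := by
  have i1 : ∀ a, Integrable fun w => t • P a (X a w) := fun a =>
    ((P a).integrable_comp (hX a)).smul t
  have i2 : ∀ a, Integrable fun w => P a (Y a w) := fun a => (P a).integrable_comp (hY a)
  have i3 : ∀ a, Integrable fun w => t • P a (X a w) - P a (Y a w) := fun a => (i1 a).sub (i2 a)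
  have i4 : ∀ a, Integrable fun w => t • P a (X a w) - P a (Y a w) - Z a w := fun a =>
    (i3 a).sub (hZ a)
  rw [← integral_smul, funext h, integral_finsetSum _ fun a _ => i4 a]
  refine Finset.sum_congr rfl fun a _ => ?_
  rw [integral_sub (i3 a) (hZ a), integral_sub (i1 a) (i2 a), integral_smul,
    (P a).integral_comp_comm (hX a), (P a).integral_comp_comm (hY a)]

/-- `π (dx a ∧ ·)` -/
def P (Fr : Frame) (x : E) (a : Fin 4) : Cov →L[ℝ] Bil := (amL (Fr.J x)).comp (wL a)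

theorem P_d1 (Fr : Frame) (x : E) (γ : E → Cov) (y : E) :
    amJ (Fr.J x) (d1 γ y) = ∑ a, P Fr x a (fderiv ℝ γ y (e a)) := by
  rw [← amL_apply, d1_eq, map_sum]; rfl

/-- the error kernel -/
def kS (Fr : Frame) (π : (E × E) × ℝ → Bil →L[ℝ] Bil) (z : E × E × ℝ) : Bil →L[ℝ] Bil :=
  ∑ a, (P Fr z.1 a).comp (fderiv ℝ (kE Fr) z (e a, 0, 0) -
    (fderiv ℝ (kE Fr) z (0, e a, 0)).comp (π ((z.1, z.2.1), z.2.2)))

/-- `w a • kQ` -/
def kW (Fr : Frame) (a : Fin 4) (z : E × E × ℝ) : Bil →L[ℝ] Bil := z.2.1 a • kQ Fr z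

variable {Fr : Frame} {C : ℝ} {π : (E × E) × ℝ → Bil →L[ℝ] Bil}

theorem isK_kS (hE : IsK C (kE Fr)) (hπ : ContDiff ℝ ∞ π) : IsK (C + 1) (kS Fr π) := by
  refine ⟨ContDiff.sum fun a _ => (((amL_smooth Fr).comp contDiff_fst).clm_comp
    contDiff_const).clm_comp ((fd hE _).smooth.sub
      ((fd hE _).smooth.clm_comp (hπ.comp (by fun_prop)))), fun x w t hw => ?_⟩
  have h0 := fun v => (fd hE v).supp x w t hw
  simp only [kS, h0]
  simp

theorem isK_kW (hQ : IsK C (kQ Fr)) (a : Fin 4) : IsK C (kW Fr a) :=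
  ⟨((dx a).contDiff.comp (by fun_prop : ContDiff ℝ ∞ fun z : E × E × ℝ => z.2.1)).smul hQ.smooth,
    fun x w t hw => by
      rw [kW, hQ.supp x w t hw]
      exact ContinuousLinearMap.ext fun β => smul_zero (M := ℝ) (A := Bil) _⟩

theorem apply_w {F : Type*} [NormedAddCommGroup F] [NormedSpace ℝ F]
    {K : E × E × ℝ → Bil →L[ℝ] F} (hK : ContDiff ℝ ∞ K) (x w v : E) (t : ℝ) (β : Bil) :
    fderiv ℝ K (x, w, t) (0, v, 0) β = fderiv ℝ (fun w => K (x, w, t) β) w v := by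
  have hd : DifferentiableAt ℝ (fun w => K (x, w, t)) w :=
    (hK.comp (by fun_prop : ContDiff ℝ ∞ fun w : E => (x, w, t))).differentiable (by simp) w
  rw [fderiv_clm_apply hd (differentiableAt_const _), ← slice_w hK]
  simp

theorem kW_fderiv (hQ : IsK C (kQ Fr)) (x w : E) (t : ℝ) (a : Fin 4) (β : Bil) :
    fderiv ℝ (kW Fr a) (x, w, t) (0, e a, 0) β =
      fderiv ℝ (fun w => (ap (‖Fr.A x w‖ ^ 2) * (Fr.A x).det) * w a) w (e a) • amJ (Fr.J x) β := by
  obtain ⟨C', -, hq⟩ := isK_q Fr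
  have hd : DifferentiableAt ℝ (fun w => (ap (‖Fr.A x w‖ ^ 2) * (Fr.A x).det) * w a) w :=
    ((hq.smooth.comp (by fun_prop : ContDiff ℝ ∞ fun w : E => (x, w, t))).mul
      (dx a).contDiff).differentiable (by simp) w
  rw [apply_w (isK_kW hQ a).smooth, show (fun w : E => kW Fr a (x, w, t) β) = fun w =>
    ((ap (‖Fr.A x w‖ ^ 2) * (Fr.A x).det) * w a) • amJ (Fr.J x) β from
    funext fun w => by ext u v; simp [kW, kQ]; ring, fderiv_smul_const hd]
  rfl

theorem pointwise (hE : IsK C (kE Fr)) (hQ : IsK C (kQ Fr)) {x w : E} {t : ℝ} {G : Bil} (ha : Alt G)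
    (e1 : G = amJ (Fr.J x) G + t • π ((x, w), t) G) : t • kS Fr π (x, w, t) G =
      ∑ a, (t • P Fr x a (fderiv ℝ (kE Fr) (x, w, t) (e a, 0, 0) G) -
        P Fr x a (fderiv ℝ (kE Fr) (x, w, t) (0, e a, 0) G) -
        fderiv ℝ (kW Fr a) (x, w, t) (0, e a, 0) G) := by
  have e2 := kE_symbol Fr x w t (ha.amJ (Fr.J x)) (anti_amJ (Fr.J_J x) G)
  rw [P_d1, neg_smul, Finset.sum_smul] at e2
  simp only [← apply_w hE.smooth] at e2
  have e3 : ∀ a, P Fr x a (fderiv ℝ (kE Fr) (x, w, t) (0, e a, 0) G) =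
      P Fr x a (fderiv ℝ (kE Fr) (x, w, t) (0, e a, 0) (amJ (Fr.J x) G)) +
        t • P Fr x a (fderiv ℝ (kE Fr) (x, w, t) (0, e a, 0) (π ((x, w), t) G)) := fun a => by
    conv_lhs => rw [e1, map_add, map_add, map_smul, map_smul]
  simp only [kS, sum_apply, ContinuousLinearMap.comp_apply, sub_apply, kW_fderiv hQ,
    map_sub, Finset.sum_sub_distrib, Finset.sum_add_distrib, e3, e2, ← Finset.smul_sum, smul_sub]
  abel

/-- the `t`-derivative of `Op kQ t g x` -/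
def D (Fr : Frame) (g : E → Bil) (x : E) (t : ℝ) : Bil :=
  ∑ a, Op (kW Fr a) t (fun y => fderiv ℝ g y (e a)) x

theorem hasDerivAt_D (hQ : IsK C (kQ Fr)) {g : E → Bil} (hg : ContDiff ℝ ∞ g) (x : E) (t : ℝ) :
    HasDerivAt (fun t => Op (kQ Fr) t g x) (D Fr g x t) t := by
  refine (hQ.hasDerivAt_op hg t x).congr_deriv ?_
  simp only [D, Op, slice_t hQ.smooth fun _ _ _ => rfl]
  rw [← integral_finsetSum _ fun a _ => (isK_kW hQ a).integrable
    ((hg.continuous_fderiv (by simp)).clm_apply continuous_const) t x]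
  simp only [zero_apply, integral_zero, zero_add]
  refine integral_congr_ae (Eventually.of_forall fun w => ?_)
  have : ∀ L : E →L[ℝ] Bil, L w = ∑ a, w a • L (e a) := fun L => by
    conv_lhs => rw [← sum_e w]
    simp
  simp only [this (fderiv ℝ g _), map_sum, map_smul]
  rfl

theorem fixed_t (hE : IsK C (kE Fr)) (hQ : IsK C (kQ Fr))
    (hπe : ∀ p t, amL (Fr.J (p.1 + t • p.2)) = amL (Fr.J p.1) + t • π (p, t)) {g : E → Bil}
    (hg : ContDiff ℝ ∞ g) (ha : ∀ x, Alt (g x)) (hj : ∀ x, Anti (Fr.J x) (g x)) (x : E) {t : ℝ}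
    (ht : t ≠ 0) :
    ∑ a, P Fr x a (fderiv ℝ (Op (kE Fr) t g) x (e a)) = Op (kS Fr π) t g x - D Fr g x t := by
  have e1 : t • Op (kS Fr π) t g x = ∑ a,
      (t • P Fr x a (Op (fun z => fderiv ℝ (kE Fr) z (e a, 0, 0)) t g x) -
        P Fr x a (Op (fun z => fderiv ℝ (kE Fr) z (0, e a, 0)) t g x) -
        Op (fun z => fderiv ℝ (kW Fr a) z (0, e a, 0)) t g x) :=
    int_comb (P Fr x) t (fun a => (fd hE (e a, 0, 0)).integrable hg.continuous t x)
      (fun a => (fd hE (0, e a, 0)).integrable hg.continuous t x)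
      (fun a => (fd (isK_kW hQ a) (0, e a, 0)).integrable hg.continuous t x) fun w =>
        pointwise hE hQ (ha _) (by
          have := congrArg (· (g (x + t • w))) (hπe (x, w) t)
          simpa [(hj _).amJ] using this)
  refine smul_right_injective _ ht ?_
  beta_reduce
  rw [smul_sub, e1, D, Finset.smul_sum, Finset.smul_sum, ← Finset.sum_sub_distrib]
  refine Finset.sum_congr rfl fun a _ => ?_
  rw [hE.fderiv_op hg, (isK_kW hQ a).op_fderiv hg, map_add, smul_add,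
    ← map_smul (P Fr x a) t (Op (kE Fr) t _ x), hE.op_fderiv hg, map_neg]
  abel

theorem op_zero {g : E → Bil} (hj : ∀ x, Anti (Fr.J x) (g x)) (x : E) :
    Op (kQ Fr) 0 g x = g x := by
  simp only [Op, kQ, zero_smul, add_zero, smul_apply, amL_apply, (hj x).amJ]
  rw [integral_smul_const]
  have := integral_comp_end (Fr.A x) (Fr.det_pos x) fun w => ap (‖w‖ ^ 2)
  simp only [smul_eq_mul, mul_comm (Fr.A x).det, integral_ap] at this
  rw [this, one_smul]

theorem exists_pi (Fr : Frame) : ∃ π : (E × E) × ℝ → Bil →L[ℝ] Bil, ContDiff ℝ ∞ π ∧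
    ∀ p t, amL (Fr.J (p.1 + t • p.2)) = amL (Fr.J p.1) + t • π (p, t) := by
  obtain ⟨π, hπ, hπe, -⟩ := hadamard (f := fun z : (E × E) × ℝ => amL (Fr.J (z.1.1 + z.2 • z.1.2)))
    ((amL_smooth Fr).comp (by fun_prop))
  exact ⟨π, hπ, fun p t => by simpa only [zero_smul, add_zero] using hπe p t⟩

theorem cont_op {F F' : Type*} [NormedAddCommGroup F] [NormedSpace ℝ F] [CompleteSpace F]
    [NormedAddCommGroup F'] [NormedSpace ℝ F'] [CompleteSpace F'] {K : E × E × ℝ → F →L[ℝ] F'}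
    (hK : IsK C K) {g : E → F} (hg : ContDiff ℝ ∞ g) (x : E) : Continuous fun t => Op K t g x :=
  (hK.contDiff_op hg).continuous.comp (by fun_prop : Continuous fun t : ℝ => (x, t))

theorem d1_int {Φ : E × ℝ → Cov} (h : ContDiff ℝ ∞ Φ) (δ : ℝ) (x : E) :
    amJ (Fr.J x) (d1 (fun x => ∫ t in (0 : ℝ)..δ, Φ (x, t)) x) =
      ∫ t in (0 : ℝ)..δ, ∑ a, P Fr x a (fderiv ℝ (fun x => Φ (x, t)) x (e a)) := by
  have c1 : ∀ a, Continuous fun t => fderiv ℝ Φ (x, t) (e a, 0) :=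
    fun a => ((h.continuous_fderiv (by simp)).comp (by fun_prop)).clm_apply continuous_const
  have c2 : ∀ a, Continuous fun t => P Fr x a (fderiv ℝ Φ (x, t) (e a, 0)) :=
    fun a => (P Fr x a).continuous.comp (c1 a)
  simp only [slice_x h]
  rw [P_d1, intervalIntegral.integral_finsetSum fun a _ => (c2 a).intervalIntegrable 0 δ]
  refine Finset.sum_congr rfl fun a _ => ?_
  rw [(P Fr x a).intervalIntegral_comp_comm ((c1 a).intervalIntegrable 0 δ),
    fderiv_intervalIntegral h]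

end ParLoc

/-- (B1) `π d ∫₀^δ E_t g dt = g - Q_δ g + ∫₀^δ S_t g dt` -/
theorem parametrix_loc (Fr : Frame) : ∃ (C : ℝ) (kS : E × E × ℝ → Bil →L[ℝ] Bil), 1 ≤ C ∧
    IsK C (kE Fr) ∧ IsK C (kQ Fr) ∧ IsK C kS ∧
    ∀ g : E → Bil, ContDiff ℝ ∞ g → (∀ x, Alt (g x)) → (∀ x, Anti (Fr.J x) (g x)) →
      ∀ δ : ℝ, 0 ≤ δ → ∀ x,
        amJ (Fr.J x) (d1 (fun x => ∫ t in (0 : ℝ)..δ, Op (kE Fr) t g x) x)
          = g x - Op (kQ Fr) δ g x + ∫ t in (0 : ℝ)..δ, Op kS t g x := by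
  obtain ⟨C, h1, hE, hQ⟩ := exists_isK_kE_kQ Fr
  obtain ⟨π, hπ, hπe⟩ := exists_pi Fr
  have hS := isK_kS hE hπ
  refine ⟨C + 1, kS Fr π, by linarith, mono hE (by linarith), mono hQ (by linarith), hS, ?_⟩
  intro g hg ha hj δ hδ x
  have c2 := cont_op hS hg x
  have c3 : Continuous (D Fr g x) := continuous_finsetSum _ fun a _ =>
    cont_op (isK_kW hQ a) ((hg.fderiv_right (m := ∞) le_rfl).clm_apply contDiff_const) x
  refine (d1_int (hE.contDiff_op hg) δ x).trans ?_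
  rw [intervalIntegral.integral_congr_ae (g := fun t => Op (kS Fr π) t g x - D Fr g x t) ?_,
    intervalIntegral.integral_sub (c2.intervalIntegrable _ _) (c3.intervalIntegrable _ _),
    intervalIntegral.integral_eq_sub_of_hasDerivAt (fun t _ => hasDerivAt_D hQ hg x t)
      (c3.intervalIntegrable _ _), op_zero hj]
  · abel
  · filter_upwards [compl_mem_ae_iff.2 (measure_singleton (0 : ℝ))] with t ht _
    exact fixed_t hE hQ hπe hg ha hj x ht

end Crest.Agent.R240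

end
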