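/-!
# Row 240 (S0371): Donaldson's tamed ⇒ compatible theorem on compact 4-manifolds — the plan

Notation: `Z` = smooth closed two-forms, `am` = anti-invariant part, `Am` = smooth anti-invariant
forms, `T = Tm ν` the positive current of a measure `ν` on unit tangent vectors, `μ = ν.fst`.

* **(B) correction** (`ParLoc, ParGlob, FinRank, Neumann, Section, Corr`): for `η ∈ Z` there is
  `η' ∈ Z` with `am η' = am η`, `sup ‖η'‖ ≤ C ‖am η‖_{C¹}`.  Explicit parametrix
  `am d E g = g - Q g + S g`, finite rank approximation, Neumann series, finite dimensional section.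
* **(A) Hahn–Banach** (`JetRep, HB`): either some `η ∈ Z` has `η(v,Jv) > 1` and `‖am η‖_{C¹} ≤ δ`
  (then `η - η'` is the compatible form), or there are `ν ≠ 0` and a current `ψ` of order one with
  `T η + ψ (am η) = 0` on `Z`.  We show that then `T` vanishes on `Z`, contradicting taming.
* **(C) kernels** (`Conn, KerE, KerA, KerExact, KerPos, KerBlow, KerAll, KerBd`): smooth double forms
  `k ε p q` (Thom forms of the diagonal) with `d_p k = d_q Γ`, almost positive on pairs of complex
  lines (`≥ -C ε⁻²`), with a smooth blow-up `ε⁻⁴ Kb (x, (y-x)/ε, ε)` in charts.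
* **(P)** (`CurP, CurC, CurR, Stokes`): `N.R k` is smooth, closed for closed `N`; duality; the energy
  identity `∫ n ∧ n = 0` for `n = N.R (ktr k)` when `N` kills `Z`.
* **(D)** (`QOp, Taub, Energy, Theta*, Nuc, Mass, Riesz, Iter`): energy identity + monotonicity
  formula + a Tauberian iteration give `ψ = Φ ∈ L²` and `μ (B(p,r)) ≤ m r²`.
* **(E)** (`ThetaLim, ElMir, ElMir2, Pole`): the part of `T` on `Lel μ` (positive density) is closed:
  cut off with `F(Θ_ε / c)`; the tangential gradient of `Θ_ε` is controlled by the radial defect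
  (small along a sequence) and the angle energy (bounded).
* **(F)** (`Expand, Main`): `N (R_ε N₁) = 0` for `N₁ = T|_{Lelᶜ} + Φ` gives `‖Φ‖² ≤ o(1)`.
* **Bridge** (`Metric, GeoOf, PreMain, Bridge, BridgeD, Frames, Charts, Final`): from Mathlib
  manifolds to the model `Geo`.
-/
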