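import Crest.Agent.R240.Expand
import Crest.Agent.R240.Nuc
import Crest.Agent.R240.ElMir2

/-!
# Row 240: the part of positive density is closed
-/

set_option autoImplicit false
set_option linter.unusedSectionVars false
set_option linter.unusedVariables false

open MeasureTheory Metric Set Filter Topology
open scoped ContDiff ENNReal

noncomputable section

namespace Crest.Agent.R240

namespace Geo

variable {M : Type*} [MetricSpace M] [CompactSpace M] [MeasurableSpace M] [BorelSpace M]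
  {G : Geo M}

variable {ν : Measure (M × E)} [IsFiniteMeasure ν]

theorem Pole_d1_zero {γ : E → Cov} {x : E} (hx : x ∉ tsupport γ) : d1 γ x = 0 := by
  unfold d1
  rw [fderiv_of_notMem_tsupport ℝ hx]
  simp

theorem Pole_wp_zero (β : Bil) : wp β 0 = 0 := by
  simp [wp]

/-- the pointwise inequality behind the angle energy -/
theorem Pole_pointwise (Kr : G.Ker) {L : ℝ} (hL1 : 1 ≤ L)
    (hL : ∀ i, ∀ p ∈ G.K i (5 / 2), ∀ q ∈ G.K i (5 / 2), dist p q ≤ L * ‖G.κ i p - G.κ i q‖)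
    (i : Fin G.n) {t : ℝ} (ht : t ∈ Ioc 0 Kr.ε0) (ht1 : Kr.c2 * t ≤ 1) {z z' : M × E}
    (hz : ‖z.2‖ = 1) (hz' : ‖z'.2‖ = 1) :
    0 ≤ t ^ 4 / Kr.c2 * qv (Kr.k t z.1 z'.1) z.2 (J0 z.2) z'.2 (J0 z'.2)
        + Kr.C1 * t ^ 2 / Kr.c2 *
          (closedBall z.1 ((Kr.C0 + L * Kr.c2) * t)).indicator (fun _ => (1 : ℝ)) z'.1 ∧
    (z.1 ∈ G.K i 1 → z'.1 ∈ G.K i (5 / 2) → ‖G.κ i z'.1 - G.κ i z.1‖ ≤ Kr.c2 * t →
      ang ((G.fr i).A (G.κ i z.1) (G.Ti i z.1 z.2)) ((G.fr i).A (G.κ i z'.1) (G.Ti i z'.1 z'.2))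
        ≤ t ^ 4 / Kr.c2 * qv (Kr.k t z.1 z'.1) z.2 (J0 z.2) z'.2 (J0 z'.2)
        + Kr.C1 * t ^ 2 / Kr.c2 *
          (closedBall z.1 ((Kr.C0 + L * Kr.c2) * t)).indicator (fun _ => (1 : ℝ)) z'.1) := by
  have hc := Kr.c2_pos
  have ht0 := ht.1
  have hC0 := Kr.C0_ge
  have hC1 := Kr.C1_nonneg
  constructor
  · by_cases hd : z'.1 ∈ closedBall z.1 ((Kr.C0 + L * Kr.c2) * t)
    · rw [indicator_of_mem hd]
      have h := Kr.pos t ht z.1 z'.1 z.2 z'.2 hz hz'
      have h2 : t ^ 4 / Kr.c2 * -(Kr.C1 * t⁻¹ ^ 2) + Kr.C1 * t ^ 2 / Kr.c2 * 1 = 0 := by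
        field_simp
        ring
      have h3 := mul_le_mul_of_nonneg_left h (show 0 ≤ t ^ 4 / Kr.c2 by positivity)
      linarith
    · rw [indicator_of_notMem hd]
      have h1 : (Kr.C0 + L * Kr.c2) * t < dist z.1 z'.1 := by
        rw [mem_closedBall, dist_comm] at hd
        exact lt_of_not_ge hd
      have h2 : Kr.C0 * t < dist z.1 z'.1 := by
        have : 0 ≤ L * Kr.c2 * t := by positivity
        nlinarith
      rw [Kr.supp t ht _ _ h2]
      simp [qv]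
  · intro hp hq hd
    have hq' : z'.1 ∈ G.K i (9 / 4) := by
      refine ⟨hq.1, ?_⟩
      have h1 : ‖G.κ i z'.1‖ ≤ ‖G.κ i z'.1 - G.κ i z.1‖ + ‖G.κ i z.1‖ := by
        simpa using norm_add_le (G.κ i z'.1 - G.κ i z.1) (G.κ i z.1)
      have h2 := hp.2
      linarith
    have hv : ‖(G.fr i).A (G.κ i z.1) (G.Ti i z.1 z.2)‖ = 1 := ((uni_A_Ti hp.1).1 z.2).trans hz
    have hw : ‖(G.fr i).A (G.κ i z'.1) (G.Ti i z'.1 z'.2)‖ = 1 :=
      ((uni_A_Ti hq.1).1 z'.2).trans hz'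
    have h := Kr.pos' t ht i z.1 (K_mono i (by norm_num) hp) z'.1 hq' hd _ _ hv hw
    rw [U_A_Ti, U_A_Ti] at h
    have hmem : z'.1 ∈ closedBall z.1 ((Kr.C0 + L * Kr.c2) * t) := by
      rw [mem_closedBall]
      have h1 := hL i z'.1 hq z.1 (K_mono i (by norm_num) hp)
      have h2 : L * ‖G.κ i z'.1 - G.κ i z.1‖ ≤ L * (Kr.c2 * t) :=
        mul_le_mul_of_nonneg_left hd (by linarith)
      have h3 : 0 ≤ Kr.C0 * t := by positivity
      nlinarith
    rw [indicator_of_mem hmem]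
    set a := ang ((G.fr i).A (G.κ i z.1) (G.Ti i z.1 z.2))
      ((G.fr i).A (G.κ i z'.1) (G.Ti i z'.1 z'.2))
    have h2 : t ^ 4 / Kr.c2 * (Kr.c2 * t⁻¹ ^ 4 * a - Kr.C1 * t⁻¹ ^ 2)
        + Kr.C1 * t ^ 2 / Kr.c2 * 1 = a := by
      field_simp
      ring
    have h3 := mul_le_mul_of_nonneg_left h (show 0 ≤ t ^ 4 / Kr.c2 by positivity)
    linarith

theorem Pole_measurableSet_ball (r : ℝ) :
    MeasurableSet {w : (M × E) × (M × E) | w.2.1 ∈ closedBall w.1.1 r} := by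
  have : IsClosed {w : (M × E) × (M × E) | dist w.2.1 w.1.1 ≤ r} :=
    isClosed_le (by fun_prop) continuous_const
  exact this.measurableSet

theorem Pole_integrable_ball (r : ℝ) :
    Integrable (fun w : (M × E) × (M × E) => (closedBall w.1.1 r).indicator (fun _ => (1 : ℝ)) w.2.1)
      (ν.prod ν) := by
  have h := (integrable_const (μ := ν.prod ν) (1 : ℝ)).indicator (Pole_measurableSet_ball r)
  refine h.congr (.of_forall fun w => ?_)
  beta_reduce
  by_cases hw : w.2.1 ∈ closedBall w.1.1 r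
  · rw [indicator_of_mem hw]
    exact indicator_of_mem (a := w) hw _
  · rw [indicator_of_notMem hw]
    exact indicator_of_notMem (a := w) hw _

theorem Pole_integral_ball (p : M) (r : ℝ) :
    ∫ z', (closedBall p r).indicator (fun _ => (1 : ℝ)) z'.1 ∂ν = ν.fst.real (closedBall p r) := by
  have h1 : (fun z' : M × E => (closedBall p r).indicator (fun _ => (1 : ℝ)) z'.1)
      = (Prod.fst ⁻¹' closedBall p r).indicator fun _ => (1 : ℝ) := by
    funext z'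
    by_cases hw : z'.1 ∈ closedBall p r
    · rw [indicator_of_mem hw, indicator_of_mem (by exact hw)]
    · rw [indicator_of_notMem hw, indicator_of_notMem (by exact hw)]
  rw [h1, integral_indicator (measurable_fst measurableSet_closedBall), setIntegral_const,
    smul_eq_mul, mul_one, Measure.real, Measure.real, Measure.fst_apply measurableSet_closedBall]

theorem Pole_measurableSet_near (ε : ℝ) :
    MeasurableSet {w : (E × E) × (E × E) | ‖w.2.1 - w.1.1‖ ≤ ε} :=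
  (isClosed_le (by fun_prop) continuous_const).measurableSet

theorem Pole_measurable_inner (μ : Measure (E × E)) [SFinite μ] (ε : ℝ) :
    Measurable fun z : E × E => ∫ z' in {z' : E × E | ‖z'.1 - z.1‖ ≤ ε}, ang z.2 z'.2 ∂μ := by
  have hc : Continuous fun w : (E × E) × (E × E) => ang w.1.2 w.2.2 :=
    continuous_ang.comp (f := fun w : (E × E) × (E × E) => (w.1.2, w.2.2)) (by fun_prop)
  have h1 := ((hc.measurable.indicator (Pole_measurableSet_near ε)).stronglyMeasurable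
    ).integral_prod_right' (ν := μ)
  convert h1.measurable using 2 with z
  have hs : MeasurableSet {z' : E × E | ‖z'.1 - z.1‖ ≤ ε} :=
    (isClosed_le (by fun_prop) continuous_const).measurableSet
  rw [← integral_indicator hs]
  rfl

/-- the angle energy at one scale -/
theorem Pole_energy (Kr : G.Ker) (hν : ∀ᵐ z ∂ν, ‖z.2‖ = 1) {L : ℝ} (hL1 : 1 ≤ L)
    (hL : ∀ i, ∀ p ∈ G.K i (5 / 2), ∀ q ∈ G.K i (5 / 2), dist p q ≤ L * ‖G.κ i p - G.κ i q‖)
    (i : Fin G.n) {t : ℝ} (ht : t ∈ Ioc 0 Kr.ε0) (ht1 : Kr.c2 * t ≤ 1) :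
    ∫ z in {z : E × E | ‖z.1‖ ≤ 1},
        (∫ z' in {z' : E × E | ‖z'.1 - z.1‖ ≤ Kr.c2 * t}, ang z.2 z'.2 ∂(G.nuc i ν)) ∂(G.nuc i ν)
      ≤ t ^ 4 / Kr.c2 * Kr.TT t ν ν + Kr.C1 * t ^ 2 / Kr.c2 *
        ∫ z, ν.fst.real (closedBall z.1 ((Kr.C0 + L * Kr.c2) * t)) ∂ν := by
  set r := (Kr.C0 + L * Kr.c2) * t with hr
  set g : (M × E) × (M × E) → ℝ := fun w =>
    t ^ 4 / Kr.c2 * qv (Kr.k t w.1.1 w.2.1) w.1.2 (J0 w.1.2) w.2.2 (J0 w.2.2)
      + Kr.C1 * t ^ 2 / Kr.c2 * (closedBall w.1.1 r).indicator (fun _ => (1 : ℝ)) w.2.1 with hg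
  have hI1 := Kr.integrable_TT t hν hν
  have hI2 := Pole_integrable_ball (ν := ν) r
  have hI : Integrable g (ν.prod ν) := (hI1.const_mul _).add (hI2.const_mul _)
  have hR : ∫ z, ∫ z', g (z, z') ∂ν ∂ν = t ^ 4 / Kr.c2 * Kr.TT t ν ν + Kr.C1 * t ^ 2 / Kr.c2 *
      ∫ z, ν.fst.real (closedBall z.1 r) ∂ν := by
    rw [← integral_prod g hI, hg, integral_add (hI1.const_mul _) (hI2.const_mul _),
      integral_const_mul, integral_const_mul, integral_prod _ hI1, integral_prod _ hI2]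
    simp only [Pole_integral_ball]
    rfl
  have hA : MeasurableSet {z : E × E | ‖z.1‖ ≤ 1} :=
    (isClosed_le (by fun_prop) continuous_const).measurableSet
  have hK : MeasurableSet {z : M × E | z.1 ∈ G.K i (5 / 2)} :=
    measurable_fst (measurableSet_K i (5 / 2))
  rw [← hR, ← integral_indicator hA,
    integral_nuc i ((Pole_measurable_inner (G.nuc i ν) (Kr.c2 * t)).indicator hA),
    ← integral_indicator hK]
  refine integral_mono_of_nonneg (.of_forall fun z => ?_) hI.integral_prod_left ?_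
  · exact indicator_nonneg (fun z _ => indicator_nonneg
      (fun z _ => integral_nonneg fun z' => ang_nonneg _ _) _) _
  filter_upwards [hν, hI.prod_right_ae] with z hz hIz
  have hg0 : ∀ᵐ z' ∂ν, 0 ≤ g (z, z') := by
    filter_upwards [hν] with z' hz'
    exact (Pole_pointwise Kr hL1 hL i ht ht1 hz hz').1
  have h0 : 0 ≤ ∫ z', g (z, z') ∂ν := integral_nonneg_of_ae hg0
  by_cases hzK : z ∈ {z : M × E | z.1 ∈ G.K i (5 / 2)}
  swap
  · rwa [indicator_of_notMem hzK]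
  rw [indicator_of_mem hzK]
  by_cases hzA : (G.κ i z.1, (G.fr i).A (G.κ i z.1) (G.Ti i z.1 z.2)) ∈ {z : E × E | ‖z.1‖ ≤ 1}
  swap
  · rwa [indicator_of_notMem hzA]
  rw [indicator_of_mem hzA]
  have hs : MeasurableSet {z' : E × E | ‖z'.1 - G.κ i z.1‖ ≤ Kr.c2 * t} :=
    (isClosed_le (by fun_prop) continuous_const).measurableSet
  have hc : Continuous fun z' : E × E => ang ((G.fr i).A (G.κ i z.1) (G.Ti i z.1 z.2)) z'.2 :=
    continuous_ang.comp
      (f := fun z' : E × E => ((G.fr i).A (G.κ i z.1) (G.Ti i z.1 z.2), z'.2)) (by fun_prop)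
  simp only
  rw [← integral_indicator hs, integral_nuc i (hc.measurable.indicator hs), ← integral_indicator hK]
  refine integral_mono_of_nonneg (.of_forall fun z' => ?_) hIz ?_
  · exact indicator_nonneg (fun z _ => indicator_nonneg (fun z _ => ang_nonneg _ _) _) _
  filter_upwards [hν, hg0] with z' hz' h0'
  by_cases hzK' : z' ∈ {z : M × E | z.1 ∈ G.K i (5 / 2)}
  swap
  · rwa [indicator_of_notMem hzK']
  rw [indicator_of_mem hzK']
  by_cases hzA' : (G.κ i z'.1, (G.fr i).A (G.κ i z'.1) (G.Ti i z'.1 z'.2))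
      ∈ {z' : E × E | ‖z'.1 - G.κ i z.1‖ ≤ Kr.c2 * t}
  swap
  · rwa [indicator_of_notMem hzA']
  rw [indicator_of_mem hzA']
  exact (Pole_pointwise Kr hL1 hL i ht ht1 hz hz').2 ⟨hzK.1, hzA⟩ hzK' hzA'

/-- (F2) the angle energy -/
theorem angle_energy (Kr : G.Ker) (hν : ∀ᵐ z ∂ν, ‖z.2‖ = 1) {m : ℝ} (hm : Mass ν.fst 0 m)
    {B : ℝ} (hB : ∀ᶠ ε in 𝓝[>] (0 : ℝ), Kr.TT ε ν ν ≤ B) (i : Fin G.n) :
    ∃ C c : ℝ, 0 < c ∧ ∀ ε ∈ Ioc 0 c,
      ∫ z in {z : E × E | ‖z.1‖ ≤ 1},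
        (∫ z' in {z' : E × E | ‖z'.1 - z.1‖ ≤ ε}, ang z.2 z'.2 ∂(G.nuc i ν)) ∂(G.nuc i ν)
          ≤ C * ε ^ 4 := by
  obtain ⟨L, hL1, hL⟩ := G.exists_lip
  obtain ⟨δ, hδ, hB'⟩ := mem_nhdsGT_iff_exists_Ioc_subset.1 hB
  have hδ0 : (0 : ℝ) < δ := hδ
  have hc := Kr.c2_pos
  have he := Kr.ε0_pos
  have hC0 := Kr.C0_ge
  have hC1 := Kr.C1_nonneg
  set R := Kr.C0 + L * Kr.c2 with hR
  have hR0 : 0 < R := by positivity
  refine ⟨(B + Kr.C1 * (m * R ^ 2 * ν.real univ)) / Kr.c2 ^ 5, min 1 (Kr.c2 * min Kr.ε0 δ),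
    by positivity, fun ε hε => ?_⟩
  obtain ⟨t, rfl⟩ : ∃ t, ε = Kr.c2 * t := ⟨ε / Kr.c2, by field_simp⟩
  have ht0 : 0 < t := (mul_pos_iff_of_pos_left hc).1 hε.1
  have ht2 : t ≤ min Kr.ε0 δ := le_of_mul_le_mul_left (hε.2.trans (min_le_right _ _)) hc
  have ht : t ∈ Ioc 0 Kr.ε0 := ⟨ht0, ht2.trans (min_le_left _ _)⟩
  have hTT : Kr.TT t ν ν ≤ B := hB' ⟨ht0, ht2.trans (min_le_right _ _)⟩
  have h1 := Pole_energy Kr hν hL1 (fun i p hp q hq => (hL i p hp q hq).1) i ht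
    (hε.2.trans (min_le_left _ _))
  refine h1.trans ?_
  have h2 : ∫ z, ν.fst.real (closedBall z.1 (R * t)) ∂ν ≤ m * (R * t) ^ 2 * ν.real univ := by
    have h3 : ∫ z, ν.fst.real (closedBall z.1 (R * t)) ∂ν ≤ ∫ _z, m * (R * t) ^ 2 ∂ν :=
      integral_mono_of_nonneg (.of_forall fun z => measureReal_nonneg) (integrable_const _)
        (.of_forall fun z => hm z.1 (R * t) (by positivity) (by positivity))
    rwa [integral_const, smul_eq_mul, mul_comm (ν.real univ)] at h3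
  have h3 := mul_le_mul_of_nonneg_left hTT (show 0 ≤ t ^ 4 / Kr.c2 by positivity)
  have h4 := mul_le_mul_of_nonneg_left h2 (show 0 ≤ Kr.C1 * t ^ 2 / Kr.c2 by positivity)
  have h5 : t ^ 4 / Kr.c2 * B + Kr.C1 * t ^ 2 / Kr.c2 * (m * (R * t) ^ 2 * ν.real univ)
      = (B + Kr.C1 * (m * R ^ 2 * ν.real univ)) / Kr.c2 ^ 5 * (Kr.c2 * t) ^ 4 := by
    field_simp
  linarith

theorem Pole_measurable_loc2 (i : Fin G.n) {Φ : M → Bil} (hΦ : Measurable Φ) :
    Measurable ((ball (0 : E) 3).indicator (G.loc2 i Φ)) := by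
  classical
  have hσ : Measurable ((ball (0 : E) 3).piecewise (G.κ i).symm fun _ => (G.κ i).symm 0) := by
    refine ContinuousOn.measurable_piecewise ?_ continuousOn_const measurableSet_ball
    rw [← G.tgt i]
    exact (G.κ i).continuousOn_symm
  have hc : Continuous fun w : Bil × End => pb w.1 w.2 := by
    rw [continuous_iff_continuousAt]
    intro w
    exact (ContDiffAt.pb (n := 0) contDiffAt_fst contDiffAt_snd).continuousAt
  have h1 := (hc.measurable.comp ((hΦ.comp hσ).prodMk ((G.T_meas i).comp hσ))).indicator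
    (measurableSet_ball (x := (0 : E)) (ε := 3))
  convert h1 using 1
  funext x
  by_cases hx : x ∈ ball (0 : E) 3
  · simp only [indicator_of_mem hx, Function.comp, piecewise_eq_of_mem _ _ _ hx, loc2]
  · simp only [indicator_of_notMem hx]

theorem Pole_memLp_loc2 (i : Fin G.n) {Φ : M → Bil} (hΦ : Measurable Φ) (h2 : MemLp Φ 2 G.V) :
    MemLp ((ball (0 : E) 3).indicator (G.loc2 i Φ)) 2 volume := by
  have hm := Pole_measurable_loc2 i hΦ
  rw [memLp_two_iff_integrable_sq_norm hm.aestronglyMeasurable]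
  obtain ⟨c, C', hc, hdet⟩ := G.exists_det_bound
  obtain ⟨C, hC, hT⟩ := G.exists_T_bound
  have hs : MeasurableSet (G.κ i).source := (G.κ i).open_source.measurableSet
  have hf : Measurable ((G.κ i).source.indicator fun p => ‖Φ p‖ ^ 2) :=
    (hΦ.norm.pow_const 2).indicator hs
  have hI : Integrable ((G.κ i).source.indicator fun p => ‖Φ p‖ ^ 2) G.V :=
    ((memLp_two_iff_integrable_sq_norm h2.aestronglyMeasurable).1 h2).indicator hs
  have h3 := (integral_chart i hf.stronglyMeasurable fun p hp => indicator_of_notMem hp _).1.1 hI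
  have h4 := ((integrable_indicator_iff measurableSet_ball).2 h3).const_mul (C ^ 4 / c)
  refine h4.mono' (hm.norm.pow_const 2).aestronglyMeasurable (.of_forall fun x => ?_)
  by_cases hx : x ∈ ball (0 : E) 3
  · rw [indicator_of_mem hx, indicator_of_mem hx, indicator_of_mem (symm_mem hx), smul_eq_mul,
      Real.norm_of_nonneg (by positivity)]
    have h5 : ‖G.loc2 i Φ x‖ ≤ ‖Φ ((G.κ i).symm x)‖ * C ^ 2 :=
      (norm_pb_le _ _).trans (by gcongr; exact (hT i _ (symm_mem hx)).1)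
    have h6 : ‖G.loc2 i Φ x‖ ^ 2 ≤ (‖Φ ((G.κ i).symm x)‖ * C ^ 2) ^ 2 := by gcongr
    have h7 : C ^ 4 / c * (c * ‖Φ ((G.κ i).symm x)‖ ^ 2)
        ≤ C ^ 4 / c * (((G.fr i).A x).det * ‖Φ ((G.κ i).symm x)‖ ^ 2) := by
      gcongr
      exact (hdet i x).1
    refine h6.trans (le_trans (le_of_eq ?_) h7)
    field_simp
  · rw [indicator_of_notMem hx, indicator_of_notMem hx]
    simp

theorem exists_locData (Kr : G.Ker) (hν : ∀ᵐ z ∂ν, ‖z.2‖ = 1) {m : ℝ} (hm0 : 0 ≤ m)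
    (hm : Mass ν.fst 0 m) {Φ : M → Bil} (hΦ : G.L2Am Φ)
    (hN : ∀ η, G.Z η → Tm ν η + ∫ p, wp (η p) (Φ p) ∂G.V = 0) (i : Fin G.n) :
    ∃ Λ m', LocData (G.fr i) (G.nuc i ν) Λ m' := by
  obtain ⟨C, -, hC⟩ := G.nuc_mass
  refine ⟨(ball (0 : E) 3).indicator (G.loc2 i Φ), C * m, nuc_unit hν i,
    Pole_measurable_loc2 i hΦ.meas, Pole_memLp_loc2 i hΦ.meas hΦ.mem, fun y => ?_, fun y => ?_,
    fun γ hγ hs => ?_, hC ν m hm0 hm i, ?_⟩
  · by_cases hy : y ∈ ball (0 : E) 3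
    · rw [indicator_of_mem hy]
      exact (hΦ.alt _).pb _
    · rw [indicator_of_notMem hy]
      exact Alt.zero
  · by_cases hy : y ∈ ball (0 : E) 3
    · rw [indicator_of_mem hy]
      exact anti_loc2 hy (hΦ.anti _)
    · rw [indicator_of_notMem hy]
      exact Anti.zero _
  · have hout : ∀ x : E, 2 < ‖x‖ → x ∉ tsupport γ := fun x hx h => by
      have := hs h
      rw [mem_ball_zero_iff] at this
      linarith
    have h0 : ∀ x ∈ ball (0 : E) 3, 2 < ‖x‖ → γ x = 0 := fun x _ hx =>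
      image_eq_zero_of_notMem_tsupport (hout x hx)
    have hd : Continuous (d1 γ) :=
      continuous_iff_continuousAt.2 fun x => (ContDiffAt.d1 hγ.contDiffAt).continuousAt
    have h1 := hN _ (S1_ext1 i hγ.contDiffOn (by norm_num) h0).Z
    rw [D1_ext1 i hγ.contDiffOn (by norm_num) h0,
      Tm_ext2 i hd fun x hx => Pole_d1_zero (hout x (by linarith)),
      integral_wp_ext2 i hd.measurable (alt_d1 γ) hΦ.meas hΦ.alt,
      ← integral_indicator measurableSet_ball] at h1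
    rw [← h1]
    congr 2
    funext y
    by_cases hy : y ∈ ball (0 : E) 3
    · rw [indicator_of_mem hy, indicator_of_mem hy]
    · rw [indicator_of_notMem hy, indicator_of_notMem hy, Pole_wp_zero]
  · have h := tendsto_TT Kr hν hν hm hm hΦ hN fun γ h => hN _ h.Z
    exact angle_energy Kr hν hm (h.eventually (eventually_le_nhds (lt_add_one _))) i

/-- (F3) -/
theorem closed_Lel (Kr : G.Ker) (hν : ∀ᵐ z ∂ν, ‖z.2‖ = 1) {m : ℝ} (hm0 : 0 ≤ m)
    (hm : Mass ν.fst 0 m) {Φ : M → Bil} (hΦ : G.L2Am Φ)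
    (hN : ∀ η, G.Z η → Tm ν η + ∫ p, wp (η p) (Φ p) ∂G.V = 0) {γ : M → Cov} (hγ : G.S1 γ) :
    Tm (ν.restrict {z | z.1 ∈ Lel ν.fst}) (G.D1 γ) = 0 := by
  obtain ⟨γ', hγ', rfl⟩ := hγ.decomp
  have hout : ∀ j (x : E), 1 < ‖x‖ → x ∉ tsupport (γ' j) := fun j x hx h => by
    have := (hγ' j).2 h
    rw [mem_closedBall_zero_iff] at this
    linarith
  have h0 : ∀ j, ∀ x ∈ ball (0 : E) 3, 1 < ‖x‖ → γ' j x = 0 := fun j x _ hx =>
    image_eq_zero_of_notMem_tsupport (hout j x hx)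
  have hS : ∀ j, G.S1 (G.ext1 j (γ' j)) := fun j =>
    S1_ext1 j (hγ' j).1.contDiffOn (by norm_num) (h0 j)
  have hν' : ∀ᵐ z ∂(ν.restrict {z | z.1 ∈ Lel ν.fst}), ‖z.2‖ = 1 := ae_restrict_of_ae hν
  rw [D1_sum fun j _ => hS j]
  have hsum : Tm (ν.restrict {z | z.1 ∈ Lel ν.fst}) (∑ j, G.D1 (G.ext1 j (γ' j)))
      = ∑ j, Tm (ν.restrict {z | z.1 ∈ Lel ν.fst}) (G.D1 (G.ext1 j (γ' j))) := by
    unfold Tm
    simp only [Finset.sum_apply, _root_.sum_apply]
    refine integral_finsetSum _ fun j _ => ?_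
    obtain ⟨C, -, hC⟩ := (hS j).Z.smooth.bdd
    exact integrable_Tm hν' (hS j).Z.smooth.measurable hC
  rw [hsum]
  refine Finset.sum_eq_zero fun j _ => ?_
  have hd : Continuous (d1 (γ' j)) :=
    continuous_iff_continuousAt.2 fun x => (ContDiffAt.d1 (hγ' j).1.contDiffAt).continuousAt
  rw [D1_ext1 j (hγ' j).1.contDiffOn (by norm_num) (h0 j),
    Tl_nuc_restrict j hd fun x hx => Pole_d1_zero (hout j x (by linarith))]
  obtain ⟨Λ, m', h⟩ := exists_locData Kr hν hm0 hm hΦ hN j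
  exact h.closed_Lel (hγ' j).1 (hγ' j).2

end Geo

end Crest.Agent.R240

end
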