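import Crest.Agent.R240.CurR
import Crest.Agent.R240.OpL2
import Crest.Agent.R240.Small

/-!
# Row 240: the approximate identity `Ker.Q`
-/

set_option autoImplicit false
set_option linter.unusedSectionVars false
set_option linter.unusedVariables false

open MeasureTheory Metric Set Filter Topology
open scoped ContDiff ENNReal

noncomputable section

namespace Crest.Agent.R240

theorem QOp_neg {F : Type*} [NormedAddCommGroup F] [NormedSpace ℝ F] {s : ℕ} {g : E → F} {x : E}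
    {c : ℝ} (h : JB s g x c) : JB s (fun y => -g y) x c := fun j hj => by
  have e : iteratedFDeriv ℝ j (fun y => -g y) x = -iteratedFDeriv ℝ j g x :=
    iteratedFDeriv_neg_apply
  rw [e, norm_neg]
  exact h j hj

theorem QOp_near {x : E} (hx : ‖x‖ ≤ 1) : ∀ᶠ y in 𝓝 x, ‖y‖ ≤ 2 := by
  have : x ∈ ball (0 : E) 2 := mem_ball_zero_iff.2 (by linarith)
  filter_upwards [isOpen_ball.mem_nhds this] with y hy using (mem_ball_zero_iff.1 hy).le

theorem QOp_ball {x : E} (hx : ‖x‖ ≤ 2) : x ∈ ball (0 : E) 3 :=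
  mem_ball_zero_iff.2 (by linarith)

theorem QOp_unif {ι : Type*} [Fintype ι] {P : ι → ℝ → Prop} (h : ∀ i, ∃ C, 0 ≤ C ∧ P i C)
    (hm : ∀ i C C', 0 ≤ C → C ≤ C' → P i C → P i C') : ∃ C, 0 ≤ C ∧ ∀ i, P i C := by
  choose C h0 hC using h
  exact ⟨∑ i, C i, Finset.sum_nonneg fun i _ => h0 i, fun i => hm i _ _ (h0 i)
    (Finset.single_le_sum (fun j _ => h0 j) (Finset.mem_univ i)) (hC i)⟩

namespace Geo

variable {M : Type*} [MetricSpace M] [CompactSpace M] [MeasurableSpace M] [BorelSpace M]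
  {G : Geo M}

/-- the kernel of `Q` in a chart -/
def Ker.KA (Kr : G.Ker) (i : Fin G.n) (z : E × E × ℝ) : Bil →L[ℝ] Bil :=
  (amL ((G.fr i).J z.1)).comp (contrL (Kr.Kb i z))

theorem Ker.isK_KA (Kr : G.Ker) (i : Fin G.n) : IsK Kr.C0 (Kr.KA i) := by
  refine ⟨contDiff_iff_contDiffAt.2 fun z => ?_, fun x w t h => ?_⟩
  · exact (ContDiffAt.amL ((G.fr i).J_smooth.comp contDiff_fst).contDiffAt).clm_comp
      (Kr.isK_contr i).smooth.contDiffAt
  · have := (Kr.isK_contr i).supp x w t h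
    simp only [Ker.KA] at this ⊢
    rw [this, ContinuousLinearMap.comp_zero]

theorem Ker.op_KA (Kr : G.Ker) (i : Fin G.n) {g : E → Bil} (hg : Continuous g) (t : ℝ) (x : E) :
    Op (Kr.KA i) t g x = amJ ((G.fr i).J x) (Op (fun z => contrL (Kr.Kb i z)) t g x) :=
  (amL ((G.fr i).J x)).integral_comp_comm ((Kr.isK_contr i).integrable hg t x)

theorem Ker.loc2_Q (Kr : G.Ker) {t : ℝ} (ht : t ∈ Ioc 0 Kr.ε0) {φ : M → Bil} (hφ : G.S2 φ)
    (ha : ∀ p, Alt (φ p)) (i : Fin G.n) {x : E} (hx : ‖x‖ ≤ 2) :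
    G.loc2 i (Kr.Q t φ) x = Op (Kr.KA i) t (G.rep2 i φ) x := by
  rw [Kr.op_KA i (hφ.rep2 i).continuous, ← Kr.Kop_loc ht hφ ha i hx]
  exact loc2_am (QOp_ball hx) _

theorem QOp_alt_rep2 {φ : M → Bil} (ha : ∀ p, Alt (φ p)) (i : Fin G.n) (x : E) :
    Alt (G.rep2 i φ x) := ((ha _).pb _).smul _

theorem Ker.op_KA_zero (Kr : G.Ker) {g : M → Bil} (hg : G.Am g) (i : Fin G.n) {x : E}
    (hx : ‖x‖ ≤ 2) : Op (Kr.KA i) 0 (G.rep2 i g) x = G.loc2 i g x := by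
  rw [Kr.op_KA i (hg.smooth.rep2 i).continuous, Kr.Op_zero i hx (QOp_alt_rep2 hg.alt i x),
    rep2_eq i g (by linarith)]
  exact (anti_loc2 (QOp_ball hx) (hg.anti _)).amJ

theorem Ker.scale (Kr : G.Ker) {t : ℝ} (ht : t ∈ Ioc 0 Kr.ε0) :
    t ∈ Icc (0 : ℝ) 1 ∧ 0 ≤ Kr.C0 * t ∧ Kr.C0 * t ≤ 1 / 10 := by
  have h0 : 0 ≤ Kr.C0 := zero_le_one.trans Kr.C0_ge
  exact ⟨⟨ht.1.le, ht.2.trans Kr.ε0_le⟩, mul_nonneg h0 ht.1.le,
    (mul_le_mul_of_nonneg_left ht.2 h0).trans Kr.small⟩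

theorem QOp_jb_near (G : Geo M) (s : ℕ) : ∃ L C : ℝ, 1 ≤ L ∧ 1 ≤ C ∧ ∀ g, G.S2 g → ∀ i,
    ∀ p ∈ G.K i 1, ∀ r c : ℝ, r ≤ 1 / 10 → (∀ p', dist p p' ≤ L * r → G.jn s g p' ≤ c) →
      ∀ y, ‖y - G.κ i p‖ ≤ r → JB s (G.rep2 i g) y (C * c) := by
  obtain ⟨L, hL, hlip⟩ := G.exists_lip
  obtain ⟨C, hC, hjb⟩ := G.jb_le_jn s
  refine ⟨L, C, hL, hC, fun g hg i p hp r c hr hc y hy => ?_⟩
  have hy1 : ‖y‖ ≤ 11 / 10 := by
    have := norm_add_le (y - G.κ i p) (G.κ i p)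
    rw [sub_add_cancel] at this
    linarith [hp.2]
  have hy3 : y ∈ ball (0 : E) 3 := QOp_ball (by linarith)
  have hK : (G.κ i).symm y ∈ G.K i (11 / 10) := symm_mem_K (by norm_num) hy1
  have h1 := (hlip i p (K_mono i (by norm_num) hp) _ (K_mono i (by norm_num) hK)).1
  rw [map_symm hy3, norm_sub_rev] at h1
  have h2 := hc _ (h1.trans (mul_le_mul_of_nonneg_left hy (by linarith)))
  have h3 := hjb g hg i _ (K_mono i (by norm_num) hK)
  rw [map_symm hy3] at h3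
  exact (h3.mono le_rfl (mul_le_mul_of_nonneg_left h2 (by linarith))).congr
    (rep2_eventuallyEq i g (by linarith))

theorem Ker.Q_am (Kr : G.Ker) (ε : ℝ) {g : M → Bil} (h : G.S2 g) : G.Am (Kr.Q ε g) :=
  Am.of_am (Kop_smooth (Kr.smooth ε) h.integrable) (Kr.alt_Kop ε h.integrable)

/-- (Q1) -/
theorem Ker.jn_sub_Q (Kr : G.Ker) (s : ℕ) : ∃ C : ℝ, 1 ≤ C ∧ ∀ t ∈ Ioc 0 Kr.ε0, ∀ g, G.Am g →
    ∀ p c, 0 ≤ c → (∀ p', dist p p' ≤ C * t → G.jn (s + 1) g p' ≤ c) →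
      G.jn s (g - Kr.Q t g) p ≤ C * t * c := by
  obtain ⟨L, C, hL, hC, hnear⟩ := G.QOp_jb_near (s + 1)
  obtain ⟨C', hC', hop⟩ := QOp_unif (fun i => (Kr.isK_KA i).jb_op_sub s 1)
    fun i C C' _ hCC h g hg t ht x hx c hc => (h g hg t ht x hx c hc).mono le_rfl <| by
      have := (hc x (by
        rw [sub_self, norm_zero]
        exact mul_nonneg (zero_le_one.trans Kr.C0_ge) ht.1)).nonneg
      have := ht.1
      gcongr
  have hC0 := Kr.C0_ge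
  have h1 : 1 ≤ L * Kr.C0 := one_le_mul_of_one_le_of_one_le hL hC0
  have h2 : (0 : ℝ) ≤ G.n * (s + 1) * (C' * C) := by positivity
  refine ⟨L * Kr.C0 + G.n * (s + 1) * (C' * C), by linarith, fun t ht g hg p c hc h => ?_⟩
  obtain ⟨ht1, ht2, ht3⟩ := Kr.scale ht
  have ht0 := ht.1
  have key : G.jn s (g - Kr.Q t g) p ≤ G.n * (s + 1) * (C' * t * (C * c)) := by
    refine jn_le_of_jb (by positivity) fun i hp => ?_
    refine (QOp_neg (hop i _ (hg.smooth.rep2 i) t ht1 _ hp.2 _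
      (hnear g hg.smooth i p hp _ c ht3 fun p' hp' => h p' (hp'.trans ?_)))).congr ?_
    · nlinarith
    · filter_upwards [QOp_near hp.2] with y hy
      rw [loc2_sub, Kr.op_KA_zero hg i hy, ← Kr.loc2_Q ht hg.smooth hg.alt i hy, neg_sub]
  refine key.trans ?_
  have h3 : 0 ≤ L * Kr.C0 * t * c := by positivity
  nlinarith

/-- (Q2) -/
theorem Ker.jn_Q (Kr : G.Ker) (s : ℕ) : ∃ C : ℝ, 1 ≤ C ∧ ∀ t ∈ Ioc 0 Kr.ε0, ∀ g, G.Am g →
    ∀ p c, 0 ≤ c → (∀ p', dist p p' ≤ C * t → G.jn s g p' ≤ c) →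
      G.jn s (Kr.Q t g) p ≤ C * c := by
  obtain ⟨L, C, hL, hC, hnear⟩ := G.QOp_jb_near s
  obtain ⟨C', hC', hop⟩ := QOp_unif (fun i => (Kr.isK_KA i).jb_op s 1)
    fun i C C' _ hCC h g hg t ht x hx c hc => (h g hg t ht x hx c hc).mono le_rfl <| by
      have := (hc x (by
        rw [sub_self, norm_zero]
        exact mul_nonneg (zero_le_one.trans Kr.C0_ge) ht.1)).nonneg
      gcongr
  have hC0 := Kr.C0_ge
  have h1 : 1 ≤ L * Kr.C0 := one_le_mul_of_one_le_of_one_le hL hC0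
  have h2 : (0 : ℝ) ≤ G.n * (s + 1) * (C' * C) := by positivity
  refine ⟨L * Kr.C0 + G.n * (s + 1) * (C' * C), by linarith, fun t ht g hg p c hc h => ?_⟩
  obtain ⟨ht1, ht2, ht3⟩ := Kr.scale ht
  have ht0 := ht.1
  have key : G.jn s (Kr.Q t g) p ≤ G.n * (s + 1) * (C' * (C * c)) := by
    refine jn_le_of_jb (by positivity) fun i hp => ?_
    refine (hop i _ (hg.smooth.rep2 i) t ht1 _ hp.2 _
      (hnear g hg.smooth i p hp _ c ht3 fun p' hp' => h p' (hp'.trans ?_))).congr ?_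
    · nlinarith
    · filter_upwards [QOp_near hp.2] with y hy
      exact Kr.loc2_Q ht hg.smooth hg.alt i hy
  refine key.trans ?_
  have h3 : 0 ≤ L * Kr.C0 * c := by positivity
  nlinarith

/-- on invariant forms the kernel of `Q` is divisible by the scale -/
theorem Ker.exists_inv_kernel (Kr : G.Ker) (i : Fin G.n) : ∃ K : E × E × ℝ → Bil →L[ℝ] Bil,
    IsK Kr.C0 K ∧ ∀ g : E → Bil, (∀ y, Alt (g y)) → (∀ y, amJ ((G.fr i).J y) (g y) = 0) →
      ∀ t x, ‖x‖ ≤ 2 → Op (Kr.KA i) t g x = t • Op K t g x := by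
  let K2 : E × E × ℝ → Bil →L[ℝ] Bil := fun z => (Kr.KA i z).comp
    ((ContinuousLinearMap.id ℝ Bil - amL ((G.fr i).J (z.1 + z.2.2 • z.2.1))).comp altL)
  have hK2 : IsK Kr.C0 K2 := by
    refine ⟨contDiff_iff_contDiffAt.2 fun z => ?_, fun x w t h => ?_⟩
    · refine (Kr.isK_KA i).smooth.contDiffAt.clm_comp (ContDiffAt.clm_comp
        (contDiffAt_const.sub (ContDiffAt.amL ?_)) contDiffAt_const)
      exact ((G.fr i).J_smooth.comp (f := fun z : E × E × ℝ => z.1 + z.2.2 • z.2.1)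
        (by fun_prop)).contDiffAt
    · simp only [K2]
      rw [(Kr.isK_KA i).supp x w t h, ContinuousLinearMap.zero_comp]
  obtain ⟨K, hK, hK'⟩ := hK2.hadamard
  refine ⟨K, hK, fun g ha h0 t x hx => ?_⟩
  have hz : ∀ w, K2 (x, w, 0) = 0 := by
    intro w
    refine ContinuousLinearMap.ext fun β => ?_
    have h1 : Alt (altL β - amJ ((G.fr i).J x) (altL β)) :=
      (alt_altL β).sub ((alt_altL β).amJ _)
    have h2 : amJ ((G.fr i).J x) (altL β - amJ ((G.fr i).J x) (altL β)) = 0 := by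
      rw [← amL_apply, map_sub, amL_apply, amL_apply, (anti_amJ ((G.fr i).J_J x) _).amJ, sub_self]
    have h3 : ∀ (c : ℝ) (φ : Bil), contr (c • vol) φ = c • contr vol φ := fun c φ => by
      ext u v
      simp only [contr_apply, qv_smul, wp_smul_left, _root_.smul_apply, smul_eq_mul]
    simp only [K2, Ker.KA, ContinuousLinearMap.comp_apply, _root_.sub_apply,
      ContinuousLinearMap.id_apply, zero_smul, add_zero, amL_apply, contrL_apply,
      _root_.zero_apply]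
    rw [Kr.Kb_zero i x (mem_closedBall_zero_iff.2 hx), pbQ_vol, smul_smul, h3, contr_vol h1,
      ← amL_apply, map_smul, amL_apply, h2, smul_zero]
  rw [Op, Op, ← integral_smul]
  refine integral_congr_ae (Eventually.of_forall fun w => ?_)
  have h4 : K2 (x, w, t) (g (x + t • w)) = Kr.KA i (x, w, t) (g (x + t • w)) := by
    simp only [K2, ContinuousLinearMap.comp_apply, _root_.sub_apply,
      ContinuousLinearMap.id_apply, amL_apply]
    rw [(ha _).altL, h0, sub_zero]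
  simp only
  rw [← h4, hK', hz, zero_add, _root_.smul_apply]

theorem QOp_am_rep2 {φ : M → Bil} (h0 : ∀ p, am (φ p) = 0) (i : Fin G.n) (y : E) :
    amJ ((G.fr i).J y) (G.rep2 i φ y) = 0 := by
  rw [rep2, ← amL_apply, map_smul, amL_apply]
  by_cases hy : y ∈ ball (0 : E) 3
  · rw [← loc2_am hy]
    simp only [loc2, h0, pb_zero, smul_zero]
  · rw [bump_zero (by rw [mem_ball_zero_iff] at hy; linarith [not_lt.1 hy]), zero_smul]

theorem QOp_int (G : Geo M) : ∃ C : ℝ, 1 ≤ C ∧ ∀ φ, G.S2 φ → ∀ i, ∀ p ∈ G.K i 1, ∀ r, 0 ≤ r →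
    r ≤ 1 / 10 → ∫ y in closedBall (G.κ i p) r, ‖G.rep2 i φ y‖
      ≤ C * ∫ q in closedBall p (C * r), ‖φ q‖ ∂G.V := by
  obtain ⟨C, hC, hch⟩ := G.setIntegral_chart_le
  obtain ⟨T, hT, hTb⟩ := G.exists_T_bound
  have hT2 : 1 ≤ T ^ 2 := one_le_pow₀ hT
  refine ⟨T ^ 2 * C, one_le_mul_of_one_le_of_one_le hT2 hC, fun φ hφ i p hp r hr hr' => ?_⟩
  have hsub : ∀ y ∈ closedBall (G.κ i p) r, ‖y‖ ≤ 2 := fun y hy => by
    have := norm_add_le (y - G.κ i p) (G.κ i p)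
    rw [sub_add_cancel] at this
    rw [mem_closedBall, dist_eq_norm] at hy
    linarith [hp.2]
  have hc : ContinuousOn (fun y => ‖φ ((G.κ i).symm y)‖) (closedBall (G.κ i p) r) :=
    hφ.continuous_norm.comp_continuousOn ((G.κ i).continuousOn_symm.mono fun y hy => by
      rw [G.tgt]; exact QOp_ball (hsub y hy))
  calc ∫ y in closedBall (G.κ i p) r, ‖G.rep2 i φ y‖
      ≤ ∫ y in closedBall (G.κ i p) r, T ^ 2 * ‖φ ((G.κ i).symm y)‖ := by
        refine setIntegral_mono_on ((hφ.rep2 i).continuous.norm.continuousOn.integrableOn_compact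
          (isCompact_closedBall _ _)) ((hc.integrableOn_compact
            (isCompact_closedBall _ _)).const_mul _) measurableSet_closedBall fun y hy => ?_
        rw [rep2_eq i φ (by linarith [hsub y hy]), mul_comm]
        refine (norm_pb_le _ _).trans ?_
        have := (hTb i _ (symm_mem (QOp_ball (hsub y hy)))).1
        gcongr
    _ ≤ T ^ 2 * (C * ∫ q in closedBall p (C * r), ‖φ q‖ ∂G.V) := by
        rw [integral_const_mul]
        gcongr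
        exact hch i p (K_mono i (by norm_num) hp) r hr (by linarith) _
          hφ.continuous_norm.measurable (fun _ => norm_nonneg _) hφ.integrable.norm
    _ ≤ T ^ 2 * (C * ∫ q in closedBall p (T ^ 2 * C * r), ‖φ q‖ ∂G.V) := by
        refine mul_le_mul_of_nonneg_left (mul_le_mul_of_nonneg_left ?_ (by linarith)) (by linarith)
        refine setIntegral_mono_set hφ.integrable.norm.integrableOn
          (Eventually.of_forall fun _ => norm_nonneg _)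
          (closedBall_subset_closedBall ?_).eventuallyLE
        have : 0 ≤ C * r := by positivity
        nlinarith
    _ = _ := by ring

/-- (Q3) invariant forms gain one power of the scale -/
theorem Ker.jn_Q_inv (Kr : G.Ker) : ∃ C : ℝ, 1 ≤ C ∧ ∀ t ∈ Ioc 0 Kr.ε0, ∀ φ, G.S2 φ →
    (∀ p, Alt (φ p)) → (∀ p, am (φ p) = 0) → ∀ p, ∀ s ≤ 4,
      G.jn s (Kr.Q t φ) p
        ≤ C * t * t⁻¹ ^ (s + 4) * ∫ q in closedBall p (C * t), ‖φ q‖ ∂G.V := by
  choose K hK hKe using Kr.exists_inv_kernel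
  obtain ⟨C, hC, hint⟩ := G.QOp_int
  obtain ⟨C', hC', hop⟩ := QOp_unif (fun i => (hK i).jb_op_smoothing 4 1)
    fun i C C' _ hCC h g hg t ht x hx j hj => (h g hg t ht x hx j hj).trans <| by
      have := ht.1
      have : 0 ≤ ∫ y in closedBall x (Kr.C0 * t), ‖g y‖ := integral_nonneg fun _ => norm_nonneg _
      gcongr
  have hC0 := Kr.C0_ge
  have h1 : 1 ≤ C * Kr.C0 := one_le_mul_of_one_le_of_one_le hC hC0
  have h2 : (0 : ℝ) ≤ G.n * 5 * (C' * C) := by positivity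
  refine ⟨C * Kr.C0 + G.n * 5 * (C' * C), by linarith, fun t ht φ hφ ha h0 p s hs => ?_⟩
  obtain ⟨ht1, ht2, ht3⟩ := Kr.scale ht
  have ht0 := ht.1
  set I := ∫ q in closedBall p ((C * Kr.C0 + G.n * 5 * (C' * C)) * t), ‖φ q‖ ∂G.V with hI
  have hI0 : 0 ≤ I := integral_nonneg fun _ => norm_nonneg _
  have hI1 : ∫ q in closedBall p (C * (Kr.C0 * t)), ‖φ q‖ ∂G.V ≤ I :=
    setIntegral_mono_set hφ.integrable.norm.integrableOn
      (Eventually.of_forall fun _ => norm_nonneg _)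
      (closedBall_subset_closedBall (by nlinarith)).eventuallyLE
  have key : G.jn s (Kr.Q t φ) p ≤ G.n * (s + 1) * (|t| * (C' * t⁻¹ ^ (s + 4) * (C * I))) := by
    refine jn_le_of_jb (by positivity) fun i hp => ?_
    refine (JB.const_smul (g := Op (K i) t (G.rep2 i φ)) (fun j hj => ?_)
      ((hK i).contDiff_op' (hφ.rep2 i) t).contDiffAt t).congr ?_
    · refine (hop i _ (hφ.rep2 i) t ⟨ht0, ht1.2⟩ _ hp.2 j (hj.trans hs)).trans ?_
      have h3 : 1 ≤ t⁻¹ := (one_le_inv₀ ht0).2 ht1.2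
      have h4 := (hint φ hφ i p hp _ ht2 ht3).trans (mul_le_mul_of_nonneg_left hI1 (by linarith))
      have h5 : 0 ≤ ∫ y in closedBall (G.κ i p) (Kr.C0 * t), ‖G.rep2 i φ y‖ :=
        integral_nonneg fun _ => norm_nonneg _
      gcongr
    · filter_upwards [QOp_near hp.2] with y hy
      rw [Kr.loc2_Q ht hφ ha i hy, hKe i _ (QOp_alt_rep2 ha i) (QOp_am_rep2 h0 i) t y hy]
  refine key.trans ?_
  rw [abs_of_pos ht0]
  have h6 : (s : ℝ) + 1 ≤ 5 := by exact_mod_cast Nat.succ_le_succ hs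
  calc (G.n : ℝ) * (s + 1) * (t * (C' * t⁻¹ ^ (s + 4) * (C * I)))
      ≤ G.n * 5 * (t * (C' * t⁻¹ ^ (s + 4) * (C * I))) := by gcongr
    _ = G.n * 5 * (C' * C) * t * t⁻¹ ^ (s + 4) * I := by ring
    _ ≤ _ := by gcongr; linarith

/-- (Q4) -/
theorem Ker.norm_Kop_sub (Kr : G.Ker) {φ : M → Bil} (h : G.S2 φ) (ha : ∀ p, Alt (φ p)) :
    ∃ C : ℝ, 0 ≤ C ∧ ∀ t ∈ Ioc 0 Kr.ε0, ∀ p, ‖G.Kop (Kr.k t) φ p - φ p‖ ≤ C * t := by
  obtain ⟨T, hT, hTb⟩ := G.exists_T_bound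
  obtain ⟨c, hc, hcb⟩ := h.exists_CB (0 + 1)
  obtain ⟨C, hC, hrep⟩ := G.jb_rep2 (0 + 1)
  choose C' hC' hop using fun i => (Kr.isK_contr i).jb_op_sub 0 1
  have hs : 0 ≤ ∑ i, C' i := Finset.sum_nonneg fun i _ => hC' i
  refine ⟨(∑ i, C' i) * (C * c) * T ^ 2, by positivity, fun t ht p => ?_⟩
  have ht0 := ht.1
  have hp := G.ch_source p
  have hx : ‖G.κ (G.ch p) p‖ ≤ 1 := (G.ch_lt p).le
  have h1 := (hop (G.ch p) _ (h.rep2 (G.ch p)) t (Kr.scale ht).1 _ hx _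
    fun y _ => hrep φ h c hc hcb (G.ch p) y).norm_le
  rw [← Kr.Kop_loc ht h ha _ (by linarith), Kr.Op_zero _ (by linarith) (QOp_alt_rep2 ha _ _),
    rep2_eq _ φ (by linarith)] at h1
  have h2 := loc2_map hp (G.Kop (Kr.k t) φ - φ)
  rw [loc2_sub, Pi.sub_apply] at h2
  rw [← h2]
  refine (norm_pb_le _ _).trans ?_
  have h3 := (hTb _ p hp).2
  have h4 : C' (G.ch p) ≤ ∑ i, C' i := Finset.single_le_sum (fun j _ => hC' j) (Finset.mem_univ _)
  calc _ ≤ (∑ i, C' i) * t * (C * c) * T ^ 2 := by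
        gcongr
        refine h1.trans ?_
        gcongr
    _ = _ := by ring

theorem Ker.n2_Kop_le (Kr : G.Ker) : ∃ C : ℝ, 0 ≤ C ∧ ∀ t ∈ Ioc 0 Kr.ε0, ∀ Φ : M → Bil,
    Measurable Φ → MemLp Φ 2 G.V →
      MemLp (G.Kop (Kr.k t) Φ) 2 G.V ∧ √(G.n2 (G.Kop (Kr.k t) Φ)) ≤ C * √(G.n2 Φ) := by
  obtain ⟨C, hC, hK⟩ := Kr.norm_Kop_le
  obtain ⟨CV, hCV, hV⟩ := G.V_ball_le
  refine ⟨C * CV * Kr.C0 ^ 4, by positivity, fun t ht Φ hm hΦ => ?_⟩
  have ht0 := ht.1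
  obtain ⟨h1, h2⟩ := schur_ball G.V hm.norm hΦ.norm fun x => hV x _ (Kr.scale ht).2.1
  simp only [abs_norm] at h1 h2
  have h3 := hK t ht Φ (hΦ.integrable one_le_two)
  have h4 := h1.const_mul (C * t⁻¹ ^ 4)
  have h5 : MemLp (G.Kop (Kr.k t) Φ) 2 G.V :=
    h4.mono' (measurable_Kop (Kr.smooth t) hm).aestronglyMeasurable (Eventually.of_forall h3)
  refine ⟨h5, ?_⟩
  rw [← Real.sqrt_sq (show 0 ≤ C * CV * Kr.C0 ^ 4 by positivity), ← Real.sqrt_mul (sq_nonneg _)]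
  refine Real.sqrt_le_sqrt ?_
  calc G.n2 (G.Kop (Kr.k t) Φ)
      ≤ ∫ p, (C * t⁻¹ ^ 4 * ∫ q in closedBall p (Kr.C0 * t), ‖Φ q‖ ∂G.V) ^ 2 ∂G.V :=
        integral_mono h5.norm.integrable_sq h4.integrable_sq fun p =>
          pow_le_pow_left₀ (norm_nonneg _) (h3 p) 2
    _ = (C * t⁻¹ ^ 4) ^ 2 * ∫ p, (∫ q in closedBall p (Kr.C0 * t), ‖Φ q‖ ∂G.V) ^ 2 ∂G.V := by
        simp only [mul_pow (C * t⁻¹ ^ 4)]
        exact integral_const_mul _ _
    _ ≤ (C * t⁻¹ ^ 4) ^ 2 * ((CV * (Kr.C0 * t) ^ 4) ^ 2 * G.n2 Φ) := by gcongr; exact h2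
    _ = _ := by field_simp

theorem QOp_sqrt_n2_le {η : M → Bil} {c : ℝ} (hc : 0 ≤ c) (h : ∀ p, ‖η p‖ ≤ c) :
    √(G.n2 η) ≤ c * √(G.V.real univ) := by
  rw [← Real.sqrt_sq hc, ← Real.sqrt_mul (sq_nonneg _)]
  refine Real.sqrt_le_sqrt ((le_abs_self _).trans ?_)
  refine norm_integral_le_of_norm_le_const (μ := G.V) (f := fun p => ‖η p‖ ^ 2)
    (Eventually.of_forall fun p => ?_)
  rw [norm_pow, norm_norm]
  exact pow_le_pow_left₀ (norm_nonneg _) (h p) 2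

theorem Ker.tendsto_n2 (Kr : G.Ker) {Φ : M → Bil} (hΦ : G.L2Am Φ) :
    Tendsto (fun t => √(G.n2 (G.Kop (Kr.k t) Φ - Φ))) (𝓝[>] 0) (𝓝 0) := by
  obtain ⟨C, hC, hK⟩ := Kr.n2_Kop_le
  refine tendsto_order.2 ⟨fun a ha => Eventually.of_forall fun t =>
    ha.trans_le (Real.sqrt_nonneg _), fun a ha => ?_⟩
  have hδ : 0 < a / (2 * (C + 1)) := by positivity
  obtain ⟨g, hg, hgΦ⟩ := hΦ.approx _ (pow_pos hδ 2)
  obtain ⟨D, hD, hD'⟩ := Kr.norm_Kop_sub hg.smooth hg.alt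
  have h1 : √(G.n2 (Φ - g)) ≤ a / (2 * (C + 1)) := by
    rw [Real.sqrt_le_left hδ.le]
    exact hgΦ
  have h2 : G.n2 (g - Φ) = G.n2 (Φ - g) := by
    simp only [n2, Pi.sub_apply, norm_sub_rev (g _)]
  have h3 : Tendsto (fun t : ℝ => D * t * √(G.V.real univ)) (𝓝[>] 0) (𝓝 0) := by
    have : Continuous fun t : ℝ => D * t * √(G.V.real univ) := by fun_prop
    simpa using (this.tendsto 0).mono_left nhdsWithin_le_nhds
  filter_upwards [Ioc_mem_nhdsGT Kr.ε0_pos, h3.eventually (gt_mem_nhds (half_pos ha))]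
    with t ht ht'
  have m1 : MemLp g 2 G.V := hg.smooth.memLp 2
  obtain ⟨m2, e2⟩ := hK t ht (Φ - g) (hΦ.meas.sub hg.smooth.measurable) (hΦ.mem.sub m1)
  have m3 : MemLp (G.Kop (Kr.k t) g - g) 2 G.V := (hK t ht g hg.smooth.measurable m1).1.sub m1
  have e : G.Kop (Kr.k t) Φ - Φ = G.Kop (Kr.k t) (Φ - g) + (G.Kop (Kr.k t) g - g) + (g - Φ) := by
    rw [Kop_sub (Kr.smooth t) (hΦ.mem.integrable one_le_two) hg.smooth.integrable]
    abel
  have e3 : √(G.n2 (G.Kop (Kr.k t) g - g)) ≤ D * t * √(G.V.real univ) :=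
    QOp_sqrt_n2_le (mul_nonneg hD ht.1.le) (hD' t ht)
  have e4 := sqrt_n2_add_le (m2.add m3) (m1.sub hΦ.mem)
  have e5 := sqrt_n2_add_le m2 m3
  have e6 : (C + 1) * √(G.n2 (Φ - g)) ≤ a / 2 :=
    (mul_le_mul_of_nonneg_left h1 (by positivity)).trans_eq (by field_simp)
  rw [e]
  rw [h2] at e4
  linarith

theorem Ker.tendsto_Kop (Kr : G.Ker) {Φ : M → Bil} (hΦ : G.L2Am Φ) :
    Tendsto (fun t => ∫ p, wp (G.Kop (Kr.k t) Φ p) (Φ p) ∂G.V) (𝓝[>] 0)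
      (𝓝 (2 * G.n2 Φ)) := by
  obtain ⟨C, hC, hK⟩ := Kr.n2_Kop_le
  have h1 : ∫ p, wp (Φ p) (Φ p) ∂G.V = 2 * G.n2 Φ := by
    simp only [wp_self_anti (hΦ.alt _) (hΦ.anti _)]
    exact integral_const_mul _ _
  have h2 : Tendsto (fun t => 6 * √(G.n2 (G.Kop (Kr.k t) Φ - Φ)) * √(G.n2 Φ)) (𝓝[>] 0) (𝓝 0) := by
    simpa using ((Kr.tendsto_n2 hΦ).const_mul 6).mul_const √(G.n2 Φ)
  rw [tendsto_iff_norm_sub_tendsto_zero]
  refine squeeze_zero' (Eventually.of_forall fun _ => norm_nonneg _) ?_ h2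
  filter_upwards [Ioc_mem_nhdsGT Kr.ε0_pos] with t ht
  have m := (hK t ht Φ hΦ.meas hΦ.mem).1
  rw [← h1, ← integral_sub (abs_integral_wp_le m hΦ.mem).1 (abs_integral_wp_le hΦ.mem hΦ.mem).1]
  simp only [← wp_sub_left]
  exact (abs_integral_wp_le (m.sub hΦ.mem) hΦ.mem).2

end Geo

end Crest.Agent.R240

end
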