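import Crest.Agent.R240.QOp

/-!
# Row 240: forms that are smooth at a given scale
-/

set_option autoImplicit false
set_option linter.unusedSectionVars false
set_option linter.unusedVariables false

open MeasureTheory Metric Set Filter Topology
open scoped ContDiff ENNReal

noncomputable section

namespace Crest.Agent.R240

namespace Geo

variable {M : Type*} [MetricSpace M] [CompactSpace M] [MeasurableSpace M] [BorelSpace M]
  {G : Geo M}

theorem integrable_sq_of_bdd {h : M → ℝ} (hm : Measurable h) (h0 : ∀ p, 0 ≤ h p) {B : ℝ}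
    (hB : ∀ p, h p ≤ B) : Integrable (fun p => h p ^ 2) G.V := by
  refine Integrable.of_bound (hm.pow_const 2).aestronglyMeasurable (B ^ 2)
    (Eventually.of_forall fun p => ?_)
  rw [Real.norm_eq_abs, abs_of_nonneg (sq_nonneg _)]
  exact pow_le_pow_left₀ (h0 p) (hB p) 2

theorem sqrt_n2_le_of {g : M → Bil} {h : M → ℝ} (hm : Measurable h) (h0 : ∀ p, 0 ≤ h p) {B : ℝ}
    (hB : ∀ p, h p ≤ B) {a c : ℝ} (ha : 0 ≤ a) (hc : 0 ≤ c) (hi : ∫ p, h p ^ 2 ∂G.V ≤ c ^ 2)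
    (hg : ∀ p, ‖g p‖ ≤ a * h p) : √(G.n2 g) ≤ a * c := by
  rw [Real.sqrt_le_left (by positivity)]
  calc G.n2 g ≤ ∫ p, a ^ 2 * h p ^ 2 ∂G.V := by
        refine integral_mono_of_nonneg (Eventually.of_forall fun p => sq_nonneg _)
          ((integrable_sq_of_bdd hm h0 hB).const_mul _) (Eventually.of_forall fun p => ?_)
        simp only
        rw [← mul_pow]
        exact pow_le_pow_left₀ (norm_nonneg _) (hg p) 2
    _ = a ^ 2 * ∫ p, h p ^ 2 ∂G.V := integral_const_mul _ _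
    _ ≤ (a * c) ^ 2 := by rw [mul_pow]; exact mul_le_mul_of_nonneg_left hi (sq_nonneg _)

theorem dom_of_mul {ε : ℝ} {g : M → Bil} {h : M → ℝ} (hm : Measurable h) (h0 : ∀ p, 0 ≤ h p)
    {B : ℝ} (hB : ∀ p, h p ≤ B) {a c : ℝ} (ha : 0 ≤ a) (hi : ∫ p, h p ^ 2 ∂G.V ≤ c ^ 2)
    (hj : ∀ p p', dist p p' ≤ ε → ∀ s ≤ 4, G.jn s g p' ≤ ε⁻¹ ^ s * (a * h p)) :
    G.Dom ε g (a * c) := by
  refine ⟨fun p => a * h p, hm.const_mul a, fun p => mul_nonneg ha (h0 p),
    ⟨a * B, fun p => mul_le_mul_of_nonneg_left (hB p) ha⟩, ?_, hj⟩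
  simp only [mul_pow]
  rw [integral_const_mul]
  exact mul_le_mul_of_nonneg_left hi (sq_nonneg _)

theorem Dom.n2_le (G : Geo M) : ∃ C : ℝ, 0 ≤ C ∧ ∀ ε g c, 0 < ε → G.S2 g → 0 ≤ c → G.Dom ε g c →
    √(G.n2 g) ≤ C * c := by
  obtain ⟨C, hC, hj⟩ := jn_zero_equiv G
  refine ⟨C, by linarith, ?_⟩
  rintro ε g c hε - hc ⟨h, hm, h0, ⟨B, hB⟩, hi, hd⟩
  refine sqrt_n2_le_of hm h0 hB (by linarith) hc hi fun p => (hj g p).1.trans ?_
  have := hd p p (by simpa using hε.le) 0 (by norm_num)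
  rw [pow_zero, one_mul] at this
  exact mul_le_mul_of_nonneg_left this (by linarith)

/-- (D0) the trivial bound -/
theorem Cur.bd_trivial (ψ : G.Cur) : ∃ C : ℝ, 0 ≤ C ∧ ∀ ε ∈ Ioc (0 : ℝ) 1, ∀ g c, G.S2 g → 0 ≤ c →
    G.Dom ε g c → |ψ.N g| ≤ C * ε⁻¹ ^ 3 * c := by
  obtain ⟨C0, hC0, hb⟩ := ψ.bound
  obtain ⟨c0, hc0, hV⟩ := V_ball_ge G
  refine ⟨C0 * (√c0)⁻¹, by positivity, ?_⟩
  rintro ε ⟨hε, hε1⟩ g c hg hc ⟨h, hm, h0, ⟨B, hB⟩, hi, hd⟩
  have hs : 0 < √c0 := Real.sqrt_pos.2 hc0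
  have key : G.CB 1 g ((√c0)⁻¹ * ε⁻¹ ^ 3 * c) := by
    intro p'
    have hJ := jn_nonneg (G := G) 1 g p'
    set J := G.jn 1 g p'
    have hint := integrable_sq_of_bdd (G := G) hm h0 hB
    have h1 : ∫ p in closedBall p' ε, (ε * J) ^ 2 ∂G.V ≤ ∫ p in closedBall p' ε, h p ^ 2 ∂G.V := by
      refine setIntegral_mono_on (integrable_const _) hint.integrableOn measurableSet_closedBall
        fun p hp => ?_
      have h2 := hd p p' (mem_closedBall.1 hp) 1 (by norm_num)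
      refine pow_le_pow_left₀ (by positivity) ?_ 2
      calc ε * J ≤ ε * (ε⁻¹ ^ 1 * h p) := mul_le_mul_of_nonneg_left h2 hε.le
        _ = h p := by field_simp
    have h3 : ∫ p in closedBall p' ε, h p ^ 2 ∂G.V ≤ ∫ p, h p ^ 2 ∂G.V :=
      setIntegral_le_integral hint (Eventually.of_forall fun p => sq_nonneg _)
    rw [setIntegral_const, smul_eq_mul] at h1
    have h4 := hV p' ε hε.le hε1
    have h5 : (√c0 * ε ^ 3 * J) ^ 2 ≤ c ^ 2 := by
      calc (√c0 * ε ^ 3 * J) ^ 2 = c0 * ε ^ 4 * (ε * J) ^ 2 := by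
            rw [mul_pow, mul_pow, Real.sq_sqrt hc0.le]; ring
        _ ≤ G.V.real (closedBall p' ε) * (ε * J) ^ 2 :=
            mul_le_mul_of_nonneg_right h4 (sq_nonneg _)
        _ ≤ c ^ 2 := h1.trans (h3.trans hi)
    have h6 : √c0 * ε ^ 3 * J ≤ c := (pow_le_pow_iff_left₀ (by positivity) hc two_ne_zero).1 h5
    calc J = (√c0)⁻¹ * ε⁻¹ ^ 3 * (√c0 * ε ^ 3 * J) := by field_simp
      _ ≤ (√c0)⁻¹ * ε⁻¹ ^ 3 * c := mul_le_mul_of_nonneg_left h6 (by positivity)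
  calc |ψ.N g| ≤ C0 * ((√c0)⁻¹ * ε⁻¹ ^ 3 * c) := hb g _ hg key
    _ = C0 * (√c0)⁻¹ * ε⁻¹ ^ 3 * c := by ring

theorem Ker.dom_Q_inv (Kr : G.Ker) : ∃ C : ℝ, 0 ≤ C ∧ ∀ t ∈ Ioc 0 Kr.ε0, ∀ φ, G.S2 φ →
    (∀ p, Alt (φ p)) → (∀ p, am (φ p) = 0) → G.Dom t (Kr.Q t φ) (C * t * √(G.n2 φ)) := by
  obtain ⟨C, hC, hQ⟩ := Kr.jn_Q_inv
  obtain ⟨CV, hCV, hV⟩ := V_ball_le G
  refine ⟨C * (CV * (C + 1) ^ 4), by positivity, ?_⟩
  rintro t ⟨ht, ht1⟩ φ hφ ha hm
  have hC0 : 0 < C := by linarith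
  have hmn : Measurable fun q => ‖φ q‖ := hφ.continuous_norm.measurable
  have hint : Integrable (fun q => ‖φ q‖) G.V := hφ.integrable.norm
  have hL : MemLp (fun q => ‖φ q‖) 2 G.V := (hφ.memLp 2).norm
  have hs := (schur_ball G.V hmn hL (r := (C + 1) * t) (c := CV * ((C + 1) * t) ^ 4)
    fun x => hV x _ (by positivity)).2
  simp only [abs_norm] at hs
  have hn := n2_nonneg (G := G) φ
  have hi : ∫ p, (∫ q in closedBall p ((C + 1) * t), ‖φ q‖ ∂G.V) ^ 2 ∂G.V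
      ≤ (CV * ((C + 1) * t) ^ 4 * √(G.n2 φ)) ^ 2 := by
    rw [mul_pow, Real.sq_sqrt hn]; exact hs
  have := dom_of_mul (G := G) (ε := t) (g := Kr.Q t φ)
    (measurable_setIntegral_closedBall G.V hmn ((C + 1) * t))
    (fun p => integral_nonneg fun q => norm_nonneg _) (B := ∫ q, ‖φ q‖ ∂G.V)
    (fun p => setIntegral_le_integral hint (Eventually.of_forall fun q => norm_nonneg _))
    (a := C * t⁻¹ ^ 3) (by positivity) hi ?_
  · convert this using 1
    field_simp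
  · intro p p' hd s hs4
    refine (hQ t ⟨ht, ht1⟩ φ hφ ha hm p' s hs4).trans ?_
    have h1 : ∫ q in closedBall p' (C * t), ‖φ q‖ ∂G.V
        ≤ ∫ q in closedBall p ((C + 1) * t), ‖φ q‖ ∂G.V := by
      refine setIntegral_mono_set hint.integrableOn (Eventually.of_forall fun q => norm_nonneg _)
        (LE.le.eventuallyLE fun q hq => ?_)
      rw [mem_closedBall] at hq ⊢
      have := dist_triangle q p' p
      rw [dist_comm p' p] at this
      linarith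
    calc C * t * t⁻¹ ^ (s + 4) * ∫ q in closedBall p' (C * t), ‖φ q‖ ∂G.V
        ≤ C * t * t⁻¹ ^ (s + 4) * ∫ q in closedBall p ((C + 1) * t), ‖φ q‖ ∂G.V :=
          mul_le_mul_of_nonneg_left h1 (by positivity)
      _ = _ := by rw [pow_add]; field_simp

/-- the Tauberian step -/
theorem Ker.tauber (Kr : G.Ker) : ∃ C κ0 : ℝ, 0 ≤ C ∧ 0 < κ0 ∧ κ0 ≤ 1 ∧ ∀ κ ∈ Ioc 0 κ0,
    ∀ ε ∈ Ioc 0 Kr.ε0, ∀ g c, G.Am g → 0 ≤ c → G.Dom ε g c →
      (∀ l ≤ 4, G.Am ((fun u => u - Kr.Q (κ * ε) u)^[l] g) ∧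
        √(G.n2 ((fun u => u - Kr.Q (κ * ε) u)^[l] g)) ≤ C * c) ∧
      G.Dom (κ * ε) ((fun u => u - Kr.Q (κ * ε) u)^[4] g) (C * κ ^ 4 * c) := by
  choose Cs hCs hsub using Kr.jn_sub_Q
  obtain ⟨CQ, hCQ, hQ⟩ := Kr.jn_Q 4
  obtain ⟨C0, hC0, hj⟩ := jn_zero_equiv G
  obtain ⟨D, hD1, hDs, hDQ⟩ : ∃ D : ℝ, 1 ≤ D ∧ (∀ s < 4, Cs s ≤ D) ∧ CQ ≤ D := by
    have hnn : ∀ s ∈ Finset.range 4, 0 ≤ Cs s := fun s _ => by linarith [hCs s]
    have h0 := Finset.sum_nonneg hnn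
    refine ⟨CQ + ∑ s ∈ Finset.range 4, Cs s, by linarith, fun s hs => ?_, by linarith⟩
    have := Finset.single_le_sum hnn (Finset.mem_range.2 hs)
    linarith
  refine ⟨C0 * (D + 1) ^ 4, (4 * D + 1)⁻¹, by positivity, by positivity,
    inv_le_one_of_one_le₀ (by linarith), ?_⟩
  rintro κ ⟨hκ, hκ0⟩ ε ⟨hε, hε0⟩ g c hg hc ⟨h, hm, h0, ⟨B, hB⟩, hi, hd⟩
  have hκD : κ * (4 * D + 1) ≤ 1 := by
    calc κ * (4 * D + 1) ≤ (4 * D + 1)⁻¹ * (4 * D + 1) :=
          mul_le_mul_of_nonneg_right hκ0 (by linarith)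
      _ = 1 := inv_mul_cancel₀ (by linarith)
  have hκ1 : κ ≤ 1 := by nlinarith
  have ht0 : 0 < κ * ε := mul_pos hκ hε
  have ht : κ * ε ∈ Ioc 0 Kr.ε0 := ⟨ht0, (mul_le_of_le_one_left hε.le hκ1).trans hε0⟩
  set f : (M → Bil) → M → Bil := fun u => u - Kr.Q (κ * ε) u with hf
  have key : ∀ l : ℕ, G.Am (f^[l] g) ∧ ∀ p p', dist p p' ≤ ε - l * D * (κ * ε) → ∀ s ≤ 4,
      G.jn s (f^[l] g) p' ≤ (D + 1) ^ l * κ ^ (min l (4 - s)) * ε⁻¹ ^ s * h p := by
    intro l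
    induction l with
    | zero =>
      refine ⟨hg, fun p p' hp s hs => ?_⟩
      simpa using hd p p' (by simpa using hp) s hs
    | succ l ih =>
      obtain ⟨ha, hb⟩ := ih
      rw [Function.iterate_succ_apply']
      set u := f^[l] g
      refine ⟨ha.sub (Kr.Q_am _ ha.smooth), fun p p' hp s hs => ?_⟩
      have hp0 := h0 p
      have hnear : ∀ C', C' ≤ D → ∀ p'', dist p' p'' ≤ C' * (κ * ε) →
          dist p p'' ≤ ε - l * D * (κ * ε) := by
        intro C' hC' p'' hp''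
        have h1 := dist_triangle p p' p''
        have h2 : C' * (κ * ε) ≤ D * (κ * ε) := mul_le_mul_of_nonneg_right hC' ht0.le
        push_cast at hp
        linarith
      rcases hs.lt_or_eq with hs | rfl
      · have h1 := hsub s (κ * ε) ht u ha p'
          ((D + 1) ^ l * κ ^ (min l (4 - (s + 1))) * ε⁻¹ ^ (s + 1) * h p) (by positivity)
          fun p'' hp'' => hb p p'' (hnear _ (hDs s hs) p'' hp'') (s + 1) hs
        have h2 : min (l + 1) (4 - s) = min l (4 - (s + 1)) + 1 := by omega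
        refine h1.trans ?_
        rw [h2]
        calc Cs s * (κ * ε) * ((D + 1) ^ l * κ ^ (min l (4 - (s + 1))) * ε⁻¹ ^ (s + 1) * h p)
            = Cs s * ((D + 1) ^ l * κ ^ (min l (4 - (s + 1)) + 1) * ε⁻¹ ^ s * h p) := by
              rw [pow_succ, pow_succ]; field_simp
          _ ≤ (D + 1) * ((D + 1) ^ l * κ ^ (min l (4 - (s + 1)) + 1) * ε⁻¹ ^ s * h p) :=
              mul_le_mul_of_nonneg_right (by linarith [hDs s hs]) (by positivity)
          _ = _ := by ring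
      · have h1 := hQ (κ * ε) ht u ha p'
          ((D + 1) ^ l * κ ^ (min l (4 - 4)) * ε⁻¹ ^ 4 * h p) (by positivity)
          fun p'' hp'' => hb p p'' (hnear _ hDQ p'' hp'') 4 le_rfl
        have h2 := hb p p' (hnear 0 (by linarith) p' (by simp)) 4 le_rfl
        have h3 := jn_sub ha.smooth (Kr.Q_am (κ * ε) ha.smooth).smooth 4 p'
        simp only [Nat.sub_self, Nat.min_zero, pow_zero, mul_one] at h1 h2 ⊢
        have h4 : CQ * ((D + 1) ^ l * ε⁻¹ ^ 4 * h p) ≤ D * ((D + 1) ^ l * ε⁻¹ ^ 4 * h p) :=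
          mul_le_mul_of_nonneg_right hDQ (by positivity)
        calc G.jn 4 (f u) p' ≤ (D + 1) * ((D + 1) ^ l * ε⁻¹ ^ 4 * h p) := by
              simp only [hf]; linarith
          _ = _ := by ring
  have hrad : ∀ l : ℕ, l ≤ 4 → κ * ε ≤ ε - l * D * (κ * ε) := by
    intro l hl
    have h1 : (l : ℝ) ≤ 4 := by exact_mod_cast hl
    have h2 : (l : ℝ) * D * (κ * ε) ≤ 4 * D * (κ * ε) :=
      mul_le_mul_of_nonneg_right (mul_le_mul_of_nonneg_right h1 (by linarith)) ht0.le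
    have h3 : κ * (4 * D + 1) * ε ≤ 1 * ε := mul_le_mul_of_nonneg_right hκD hε.le
    linarith
  refine ⟨fun l hl => ⟨(key l).1, ?_⟩, ?_⟩
  · refine sqrt_n2_le_of hm h0 hB (by positivity) hc hi fun p => (hj _ p).1.trans ?_
    have h1 := (key l).2 p p (by simpa using ht0.le.trans (hrad l hl)) 0 (by norm_num)
    have h2 : κ ^ (min l (4 - 0)) ≤ 1 := pow_le_one₀ hκ.le hκ1
    have h3 : (D + 1) ^ l ≤ (D + 1) ^ 4 := pow_le_pow_right₀ (by linarith) hl
    have hp0 := h0 p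
    rw [mul_assoc]
    refine mul_le_mul_of_nonneg_left (h1.trans ?_) (by linarith)
    rw [pow_zero, mul_one]
    refine mul_le_mul_of_nonneg_right ?_ hp0
    calc (D + 1) ^ l * κ ^ (min l (4 - 0)) ≤ (D + 1) ^ l * 1 :=
          mul_le_mul_of_nonneg_left h2 (by positivity)
      _ ≤ _ := by rw [mul_one]; exact h3
  · refine dom_of_mul hm h0 hB (by positivity) hi fun p p' hp s hs => ?_
    refine ((key 4).2 p p' (hp.trans (by exact_mod_cast hrad 4 le_rfl)) s hs).trans ?_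
    have hp0 := h0 p
    have h1 : min 4 (4 - s) = 4 - s := by omega
    have h2 : κ ^ 4 = κ ^ (4 - s) * κ ^ s := by rw [← pow_add]; congr 1; omega
    rw [h1, h2]
    calc (D + 1) ^ 4 * κ ^ (4 - s) * ε⁻¹ ^ s * h p
        = 1 * ((D + 1) ^ 4 * κ ^ (4 - s) * ε⁻¹ ^ s * h p) := (one_mul _).symm
      _ ≤ C0 * ((D + 1) ^ 4 * κ ^ (4 - s) * ε⁻¹ ^ s * h p) :=
          mul_le_mul_of_nonneg_right hC0 (by positivity)
      _ = _ := by rw [mul_inv, mul_pow, inv_pow κ]; field_simp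

/-- smooth forms are smooth at every small scale -/
theorem dom_small (G : Geo M) : ∃ C : ℝ, 0 ≤ C ∧ ∀ g, G.S2 g → ∀ δ > 0,
    ∀ᶠ ε in 𝓝[>] (0 : ℝ), G.Dom ε g (C * √(G.n2 g) + δ) := by
  obtain ⟨C0, hC0, hj⟩ := jn_zero_equiv G
  refine ⟨2 * C0, by linarith, fun g hg δ hδ => ?_⟩
  obtain ⟨c4, hc4, hb4⟩ := hg.exists_CB 4
  obtain ⟨B, hB0, hB⟩ := hg.bdd
  set W := G.V.real univ with hW
  have hW0 : 0 ≤ W := measureReal_nonneg
  set δ' := δ / (W + 1) with hδ'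
  have hδ'0 : 0 < δ' := by positivity
  have huc := CompactSpace.uniformContinuous_of_continuous hg.continuous_norm
  obtain ⟨r, hr, hru⟩ := Metric.uniformContinuous_iff.1 huc (δ' / C0) (by positivity)
  have hev : ∀ᶠ ε in 𝓝[>] (0 : ℝ), ε ∈ Ioo 0 (min r (min 1 (δ' / (c4 + 1)))) :=
    Ioo_mem_nhdsGT (by positivity)
  filter_upwards [hev] with ε hε
  obtain ⟨hε0, hε1⟩ := hε
  simp only [lt_min_iff] at hε1
  obtain ⟨hεr, hε1, hεc⟩ := hε1
  have hC0' : 0 < C0 := by linarith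
  refine ⟨fun p => C0 * ‖g p‖ + δ', (hg.continuous_norm.measurable.const_mul _).add_const _,
    fun p => by positivity,
    ⟨C0 * B + δ', fun p => by linarith [mul_le_mul_of_nonneg_left (hB p) hC0'.le]⟩, ?_, ?_⟩
  · have hint : Integrable (fun p => ‖g p‖ ^ 2) G.V :=
      integrable_sq_of_bdd hg.continuous_norm.measurable (fun p => norm_nonneg _) hB
    have hn := n2_nonneg (G := G) g
    have h1 : ∫ p, (C0 * ‖g p‖ + δ') ^ 2 ∂G.V ≤ ∫ p, (2 * C0 ^ 2 * ‖g p‖ ^ 2 + 2 * δ' ^ 2) ∂G.V := by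
      refine integral_mono_of_nonneg (Eventually.of_forall fun p => sq_nonneg _)
        ((hint.const_mul _).add (integrable_const _)) (Eventually.of_forall fun p => ?_)
      simp only
      nlinarith [sq_nonneg (C0 * ‖g p‖ - δ')]
    rw [integral_add (hint.const_mul _) (integrable_const _), integral_const_mul, integral_const,
      smul_eq_mul] at h1
    have h2 : W * (2 * δ' ^ 2) ≤ δ ^ 2 := by
      have h3 : δ = δ' * (W + 1) := by rw [hδ']; field_simp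
      rw [h3]
      nlinarith [mul_nonneg (sq_nonneg δ') (sq_nonneg W), sq_nonneg δ']
    have h4 : √(G.n2 g) ^ 2 = G.n2 g := Real.sq_sqrt hn
    have h5 : 0 ≤ √(G.n2 g) := Real.sqrt_nonneg _
    have h6 : 0 ≤ C0 ^ 2 * G.n2 g := by positivity
    have h7 : 0 ≤ C0 * √(G.n2 g) * δ := by positivity
    have h8 : (2 * C0 * √(G.n2 g) + δ) ^ 2
        = 4 * (C0 ^ 2 * G.n2 g) + 4 * (C0 * √(G.n2 g) * δ) + δ ^ 2 := by
      rw [add_sq, mul_pow, h4]; ring
    rw [h8]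
    refine h1.trans ?_
    change 2 * C0 ^ 2 * G.n2 g + W * (2 * δ' ^ 2) ≤ _
    linarith
  · intro p p' hp s hs
    have hgp : 0 ≤ C0 * ‖g p‖ := by positivity
    rcases Nat.eq_zero_or_pos s with rfl | hs0
    · rw [pow_zero, one_mul]
      have h1 := hru (a := p') (b := p) (by rw [dist_comm]; linarith)
      rw [Real.dist_eq] at h1
      have h2 : ‖g p'‖ ≤ ‖g p‖ + δ' / C0 := by linarith [(abs_lt.1 h1).2]
      calc G.jn 0 g p' ≤ C0 * ‖g p'‖ := (hj g p').2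
        _ ≤ C0 * (‖g p‖ + δ' / C0) := mul_le_mul_of_nonneg_left h2 hC0'.le
        _ = _ := by field_simp
    · have h1 : 1 ≤ ε⁻¹ := one_le_inv₀ hε0 |>.2 hε1.le
      have h2 : ε⁻¹ ≤ ε⁻¹ ^ s := le_self_pow₀ h1 hs0.ne'
      have h3 : ε * (c4 + 1) ≤ δ' := (le_div_iff₀ (by linarith)).1 hεc.le
      calc G.jn s g p' ≤ c4 := (jn_mono hs g p').trans (hb4 p')
        _ ≤ c4 + 1 := by linarith
        _ = ε⁻¹ * (ε * (c4 + 1)) := by field_simp
        _ ≤ ε⁻¹ ^ s * (C0 * ‖g p‖ + δ') :=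
          mul_le_mul h2 (by linarith) (by positivity) (by positivity)

/-- localised forms -/
theorem dom_ext2 (G : Geo M) (C1 : ℝ) : ∃ C r0 : ℝ, 0 ≤ C ∧ 0 < r0 ∧ ∀ i, ∀ ε ∈ Ioc 0 r0,
    ∀ x : E, ‖x‖ ≤ 2 → ∀ η : E → Bil, ContDiff ℝ ∞ η → (∀ y, C1 * ε ≤ ‖y - x‖ → η y = 0) →
      ∀ b : ℝ, 0 ≤ b → (∀ y, ∀ j ≤ 4, ‖iteratedFDeriv ℝ j η y‖ ≤ b * ε⁻¹ ^ j) →
        G.Dom ε (G.ext2 i η) (C * b * ε ^ 2) := by
  choose Cs hCs hext using jn_ext2 G
  obtain ⟨L, hL, hlip⟩ := exists_lip G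
  obtain ⟨CV, hCV, hV⟩ := V_ball_le G
  obtain ⟨D, hD0, hDs⟩ : ∃ D : ℝ, 0 ≤ D ∧ ∀ s ≤ 4, Cs s ≤ D := by
    have hnn : ∀ s ∈ Finset.range 5, 0 ≤ Cs s := fun s _ => by linarith [hCs s]
    exact ⟨∑ s ∈ Finset.range 5, Cs s, Finset.sum_nonneg hnn,
      fun s hs => Finset.single_le_sum hnn (Finset.mem_range.2 (by omega))⟩
  set A := |C1| + 1 with hA
  have hA1 : 1 ≤ A := by linarith [abs_nonneg C1]
  have hCA : C1 ≤ A := by linarith [le_abs_self C1]
  refine ⟨D * (√CV * (L * A + 1) ^ 2), (4 * A)⁻¹, by positivity, by positivity, ?_⟩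
  rintro i ε ⟨hε, hεr⟩ x hx η hη hsupp b hb hjet
  have hεA : A * ε ≤ 1 / 4 := by
    calc A * ε ≤ A * (4 * A)⁻¹ := mul_le_mul_of_nonneg_left hεr (by linarith)
      _ = 1 / 4 := by field_simp
  have hε1 : ε ≤ 1 := by nlinarith
  have hsupp' : ∀ y, A * ε ≤ ‖y - x‖ → η y = 0 := fun y hy =>
    hsupp y ((mul_le_mul_of_nonneg_right hCA hε.le).trans hy)
  have hout : ∀ y, 5 / 2 < ‖y‖ → η y = 0 := by
    intro y hy
    refine hsupp' y ?_
    have := norm_sub_norm_le y x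
    linarith
  set x0 := (G.κ i).symm x
  have hx0 : x0 ∈ G.K i (5 / 2) := symm_mem_K (by norm_num) (by linarith)
  have hx3 : x ∈ ball (0 : E) 3 := by rw [mem_ball_zero_iff]; linarith
  set S := closedBall x0 ((L * A + 1) * ε) with hS
  have hSm : MeasurableSet S := measurableSet_closedBall
  have hi : ∫ p, (S.indicator (fun _ => (1 : ℝ)) p) ^ 2 ∂G.V
      ≤ (√CV * (L * A + 1) ^ 2 * ε ^ 2) ^ 2 := by
    have h1 : (fun p => (S.indicator (fun _ => (1 : ℝ)) p) ^ 2) = S.indicator fun _ => (1 : ℝ) := by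
      funext p; by_cases hp : p ∈ S <;> simp [hp]
    rw [h1, integral_indicator hSm, setIntegral_const, smul_eq_mul, mul_one]
    refine (hV x0 _ (by positivity)).trans (le_of_eq ?_)
    rw [mul_pow (√CV * _), mul_pow √CV, Real.sq_sqrt hCV.le]; ring
  have := dom_of_mul (G := G) (ε := ε) (g := G.ext2 i η) (h := S.indicator fun _ => (1 : ℝ))
    (measurable_const.indicator hSm) (fun p => indicator_nonneg (fun _ _ => zero_le_one) p) (B := 1)
    (fun p => indicator_le_self' (fun _ _ => zero_le_one) p) (a := D * b) (by positivity) hi ?_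
  · convert this using 1
    ring
  · intro p p' hp s hs
    have hinv : 1 ≤ ε⁻¹ := one_le_inv₀ hε |>.2 hε1
    by_cases hpS : p ∈ S
    · rw [indicator_of_mem hpS, mul_one]
      have h1 := hext s i η hη hout p' (b * ε⁻¹ ^ s) (by positivity) fun _ j hj =>
        (hjet _ j (hj.trans hs)).trans
          (mul_le_mul_of_nonneg_left (pow_le_pow_right₀ hinv hj) hb)
      calc G.jn s (G.ext2 i η) p' ≤ Cs s * (b * ε⁻¹ ^ s) := h1
        _ ≤ D * (b * ε⁻¹ ^ s) := mul_le_mul_of_nonneg_right (hDs s hs) (by positivity)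
        _ = _ := by ring
    · rw [indicator_of_notMem hpS, mul_zero, mul_zero]
      have h1 := hext s i η hη hout p' 0 le_rfl fun hp' => ?_
      · simpa using h1
      · refine JB.of_eventually_zero ?_
        have hfar : A * ε < ‖G.κ i p' - x‖ := by
          by_contra hcon
          push Not at hcon
          have h2 : ‖G.κ i p'‖ ≤ 5 / 2 := by
            have := norm_sub_norm_le (G.κ i p') x
            linarith
          have h3 := (hlip i p' ⟨hp'.1, h2⟩ x0 hx0).1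
          rw [map_symm hx3] at h3
          have h4 : L * ‖G.κ i p' - x‖ ≤ L * (A * ε) := mul_le_mul_of_nonneg_left hcon (by linarith)
          refine hpS ?_
          rw [hS, mem_closedBall]
          have := dist_triangle p p' x0
          linarith
        have hopen : IsOpen {y : E | A * ε < ‖y - x‖} :=
          isOpen_lt continuous_const (continuous_id.sub continuous_const).norm
        filter_upwards [hopen.mem_nhds hfar] with y hy
        exact hsupp' y (le_of_lt hy)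

end Geo

end Crest.Agent.R240

end
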