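import Crest.Agent.R240.Pull
import Crest.Agent.R240.OpL

/-!
# Row 240: the smoothed density ratio and its test forms
-/

set_option autoImplicit false
set_option linter.unusedSectionVars false
set_option linter.unusedVariables false

open MeasureTheory Metric Set Filter Topology
open scoped ContDiff ENNReal

noncomputable section

namespace Crest.Agent.R240

variable (Fr : Frame)

namespace ThetaAux

theorem sq_def (ε : ℝ) (x y : E) : sq Fr ε x y = ‖Fr.A x (y - x)‖ ^ 2 / ε ^ 2 := rfl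

theorem grad_def (ε : ℝ) (x : E) : grad Fr ε x = fun y =>
    bp (sq Fr ε x y) • (innerSL ℝ (J0 (Fr.A x (y - x)))).comp (Fr.A x) := rfl

theorem gcon_def (ε : ℝ) (x b : E) : gcon Fr ε x b = fun y =>
    bp (sq Fr ε x y) • (innerSL ℝ (J0 b)).comp (Fr.A x) := rfl

theorem exists_B : ∃ B : ℝ, 1 ≤ B ∧ ∀ x, ‖Fr.A x‖ ≤ B ∧ ‖Fr.A' x‖ ≤ B := by
  obtain ⟨C, hC⟩ := Fr.bdd
  exact ⟨max C 1, le_max_right _ _, fun x => ⟨(hC x).1.trans (le_max_left _ _),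
    (hC x).2.trans (le_max_left _ _)⟩⟩

theorem norm_le_A {B : ℝ} (hB : ∀ x, ‖Fr.A x‖ ≤ B ∧ ‖Fr.A' x‖ ≤ B) (x w : E) :
    ‖w‖ ≤ B * ‖Fr.A x w‖ := by
  conv_lhs => rw [← Fr.mul' x w]
  exact (Fr.A' x).le_of_opNorm_le (hB x).2 _

theorem one_le_sq {B : ℝ} (hB1 : 1 ≤ B) (hB : ∀ x, ‖Fr.A x‖ ≤ B ∧ ‖Fr.A' x‖ ≤ B) {ε : ℝ}
    (hε : 0 < ε) {x y : E} (h : B * ε ≤ ‖y - x‖) : 1 ≤ sq Fr ε x y := by
  rw [sq_def, le_div_iff₀ (by positivity), one_mul]
  have h1 := le_of_mul_le_mul_left (h.trans (norm_le_A Fr hB x (y - x))) (by linarith)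
  exact pow_le_pow_left₀ hε.le h1 2

theorem sq_smooth (ε : ℝ) (x : E) : ContDiff ℝ ∞ (sq Fr ε x) :=
  (((Fr.A x).contDiff.comp (contDiff_id.sub contDiff_const)).norm_sq ℝ).div_const _

theorem g0_smooth (x : E) :
    ContDiff ℝ ∞ fun y : E => (innerSL ℝ (J0 (Fr.A x (y - x)))).comp (Fr.A x) :=
  ((innerSL ℝ (E := E)).contDiff.comp (J0.contDiff.comp ((Fr.A x).contDiff.comp
    (contDiff_id.sub contDiff_const)))).clm_comp contDiff_const

theorem fderiv_bp (ε : ℝ) (x y X : E) : fderiv ℝ (fun y => bp (sq Fr ε x y)) y X =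
    -(ε⁻¹ ^ 2 * ap (sq Fr ε x y)) * inner ℝ (Fr.A x (y - x)) (Fr.A x X) := by
  have h1 : HasFDerivAt (fun y => Fr.A x (y - x)) (Fr.A x) y :=
    (Fr.A x).hasFDerivAt.comp y ((hasFDerivAt_id y).sub_const x)
  have h2 : HasFDerivAt (sq Fr ε x) _ y := h1.norm_sq.mul_const (ε ^ 2)⁻¹
  have h3 := (hasDerivAt_bp (sq Fr ε x y)).comp_hasFDerivAt y h2
  have h4 : fderiv ℝ (fun y => bp (sq Fr ε x y)) y = _ := h3.fderiv
  rw [h4]
  simp [-map_sub]
  ring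

theorem d1_g0 (x y X Y : E) :
    d1 (fun y : E => (innerSL ℝ (J0 (Fr.A x (y - x)))).comp (Fr.A x)) y X Y =
      2 * inner ℝ (J0 (Fr.A x X)) (Fr.A x Y) := by
  have hd := ((g0_smooth Fr x).differentiable (by simp)) y
  have key : ∀ u v, fderiv ℝ (fun y : E => (innerSL ℝ (J0 (Fr.A x (y - x)))).comp (Fr.A x)) y u v
      = inner ℝ (J0 (Fr.A x u)) (Fr.A x v) := by
    intro u v
    rw [fderiv_cov_apply hd]
    have h0 : HasFDerivAt (fun y => Fr.A x (y - x)) (Fr.A x) y :=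
      (Fr.A x).hasFDerivAt.comp y ((hasFDerivAt_id y).sub_const x)
    have h1 : HasFDerivAt (fun y => J0 (Fr.A x (y - x))) (J0.comp (Fr.A x)) y :=
      J0.hasFDerivAt.comp y h0
    have h2 := (innerSL ℝ (Fr.A x v)).hasFDerivAt.comp y h1
    have h3 : (fun y => ((innerSL ℝ (J0 (Fr.A x (y - x)))).comp (Fr.A x)) v) =
        (innerSL ℝ (Fr.A x v)) ∘ fun y => J0 (Fr.A x (y - x)) := by
      funext z
      simp [real_inner_comm, -map_sub]
    rw [h3, h2.fderiv]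
    simp [real_inner_comm]
  rw [d1_apply, key, key, inner_J0 (Fr.A x Y), real_inner_comm]
  ring

/-- the blown-up differential of the radial test form -/
def Om (x w : E) : Bil :=
  (2 * bp (‖Fr.A x w‖ ^ 2)) • pb om (Fr.A x) - ap (‖Fr.A x w‖ ^ 2) •
    wedge ((innerSL ℝ (Fr.A x w)).comp (Fr.A x)) ((innerSL ℝ (J0 (Fr.A x w))).comp (Fr.A x))

theorem Om_apply (x w X Y : E) : Om Fr x w X Y =
    2 * bp (‖Fr.A x w‖ ^ 2) * inner ℝ (J0 (Fr.A x X)) (Fr.A x Y) - ap (‖Fr.A x w‖ ^ 2) *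
      (inner ℝ (Fr.A x w) (Fr.A x X) * inner ℝ (J0 (Fr.A x w)) (Fr.A x Y)
        - inner ℝ (J0 (Fr.A x w)) (Fr.A x X) * inner ℝ (Fr.A x w) (Fr.A x Y)) := by
  unfold Om
  simp [om_apply]

theorem Om_smooth : ContDiff ℝ ∞ fun z : E × E × ℝ => Om Fr z.1 z.2.1 := by
  have hA : ContDiff ℝ ∞ fun z : E × E × ℝ => Fr.A z.1 := Fr.smooth.comp contDiff_fst
  have hw : ContDiff ℝ ∞ fun z : E × E × ℝ => Fr.A z.1 z.2.1 :=
    hA.clm_apply (contDiff_fst.comp contDiff_snd)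
  have hn := hw.norm_sq ℝ
  refine ((contDiff_const.mul (bp_smooth.comp hn)).smul ?_).sub ((ap_smooth.comp hn).smul ?_)
  · exact contDiff_iff_contDiffAt.2 fun z => ContDiffAt.pb contDiffAt_const hA.contDiffAt
  · exact contDiff_iff_contDiffAt.2 fun z => ContDiffAt.wedge
      (((innerSL ℝ (E := E)).contDiff.comp hw).clm_comp hA).contDiffAt
      (((innerSL ℝ (E := E)).contDiff.comp (J0.contDiff.comp hw)).clm_comp hA).contDiffAt

theorem Om_inv (x w : E) : amJ (Fr.J x) (Om Fr x w) = 0 := by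
  rw [amJ_eq_zero_iff]
  intro u v
  have h1 : ∀ a b : E, inner ℝ (J0 a) (J0 b) = inner ℝ a b := fun a b => by
    rw [inner_J0, J0_J0, inner_neg_right, neg_neg]
  have h2 : ∀ a b : E, inner ℝ a (J0 b) = -inner ℝ (J0 a) b := fun a b => by
    rw [inner_J0, neg_neg]
  rw [Om_apply, Om_apply, Fr.A_J, Fr.A_J, h1, h1, h1, h2 (Fr.A x w), h2 (Fr.A x w)]
  ring

theorem Om_zero {B : ℝ} (hB1 : 1 ≤ B) (hB : ∀ x, ‖Fr.A x‖ ≤ B ∧ ‖Fr.A' x‖ ≤ B) (x w : E)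
    (h : B ≤ ‖w‖) : Om Fr x w = 0 := by
  have h1 : 1 ≤ ‖Fr.A x w‖ := le_of_mul_le_mul_left
    (by rw [mul_one]; exact h.trans (norm_le_A Fr hB x w)) (by linarith)
  have h2 : 1 ≤ ‖Fr.A x w‖ ^ 2 := one_le_pow₀ h1
  unfold Om
  rw [bp_zero h2, ap_zero h2]
  simp

/-- jets of a blown-up kernel -/
theorem jet_bound {F : Type*} [NormedAddCommGroup F] [NormedSpace ℝ F] {B : ℝ}
    {K : E × E × ℝ → F} (hK : IsK B K) (s : ℕ) : ∃ C : ℝ, 0 ≤ C ∧ ∀ ε ∈ Ioc (0 : ℝ) 1, ∀ x : E,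
      ‖x‖ ≤ 2 → ∀ y, ∀ j ≤ s,
        ‖iteratedFDeriv ℝ j (fun y => K (x, ε⁻¹ • (y - x), ε)) y‖ ≤ C * ε⁻¹ ^ j := by
  have hc : IsCompact (closedBall (0 : E) 2 ×ˢ closedBall (0 : E) B ×ˢ Icc (0 : ℝ) 1) :=
    (isCompact_closedBall _ _).prod ((isCompact_closedBall _ _).prod isCompact_Icc)
  obtain ⟨C, hC0, hC⟩ := exists_bound_iteratedFDeriv hc (fun z _ => hK.smooth.contDiffAt) s
  refine ⟨C, hC0, fun ε hε x hx y j hj => ?_⟩
  have hε0 : 0 < ε := hε.1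
  set L : E →L[ℝ] E × E × ℝ :=
    (0 : E →L[ℝ] E).prod ((ε⁻¹ • ContinuousLinearMap.id ℝ E).prod 0) with hL
  set a : E × E × ℝ := (x, -(ε⁻¹ • x), ε) with ha
  have hLa : ∀ y, L y + a = (x, ε⁻¹ • (y - x), ε) := fun y => by
    simp [hL, ha, sub_eq_add_neg]
  have hf : (fun y => K (x, ε⁻¹ • (y - x), ε)) = (fun z => K (z + a)) ∘ L := by
    funext y; simp only [Function.comp, hLa]
  have hs : ContDiff ℝ ∞ fun z => K (z + a) := hK.smooth.comp (contDiff_id.add contDiff_const)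
  have hLn : ‖L‖ ≤ ε⁻¹ := by
    refine L.opNorm_le_bound (by positivity) fun v => ?_
    simp [hL, norm_smul, abs_of_pos hε0]
    positivity
  rw [hf, L.iteratedFDeriv_comp_right hs y (by exact_mod_cast le_top),
    iteratedFDeriv_comp_add_right, hLa]
  refine (ContinuousMultilinearMap.norm_compContinuousLinearMap_le _ _).trans ?_
  rw [Finset.prod_const, Finset.card_univ, Fintype.card_fin]
  refine mul_le_mul ?_ (pow_le_pow_left₀ (norm_nonneg _) hLn j) (by positivity) hC0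
  by_cases hw : ‖ε⁻¹ • (y - x)‖ ≤ B
  · refine hC (x, ε⁻¹ • (y - x), ε) (mk_mem_prod ?_ (mk_mem_prod ?_ ⟨hε0.le, hε.2⟩)) j hj
    · exact mem_closedBall_zero_iff.2 hx
    · exact mem_closedBall_zero_iff.2 hw
  · have ho : IsOpen {z : E × E × ℝ | B < ‖z.2.1‖} := isOpen_lt continuous_const (by fun_prop)
    have he : K =ᶠ[𝓝 (x, ε⁻¹ • (y - x), ε)] fun _ => 0 := by
      have hm : ((x, ε⁻¹ • (y - x), ε) : E × E × ℝ) ∈ {z : E × E × ℝ | B < ‖z.2.1‖} :=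
        not_le.1 hw
      filter_upwards [ho.mem_nhds hm] with z hz
      exact hK.supp z.1 z.2.1 z.2.2 (le_of_lt hz)
    rw [(he.iteratedFDeriv ℝ j).eq_of_nhds, iteratedFDeriv_fun_zero]
    simpa using hC0

end ThetaAux

open ThetaAux

theorem exists_sq_bounds : ∃ c C : ℝ, 0 < c ∧ 1 ≤ C ∧ ∀ ε, 0 < ε → ∀ x y,
    (C * ε ≤ ‖y - x‖ → 1 ≤ sq Fr ε x y) ∧ (‖y - x‖ ≤ c * ε → sq Fr ε x y ≤ 1 / 4) := by
  obtain ⟨B, hB1, hB⟩ := exists_B Fr
  refine ⟨(2 * B)⁻¹, B, by positivity, hB1, fun ε hε x y => ⟨one_le_sq Fr hB1 hB hε, fun h => ?_⟩⟩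
  rw [sq_def, div_le_iff₀ (by positivity)]
  have h1 : ‖Fr.A x (y - x)‖ ≤ ε / 2 := by
    refine ((Fr.A x).le_of_opNorm_le (hB x).1 _).trans
      ((mul_le_mul_of_nonneg_left h (by linarith)).trans_eq ?_)
    field_simp
  nlinarith [norm_nonneg (Fr.A x (y - x))]

theorem grad_smooth (ε : ℝ) (x : E) : ContDiff ℝ ∞ (grad Fr ε x) :=
  (bp_smooth.comp (sq_smooth Fr ε x)).smul (g0_smooth Fr x)
theorem gcon_smooth (ε : ℝ) (x b : E) : ContDiff ℝ ∞ (gcon Fr ε x b) :=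
  (bp_smooth.comp (sq_smooth Fr ε x)).smul contDiff_const

theorem d1_grad (ε : ℝ) (x y X Y : E) :
    d1 (grad Fr ε x) y X Y = 2 * bp (sq Fr ε x y) * inner ℝ (J0 (Fr.A x X)) (Fr.A x Y)
      - ε⁻¹ ^ 2 * ap (sq Fr ε x y) *
        (inner ℝ (Fr.A x (y - x)) (Fr.A x X) * inner ℝ (J0 (Fr.A x (y - x))) (Fr.A x Y)
          - inner ℝ (J0 (Fr.A x (y - x))) (Fr.A x X) * inner ℝ (Fr.A x (y - x)) (Fr.A x Y)) := by
  have h1 : DifferentiableAt ℝ (fun y => bp (sq Fr ε x y)) y :=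
    ((bp_smooth.comp (sq_smooth Fr ε x)).differentiable (by simp)) y
  rw [grad_def, d1_smul h1 (((g0_smooth Fr x).differentiable (by simp)) y)]
  simp only [add_apply, smul_apply, wedge_apply, d1_g0,
    fderiv_bp, ContinuousLinearMap.comp_apply, innerSL_apply_apply, smul_eq_mul]
  ring

theorem d1_gcon (ε : ℝ) (x b y X Y : E) :
    d1 (gcon Fr ε x b) y X Y = -(ε⁻¹ ^ 2 * ap (sq Fr ε x y)) *
        (inner ℝ (Fr.A x (y - x)) (Fr.A x X) * inner ℝ (J0 b) (Fr.A x Y)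
          - inner ℝ (J0 b) (Fr.A x X) * inner ℝ (Fr.A x (y - x)) (Fr.A x Y)) := by
  have h1 : DifferentiableAt ℝ (fun y => bp (sq Fr ε x y)) y :=
    ((bp_smooth.comp (sq_smooth Fr ε x)).differentiable (by simp)) y
  rw [gcon_def, d1_smul h1 (differentiableAt_const _)]
  simp only [add_apply, smul_apply, wedge_apply, d1_apply,
    fderiv_bp, ContinuousLinearMap.comp_apply, innerSL_apply_apply, smul_eq_mul,
    fderiv_fun_const, Pi.zero_apply, zero_apply]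
  ring

namespace ThetaAux

theorem d1_grad_eq {ε : ℝ} (hε : 0 < ε) (x y : E) :
    d1 (grad Fr ε x) y = Om Fr x (ε⁻¹ • (y - x)) := by
  ext X Y
  have : ‖Fr.A x (ε⁻¹ • (y - x))‖ ^ 2 = sq Fr ε x y := by
    rw [sq_def, map_smul, norm_smul, mul_pow, Real.norm_eq_abs, sq_abs]
    field_simp
  rw [d1_grad, Om_apply, this]
  simp only [map_smul, inner_smul_left, RCLike.conj_to_real]
  ring

theorem d1_gcon_eq (ε : ℝ) (x b y : E) :
    d1 (gcon Fr ε x b) y = (-(ε⁻¹ ^ 2 * ap (sq Fr ε x y))) •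
      wedge ((innerSL ℝ (Fr.A x (y - x))).comp (Fr.A x)) ((innerSL ℝ (J0 b)).comp (Fr.A x)) := by
  ext X Y
  rw [d1_gcon]
  simp [-map_sub]

end ThetaAux

/-- support and size of the test forms -/
theorem test_bounds : ∃ C : ℝ, 1 ≤ C ∧ ∀ ε ∈ Ioc (0 : ℝ) 1, ∀ x : E, ‖x‖ ≤ 2 →
    tsupport (grad Fr ε x) ⊆ closedBall x (C * ε) ∧
    (∀ b, tsupport (gcon Fr ε x b) ⊆ closedBall x (C * ε)) ∧
    (∀ y, C * ε ≤ ‖y - x‖ → d1 (grad Fr ε x) y = 0) ∧
    (∀ b y, C * ε ≤ ‖y - x‖ → d1 (gcon Fr ε x b) y = 0) ∧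
    (∀ b y, ‖d1 (gcon Fr ε x b) y‖ ≤ C * ε⁻¹ * ‖b‖) ∧
    ∀ y, ∀ j ≤ 4, ‖iteratedFDeriv ℝ j (fun y => amJ (Fr.J y) (d1 (grad Fr ε x) y)) y‖
      ≤ C * ε * ε⁻¹ ^ j := by
  obtain ⟨B, hB1, hB⟩ := exists_B Fr
  obtain ⟨Cp, hCp, hp⟩ := prof_bdd
  have hΨ : IsK B fun z : E × E × ℝ => amJ (Fr.J (z.1 + z.2.2 • z.2.1)) (Om Fr z.1 z.2.1) := by
    refine ⟨contDiff_iff_contDiffAt.2 fun z => ContDiffAt.amJ (Om_smooth Fr).contDiffAt
      (Fr.J_smooth.comp (by fun_prop)).contDiffAt, fun x w t h => ?_⟩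
    show amJ _ (Om Fr x w) = 0
    rw [Om_zero Fr hB1 hB x w h, ← amL_apply, map_zero]
  obtain ⟨K, hK, hKe⟩ := hΨ.hadamard
  obtain ⟨C, hC0, hC⟩ := jet_bound hK 4
  have hB2 : 0 ≤ 2 * Cp * B ^ 2 := by positivity
  refine ⟨B + 2 * Cp * B ^ 2 + C, by linarith, fun ε hε x hx => ?_⟩
  have hε0 : 0 < ε := hε.1
  have hsq : ∀ y, (B + 2 * Cp * B ^ 2 + C) * ε ≤ ‖y - x‖ → 1 ≤ sq Fr ε x y := fun y hy =>
    one_le_sq Fr hB1 hB hε0 (le_trans (by nlinarith) hy)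
  refine ⟨?_, fun b => ?_, fun y hy => ?_, fun b y hy => ?_, fun b y => ?_, fun y j hj => ?_⟩
  · refine closure_minimal (fun y hy => ?_) isClosed_closedBall
    by_contra h
    rw [mem_closedBall, dist_eq_norm, not_le] at h
    exact hy (by rw [grad_def]; simp only [bp_zero (hsq y h.le), zero_smul])
  · refine closure_minimal (fun y hy => ?_) isClosed_closedBall
    by_contra h
    rw [mem_closedBall, dist_eq_norm, not_le] at h
    exact hy (by rw [gcon_def]; simp only [bp_zero (hsq y h.le), zero_smul])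
  · ext X Y
    rw [d1_grad, bp_zero (hsq y hy), ap_zero (hsq y hy)]
    simp
  · rw [d1_gcon_eq, ap_zero (hsq y hy)]
    simp
  · rw [d1_gcon_eq]
    rcases le_or_gt 1 (sq Fr ε x y) with h | h
    · rw [ap_zero h]
      simp only [mul_zero, neg_zero, zero_smul, norm_zero]
      positivity
    · have h1 : ‖Fr.A x (y - x)‖ ≤ ε := by
        rw [sq_def, div_lt_one (by positivity)] at h
        exact (pow_le_pow_iff_left₀ (norm_nonneg _) hε0.le two_ne_zero).1 h.le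
      have h2 : ap (sq Fr ε x y) ≤ Cp := (hp _ (by rw [sq_def]; positivity)).2.1
      have h3 : ‖(innerSL ℝ (Fr.A x (y - x))).comp (Fr.A x)‖ ≤ ε * B := by
        refine (ContinuousLinearMap.opNorm_comp_le _ _).trans ?_
        rw [innerSL_apply_norm]
        exact mul_le_mul h1 (hB x).1 (norm_nonneg _) hε0.le
      have h4 : ‖(innerSL ℝ (J0 b)).comp (Fr.A x)‖ ≤ ‖b‖ * B := by
        refine (ContinuousLinearMap.opNorm_comp_le _ _).trans ?_
        rw [innerSL_apply_norm, norm_J0]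
        exact mul_le_mul_of_nonneg_left (hB x).1 (norm_nonneg _)
      have h5 := ap_nonneg (sq Fr ε x y)
      rw [norm_smul, norm_neg, Real.norm_of_nonneg (by positivity)]
      calc _ ≤ ε⁻¹ ^ 2 * Cp * (2 * (ε * B) * (‖b‖ * B)) := by
            refine mul_le_mul (by gcongr) ((norm_wedge_le _ _).trans (by gcongr))
              (norm_nonneg _) (by positivity)
        _ = 2 * Cp * B ^ 2 * ε⁻¹ * ‖b‖ := by field_simp
        _ ≤ _ := by gcongr; linarith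
  · have he : (fun y => amJ (Fr.J y) (d1 (grad Fr ε x) y)) =
        fun y => ε • K (x, ε⁻¹ • (y - x), ε) := by
      funext y
      have := hKe x (ε⁻¹ • (y - x)) ε
      simp only [zero_smul, add_zero, Om_inv, zero_add, smul_inv_smul₀ hε0.ne',
        add_sub_cancel] at this
      rw [d1_grad_eq Fr hε0, this]
    have hs : ContDiff ℝ ∞ fun y : E => K (x, ε⁻¹ • (y - x), ε) := hK.smooth.comp (by fun_prop)
    rw [he, iteratedFDeriv_const_smul_apply' (hs.contDiffAt.of_le (by exact_mod_cast le_top)),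
      norm_smul, Real.norm_of_nonneg hε0.le]
    calc _ ≤ ε * (C * ε⁻¹ ^ j) := mul_le_mul_of_nonneg_left (hC ε hε x hx y j hj) hε0.le
      _ = C * ε * ε⁻¹ ^ j := by ring
      _ ≤ _ := by gcongr; linarith

end Crest.Agent.R240

end
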