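import Crest.Agent.R240.Theta

/-!
# Row 240: derivatives of the smoothed density ratio
-/

set_option autoImplicit false
set_option linter.unusedSectionVars false
set_option linter.unusedVariables false

open MeasureTheory Metric Set Filter Topology
open scoped ContDiff ENNReal

noncomputable section

namespace Crest.Agent.R240

namespace T2

/-- the constants of a frame -/
structure Cs (Fr : Frame) (B L P : ℝ) : Prop where
  B1 : 1 ≤ B
  L0 : 0 ≤ L
  P0 : 0 < P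
  hA : ∀ x, ‖Fr.A x‖ ≤ B
  hA' : ∀ x, ‖Fr.A' x‖ ≤ B
  hd : ∀ x, ‖x‖ ≤ 2 → ‖fderiv ℝ Fr.A x‖ ≤ L
  hl : ∀ x y, ‖x‖ ≤ 2 → ‖y - x‖ ≤ B → ‖Fr.A' y - Fr.A' x‖ ≤ L * ‖y - x‖
  hb : ∀ s, 0 ≤ s → bp s ≤ P
  ha : ∀ s, 0 ≤ s → ap s ≤ P

theorem exists_cs (Fr : Frame) : ∃ B L P, Cs Fr B L P := by
  obtain ⟨C, hC⟩ := Fr.bdd
  obtain ⟨P, hP, hP'⟩ := prof_bdd
  obtain ⟨L1, h1⟩ := (isCompact_closedBall (0 : E) 2).exists_bound_of_continuousOn
    (Fr.smooth.continuous_fderiv (by simp)).continuousOn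
  obtain ⟨L2, h2⟩ := (isCompact_closedBall (0 : E) (2 + max C 1)).exists_bound_of_continuousOn
    (Fr.smooth'.continuous_fderiv (by simp)).continuousOn
  have hm : (1 : ℝ) ≤ max C 1 := le_max_right _ _
  refine ⟨max C 1, max (max L1 L2) 0, P, hm, le_max_right _ _, hP,
    fun x => (hC x).1.trans (le_max_left _ _), fun x => (hC x).2.trans (le_max_left _ _),
    fun x hx => (h1 x (mem_closedBall_zero_iff.2 hx)).trans
      ((le_max_left _ _).trans (le_max_left _ _)), fun x y hx hy => ?_,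
    fun s hs => (hP' s hs).1, fun s hs => (hP' s hs).2.1⟩
  refine (convex_closedBall (0 : E) (2 + max C 1)).norm_image_sub_le_of_norm_fderiv_le (𝕜 := ℝ)
    (fun w _ => Fr.smooth'.differentiable (by simp) w)
    (fun w hw => (h2 w hw).trans ((le_max_right _ _).trans (le_max_left _ _)))
    (mem_closedBall_zero_iff.2 (by linarith)) (mem_closedBall_zero_iff.2 ?_)
  have := norm_add_le (y - x) x
  rw [sub_add_cancel] at this
  linarith

theorem sq_nonneg' (Fr : Frame) (ε : ℝ) (x y : E) : 0 ≤ sq Fr ε x y :=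
  div_nonneg (sq_nonneg _) (sq_nonneg _)

theorem sq_eq (Fr : Frame) (ε : ℝ) (x y : E) : sq Fr ε x y = ε⁻¹ ^ 2 * ‖Fr.A x (y - x)‖ ^ 2 := by
  rw [sq, div_eq_mul_inv, inv_pow, mul_comm]

theorem sq_smooth (Fr : Frame) (ε : ℝ) : ContDiff ℝ ∞ fun z : E × E => sq Fr ε z.1 z.2 :=
  ((contDiff_norm_sq ℝ).comp ((Fr.smooth.comp contDiff_fst).clm_apply
    (contDiff_snd.sub contDiff_fst))).div_const _

theorem sq_cont (Fr : Frame) (ε : ℝ) (x : E) : Continuous fun y => sq Fr ε x y :=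
  (sq_smooth Fr ε).continuous.comp (f := fun y => (x, y)) (by fun_prop)

theorem norm_le_of_sq {Fr : Frame} {ε : ℝ} (hε : 0 < ε) {x y : E} (hs : sq Fr ε x y < 1) :
    ‖Fr.A x (y - x)‖ ≤ ε := by
  rw [sq, div_lt_one (by positivity)] at hs
  exact (pow_le_pow_iff_left₀ (norm_nonneg _) hε.le two_ne_zero).1 hs.le

variable {Fr : Frame} {B L P ε : ℝ} {x y v : E}

theorem Cs.near (h : Cs Fr B L P) (hε : 0 < ε) (hs : sq Fr ε x y < 1) : ‖y - x‖ ≤ B * ε := by
  have h1 := (Fr.A' x).le_opNorm (Fr.A x (y - x))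
  rw [Fr.mul'] at h1
  exact h1.trans (mul_le_mul (h.hA' x) (norm_le_of_sq hε hs) (norm_nonneg _)
    (zero_le_one.trans h.B1))

theorem Cs.far (h : Cs Fr B L P) (hε : 0 < ε) (hy : y ∉ closedBall x (B * ε)) :
    1 ≤ sq Fr ε x y :=
  not_lt.1 fun hs => hy (mem_closedBall_iff_norm.2 (h.near hε hs))

theorem Cs.twist (h : Cs Fr B L P) (hε : ε ∈ Ioc (0 : ℝ) 1) (hx : ‖x‖ ≤ 2)
    (hs : sq Fr ε x y < 1) (hv : ‖v‖ = 1) : ‖Fr.A x (Fr.A' y v) - v‖ ≤ B * L * B * ε := by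
  have hB : 0 ≤ B := zero_le_one.trans h.B1
  have h1 := h.near hε.1 hs
  have h2 := h.hl x y hx (h1.trans (mul_le_of_le_one_right hB hε.2))
  have e : Fr.A x (Fr.A' y v) - v = Fr.A x ((Fr.A' y - Fr.A' x) v) := by
    rw [sub_apply, map_sub, Fr.mul]
  have h3 := (Fr.A' y - Fr.A' x).le_opNorm v
  rw [hv, mul_one] at h3
  rw [e]
  calc _ ≤ ‖Fr.A x‖ * ‖(Fr.A' y - Fr.A' x) v‖ := (Fr.A x).le_opNorm _
    _ ≤ B * (L * (B * ε)) := mul_le_mul (h.hA x)
        (h3.trans (h2.trans (mul_le_mul_of_nonneg_left h1 h.L0))) (norm_nonneg _) hB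
    _ = _ := by ring

theorem abs_integral_le {X : Type*} [MeasurableSpace X] (ν : Measure X) [IsFiniteMeasure ν]
    {S : Set X} (hS : MeasurableSet S) {f : X → ℝ} {c : ℝ}
    (h : ∀ᵐ z ∂ν, (z ∈ S → |f z| ≤ c) ∧ (z ∉ S → f z = 0)) : |∫ z, f z ∂ν| ≤ c * ν.real S := by
  have h1 := norm_integral_le_of_norm_le (f := f) ((integrable_const c).indicator hS)
    (h.mono fun z hz => by
      by_cases hzS : z ∈ S
      · rw [indicator_of_mem hzS]; exact hz.1 hzS
      · rw [indicator_of_notMem hzS, hz.2 hzS, norm_zero])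
  rwa [integral_indicator_const c hS, smul_eq_mul, mul_comm] at h1

theorem Cs.abs_le (h : Cs Fr B L P) (hε : 0 < ε) (μ : Measure E) [IsFiniteMeasure μ]
    {f : E → ℝ} {c : ℝ} (hc : 0 ≤ c) (h0 : ∀ y, 1 ≤ sq Fr ε x y → f y = 0)
    (hb : ∀ y, sq Fr ε x y < 1 → |f y| ≤ c) :
    |∫ y, f y ∂μ| ≤ c * μ.real (closedBall x (B * ε)) := by
  refine abs_integral_le μ measurableSet_closedBall (Eventually.of_forall fun y =>
    ⟨fun _ => ?_, fun hy => h0 y (h.far hε hy)⟩)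
  rcases lt_or_ge (sq Fr ε x y) 1 with hs | hs
  · exact hb y hs
  · rw [h0 y hs, abs_zero]; exact hc

theorem Cs.abs_le' (h : Cs Fr B L P) (hε : 0 < ε) (ν : Measure (E × E)) [IsFiniteMeasure ν]
    (hν : ∀ᵐ z ∂ν, ‖z.2‖ = 1) {f : E × E → ℝ} {c : ℝ} (hc : 0 ≤ c)
    (h0 : ∀ z, 1 ≤ sq Fr ε x z.1 → f z = 0)
    (hb : ∀ z, ‖z.2‖ = 1 → sq Fr ε x z.1 < 1 → |f z| ≤ c) :
    |∫ z, f z ∂ν| ≤ c * ν.fst.real (closedBall x (B * ε)) := by
  rw [Measure.real, Measure.fst_apply measurableSet_closedBall]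
  refine abs_integral_le ν (measurable_fst measurableSet_closedBall) (hν.mono fun z hz =>
    ⟨fun _ => ?_, fun hy => h0 z (h.far hε hy)⟩)
  rcases lt_or_ge (sq Fr ε x z.1) 1 with hs | hs
  · exact hb z hz hs
  · rw [h0 z hs, abs_zero]; exact hc

theorem Cs.integrable (h : Cs Fr B L P) (hε : 0 < ε) (ν : Measure (E × E)) [IsFiniteMeasure ν]
    (hν : ∀ᵐ z ∂ν, ‖z.2‖ = 1) {f : E × E → ℝ} (hf : Continuous f)
    (h0 : ∀ z, 1 ≤ sq Fr ε x z.1 → f z = 0) : Integrable f ν := by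
  have hK : IsCompact (closedBall x (B * ε) ×ˢ closedBall (0 : E) 1) :=
    (isCompact_closedBall _ _).prod (isCompact_closedBall _ _)
  refine ((hf.continuousOn.integrableOn_compact hK).integrable_indicator hK.measurableSet).congr
    (hν.mono fun z hz => ?_)
  by_cases hz' : z.1 ∈ closedBall x (B * ε)
  · exact indicator_of_mem (mem_prod.2 ⟨hz', mem_closedBall_zero_iff.2 hz.le⟩) f
  · rw [indicator_of_notMem fun hh => hz' hh.1, h0 z (h.far hε hz')]

theorem mass_le (μ : Measure E) [IsFiniteMeasure μ] (x : E) {a C B ε k : ℝ} (hε : 0 < ε)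
    (hk : 0 ≤ k) (ha : 0 ≤ a) (haC : a ≤ C) (hBC : B ≤ C) :
    a * k * μ.real (closedBall x (B * ε)) ≤ C * k * μ.real (closedBall x (C * ε)) :=
  mul_le_mul (mul_le_mul_of_nonneg_right haC hk)
    (measureReal_mono (closedBall_subset_closedBall (mul_le_mul_of_nonneg_right hBC hε.le)))
    measureReal_nonneg (mul_nonneg (ha.trans haC) hk)

theorem integral_fst (ν : Measure (E × E)) {f : E → ℝ} (hf : Continuous f) :
    ∫ y, f y ∂ν.fst = ∫ z, f z.1 ∂ν :=
  integral_map measurable_fst.aemeasurable hf.aestronglyMeasurable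

theorem locC (Fr : Frame) (hε : 0 < ε) : LocC fun z : E × E => bp (sq Fr ε z.1 z.2) := by
  obtain ⟨B, L, P, h⟩ := exists_cs Fr
  refine ⟨bp_smooth.comp (sq_smooth Fr ε), fun p₀ => ⟨closedBall p₀ (1 + B * ε),
    isCompact_closedBall _ _, ?_⟩⟩
  filter_upwards [closedBall_mem_nhds p₀ one_pos] with p hp y hy
  refine bp_zero (h.far hε fun hy' => hy ?_)
  rw [mem_closedBall] at hp hy' ⊢
  linarith [dist_triangle y p p₀]

/-- the integrand of the `x`-derivative -/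
def dI (Fr : Frame) (ε : ℝ) (x X y : E) : ℝ :=
  ε⁻¹ ^ 2 * ap (sq Fr ε x y) * (inner ℝ (Fr.A x (y - x)) (Fr.A x X)
    - inner ℝ (Fr.A x (y - x)) (fderiv ℝ Fr.A x X (y - x)))

theorem dI_cont (Fr : Frame) (ε : ℝ) (x X : E) : Continuous (dI Fr ε x X) := by
  have h1 := ap_smooth.continuous.comp (sq_cont Fr ε x)
  unfold dI
  exact (continuous_const.mul h1).mul (by fun_prop)

theorem fderiv_bp_sq (Fr : Frame) (ε : ℝ) (x X y : E) :
    fderiv ℝ (fun z : E × E => bp (sq Fr ε z.1 z.2)) (x, y) (X, 0) = dI Fr ε x X y := by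
  have h1 := LocT.hasFDerivAt_left (bp_smooth.comp (sq_smooth Fr ε)) x y
  have h2 := ((Fr.smooth.differentiable (by simp) x).hasFDerivAt.clm_apply
    ((hasFDerivAt_id x).const_sub y)).norm_sq.const_mul (ε⁻¹ ^ 2)
  have h3 := h2.congr_of_eventuallyEq (f₁ := fun p => sq Fr ε p y)
    (Eventually.of_forall fun p => sq_eq Fr ε p y)
  have h4 := (hasDerivAt_bp (sq Fr ε x y)).comp_hasFDerivAt x h3
  have h5 := congrArg (fun T : E →L[ℝ] ℝ => T X) (h1.unique h4)
  refine Eq.trans h5 ?_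
  simp [dI, inner_sub_left, inner_sub_right]
  ring

theorem fderiv_theta (Fr : Frame) (μ : Measure E) [IsFiniteMeasure μ] (hε : 0 < ε) (x X : E) :
    fderiv ℝ (Theta Fr μ ε) x X = ε⁻¹ ^ 2 * ∫ y, dI Fr ε x X y ∂μ := by
  have h1 := ((locC Fr hε).hasFDerivAt μ x).differentiableAt
  have h2 := (locC Fr hε).fderiv_integral μ x X
  simp only [fderiv_bp_sq] at h2
  have e : Theta Fr μ ε = fun x => ε⁻¹ ^ 2 * ∫ y, bp (sq Fr ε x y) ∂μ := rfl
  rw [e, fderiv_const_mul h1, smul_apply, h2, smul_eq_mul]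

theorem Cs.err_le (h : Cs Fr B L P) (hε : 0 < ε) (hx : ‖x‖ ≤ 2) (hs : sq Fr ε x y < 1) (X : E) :
    |inner ℝ (Fr.A x (y - x)) (fderiv ℝ Fr.A x X (y - x))| ≤ ε * (L * ‖X‖ * (B * ε)) := by
  refine (abs_real_inner_le_norm _ _).trans
    (mul_le_mul (norm_le_of_sq hε hs) ?_ (norm_nonneg _) hε.le)
  exact ((fderiv ℝ Fr.A x).le_opNorm₂ X (y - x)).trans (mul_le_mul
    (mul_le_mul_of_nonneg_right (h.hd x hx) (norm_nonneg _)) (h.near hε hs) (norm_nonneg _)
    (mul_nonneg h.L0 (norm_nonneg _)))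

theorem abs_mul_le {a b A B : ℝ} (ha : 0 ≤ a) (hA : a ≤ A) (hb : |b| ≤ B) : |a * b| ≤ A * B := by
  rw [abs_mul, abs_of_nonneg ha]
  exact mul_le_mul hA hb (abs_nonneg _) (ha.trans hA)

theorem abs_sub_le' {a b A B : ℝ} (ha : |a| ≤ A) (hb : |b| ≤ B) : |a - b| ≤ A + B :=
  (abs_sub a b).trans (add_le_add ha hb)

theorem Cs.dI_le (h : Cs Fr B L P) (hε : ε ∈ Ioc (0 : ℝ) 1) (hx : ‖x‖ ≤ 2) (X : E)
    (hs : sq Fr ε x y < 1) : |dI Fr ε x X y| ≤ P * (B + L * B) * ε⁻¹ * ‖X‖ := by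
  have hB : 0 ≤ B := zero_le_one.trans h.B1
  have hL := h.L0
  have hε0 := hε.1
  have h1 : |inner ℝ (Fr.A x (y - x)) (Fr.A x X)| ≤ ε * (B * ‖X‖) :=
    (abs_real_inner_le_norm _ _).trans (mul_le_mul (norm_le_of_sq hε.1 hs)
      (((Fr.A x).le_opNorm X).trans (mul_le_mul_of_nonneg_right (h.hA x) (norm_nonneg _)))
      (norm_nonneg _) hε.1.le)
  have h2 := (h.err_le hε.1 hx hs X).trans (mul_le_mul_of_nonneg_left (mul_le_mul_of_nonneg_left
    (mul_le_of_le_one_right hB hε.2) (mul_nonneg hL (norm_nonneg X))) hε.1.le)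
  refine (abs_mul_le (mul_nonneg (by positivity) (ap_nonneg _))
    (mul_le_mul_of_nonneg_left (h.ha _ (sq_nonneg' ..)) (by positivity))
    (abs_sub_le' h1 h2)).trans_eq ?_
  field_simp

theorem prod_pert {a b c d p q η : ℝ} (ha : |a| ≤ p) (hc : |c| ≤ q) (hb : |b| ≤ p * η)
    (hd : |d| ≤ q * η) : |(a + b) * (c + d) - a * c| ≤ p * q * (2 * η + η ^ 2) := by
  have hp : 0 ≤ p := (abs_nonneg _).trans ha
  have hpη : 0 ≤ p * η := (abs_nonneg _).trans hb
  have e : (a + b) * (c + d) - a * c = a * d + b * c + b * d := by ring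
  have h1 : |a * d| ≤ p * (q * η) := by
    rw [abs_mul]; exact mul_le_mul ha hd (abs_nonneg _) hp
  have h2 : |b * c| ≤ p * η * q := by
    rw [abs_mul]; exact mul_le_mul hb hc (abs_nonneg _) hpη
  have h3 : |b * d| ≤ p * η * (q * η) := by
    rw [abs_mul]; exact mul_le_mul hb hd (abs_nonneg _) hpη
  rw [e]
  refine ((abs_add_le _ _).trans (add_le_add ((abs_add_le _ _).trans (add_le_add h1 h2))
    h3)).trans_eq (by ring)

theorem inner_pert (p q : E) {a a' v w : E} {η : ℝ} (hv : ‖v‖ = 1) (hw : ‖w‖ = 1)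
    (ha : ‖a - v‖ ≤ η) (ha' : ‖a' - w‖ ≤ η) :
    |inner ℝ p a * inner ℝ q a' - inner ℝ p v * inner ℝ q w| ≤ ‖p‖ * ‖q‖ * (2 * η + η ^ 2) := by
  have e1 : inner ℝ p a = inner ℝ p v + inner ℝ p (a - v) := by rw [inner_sub_right]; ring
  have e2 : inner ℝ q a' = inner ℝ q w + inner ℝ q (a' - w) := by rw [inner_sub_right]; ring
  rw [e1, e2]
  refine prod_pert ?_ ?_ ?_ ?_
  · simpa [hv] using abs_real_inner_le_norm p v
  · simpa [hw] using abs_real_inner_le_norm q w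
  · exact (abs_real_inner_le_norm _ _).trans (mul_le_mul_of_nonneg_left ha (norm_nonneg _))
  · exact (abs_real_inner_le_norm _ _).trans (mul_le_mul_of_nonneg_left ha' (norm_nonneg _))

theorem inner_J_pert {a a' v : E} {η : ℝ} (hv : ‖v‖ = 1) (ha : ‖a - v‖ ≤ η)
    (ha' : ‖a' - J0 v‖ ≤ η) : |inner ℝ (J0 a) a' - 1| ≤ 2 * η + η ^ 2 := by
  have hη : 0 ≤ η := (norm_nonneg _).trans ha
  have hw : ‖J0 v‖ = 1 := by rw [norm_J0, hv]
  have e : inner ℝ (J0 a) a' - 1 = inner ℝ (J0 v) (a' - J0 v) + inner ℝ (J0 (a - v)) (J0 v)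
      + inner ℝ (J0 (a - v)) (a' - J0 v) := by
    simp only [map_sub, inner_sub_left, inner_sub_right, real_inner_self_eq_norm_sq, hw]
    ring
  have h1 := abs_real_inner_le_norm (J0 v) (a' - J0 v)
  have h2 := abs_real_inner_le_norm (J0 (a - v)) (J0 v)
  have h3 := abs_real_inner_le_norm (J0 (a - v)) (a' - J0 v)
  rw [hw, one_mul] at h1
  rw [hw, norm_J0, mul_one] at h2
  rw [norm_J0] at h3
  rw [e]
  refine ((abs_add_le _ _).trans (add_le_add ((abs_add_le _ _).trans (add_le_add (h1.trans ha')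
    (h2.trans ha))) (h3.trans (mul_le_mul ha ha' (norm_nonneg _) hη)))).trans_eq (by ring)

theorem inner_JJ (u v : E) : inner ℝ (J0 u) (J0 v) = inner ℝ u v := by
  rw [inner_J0, J0_J0, inner_neg_right, neg_neg]

/-- the two-form `⟪z,·⟫ ∧ ⟪J b,·⟫` on a perturbed complex line -/
theorem wedge_pert (z b : E) {a a' v : E} {η : ℝ} (hv : ‖v‖ = 1) (ha : ‖a - v‖ ≤ η)
    (ha' : ‖a' - J0 v‖ ≤ η) :
    |inner ℝ z a * inner ℝ (J0 b) a' - inner ℝ (J0 b) a * inner ℝ z a'
      - (inner ℝ z v * inner ℝ b v + inner ℝ z (J0 v) * inner ℝ b (J0 v))|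
      ≤ 2 * (‖z‖ * ‖b‖ * (2 * η + η ^ 2)) := by
  have hw : ‖J0 v‖ = 1 := by rw [norm_J0, hv]
  have h1 := inner_pert z (J0 b) hv hw ha ha'
  have h2 := inner_pert (J0 b) z hv hw ha ha'
  rw [norm_J0, inner_JJ] at h1
  rw [norm_J0, inner_J0 b v, mul_comm ‖b‖] at h2
  have h3 := abs_sub_le' h1 h2
  rw [two_mul]
  refine le_of_eq_of_le (congrArg abs ?_) h3
  ring

theorem eta_le {K ε : ℝ} (hK : 0 ≤ K) (hε : ε ∈ Ioc (0 : ℝ) 1) :
    2 * (K * ε) + (K * ε) ^ 2 ≤ (2 * K + K ^ 2) * ε := by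
  have h : ε ^ 2 ≤ ε := by nlinarith [hε.1, hε.2]
  nlinarith [mul_le_mul_of_nonneg_left h (sq_nonneg K)]

theorem hasDerivAt_bp_sq (Fr : Frame) (hε : 0 < ε) (x y : E) :
    HasDerivAt (fun ε => bp (sq Fr ε x y)) (ε⁻¹ * (sq Fr ε x y * ap (sq Fr ε x y))) ε := by
  have h1 := ((hasDerivAt_inv hε.ne').fun_pow 2).mul_const (‖Fr.A x (y - x)‖ ^ 2)
  have h2 := h1.congr_of_eventuallyEq (f₁ := fun ε => sq Fr ε x y)
    (Eventually.of_forall fun ε => sq_eq Fr ε x y)
  have h3 := (hasDerivAt_bp (sq Fr ε x y)).comp ε h2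
  refine h3.congr_deriv ?_
  generalize ap (sq Fr ε x y) = a
  rw [sq_eq, Nat.add_one_sub_one, pow_one, Nat.cast_ofNat]
  field_simp

theorem Cs.mul_ap_le (h : Cs Fr B L P) {s : ℝ} (hs : 0 ≤ s) : s * ap s ≤ P := by
  rcases le_total s 1 with h1 | h1
  · exact (mul_le_of_le_one_left (ap_nonneg s) h1).trans (h.ha s hs)
  · rw [ap_zero h1, mul_zero]; exact h.P0.le

theorem hasDerivAt_theta (Fr : Frame) (μ : Measure E) [IsFiniteMeasure μ] (hε : 0 < ε) (x : E) :
    HasDerivAt (fun ε => Theta Fr μ ε x)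
      (ε⁻¹ ^ 3 * (∫ y, sq Fr ε x y * ap (sq Fr ε x y) ∂μ - 2 * ∫ y, bp (sq Fr ε x y) ∂μ)) ε := by
  obtain ⟨B, L, P, h⟩ := exists_cs Fr
  have h1 := (hasDerivAt_integral_of_dominated_loc_of_deriv_le (μ := μ)
    (F := fun ε y => bp (sq Fr ε x y))
    (F' := fun ε y => ε⁻¹ * (sq Fr ε x y * ap (sq Fr ε x y))) (bound := fun _ => (ε / 2)⁻¹ * P)
    (Ioi_mem_nhds (half_lt_self hε))
    (Eventually.of_forall fun ε =>
      (bp_smooth.continuous.comp (sq_cont Fr ε x)).aestronglyMeasurable)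
    ((locC Fr hε).integrable μ x)
    (continuous_const.mul ((sq_cont Fr ε x).mul
      (ap_smooth.continuous.comp (sq_cont Fr ε x)))).aestronglyMeasurable
    (Eventually.of_forall fun y t ht => by
      have ht0 : 0 < t := (half_pos hε).trans ht
      have hs := sq_nonneg' Fr t x y
      rw [Real.norm_eq_abs]
      refine abs_mul_le (inv_pos.2 ht0).le (inv_anti₀ (half_pos hε) (le_of_lt ht)) ?_
      rw [abs_of_nonneg (mul_nonneg hs (ap_nonneg _))]
      exact h.mul_ap_le hs)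
    (integrable_const _)
    (Eventually.of_forall fun y t ht => hasDerivAt_bp_sq Fr ((half_pos hε).trans ht) x y)).2
  refine (((hasDerivAt_inv hε.ne').fun_pow 2).mul h1).congr_deriv ?_
  rw [integral_const_mul, Nat.add_one_sub_one, pow_one, Nat.cast_ofNat]
  field_simp
  ring

end T2

open T2

variable (Fr : Frame)

theorem theta_smooth (μ : Measure E) [IsFiniteMeasure μ] {ε : ℝ} (hε : 0 < ε) :
    ContDiff ℝ ∞ (Theta Fr μ ε) :=
  contDiff_const.mul ((locC Fr hε).contDiff_integral μ)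

theorem theta_bounds : ∃ c C : ℝ, 0 < c ∧ 1 ≤ C ∧ ∀ (μ : Measure E) [IsFiniteMeasure μ],
    ∀ ε, 0 < ε → ∀ x, c * ε⁻¹ ^ 2 * μ.real (closedBall x (c * ε)) ≤ Theta Fr μ ε x ∧
      Theta Fr μ ε x ≤ C * ε⁻¹ ^ 2 * μ.real (closedBall x (C * ε)) := by
  obtain ⟨B, L, P, h⟩ := exists_cs Fr
  obtain ⟨c0, hc0, hlow⟩ := prof_lower
  have hB : 0 < B := one_pos.trans_le h.B1
  have hP := h.P0
  refine ⟨min c0 (2 * B)⁻¹, B + P, lt_min hc0 (by positivity), by linarith [h.B1],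
    fun μ _ ε hε x => ⟨?_, ?_⟩⟩
  · have h1 := integral_mono (μ := μ) ((integrable_const (min c0 (2 * B)⁻¹)).indicator
      (measurableSet_closedBall (x := x) (ε := min c0 (2 * B)⁻¹ * ε)))
      ((locC Fr hε).integrable μ x) fun y => by
        by_cases hy : y ∈ closedBall x (min c0 (2 * B)⁻¹ * ε)
        · rw [indicator_of_mem hy]
          refine (min_le_left _ _).trans (hlow _ (sq_nonneg' ..) ?_).1
          have h2 : ‖Fr.A x (y - x)‖ ≤ B * ((2 * B)⁻¹ * ε) :=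
            ((Fr.A x).le_opNorm _).trans (mul_le_mul (h.hA x) ((mem_closedBall_iff_norm.1 hy).trans
              (mul_le_mul_of_nonneg_right (min_le_right _ _) hε.le)) (norm_nonneg _) hB.le)
          refine (div_le_div_of_nonneg_right (pow_le_pow_left₀ (norm_nonneg _) h2 2)
            (sq_nonneg ε)).trans_eq ?_
          field_simp
          norm_num
        · rw [indicator_of_notMem hy]
          exact bp_nonneg _
    rw [integral_indicator_const _ measurableSet_closedBall, smul_eq_mul] at h1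
    refine le_of_eq_of_le (by ring) (mul_le_mul_of_nonneg_left h1 (sq_nonneg ε⁻¹))
  · have h1 := h.abs_le (x := x) hε μ (f := fun y => bp (sq Fr ε x y)) hP.le
      (fun y hy => bp_zero hy) fun y _ => by
        rw [abs_of_nonneg (bp_nonneg _)]; exact h.hb _ (sq_nonneg' ..)
    refine (mul_le_mul_of_nonneg_left ((le_abs_self _).trans h1) (sq_nonneg ε⁻¹)).trans
      (le_of_eq_of_le (by ring) (mass_le μ x (B := B) hε (sq_nonneg ε⁻¹) hP.le
        (by linarith) (by linarith)))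

theorem norm_fderiv_theta_le : ∃ C : ℝ, 1 ≤ C ∧ ∀ (μ : Measure E) [IsFiniteMeasure μ],
    ∀ ε ∈ Ioc (0 : ℝ) 1, ∀ x : E, ‖x‖ ≤ 2 →
      ‖fderiv ℝ (Theta Fr μ ε) x‖ ≤ C * ε⁻¹ ^ 3 * μ.real (closedBall x (C * ε)) := by
  obtain ⟨B, L, P, h⟩ := exists_cs Fr
  have hB : 0 < B := one_pos.trans_le h.B1
  have hP := h.P0
  have hL := h.L0
  have ha : 0 ≤ P * (B + L * B) := by positivity
  refine ⟨B + P * (B + L * B), by linarith [h.B1], fun μ _ ε hε x hx => ?_⟩
  have hε0 := hε.1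
  refine le_trans ?_ (mass_le μ x (B := B) hε0 (by positivity) ha (by linarith) (by linarith))
  refine ContinuousLinearMap.opNorm_le_bound _ (mul_nonneg (by positivity) measureReal_nonneg)
    fun X => ?_
  have h1 := h.abs_le (x := x) hε0 μ (f := dI Fr ε x X) (by positivity)
    (fun y hy => by rw [dI, ap_zero hy, mul_zero, zero_mul]) fun y hy => h.dI_le hε hx X hy
  rw [fderiv_theta Fr μ hε0, Real.norm_eq_abs]
  exact (abs_mul_le (sq_nonneg _) le_rfl h1).trans_eq (by ring)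

theorem Dt_nonneg (ν : Measure (E × E)) {ε : ℝ} (hε : 0 < ε) (x : E) : 0 ≤ Dt Fr ν ε x :=
  mul_nonneg (by positivity)
    (integral_nonneg fun z => mul_nonneg (ap_nonneg _) (ang_nonneg _ _))

theorem Dt_continuous (ν : Measure (E × E)) [IsFiniteMeasure ν] (hν : ∀ᵐ z ∂ν, ‖z.2‖ = 1) :
    ContinuousOn (fun z : ℝ × E => Dt Fr ν z.1 z.2) (Ioi 0 ×ˢ univ) := by
  obtain ⟨B, L, P, h⟩ := exists_cs Fr
  rintro ⟨ε, x⟩ ⟨hε, -⟩
  have hε0 : 0 < ε := hε
  have hA := Fr.smooth.continuous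
  refine ContinuousAt.continuousWithinAt (ContinuousAt.mul
    ((continuousAt_fst.inv₀ hε0.ne').pow 5) ?_)
  refine continuousAt_of_dominated (bound := fun _ => P * (ε + 1) ^ 2)
    (Eventually.of_forall fun p => Continuous.aestronglyMeasurable ?_) ?_ (integrable_const _)
    (Eventually.of_forall fun z => ContinuousAt.mul ?_ ?_)
  · exact (ap_smooth.continuous.comp ((sq_cont Fr p.1 p.2).comp continuous_fst)).mul
      (continuous_ang.comp (f := fun z : E × E => (z.2, Fr.A p.2 (z.1 - p.2))) (by fun_prop))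
  · filter_upwards [continuousAt_fst.eventually (Ioo_mem_nhds hε0 (lt_add_one ε))] with p hp
    refine hν.mono fun z hz => ?_
    rcases lt_or_ge (sq Fr p.1 p.2 z.1) 1 with hs | hs
    · refine abs_mul_le (ap_nonneg _) (h.ha _ (sq_nonneg' ..)) ?_
      rw [abs_of_nonneg (ang_nonneg _ _)]
      refine (ang_le _ _).trans ?_
      rw [hz, one_pow, one_mul]
      exact pow_le_pow_left₀ (norm_nonneg _) ((norm_le_of_sq hp.1 hs).trans hp.2.le) 2
    · rw [ap_zero hs, zero_mul, norm_zero]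
      exact mul_nonneg h.P0.le (sq_nonneg _)
  · refine ap_smooth.continuous.continuousAt.comp ?_
    unfold sq
    exact ContinuousAt.div (by fun_prop) (by fun_prop) (pow_ne_zero 2 hε0.ne')
  · exact (continuous_ang.comp (f := fun p : ℝ × E => (z.2, Fr.A p.2 (z.1 - p.2)))
      (by fun_prop)).continuousAt

/-- the monotonicity formula -/
theorem theta_deriv : ∃ C : ℝ, 1 ≤ C ∧ ∀ (ν : Measure (E × E)) [IsFiniteMeasure ν],
    (∀ᵐ z ∂ν, ‖z.2‖ = 1) → ∀ ε ∈ Ioc (0 : ℝ) 1, ∀ x : E, ‖x‖ ≤ 2 → ∃ D : ℝ,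
      HasDerivAt (fun ε => Theta Fr ν.fst ε x) D ε ∧
      |D - (Dt Fr ν ε x - ε⁻¹ ^ 3 * Tl Fr ν (d1 (grad Fr ε x)))|
        ≤ C * ε⁻¹ ^ 2 * ν.fst.real (closedBall x (C * ε)) := by
  obtain ⟨B, L, P, h⟩ := exists_cs Fr
  have hB : 0 < B := one_pos.trans_le h.B1
  have hP := h.P0
  have hL := h.L0
  set K := B * L * B with hK
  have hK0 : 0 ≤ K := by positivity
  have ha : 0 ≤ 4 * P * (2 * K + K ^ 2) := by positivity
  refine ⟨B + 4 * P * (2 * K + K ^ 2), by linarith [h.B1], fun ν _ hν ε hε x hx =>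
    ⟨_, hasDerivAt_theta Fr ν.fst hε.1 x, ?_⟩⟩
  have hε0 := hε.1
  refine le_trans ?_ (mass_le ν.fst x (B := B) hε0 (by positivity) ha (by linarith) (by linarith))
  have cs := sq_cont Fr ε x
  have cb : Continuous fun y => bp (sq Fr ε x y) := bp_smooth.continuous.comp cs
  have ca : Continuous fun y => ap (sq Fr ε x y) := ap_smooth.continuous.comp cs
  have cA := Fr.smooth'.continuous
  have i1 := h.integrable (x := x) hε0 ν hν (f := fun z => sq Fr ε x z.1 * ap (sq Fr ε x z.1))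
    ((cs.mul ca).comp continuous_fst) fun z hz => by simp only [ap_zero hz, mul_zero]
  have i2 := h.integrable (x := x) hε0 ν hν (f := fun z => bp (sq Fr ε x z.1))
    (cb.comp continuous_fst) fun z hz => bp_zero hz
  have i3 := h.integrable (x := x) hε0 ν hν
    (f := fun z => ap (sq Fr ε x z.1) * ang z.2 (Fr.A x (z.1 - x)))
    ((ca.comp continuous_fst).mul
      (continuous_ang.comp (f := fun z : E × E => (z.2, Fr.A x (z.1 - x))) (by fun_prop)))
    fun z hz => by simp only [ap_zero hz, zero_mul]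
  have i4 := h.integrable (x := x) hε0 ν hν
    (f := fun z => d1 (grad Fr ε x) z.1 (Fr.A' z.1 z.2) (Fr.A' z.1 (J0 z.2)))
    (by
      simp only [d1_grad]
      exact ((continuous_const.mul (cb.comp continuous_fst)).mul (by fun_prop)).sub
        ((continuous_const.mul (ca.comp continuous_fst)).mul (by fun_prop)))
    fun z hz => by simp only [d1_grad, ap_zero hz, bp_zero hz, mul_zero, zero_mul, sub_zero]
  have h1 := h.abs_le' (x := x) hε0 ν hν
    (f := fun z => sq Fr ε x z.1 * ap (sq Fr ε x z.1) - 2 * bp (sq Fr ε x z.1)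
      - ε⁻¹ ^ 2 * (ap (sq Fr ε x z.1) * ang z.2 (Fr.A x (z.1 - x)))
      + d1 (grad Fr ε x) z.1 (Fr.A' z.1 z.2) (Fr.A' z.1 (J0 z.2)))
    (c := 4 * P * (2 * K + K ^ 2) * ε) (by positivity)
    (fun z hz => by
      simp only [d1_grad, ap_zero hz, bp_zero hz, mul_zero, zero_mul, sub_zero, add_zero])
    fun z hz hs => by
      have t1 := h.twist hε hx hs hz
      have t2 := h.twist hε hx hs ((norm_J0 z.2).trans hz)
      have hz2 := pow_le_pow_left₀ (norm_nonneg _) (norm_le_of_sq hε0 hs) 2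
      have e1 := (inner_J_pert hz t1 t2).trans (eta_le hK0 hε)
      have e2 := (wedge_pert (Fr.A x (z.1 - x)) (Fr.A x (z.1 - x)) hz t1 t2).trans
        (mul_le_mul_of_nonneg_left (mul_le_mul ((pow_two _).symm.trans_le hz2) (eta_le hK0 hε)
          (by positivity) (sq_nonneg ε)) zero_le_two)
      have e3 := abs_sub_le' (abs_mul_le (mul_nonneg zero_le_two (bp_nonneg _))
        (mul_le_mul_of_nonneg_left (h.hb _ (sq_nonneg' Fr ε x z.1)) zero_le_two) e1)
        (abs_mul_le (mul_nonneg (sq_nonneg ε⁻¹) (ap_nonneg _))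
          (mul_le_mul_of_nonneg_left (h.ha _ (sq_nonneg' Fr ε x z.1)) (sq_nonneg _)) e2)
      refine le_of_eq_of_le (congrArg abs ?_) (e3.trans_eq ?_)
      · simp only [d1_grad, ang_eq, hz, real_inner_comm (Fr.A x (z.1 - x))]
        generalize ap (sq Fr ε x z.1) = a
        generalize bp (sq Fr ε x z.1) = b
        rw [sq_eq]
        ring
      · field_simp
        ring
  rw [integral_add (by exact ((i1.sub (i2.const_mul 2))).sub (i3.const_mul _)) i4,
    integral_sub (by exact i1.sub (i2.const_mul 2)) (i3.const_mul _),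
    integral_sub i1 (i2.const_mul 2), integral_const_mul, integral_const_mul] at h1
  rw [integral_fst ν (by exact cs.mul ca), integral_fst ν cb]
  refine le_of_eq_of_le (congrArg abs ?_)
    ((abs_mul_le (pow_nonneg (inv_pos.2 hε0).le 3) le_rfl h1).trans_eq ?_)
  · simp only [Dt, Tl]
    ring
  · field_simp

/-- the gradient along an almost tangent direction -/
theorem theta_grad : ∃ C : ℝ, 1 ≤ C ∧ ∀ (ν : Measure (E × E)) [IsFiniteMeasure ν],
    (∀ᵐ z ∂ν, ‖z.2‖ = 1) → ∀ ε ∈ Ioc (0 : ℝ) 1, ∀ x : E, ‖x‖ ≤ 2 → ∀ b : E,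
      |fderiv ℝ (Theta Fr ν.fst ε) x (Fr.A' x b) + ε⁻¹ ^ 2 * Tl Fr ν (d1 (gcon Fr ε x b))|
        ≤ ε⁻¹ ^ 4 * (∫ z, ap (sq Fr ε x z.1) *
              (√(ang z.2 (Fr.A x (z.1 - x))) * √(ang z.2 b)) ∂ν)
          + C * ε⁻¹ ^ 2 * ν.fst.real (closedBall x (C * ε)) * ‖b‖ := by
  obtain ⟨B, L, P, h⟩ := exists_cs Fr
  have hB : 0 < B := one_pos.trans_le h.B1
  have hP := h.P0
  have hL := h.L0
  set K := B * L * B with hK
  have hK0 : 0 ≤ K := by positivity
  have ha : 0 ≤ P * (L * B * B + 2 * (2 * K + K ^ 2)) := by positivity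
  refine ⟨B + P * (L * B * B + 2 * (2 * K + K ^ 2)), by linarith [h.B1],
    fun ν _ hν ε hε x hx b => ?_⟩
  have hε0 := hε.1
  refine le_trans ?_ (add_le_add_right (mul_le_mul_of_nonneg_right (mass_le ν.fst x (B := B) hε0
    (by positivity) ha (by linarith) (by linarith)) (norm_nonneg b)) _)
  have ca : Continuous fun y => ap (sq Fr ε x y) := ap_smooth.continuous.comp (sq_cont Fr ε x)
  have cA := Fr.smooth'.continuous
  have i1 := h.integrable (x := x) hε0 ν hν (f := fun z => dI Fr ε x (Fr.A' x b) z.1)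
    ((dI_cont ..).comp continuous_fst) fun z hz => by
      simp only [dI, ap_zero hz, mul_zero, zero_mul]
  have i2 := h.integrable (x := x) hε0 ν hν
    (f := fun z => d1 (gcon Fr ε x b) z.1 (Fr.A' z.1 z.2) (Fr.A' z.1 (J0 z.2)))
    (by
      simp only [d1_gcon]
      exact (continuous_const.mul (ca.comp continuous_fst)).neg.mul (by fun_prop))
    fun z hz => by simp only [d1_gcon, ap_zero hz, mul_zero, zero_mul, neg_zero]
  have i3 := h.integrable (x := x) hε0 ν hν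
    (f := fun z => ap (sq Fr ε x z.1) * (inner ℝ (Fr.A x (z.1 - x)) b -
      (inner ℝ (Fr.A x (z.1 - x)) z.2 * inner ℝ b z.2
        + inner ℝ (Fr.A x (z.1 - x)) (J0 z.2) * inner ℝ b (J0 z.2))))
    ((ca.comp continuous_fst).mul (by fun_prop))
    fun z hz => by simp only [ap_zero hz, zero_mul]
  have i4 := h.integrable (x := x) hε0 ν hν
    (f := fun z => ap (sq Fr ε x z.1) * (√(ang z.2 (Fr.A x (z.1 - x))) * √(ang z.2 b)))
    ((ca.comp continuous_fst).mul
      ((continuous_ang.comp (f := fun z : E × E => (z.2, Fr.A x (z.1 - x))) (by fun_prop)).sqrt.mul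
        (continuous_ang.comp (f := fun z : E × E => (z.2, b)) (by fun_prop)).sqrt))
    fun z hz => by simp only [ap_zero hz, zero_mul]
  have h0 := abs_integral_le_integral_abs.trans (integral_mono_ae i3.abs i4 (hν.mono fun z hz =>
    abs_mul_le (ap_nonneg (sq Fr ε x z.1)) le_rfl (inner_perp_le hz (Fr.A x (z.1 - x)) b)))
  have h1 := h.abs_le' (x := x) hε0 ν hν
    (f := fun z => dI Fr ε x (Fr.A' x b) z.1
      + d1 (gcon Fr ε x b) z.1 (Fr.A' z.1 z.2) (Fr.A' z.1 (J0 z.2))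
      - ε⁻¹ ^ 2 * (ap (sq Fr ε x z.1) * (inner ℝ (Fr.A x (z.1 - x)) b -
      (inner ℝ (Fr.A x (z.1 - x)) z.2 * inner ℝ b z.2
        + inner ℝ (Fr.A x (z.1 - x)) (J0 z.2) * inner ℝ b (J0 z.2)))))
    (c := P * (L * B * B + 2 * (2 * K + K ^ 2)) * ‖b‖) (by positivity)
    (fun z hz => by
      simp only [dI, d1_gcon, ap_zero hz, mul_zero, zero_mul, sub_zero, add_zero, neg_zero])
    fun z hz hs => by
      have t1 := h.twist hε hx hs hz
      have t2 := h.twist hε hx hs ((norm_J0 z.2).trans hz)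
      have e1 := (h.err_le hε0 hx hs (Fr.A' x b)).trans (mul_le_mul_of_nonneg_left
        (mul_le_mul_of_nonneg_right (mul_le_mul_of_nonneg_left (((Fr.A' x).le_opNorm b).trans
          (mul_le_mul_of_nonneg_right (h.hA' x) (norm_nonneg b))) hL) (by positivity)) hε0.le)
      have e2 := (wedge_pert (Fr.A x (z.1 - x)) b hz t1 t2).trans
        (mul_le_mul_of_nonneg_left (mul_le_mul (mul_le_mul_of_nonneg_right (norm_le_of_sq hε0 hs)
          (norm_nonneg b)) (eta_le hK0 hε) (by positivity) (by positivity)) zero_le_two)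
      have e3 := abs_mul_le (mul_nonneg (sq_nonneg ε⁻¹) (ap_nonneg _))
        (mul_le_mul_of_nonneg_left (h.ha _ (sq_nonneg' Fr ε x z.1)) (sq_nonneg _))
        ((abs_add_le _ _).trans (add_le_add e1 e2))
      refine le_of_eq_of_le ((abs_neg _).symm.trans (congrArg abs ?_)) (e3.trans_eq ?_)
      · simp only [dI, d1_gcon, Fr.mul]
        ring
      · rw [← hK]
        field_simp
  rw [integral_sub (by exact i1.add i2) (i3.const_mul _), integral_add i1 i2,
    integral_const_mul] at h1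
  rw [fderiv_theta Fr ν.fst hε0, integral_fst ν (dI_cont ..)]
  have h2 := (abs_add_le _ _).trans (add_le_add
    (abs_mul_le (pow_nonneg (inv_pos.2 hε0).le 4) le_rfl h0)
    (abs_mul_le (pow_nonneg (inv_pos.2 hε0).le 2) le_rfl h1))
  refine le_of_eq_of_le (congrArg abs ?_) (h2.trans_eq ?_)
  · simp only [Tl]
    ring
  · ring

end Crest.Agent.R240

end
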